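import Mathlib
import Vale.Agent.P028.MathlibUsed

set_option linter.all false

section
attribute [-instance] ProperSMul.toContinuousSMul IsTopologicalTorsor.toContinuousSMul IdemSemiring.toCanonicallyOrderedAdd IdemSemiring.toMulLeftMono IdemSemiring.toMulRightMono AddQuantale.instAddLeftMono AddQuantale.instAddRightMono Quantale.instMulLeftMono Quantale.instMulRightMono FiniteDimensional.rclike_to_real IsScalarTower.complexToReal FiniteDimensional.complexToReal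

/-!
# Overlap of the sets `A_q = {y : ‖q y - γ‖ < ψ(q)}` on the circle
-/

namespace Vale.P028

open MeasureTheory Set

/-- The set of points `y` of the circle with `‖q y - a‖ < α`. -/
def arcSet (q : ℕ) (a α : ℝ) : Set UnitAddCircle :=
  {y | ‖q • y - (a : UnitAddCircle)‖ < α}

theorem exists_lift (z : UnitAddCircle) : ∃ P : ℝ, (P : UnitAddCircle) = z ∧ |P| = ‖z‖ := by
  induction z using QuotientAddGroup.induction_on with
  | H x =>
    refine ⟨x - round x, ?_, ?_⟩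
    · rw [AddCircle.coe_sub]
      have : ((round x : ℝ) : UnitAddCircle) = 0 := by
        rw [AddCircle.coe_eq_zero_iff]
        exact ⟨round x, by simp⟩
      rw [this, sub_zero]
    · exact (UnitAddCircle.norm_eq).symm

theorem norm_coe_le (x : ℝ) : ‖(x : UnitAddCircle)‖ ≤ |x| := by
  rw [UnitAddCircle.norm_eq]
  have := round_le x 0
  simpa using this

theorem measurableSet_arcSet (q : ℕ) (a α : ℝ) : MeasurableSet (arcSet q a α) := by
  apply IsOpen.measurableSet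
  exact isOpen_lt (by fun_prop) continuous_const

/-- Points of the intersection lie in one of few small arcs. -/
theorem arcSet_inter_subset (u v : ℕ) (hu : 0 < u) (huv : Nat.Coprime u v)
    (a b α β : ℝ) :
    ∃ c : ℤ → ℝ, arcSet u a α ∩ arcSet v b β ⊆
      ⋃ m ∈ {m : ℤ | |(m : ℝ) - (v * a - u * b)| < v * α + u * β},
        Metric.ball ((c m : ℝ) : UnitAddCircle) (α / u) := by
  obtain ⟨s, t, hst⟩ : IsCoprime (u : ℤ) (v : ℤ) := Nat.isCoprime_iff_coprime.mpr huv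
  have hstR : (s : ℝ) * u + t * v = 1 := by exact_mod_cast hst
  have huR : (0 : ℝ) < u := by exact_mod_cast hu
  refine ⟨fun m => -t * (m - (v * a - u * b)) / u + s * a + t * b, ?_⟩
  rintro y ⟨hy1, hy2⟩
  obtain ⟨P, hP, hP'⟩ := exists_lift (u • y - (a : UnitAddCircle))
  obtain ⟨Q, hQ, hQ'⟩ := exists_lift (v • y - (b : UnitAddCircle))
  have hPα : |P| < α := by rw [hP']; exact hy1
  have hQβ : |Q| < β := by rw [hQ']; exact hy2
  have h1 : ((v * P - u * Q + (v * a - u * b) : ℝ) : UnitAddCircle) = 0 := by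
    have e : ((v * P - u * Q + (v * a - u * b) : ℝ) : UnitAddCircle)
        = v • ((P : UnitAddCircle) + (a : UnitAddCircle))
          - u • ((Q : UnitAddCircle) + (b : UnitAddCircle)) := by
      rw [← AddCircle.coe_add, ← AddCircle.coe_add, ← AddCircle.coe_nsmul, ← AddCircle.coe_nsmul,
        ← AddCircle.coe_sub]
      congr 1
      simp only [nsmul_eq_mul]
      ring
    rw [e, hP, hQ, sub_add_cancel, sub_add_cancel, ← mul_nsmul, ← mul_nsmul, Nat.mul_comm, sub_self]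
  rw [AddCircle.coe_eq_zero_iff] at h1
  obtain ⟨m, hm⟩ := h1
  have hm' : (m : ℝ) = v * P - u * Q + (v * a - u * b) := by
    rw [← hm]; simp
  simp only [mem_iUnion]
  refine ⟨m, ?_, ?_⟩
  · change |(m : ℝ) - (v * a - u * b)| < v * α + u * β
    have e : (m : ℝ) - (v * a - u * b) = v * P - u * Q := by rw [hm']; ring
    rw [e]
    rcases Nat.eq_zero_or_pos v with hv | hv
    · subst hv
      have : (u : ℝ) * |Q| < u * β := by gcongr
      simp only [CharP.cast_eq_zero, zero_mul, zero_sub, abs_neg, abs_mul, zero_add]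
      rw [abs_of_pos huR]
      exact this
    · have hvR : (0 : ℝ) < v := by exact_mod_cast hv
      calc |v * P - u * Q| ≤ |v * P| + |u * Q| := abs_sub _ _
        _ = v * |P| + u * |Q| := by rw [abs_mul, abs_mul, abs_of_pos hvR, abs_of_pos huR]
        _ < v * α + u * β := by gcongr
  · rw [mem_ball_iff_norm]
    have e1 : y = ((P / u + (-t * (m - (v * a - u * b)) / u + s * a + t * b) : ℝ) :
        UnitAddCircle) := by
      have : y = s • (u • y) + t • (v • y) := by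
        have h2 : s • (u • y) + t • (v • y) = (s * u + t * v) • y := by
          rw [add_smul, mul_smul, mul_smul, natCast_zsmul, natCast_zsmul]
        rw [h2, hst, one_smul]
      rw [this]
      have h3 : u • y = ((P + a : ℝ) : UnitAddCircle) := by
        rw [AddCircle.coe_add, hP, sub_add_cancel]
      have h4 : v • y = ((Q + b : ℝ) : UnitAddCircle) := by
        rw [AddCircle.coe_add, hQ, sub_add_cancel]
      rw [h3, h4, ← AddCircle.coe_zsmul, ← AddCircle.coe_zsmul, ← AddCircle.coe_add]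
      congr 1
      simp only [zsmul_eq_mul]
      rw [hm']
      field_simp
      linear_combination (P) * hstR
    have e2 : y - ((-t * (m - (v * a - u * b)) / u + s * a + t * b : ℝ) : UnitAddCircle)
        = ((P / u : ℝ) : UnitAddCircle) := by
      rw [e1, AddCircle.coe_add, add_sub_cancel_right]
    rw [e2]
    refine lt_of_le_of_lt (norm_coe_le _) ?_
    rw [abs_div, abs_of_pos huR]
    gcongr

/-- Integers in an open interval. -/
theorem int_set_card (κ R : ℝ) (hR : 0 ≤ R) :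
    ∃ M : Finset ℤ, (∀ m : ℤ, |(m : ℝ) - κ| < R → m ∈ M) ∧ (∀ m ∈ M, |(m : ℝ) - κ| ≤ R) ∧
      (M.card : ℝ) ≤ 2 * R + 1 := by
  refine ⟨Finset.Icc ⌈κ - R⌉ ⌊κ + R⌋, ?_, ?_, ?_⟩
  · intro m hm
    rw [abs_lt] at hm
    rw [Finset.mem_Icc]
    exact ⟨Int.ceil_le.mpr (by linarith), Int.le_floor.mpr (by linarith)⟩
  · intro m hm
    rw [Finset.mem_Icc] at hm
    have h1 := Int.ceil_le.mp hm.1
    have h2 := Int.le_floor.mp hm.2
    rw [abs_le]
    constructor <;> linarith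
  · rw [Int.card_Icc]
    have h1 : κ - R ≤ ⌈κ - R⌉ := Int.le_ceil _
    have h2 : (⌊κ + R⌋ : ℝ) ≤ κ + R := Int.floor_le _
    rcases le_total 0 (⌊κ + R⌋ + 1 - ⌈κ - R⌉) with h | h
    · have : (((⌊κ + R⌋ + 1 - ⌈κ - R⌉).toNat : ℤ) : ℝ) = ((⌊κ + R⌋ + 1 - ⌈κ - R⌉ : ℤ) : ℝ) := by
        rw [Int.toNat_of_nonneg h]
      rw [Int.cast_natCast] at this
      rw [this]
      push_cast
      linarith only [h1, h2]
    · rw [Int.toNat_of_nonpos h]
      push_cast
      linarith only [hR]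

theorem volume_arcSet_inter_le_aux (u v : ℕ) (hu : 0 < u) (huv : Nat.Coprime u v)
    (a b α β : ℝ) (M : Finset ℤ)
    (hM : ∀ m : ℤ, |(m : ℝ) - (v * a - u * b)| < v * α + u * β → m ∈ M) :
    volume (arcSet u a α ∩ arcSet v b β) ≤ ENNReal.ofReal (M.card * (2 * (α / u))) := by
  obtain ⟨c, hc⟩ := arcSet_inter_subset u v hu huv a b α β
  calc volume (arcSet u a α ∩ arcSet v b β)
      ≤ volume (⋃ m ∈ M, Metric.closedBall ((c m : ℝ) : UnitAddCircle) (α / u)) := by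
        apply measure_mono
        refine hc.trans ?_
        intro y hy
        simp only [mem_iUnion] at hy ⊢
        obtain ⟨m, hm, hy⟩ := hy
        exact ⟨m, hM m hm, Metric.ball_subset_closedBall hy⟩
    _ ≤ ∑ m ∈ M, volume (Metric.closedBall ((c m : ℝ) : UnitAddCircle) (α / u)) :=
        measure_biUnion_finset_le _ _
    _ ≤ ∑ m ∈ M, ENNReal.ofReal (2 * (α / u)) := by
        apply Finset.sum_le_sum
        intro m _
        rw [AddCircle.volume_closedBall]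
        exact ENNReal.ofReal_le_ofReal (min_le_right _ _)
    _ = ENNReal.ofReal (M.card * (2 * (α / u))) := by
        rw [Finset.sum_const, nsmul_eq_mul, ENNReal.ofReal_mul (Nat.cast_nonneg _),
          ENNReal.ofReal_natCast]

/-- Main overlap bound for coprime multipliers. -/
theorem volume_arcSet_inter_le (u v : ℕ) (hu : 0 < u) (hv : 0 < v) (huv : Nat.Coprime u v)
    (a b α β : ℝ) (M : Finset ℤ)
    (hM : ∀ m : ℤ, |(m : ℝ) - (v * a - u * b)| < v * α + u * β → m ∈ M) :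
    volume (arcSet u a α ∩ arcSet v b β) ≤
      ENNReal.ofReal (M.card * (2 * min (α / u) (β / v))) := by
  have h1 := volume_arcSet_inter_le_aux u v hu huv a b α β M hM
  have h2 := volume_arcSet_inter_le_aux v u hv huv.symm b a β α (M.image Neg.neg) (by
    intro m hm
    rw [Finset.mem_image]
    refine ⟨-m, hM (-m) ?_, by simp⟩
    push_cast
    have e : -(m : ℝ) - (v * a - u * b) = -((m : ℝ) - (u * b - v * a)) := by ring
    rw [e, abs_neg]
    linarith only [hm])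
  rw [inter_comm] at h2
  have hc : (M.image Neg.neg).card = M.card :=
    Finset.card_image_of_injective _ neg_injective
  rw [hc] at h2
  rcases min_cases (α / u) (β / v) with ⟨e, _⟩ | ⟨e, _⟩
  · rw [e]; exact h1
  · rw [e]; exact h2

theorem arcSet_gcd (q r : ℕ) (hq : 0 < q) (a b α β : ℝ) :
    volume (arcSet q a α ∩ arcSet r b β) =
      volume (arcSet (q / Nat.gcd q r) a α ∩ arcSet (r / Nat.gcd q r) b β) := by
  have hg : 0 < Nat.gcd q r := Nat.gcd_pos_of_pos_left _ hq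
  have hmp : MeasurePreserving (fun y : UnitAddCircle => ((Nat.gcd q r : ℕ) : ℤ) • y)
      volume volume := MeasureTheory.Measure.measurePreserving_zsmul volume (by exact_mod_cast hg.ne')
  have h := hmp.measure_preimage
    (s := arcSet (q / Nat.gcd q r) a α ∩ arcSet (r / Nat.gcd q r) b β)
    ((measurableSet_arcSet _ _ _).inter (measurableSet_arcSet _ _ _)).nullMeasurableSet
  rw [← h]
  congr 1
  ext y
  simp only [arcSet, mem_inter_iff, mem_preimage, mem_ofPred_eq, natCast_zsmul, ← mul_nsmul,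
    Nat.mul_div_cancel' (Nat.gcd_dvd_left q r), Nat.mul_div_cancel' (Nat.gcd_dvd_right q r)]

/-- `D(q,r) = max(r α, q β) / gcd(q,r)`. -/
noncomputable def DD (q r : ℕ) (α β : ℝ) : ℝ := max (r * α) (q * β) / Nat.gcd q r

theorem DD_eq (q r : ℕ) (hq : 0 < q) (α β : ℝ) :
    DD q r α β = max (((r / Nat.gcd q r : ℕ) : ℝ) * α) (((q / Nat.gcd q r : ℕ) : ℝ) * β) := by
  have hg : 0 < Nat.gcd q r := Nat.gcd_pos_of_pos_left _ hq
  have hgR : (0 : ℝ) < Nat.gcd q r := by exact_mod_cast hg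
  rw [DD, Nat.cast_div (Nat.gcd_dvd_right q r) hgR.ne', Nat.cast_div (Nat.gcd_dvd_left q r) hgR.ne',
    ← max_div_div_right hgR.le]
  congr 1 <;> ring

theorem volume_inter_le_of_lt_quarter (q r : ℕ) (hq : 0 < q) (hr : 0 < r) (a b α β : ℝ)
    (hα : 0 ≤ α) (hβ : 0 ≤ β) (hD0 : 0 < DD q r α β) (hD : DD q r α β < 1 / 4) :
    volume (arcSet q a α ∩ arcSet r b β) ≤ ENNReal.ofReal (2 * α * β / DD q r α β) := by
  have hg : 0 < Nat.gcd q r := Nat.gcd_pos_of_pos_left _ hq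
  rw [arcSet_gcd q r hq]
  rw [DD_eq q r hq] at hD hD0 ⊢
  have hu : 0 < q / Nat.gcd q r := Nat.div_pos (Nat.gcd_le_left _ hq) hg
  have hv : 0 < r / Nat.gcd q r := Nat.div_pos (Nat.gcd_le_right _ hr) hg
  have huv : Nat.Coprime (q / Nat.gcd q r) (r / Nat.gcd q r) := Nat.coprime_div_gcd_div_gcd hg
  generalize q / Nat.gcd q r = u at *
  generalize r / Nat.gcd q r = v at *
  have huR : (0 : ℝ) < u := by exact_mod_cast hu
  have hvR : (0 : ℝ) < v := by exact_mod_cast hv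
  obtain ⟨M, hM1, hM2, hM3⟩ := int_set_card (v * a - u * b) (v * α + u * β) (by positivity)
  refine (volume_arcSet_inter_le u v hu hv huv a b α β M hM1).trans ?_
  apply ENNReal.ofReal_le_ofReal
  have h1 : (M.card : ℝ) < 2 := by
    have h2 := le_max_left (v * α) (u * β)
    have h3 := le_max_right (v * α) (u * β)
    linarith only [hD, hM3, h2, h3]
  have h1' : (M.card : ℝ) ≤ 1 := by
    have : M.card < 2 := by exact_mod_cast h1
    have : M.card ≤ 1 := by omega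
    exact_mod_cast this
  have h4 : max (v * α) (u * β) * min (α / u) (β / v) = α * β := by
    rcases le_total (v * α) (u * β) with h | h
    · rw [max_eq_right h, min_eq_left]
      · field_simp
      · rw [div_le_div_iff₀ huR hvR]; linarith only [h]
    · rw [max_eq_left h, min_eq_right]
      · field_simp
      · rw [div_le_div_iff₀ hvR huR]; linarith only [h]
  have h5 : 0 ≤ min (α / u) (β / v) := by positivity
  rw [le_div_iff₀ hD0]
  calc (M.card : ℝ) * (2 * min (α / u) (β / v)) * max (v * α) (u * β)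
      ≤ 1 * (2 * min (α / u) (β / v)) * max (v * α) (u * β) := by gcongr
    _ = 2 * (max (v * α) (u * β) * min (α / u) (β / v)) := by ring
    _ = 2 * α * β := by rw [h4]; ring

end Vale.P028
end

section

/-!
# Full measure of a limsup set from a global second moment bound
-/

namespace Vale.P028

open MeasureTheory Set Filter Topology

end Vale.P028
end

section

/-!
# The block criterion: a global second moment bound on arbitrarily late finite blocks gives
full measure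
-/

namespace Vale.P028

open MeasureTheory Set Filter Topology

end Vale.P028
end

section

/-!
# From the circle to the line
-/

namespace Vale.P028

open MeasureTheory Set Filter Topology

/-- The distance from `t` to the nearest integer. -/
noncomputable def distInt (t : ℝ) : ℝ := |t - round t|

/-- `W γ ψ` is the set of real `x` such that `‖q x - γ‖ < ψ q` for infinitely many positive
integers `q`, where `‖·‖` is the distance to the nearest integer. -/
def W (γ : ℝ) (ψ : ℕ → ℝ) : Set ℝ :=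
  {x : ℝ | {q : ℕ | 0 < q ∧ distInt (q * x - γ) < ψ q}.Infinite}

theorem mem_arcSet_coe (q : ℕ) (a α x : ℝ) :
    (x : UnitAddCircle) ∈ arcSet q a α ↔ distInt (q * x - a) < α := by
  change ‖q • (x : UnitAddCircle) - (a : UnitAddCircle)‖ < α ↔ _
  rw [← AddCircle.coe_nsmul, ← AddCircle.coe_sub, UnitAddCircle.norm_eq, nsmul_eq_mul, distInt]

end Vale.P028
end

section

/-!
# Definitions for the bilinear (l^rho -> l^kappa) method

`θ ∈ (1/2, 1)` is `1/rho`, `1 - θ` is `1/kappa`.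
-/

namespace Vale.P028

open Finset

/-- `cofac q r = q / gcd(q,r)`. -/
def cofac (q r : ℕ) : ℕ := q / Nat.gcd q r

/-- `|i - j|` for natural numbers. -/
def ad (i j : ℕ) : ℕ := (i - j) + (j - i)

/-- Edge condition for the pair `(q,r)` in the state `(a,b)`: the gcd is composed of primes of
`P`, the pair of (multiplied) cofactors is allowed by `Ω`, and the two size conditions hold. -/
def Edge (Ω : ℕ → ℕ → Prop) (P : Finset ℕ) (a b : ℕ) (ψ₁ ψ₂ : ℕ → ℝ) (s₁ s₂ : ℝ) (q r : ℕ) :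
    Prop :=
  (∀ p : ℕ, p.Prime → p ∣ Nat.gcd q r → p ∈ P) ∧ Ω (a * cofac q r) (b * cofac r q) ∧
  (b : ℝ) * (cofac r q : ℝ) * ψ₁ q ≤ s₁ ∧ (a : ℝ) * (cofac q r : ℝ) * ψ₂ r ≤ s₂

open Classical in
/-- The bilinear sum over the pairs of `R` in `[1,N]²`. -/
noncomputable def psum (R : ℕ → ℕ → Prop) (N : ℕ) (f h : ℕ → ℝ) : ℝ :=
  ∑ q ∈ Icc 1 N, ∑ r ∈ Icc 1 N, if R q r then f q * h r else 0

/-- The bilinear sum over the edges. -/
noncomputable def Lam (Ω : ℕ → ℕ → Prop) (P : Finset ℕ) (a b : ℕ) (ψ₁ ψ₂ : ℕ → ℝ) (s₁ s₂ : ℝ)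
    (N : ℕ) (f h : ℕ → ℝ) : ℝ :=
  psum (Edge Ω P a b ψ₁ ψ₂ s₁ s₂) N f h

/-- Single prime inequality: for all nonnegative sequences either the exact decomposition into
cells `(i,j)` or, for some `k`, the decomposition into the `L`-shaped cell `min i j = k` and the
remaining exact cells gives the bound `c`. -/
def SP (θ b x c : ℝ) : Prop :=
  ∀ (N : ℕ) (φ χ : ℕ → ℝ), (∀ i, 0 ≤ φ i) → (∀ i, 0 ≤ χ i) →
    (∑ i ∈ range (N + 1), ∑ j ∈ range (N + 1), b ^ ad i j * (φ i * χ j) ^ θ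
      ≤ c * ((∑ i ∈ range (N + 1), φ i) * ∑ j ∈ range (N + 1), χ j) ^ θ) ∨
    ∃ k ≤ N, (if k = 0 then (1 : ℝ) else (1 - x) ^ (2 * (1 - θ))) *
        ((∑ i ∈ Icc k N, φ i) * ∑ j ∈ Icc k N, χ j) ^ θ
      + ∑ i ∈ range (N + 1), ∑ j ∈ range (N + 1),
          (if min i j = k then 0 else b ^ ad i j * (φ i * χ j) ^ θ)
      ≤ c * ((∑ i ∈ range (N + 1), φ i) * ∑ j ∈ range (N + 1), χ j) ^ θ

/-- Single prime inequality of the tensor theorem. -/
def SPn (θ μ ε c : ℝ) : Prop :=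
  ∀ (N : ℕ) (φ χ : ℕ → ℝ) (ν : ℤ → ℝ), (∀ i, 0 ≤ φ i) → (∀ i, 0 ≤ χ i) → (∀ l, 0 ≤ ν l) →
    ∑ i ∈ range (N + 1), ∑ j ∈ range (N + 1),
        ε ^ ad i j * (φ i * χ j) ^ θ * (ν ((i : ℤ) - (j : ℤ))) ^ μ
      ≤ c * ((∑ i ∈ range (N + 1), φ i) * ∑ j ∈ range (N + 1), χ j) ^ θ *
          (∑ l ∈ Icc (-(N : ℤ)) N, ν l) ^ μ

/-- Base case bound (no prime divides the gcd of an edge). -/
def BaseBound (Ω : ℕ → ℕ → Prop) (θ : ℝ) (K : ℕ → ℕ → ℝ) : Prop :=
  ∀ (a b : ℕ), 0 < a → 0 < b → ∀ (ψ₁ ψ₂ f h : ℕ → ℝ) (s₁ s₂ : ℝ) (N : ℕ),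
    0 < s₁ → 0 < s₂ → (∀ q, 0 ≤ f q ∧ f q ≤ ψ₁ q) → (∀ r, 0 ≤ h r ∧ h r ≤ ψ₂ r) →
    Lam Ω ∅ a b ψ₁ ψ₂ s₁ s₂ N f h ≤
      (s₁ * s₂) ^ (1 - θ) * K a b * ((∑ q ∈ Icc 1 N, f q) * ∑ r ∈ Icc 1 N, h r) ^ θ

/-- The pairs `(q,r)` (with `q ≠ r`) that can collide at level `s`: `D(q,r) ≤ s` and
`‖(u-v)γ‖ < 2 s`, where `u = q/gcd`, `v = r/gcd`. -/
def Rel (γ : ℝ) (ψ : ℕ → ℝ) (s : ℝ) (q r : ℕ) : Prop :=
  cofac q r ≠ cofac r q ∧ (cofac r q : ℝ) * ψ q ≤ s ∧ (cofac q r : ℝ) * ψ r ≤ s ∧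
  distInt (((cofac q r : ℝ) - (cofac r q : ℝ)) * γ) < 2 * s

end Vale.P028
end

section

/-!
# Definitions for Theorem A (all real `γ`): sifting by the convergents with big gaps
-/

namespace Vale.P028

open Finset

/-- `B` is the first `h ≥ 1` with `‖h γ‖ ≤ 4 s`. -/
def First (γ s : ℝ) (B : ℕ) : Prop :=
  0 < B ∧ distInt (B * γ) ≤ 4 * s ∧ ∀ h : ℕ, 0 < h → h < B → 4 * s < distInt (h * γ)

/-- The scale `s` is bad with denominator `B`: `B` is the first `h ≥ 1` with `‖h γ‖ ≤ 4 s` and it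
is at most `s ^ (-1/4)`. -/
def BadAt (γ s : ℝ) (B : ℕ) : Prop := First γ s B ∧ (B : ℝ) ^ 4 * s ≤ 1

/-- `B` is a bad denominator (for some scale `s ≤ s₁`). -/
def Bad (γ s₁ : ℝ) (B : ℕ) : Prop := ∃ s : ℝ, 0 < s ∧ s ≤ s₁ ∧ BadAt γ s B

/-- The pair of cofactors `(u,v)` is far from the bad denominator (if there is one) at scale `s`. -/
def Far (γ s : ℝ) (u v : ℕ) : Prop :=
  ∀ B : ℕ, BadAt γ s B → 1 ≤ 4 * distInt (B * γ) * max (u : ℝ) (v : ℝ)

end Vale.P028
end

section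

/-!
# Limsup sets from lower bounds on intervals
-/

namespace Vale.P028

open MeasureTheory Set Filter Topology

theorem ioc_grid {n : ℕ} (hn : 0 < n) {x : ℝ} (hx : x ∈ Ioc (0 : ℝ) 1) :
    ∃ k : ℕ, k < n ∧ x ∈ Ioc ((k : ℝ) / n) ((k + 1) / n) := by
  have hn0 : (0 : ℝ) < n := by exact_mod_cast hn
  have h1 : 0 < (n : ℝ) * x := mul_pos hn0 hx.1
  have h2 : 0 < ⌈(n : ℝ) * x⌉₊ := Nat.ceil_pos.mpr h1
  obtain ⟨k, hk⟩ : ∃ k, ⌈(n : ℝ) * x⌉₊ = k + 1 := ⟨⌈(n : ℝ) * x⌉₊ - 1, by omega⟩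
  have h3 : (n : ℝ) * x ≤ (k : ℝ) + 1 := by
    have := Nat.le_ceil ((n : ℝ) * x)
    rw [hk] at this
    push_cast at this
    exact this
  have h4 : (k : ℝ) < (n : ℝ) * x := by
    have : k < ⌈(n : ℝ) * x⌉₊ := by omega
    exact Nat.lt_ceil.mp this
  refine ⟨k, ?_, ?_, ?_⟩
  · have h5 : (k : ℝ) < n := by nlinarith only [h4, hx.2]
    exact_mod_cast h5
  · rw [div_lt_iff₀ hn0]; linarith only [h4]
  · rw [le_div_iff₀ hn0]; linarith only [h3]

theorem ioc_grid_disjoint {n : ℕ} (hn : 0 < n) {k l : ℕ} (h : k ≠ l) :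
    Disjoint (Ioc ((k : ℝ) / n) ((k + 1) / n)) (Ioc ((l : ℝ) / n) ((l + 1) / n)) := by
  have hn0 : (0 : ℝ) < n := by exact_mod_cast hn
  rw [Set.disjoint_left]
  rintro x ⟨h1, h2⟩ ⟨h3, h4⟩
  rw [div_lt_iff₀ hn0] at h1 h3
  rw [le_div_iff₀ hn0] at h2 h4
  have h5 : (k : ℝ) < l + 1 := by linarith only [h1, h4]
  have h6 : (l : ℝ) < k + 1 := by linarith only [h2, h3]
  have h7 : k < l + 1 := by exact_mod_cast h5
  have h8 : l < k + 1 := by exact_mod_cast h6
  omega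

theorem ioc_grid_subset {n : ℕ} (hn : 0 < n) {k : ℕ} (hk : k < n) :
    Ioc ((k : ℝ) / n) ((k + 1) / n) ⊆ Ioc (0 : ℝ) 1 := by
  have hn0 : (0 : ℝ) < n := by exact_mod_cast hn
  apply Ioc_subset_Ioc
  · positivity
  · rw [div_le_one hn0]
    exact_mod_cast hk

/-- Nonnegative test functions supported on tails, bounded in `L²`, whose integral over every
interval is eventually at least `c` times its length, force full measure in `(0,1]`. -/
theorem ae_infinite_of_lower_Ioc (A : ℕ → Set ℝ) (F : ℕ → ℝ → ℝ) (hA : ∀ q, MeasurableSet (A q))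
    (hFm : ∀ j, Measurable (F j)) (B : ℕ → ℝ) (hFb : ∀ j x, F j x ≤ B j) (hF0 : ∀ j x, 0 ≤ F j x)
    (hsupp : ∀ j x, F j x ≠ 0 → ∃ q, j ≤ q ∧ x ∈ A q)
    {C c : ℝ} (hc : 0 < c) (h2 : ∀ j, ∫ x in Ioc (0 : ℝ) 1, (F j x) ^ 2 ≤ C)
    (hlow : ∀ u v : ℝ, 0 ≤ u → u < v → v ≤ 1 →
      ∀ᶠ j in atTop, c * (v - u) ≤ ∫ x in Ioc u v, F j x) :
    ∀ᵐ x ∂(volume.restrict (Ioc (0 : ℝ) 1)), {q | x ∈ A q}.Infinite := by
  set Z : ℕ → Set ℝ := fun N => Ioc (0 : ℝ) 1 ∩ ⋂ q ∈ Ici N, (A q)ᶜ with hZ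
  have hZm : ∀ N, MeasurableSet (Z N) := by
    intro N
    apply measurableSet_Ioc.inter
    exact MeasurableSet.biInter (to_countable _) (fun q _ => (hA q).compl)
  have hZ0 : ∀ N, volume (Z N) = 0 := by
    intro N
    by_contra hne
    obtain ⟨K, hKZ, hKc, hKpos⟩ := (hZm N).exists_lt_isCompact (pos_iff_ne_zero.mpr hne)
    have hK01 : K ⊆ Ioc (0 : ℝ) 1 := hKZ.trans inter_subset_left
    have hKfin : volume K ≠ ⊤ := hKc.measure_lt_top.ne
    set κ : ℝ := volume.real K with hκ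
    have hκ0 : 0 < κ := by
      rw [hκ, Measure.real]
      exact ENNReal.toReal_pos hKpos.ne' hKfin
    have hC0 : 0 ≤ C := (integral_nonneg (fun x => sq_nonneg _)).trans (h2 0)
    set t : ℝ := c * κ / (2 * (C + 1)) with ht
    have ht0 : 0 < t := by (clear * - hc hκ0 hC0; positivity)
    set e : ℝ := t * (c * κ) / 2 with he
    have he0 : 0 < e := by (clear * - hc hκ0 hC0; positivity)
    obtain ⟨O, hKO, hO, hOe⟩ := hKc.exists_isOpen_lt_add (μ := volume)
      (ε := ENNReal.ofReal e) (by simp [he0])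
    obtain ⟨δ, hδ, hδO⟩ := hKc.exists_thickening_subset_open hO hKO
    obtain ⟨n, hn⟩ := exists_nat_gt (1 / δ)
    have hn0 : (0 : ℝ) < n := lt_trans (by (clear * - hδ; positivity)) hn
    have hn1 : 0 < n := by exact_mod_cast hn0
    have hnδ : 1 / (n : ℝ) < δ := by
      rw [div_lt_iff₀ hδ] at hn
      rw [div_lt_iff₀ hn0]; linarith only [hn]
    classical
    set S : Finset ℕ := (Finset.range n).filter
      (fun k => ∃ x ∈ K, x ∈ Ioc ((k : ℝ) / n) ((k + 1) / n)) with hS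
    set U : Set ℝ := ⋃ k ∈ S, Ioc ((k : ℝ) / n) ((k + 1) / n) with hU
    have hlen : ∀ k : ℕ, ((k : ℝ) + 1) / n - k / n = 1 / n := by
      intro k; ring
    have hUO : U ⊆ O := by
      rw [hU]
      apply iUnion₂_subset
      intro k hk
      rw [hS, Finset.mem_filter] at hk
      obtain ⟨_, x, hxK, hx⟩ := hk
      intro y hy
      apply hδO
      rw [Metric.mem_thickening_iff]
      refine ⟨x, hxK, ?_⟩
      rw [Real.dist_eq]
      have h5 := hlen k
      rw [abs_lt]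
      constructor
      · linarith only [hnδ, h5, hy.1, hx.2]
      · linarith only [hnδ, h5, hy.2, hx.1]
    have hKU : K ⊆ U := by
      intro x hx
      obtain ⟨k, hk, hxk⟩ := ioc_grid hn1 (hK01 hx)
      rw [hU, mem_iUnion₂]
      exact ⟨k, by rw [hS, Finset.mem_filter, Finset.mem_range]; exact ⟨hk, x, hx, hxk⟩, hxk⟩
    have hU01 : U ⊆ Ioc (0 : ℝ) 1 := by
      rw [hU]
      apply iUnion₂_subset
      intro k hk
      rw [hS, Finset.mem_filter, Finset.mem_range] at hk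
      exact ioc_grid_subset hn1 hk.1
    have hUm : MeasurableSet U := Finset.measurableSet_biUnion _ (fun _ _ => measurableSet_Ioc)
    have hUfin : volume U ≠ ⊤ := ((measure_mono hU01).trans_lt (by simp only [Real.volume_Ioc, sub_zero, ENNReal.ofReal_one, ENNReal.one_lt_top])).ne
    have hcard : κ ≤ S.card * (1 / (n : ℝ)) := by
      have h5 : volume K ≤ ∑ k ∈ S, volume (Ioc ((k : ℝ) / n) ((k + 1) / n)) :=
        (measure_mono hKU).trans (measure_biUnion_finset_le _ _)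
      have h6 : ∑ k ∈ S, volume (Ioc ((k : ℝ) / n) ((k + 1) / n))
          = ENNReal.ofReal (S.card * (1 / (n : ℝ))) := by
        simp only [Real.volume_Ioc, hlen]
        rw [Finset.sum_const, nsmul_eq_mul, ENNReal.ofReal_mul (Nat.cast_nonneg _),
          ENNReal.ofReal_natCast]
      rw [h6] at h5
      rw [hκ, Measure.real]
      exact ENNReal.toReal_le_of_le_ofReal (by (clear * - hn1; positivity)) h5
    have hUK : volume.real (U \ K) ≤ e := by
      have h5 : volume (U \ K) ≤ ENNReal.ofReal e := by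
        calc volume (U \ K) ≤ volume (O \ K) := measure_mono (sdiff_subset_sdiff_left hUO)
          _ = volume O - volume K := measure_sdiff hKO hKc.nullMeasurableSet hKfin
          _ ≤ ENNReal.ofReal e := by
              rw [tsub_le_iff_left]
              exact hOe.le
      rw [Measure.real]
      exact ENNReal.toReal_le_of_le_ofReal he0.le h5
    have hev : ∀ᶠ j in atTop, ∀ k ∈ S, c * (1 / (n : ℝ)) ≤
        ∫ x in Ioc ((k : ℝ) / n) ((k + 1) / n), F j x := by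
      rw [Filter.eventually_all_finset]
      intro k hk
      rw [hS, Finset.mem_filter, Finset.mem_range] at hk
      have h5 := hlow ((k : ℝ) / n) ((k + 1) / n) (by (clear * - hn1; positivity))
        (by rw [div_lt_div_iff_of_pos_right hn0]; linarith only [])
        (by rw [div_le_one hn0]; exact_mod_cast hk.1)
      rw [hlen] at h5
      exact h5
    obtain ⟨j, hj1, hj2⟩ := (hev.and (eventually_ge_atTop N)).exists
    have hint : ∀ E : Set ℝ, volume E ≠ ⊤ → IntegrableOn (F j) E volume := by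
      intro E hE
      apply Measure.integrableOn_of_bounded (M := B j) hE (hFm j).aestronglyMeasurable
      filter_upwards with x
      rw [Real.norm_eq_abs, abs_of_nonneg (hF0 j x)]
      exact hFb j x
    have hint2 : ∀ E : Set ℝ, volume E ≠ ⊤ → IntegrableOn (fun x => (F j x) ^ 2) E volume := by
      intro E hE
      apply Measure.integrableOn_of_bounded (M := (B j) ^ 2) hE
        ((hFm j).pow_const 2).aestronglyMeasurable
      filter_upwards with x
      rw [Real.norm_eq_abs, abs_of_nonneg (sq_nonneg _)]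
      exact pow_le_pow_left₀ (hF0 j x) (hFb j x) 2
    have hsum : ∫ x in U, F j x = ∑ k ∈ S, ∫ x in Ioc ((k : ℝ) / n) ((k + 1) / n), F j x := by
      rw [hU]
      apply integral_biUnion_finset
      · intro k _; exact measurableSet_Ioc
      · intro k _ l _ hkl
        exact ioc_grid_disjoint hn1 hkl
      · intro k _
        exact hint _ (by rw [Real.volume_Ioc]; exact ENNReal.ofReal_ne_top)
    have hlowU : S.card * (c * (1 / (n : ℝ))) ≤ ∫ x in U, F j x := by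
      rw [hsum, ← nsmul_eq_mul, ← Finset.sum_const]
      exact Finset.sum_le_sum fun k hk => hj1 k hk
    have hzero : ∀ x ∈ K, F j x = 0 := by
      intro x hx
      by_contra hne
      obtain ⟨q, hq1, hq2⟩ := hsupp j x hne
      have h5 := (hKZ hx).2
      rw [mem_iInter₂] at h5
      exact h5 q (mem_Ici.mpr (hj2.trans hq1)) hq2
    have hsplit : ∫ x in U, F j x = ∫ x in U \ K, F j x := by
      rw [← integral_inter_add_sdiff hKc.measurableSet (hint U hUfin)]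
      have : ∫ x in U ∩ K, F j x = 0 := by
        rw [setIntegral_congr_fun (hUm.inter hKc.measurableSet) (g := fun _ => (0 : ℝ))
          (fun x hx => hzero x hx.2)]
        simp
      rw [this, zero_add]
    have hUKfin : volume (U \ K) ≠ ⊤ := ((measure_mono sdiff_subset).trans_lt hUfin.lt_top).ne
    have hup : ∫ x in U \ K, F j x ≤ t / 2 * C + e / (2 * t) := by
      calc ∫ x in U \ K, F j x ≤ ∫ x in U \ K, (t / 2 * (F j x) ^ 2 + 1 / (2 * t)) := by
            apply setIntegral_mono (hint _ hUKfin)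
            · apply Integrable.add
              · exact (hint2 _ hUKfin).const_mul _
              · exact integrableOn_const hUKfin
            · intro x
              have h5 : 0 ≤ t / 2 * (F j x - 1 / t) ^ 2 := by (clear * - hc hκ0 hC0; positivity)
              have h6 : t / 2 * (F j x - 1 / t) ^ 2
                  = t / 2 * (F j x) ^ 2 + 1 / (2 * t) - F j x := by
                field_simp
                ring
              rw [h6] at h5
              change F j x ≤ t / 2 * (F j x) ^ 2 + 1 / (2 * t)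
              linarith only [h5]
        _ = t / 2 * (∫ x in U \ K, (F j x) ^ 2) + volume.real (U \ K) * (1 / (2 * t)) := by
            rw [integral_add ((hint2 _ hUKfin).const_mul _) (integrableOn_const hUKfin),
              integral_const_mul, setIntegral_const, smul_eq_mul]
        _ ≤ t / 2 * C + e * (1 / (2 * t)) := by
            have h5 : ∫ x in U \ K, (F j x) ^ 2 ≤ C := by
              refine le_trans ?_ (h2 j)
              apply setIntegral_mono_set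
              · exact hint2 _ (by simp only [Real.volume_Ioc, sub_zero, ENNReal.ofReal_one, ne_eq, ENNReal.one_ne_top, not_false_eq_true])
              · exact Eventually.of_forall fun x => sq_nonneg _
              · exact (sdiff_subset.trans hU01).eventuallyLE
            (clear * - h5 hc hκ0 hC0 hUK; gcongr)
        _ = t / 2 * C + e / (2 * t) := by ring
    have hfinal : c * κ ≤ t / 2 * C + e / (2 * t) := by
      calc c * κ ≤ c * (S.card * (1 / (n : ℝ))) := mul_le_mul_of_nonneg_left hcard hc.le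
        _ = S.card * (c * (1 / (n : ℝ))) := by ring
        _ ≤ ∫ x in U, F j x := hlowU
        _ = ∫ x in U \ K, F j x := hsplit
        _ ≤ _ := hup
    have h7 : e / (2 * t) = c * κ / 4 := by
      rw [he]; field_simp; ring
    have h8 : t / 2 * C ≤ c * κ / 4 := by
      rw [ht, div_div, div_mul_eq_mul_div, div_le_div_iff₀ (by (clear * - hC0; positivity)) (by norm_num)]
      have : 0 < c * κ := mul_pos hc hκ0
      nlinarith only [this]
    have : 0 < c * κ := mul_pos hc hκ0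
    linarith only [hfinal, h7, h8, this]
  rw [ae_restrict_iff' measurableSet_Ioc, ae_iff]
  refine measure_mono_null ?_ (measure_iUnion_null hZ0)
  intro x hx
  simp only [mem_ofPred_eq, Classical.not_imp, Set.not_infinite] at hx
  obtain ⟨hx1, hx2⟩ := hx
  obtain ⟨N, hN⟩ := hx2.bddAbove
  rw [mem_iUnion]
  refine ⟨N + 1, hx1, ?_⟩
  rw [mem_iInter₂]
  intro q hq hxq
  have h5 := hN (show q ∈ {q | x ∈ A q} from hxq)
  have h6 := mem_Ici.mp hq
  omega

end Vale.P028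
end

section
attribute [-instance] ProperSMul.toContinuousSMul IsTopologicalTorsor.toContinuousSMul IdemSemiring.toCanonicallyOrderedAdd IdemSemiring.toMulLeftMono IdemSemiring.toMulRightMono AddQuantale.instAddLeftMono AddQuantale.instAddRightMono Quantale.instMulLeftMono Quantale.instMulRightMono FiniteDimensional.rclike_to_real IsScalarTower.complexToReal FiniteDimensional.complexToReal

/-!
# Full measure from sifted sets of centres
-/

namespace Vale.P028

open MeasureTheory Set Filter Topology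

/-- The points `x` with `|q x - γ - al| < α` for some integer `al` satisfying `P`. -/
def GS (γ : ℝ) (q : ℕ) (α : ℝ) (P : ℤ → Prop) : Set ℝ :=
  {x | ∃ al : ℤ, P al ∧ |(q : ℝ) * x - γ - al| < α}

theorem isOpen_GS (γ : ℝ) (q : ℕ) (α : ℝ) (P : ℤ → Prop) : IsOpen (GS γ q α P) := by
  have e : GS γ q α P = ⋃ al : ℤ, ⋃ (_ : P al), {x : ℝ | |(q : ℝ) * x - γ - al| < α} := by
    ext x
    simp only [GS, mem_ofPred_eq, mem_iUnion, exists_prop]
  rw [e]
  refine isOpen_iUnion fun al => isOpen_iUnion fun _ => ?_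
  exact isOpen_lt (by (clear * -; fun_prop)) continuous_const

theorem GS_subset (γ : ℝ) (q : ℕ) (α : ℝ) (P : ℤ → Prop) :
    GS γ q α P ⊆ {x | distInt (q * x - γ) < α} := by
  rintro x ⟨al, _, h⟩
  exact lt_of_le_of_lt (round_le _ al) h

open Classical in
theorem GS_lower (γ : ℝ) {q : ℕ} (hq : 0 < q) {α : ℝ} (hα : 0 < α) (hα2 : α ≤ 1 / 2)
    (P : ℤ → Prop) (u v : ℝ) (m n : ℤ) (hm : q * u - γ + α ≤ m + 1) (hn : n ≤ q * v - γ - α) :
    (((Finset.Ioc m n).filter P).card : ℝ) * (2 * α / q) ≤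
      volume.real (GS γ q α P ∩ Ioc u v) := by
  have hq0 : (0 : ℝ) < q := by exact_mod_cast hq
  set T := (Finset.Ioc m n).filter P with hT
  set J : ℤ → Set ℝ := fun al => Ioo ((γ + al - α) / q) ((γ + al + α) / q) with hJ
  have hsub : (⋃ al ∈ T, J al) ⊆ GS γ q α P ∩ Ioc u v := by
    apply iUnion₂_subset
    intro al hal x hx
    rw [hT, Finset.mem_filter, Finset.mem_Ioc] at hal
    obtain ⟨⟨h1, h2⟩, h3⟩ := hal
    simp only [hJ, mem_Ioo] at hx
    obtain ⟨hx1, hx2⟩ := hx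
    rw [div_lt_iff₀ hq0] at hx1
    rw [lt_div_iff₀ hq0] at hx2
    refine ⟨⟨al, h3, ?_⟩, ?_, ?_⟩
    · rw [abs_lt]; constructor <;> linarith only [hx1, hx2]
    · have h4 : (m : ℝ) + 1 ≤ al := by exact_mod_cast h1
      have h5 : (q : ℝ) * u < q * x := by linarith only [hm, hx1, h4]
      exact lt_of_mul_lt_mul_left h5 hq0.le
    · have h4 : (al : ℝ) ≤ n := by exact_mod_cast h2
      have h5 : (q : ℝ) * x ≤ q * v := by linarith only [hn, hx2, h4]
      exact le_of_mul_le_mul_left h5 hq0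
  have hdisj : (T : Set ℤ).PairwiseDisjoint J := by
    intro a _ b _ hab
    change Disjoint (J a) (J b)
    rw [Set.disjoint_left]
    intro x hx hx'
    simp only [hJ, mem_Ioo] at hx hx'
    obtain ⟨h1, h2⟩ := hx
    obtain ⟨h3, h4⟩ := hx'
    rw [div_lt_iff₀ hq0] at h1 h3
    rw [lt_div_iff₀ hq0] at h2 h4
    have h5 : (a : ℝ) < b + 1 := by linarith only [hα2, h1, h4]
    have h6 : (b : ℝ) < a + 1 := by linarith only [hα2, h2, h3]
    have h7 : a < b + 1 := by exact_mod_cast h5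
    have h8 : b < a + 1 := by exact_mod_cast h6
    exact hab (by omega)
  have hvol : volume (⋃ al ∈ T, J al) = ENNReal.ofReal (T.card * (2 * α / q)) := by
    rw [measure_biUnion_finset hdisj (fun _ _ => measurableSet_Ioo)]
    have : ∀ al : ℤ, (γ + al + α) / q - (γ + al - α) / q = 2 * α / q := by
      intro al; field_simp; ring
    simp only [hJ, Real.volume_Ioo, this]
    rw [Finset.sum_const, nsmul_eq_mul, ENNReal.ofReal_mul (Nat.cast_nonneg _),
      ENNReal.ofReal_natCast]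
  have hfin : volume (GS γ q α P ∩ Ioc u v) ≠ ⊤ :=
    ((measure_mono inter_subset_right).trans_lt (by rw [Real.volume_Ioc]; exact
      ENNReal.ofReal_lt_top)).ne
  have h9 : volume.real (⋃ al ∈ T, J al) ≤ volume.real (GS γ q α P ∩ Ioc u v) :=
    measureReal_mono hsub hfin
  rw [Measure.real, hvol, ENNReal.toReal_ofReal (by (clear * - hα hq; positivity))] at h9
  exact h9

theorem volume_real_inter_le {E : Set UnitAddCircle} (hE : MeasurableSet E) {E' : Set ℝ}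
    (h : ∀ x ∈ E', (x : UnitAddCircle) ∈ E) : volume (E' ∩ Ioc (0 : ℝ) 1) ≤ volume E := by
  have hmp := UnitAddCircle.measurePreserving_mk (0 : ℝ)
  rw [← hmp.measure_preimage hE.nullMeasurableSet, Measure.restrict_apply
    (hmp.measurable hE)]
  apply measure_mono
  rintro x ⟨h1, h2⟩
  exact ⟨h x h1, by simpa only [zero_add, mem_Ioc] using h2⟩

theorem GS_inter_le (γ : ℝ) (q r : ℕ) (α β : ℝ) (P Q : ℤ → Prop) :
    volume (GS γ q α P ∩ GS γ r β Q ∩ Ioc (0 : ℝ) 1) ≤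
      volume (arcSet q γ α ∩ arcSet r γ β) := by
  apply volume_real_inter_le ((measurableSet_arcSet _ _ _).inter (measurableSet_arcSet _ _ _))
  rintro x ⟨h1, h2⟩
  exact ⟨(mem_arcSet_coe q γ α x).mpr (GS_subset _ _ _ _ h1),
    (mem_arcSet_coe r γ β x).mpr (GS_subset _ _ _ _ h2)⟩

/-- Full measure on `(0,1]` gives full measure on the line. -/
theorem volume_compl_W_of_unit_Ioc (γ : ℝ) (ψ : ℕ → ℝ)
    (h : ∀ᵐ x ∂(volume.restrict (Ioc (0 : ℝ) 1)),
      {q : ℕ | 0 < q ∧ distInt (q * x - γ) < ψ q}.Infinite) :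
    volume (W γ ψ)ᶜ = 0 := by
  rw [ae_restrict_iff' measurableSet_Ioc, ae_iff] at h
  set Z : Set ℝ := {a | ¬(a ∈ Ioc (0 : ℝ) 1 → {q : ℕ | 0 < q ∧ distInt (q * a - γ) < ψ q}.Infinite)}
    with hZ
  have hsub : (W γ ψ)ᶜ ⊆ ⋃ n : ℤ, (fun x : ℝ => x + (n : ℝ)) ⁻¹' Z := by
    intro x hx
    rw [mem_iUnion]
    refine ⟨-(⌈x⌉ - 1), ?_⟩
    simp only [mem_preimage, hZ, mem_ofPred_eq, Classical.not_imp]
    refine ⟨⟨?_, ?_⟩, ?_⟩
    · push_cast
      have := Int.ceil_lt_add_one x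
      linarith only [this]
    · push_cast
      have := Int.le_ceil x
      linarith only [this]
    · intro hinf
      apply hx
      have e : {q : ℕ | 0 < q ∧ distInt (q * (x + ((-(⌈x⌉ - 1) : ℤ) : ℝ)) - γ) < ψ q}
          = {q : ℕ | 0 < q ∧ distInt (q * x - γ) < ψ q} := by
        ext q
        simp only [mem_ofPred_eq]
        have e2 : (q : ℝ) * (x + ((-(⌈x⌉ - 1) : ℤ) : ℝ)) - γ
            = (q * x - γ) + (((q : ℤ) * (-(⌈x⌉ - 1)) : ℤ) : ℝ) := by
          push_cast; ring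
        have e3 : distInt ((q * x - γ) + (((q : ℤ) * (-(⌈x⌉ - 1)) : ℤ) : ℝ))
            = distInt (q * x - γ) := by
          unfold distInt
          rw [round_add_intCast]
          congr 1
          push_cast
          ring
        rw [e2, e3]
      rw [e] at hinf
      exact hinf
  refine measure_mono_null hsub (measure_iUnion_null fun n => ?_)
  rw [measure_preimage_add_right]
  exact h

/-- The elimination step: if `γ` is well approximated by `A/B` and the two centres are close, then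
both centres are divisible. -/
theorem kill_dvd {γ s β : ℝ} {A : ℤ} {B a b : ℕ} (hβ : |(B : ℝ) * γ - A| ≤ β)
    (hab : Nat.Coprime a b) (hsmall : 2 * s * B + β * |(b : ℝ) - a| ≤ 1) (hB : 0 < B) {al be : ℤ}
    (h : |((al : ℝ) + γ) * b - ((be : ℝ) + γ) * a| < 2 * s) :
    (a : ℤ) ∣ al * B + A ∧ (b : ℤ) ∣ be * B + A := by
  have hB0 : (0 : ℝ) < B := by exact_mod_cast hB
  set e : ℝ := (B : ℝ) * γ - A with he
  have h1 : (((al * B + A) * b - (be * B + A) * a : ℤ) : ℝ)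
      = B * (((al : ℝ) + γ) * b - ((be : ℝ) + γ) * a) - e * ((b : ℝ) - a) := by
    rw [he]; push_cast; ring
  have h2 : |(((al * B + A) * b - (be * B + A) * a : ℤ) : ℝ)| < 1 := by
    rw [h1]
    calc |(B : ℝ) * (((al : ℝ) + γ) * b - ((be : ℝ) + γ) * a) - e * ((b : ℝ) - a)|
        ≤ |(B : ℝ) * (((al : ℝ) + γ) * b - ((be : ℝ) + γ) * a)| + |e * ((b : ℝ) - a)| :=
          abs_sub _ _
      _ = B * |((al : ℝ) + γ) * b - ((be : ℝ) + γ) * a| + |e| * |(b : ℝ) - a| := by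
          rw [abs_mul, abs_mul, abs_of_pos hB0]
      _ < B * (2 * s) + β * |(b : ℝ) - a| := by
          have h3 : B * |((al : ℝ) + γ) * b - ((be : ℝ) + γ) * a| < B * (2 * s) :=
            mul_lt_mul_of_pos_left h hB0
          have h4 : |e| * |(b : ℝ) - a| ≤ β * |(b : ℝ) - a| :=
            mul_le_mul_of_nonneg_right hβ (abs_nonneg _)
          linarith only [h3, h4]
      _ ≤ 1 := by linarith only [hsmall]
  have h3 : (al * B + A) * b - (be * B + A) * a = 0 := by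
    rw [← Int.cast_abs] at h2
    have h4 : |(al * B + A) * b - (be * B + A) * a| < 1 := by exact_mod_cast h2
    exact Int.abs_lt_one_iff.mp h4
  have hcop : IsCoprime (a : ℤ) (b : ℤ) := Nat.isCoprime_iff_coprime.mpr hab
  constructor
  · apply hcop.dvd_of_dvd_mul_right
    exact ⟨be * B + A, by linear_combination h3⟩
  · apply hcop.symm.dvd_of_dvd_mul_right
    exact ⟨al * B + A, by linear_combination -h3⟩

end Vale.P028
end

section

/-!
# Structure of the bad denominators, kill lemma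
-/

namespace Vale.P028

open Finset MeasureTheory Filter

theorem distInt_le_abs_sub' (x : ℝ) (z : ℤ) : distInt x ≤ |x - z| := round_le x z

theorem BadAt.gcd_eq_one {γ s : ℝ} {B : ℕ} (_hs : 0 < s) (_hs2 : s ≤ 1 / 1000)
    (h : BadAt γ s B) : Int.gcd (round ((B : ℝ) * γ)) B = 1 := by
  obtain ⟨⟨hB, h1, h2⟩, _⟩ := h
  set A := round ((B : ℝ) * γ) with hA
  by_contra hne
  have hB0 : (B : ℤ) ≠ 0 := by exact_mod_cast hB.ne'
  have hd0 : 0 < Int.gcd A B := Int.gcd_pos_of_ne_zero_right _ hB0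
  have hd2 : 2 ≤ Int.gcd A B := by omega
  obtain ⟨A', hA'⟩ := Int.gcd_dvd_left A (B : ℤ)
  obtain ⟨k, hk⟩ : Int.gcd A B ∣ B := by
    have := Int.gcd_dvd_right A (B : ℤ)
    exact_mod_cast this
  set d := Int.gcd A B with hd
  have hk0 : 0 < k := by
    rcases Nat.eq_zero_or_pos k with h0 | h0
    · rw [h0, mul_zero] at hk; omega
    · exact h0
  have hkB : k < B := by rw [hk]; nlinarith only [hk0, hd2]
  have h3 := h2 k hk0 hkB
  have hdR : (0 : ℝ) < d := by exact_mod_cast hd0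
  have h4 : distInt (k * γ) ≤ distInt (B * γ) := by
    have h5 : distInt (B * γ) = d * |(k : ℝ) * γ - A'| := by
      have e : (B : ℝ) * γ - A = d * ((k : ℝ) * γ - A') := by
        rw [hA', hk]; push_cast; ring
      unfold distInt
      rw [← hA, e, abs_mul, abs_of_pos hdR]
    rw [h5]
    calc distInt (k * γ) ≤ |(k : ℝ) * γ - A'| := distInt_le_abs_sub' _ _
      _ = 1 * |(k : ℝ) * γ - A'| := (one_mul _).symm
      _ ≤ d * |(k : ℝ) * γ - A'| := by
          apply mul_le_mul_of_nonneg_right _ (abs_nonneg _)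
          exact_mod_cast hd0
  linarith only [h4, h3, h1]

theorem BadAt.mul_le {γ s : ℝ} {B : ℕ} (hs : 0 < s) (hs2 : s ≤ 1 / 1000) (h : BadAt γ s B) :
    s * B ≤ 1 / 16 := by
  by_contra hne
  rw [not_le] at hne
  have h1 : (1 / 16 : ℝ) ^ 4 < (s * B) ^ 4 := pow_lt_pow_left₀ hne (by norm_num) (by norm_num)
  have h2 : (s * (B : ℝ)) ^ 4 = ((B : ℝ) ^ 4 * s) * s ^ 3 := by ring
  have h3 : ((B : ℝ) ^ 4 * s) * s ^ 3 ≤ 1 * (1 / 1000) ^ 3 := by
    apply mul_le_mul h.2 (pow_le_pow_left₀ hs.le hs2 3) (by positivity) zero_le_one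
  rw [h2] at h1
  norm_num at h1 h3
  linarith only [h1, h3]

theorem Bad.gap {γ s₁ : ℝ} {B B' : ℕ} (hs1 : s₁ ≤ 1 / 1000) (h : Bad γ s₁ B) (h' : Bad γ s₁ B')
    (hlt : B < B') : 3 / 16 * max ((B : ℝ) ^ 4) (1 / s₁) ≤ B' := by
  obtain ⟨s, hs, hss₁, hb⟩ := h
  obtain ⟨s', hs', hss₁', hb'⟩ := h'
  have hg := hb.gcd_eq_one hs (hss₁.trans hs1)
  have hg' := hb'.gcd_eq_one hs' (hss₁'.trans hs1)
  have hm := hb.mul_le hs (hss₁.trans hs1)
  obtain ⟨⟨hB, h1, h2⟩, h3⟩ := hb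
  obtain ⟨⟨hB', h1', h2'⟩, h3'⟩ := hb'
  have hBR : (0 : ℝ) < B := by exact_mod_cast hB
  have hBR' : (0 : ℝ) < B' := by exact_mod_cast hB'
  have h4 := h2' B hB hlt
  set A := round ((B : ℝ) * γ) with hA
  set A' := round ((B' : ℝ) * γ) with hA'
  have hne : A' * B - A * B' ≠ 0 := by
    intro h0
    have h5 : A' * B = A * B' := by linarith only [h0]
    have h6 : (B : ℤ) ∣ B' := by
      have : (B : ℤ) ∣ A * B' := ⟨A', by rw [← h5]; ring⟩
      exact (Int.isCoprime_iff_gcd_eq_one.mpr hg).symm.dvd_of_dvd_mul_left this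
    have h7 : (B' : ℤ) ∣ B := by
      have : (B' : ℤ) ∣ A' * B := ⟨A, by rw [h5]; ring⟩
      exact (Int.isCoprime_iff_gcd_eq_one.mpr hg').symm.dvd_of_dvd_mul_left this
    have h8 : B ∣ B' := by exact_mod_cast h6
    have h9 : B' ∣ B := by exact_mod_cast h7
    have := Nat.dvd_antisymm h8 h9
    omega
  have h5 : (1 : ℝ) ≤ |((A' * B - A * B' : ℤ) : ℝ)| := by
    rw [← Int.cast_abs]
    exact_mod_cast Int.one_le_abs hne
  set β := distInt (B * γ) with hβ
  set β' := distInt (B' * γ) with hβ'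
  have h6 : |((A' * B - A * B' : ℤ) : ℝ)| ≤ B * β' + B' * β := by
    have e : ((A' * B - A * B' : ℤ) : ℝ) = B' * ((B : ℝ) * γ - A) - B * ((B' : ℝ) * γ - A') := by
      push_cast; ring
    rw [e]
    calc |(B' : ℝ) * ((B : ℝ) * γ - A) - B * ((B' : ℝ) * γ - A')|
        ≤ |(B' : ℝ) * ((B : ℝ) * γ - A)| + |(B : ℝ) * ((B' : ℝ) * γ - A')| := abs_sub _ _
      _ = B * β' + B' * β := by
          rw [abs_mul, abs_mul, abs_of_pos hBR, abs_of_pos hBR', hβ, hβ']
          unfold distInt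
          ring
  have h7 : B * β' ≤ 1 / 4 := by
    have : (B : ℝ) * β' ≤ B * (4 * s) := mul_le_mul_of_nonneg_left (by linarith only [h4, h1', h1]) hBR.le
    linarith only [hm, this]
  have h8 : 3 / 4 ≤ B' * β := by linarith only [h6, h5, h7]
  have h9 : 3 / 16 ≤ B' * s := by
    have : (B' : ℝ) * β ≤ B' * (4 * s) := mul_le_mul_of_nonneg_left h1 hBR'.le
    linarith only [h6, this, h5, h7]
  have h10 : 3 / 16 * (1 / s) ≤ B' := by
    rw [mul_one_div, div_le_iff₀ hs]; exact h9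
  have h11 : (B : ℝ) ^ 4 ≤ 1 / s := by
    rw [le_div_iff₀ hs]; exact h3
  have h12 : 1 / s₁ ≤ 1 / s := one_div_le_one_div_of_le hs hss₁
  have h13 : max ((B : ℝ) ^ 4) (1 / s₁) ≤ 1 / s := max_le h11 h12
  linarith only [h10, h13]

end Vale.P028
end

section

/-!
# Definitions for Theorem B (every real `γ`, loss `(log log q)^ε`)
-/

namespace Vale.P028

open Finset MeasureTheory

/-- The denominator used to sift `q` (with `x = min (ψ q) s₁`): the largest bad `B` with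
`B ^ 4 * x ≤ 1`, and `1` if there is none. -/
noncomputable def Bsel (γ s₁ x : ℝ) : ℕ :=
  by classical exact max 1 (Nat.findGreatest (fun B => Bad γ s₁ B ∧ (B : ℝ) ^ 4 * x ≤ 1) ⌊1 / x⌋₊)

/-- The numerator going with `B`. -/
noncomputable def Anum (γ : ℝ) (B : ℕ) : ℤ := round ((B : ℝ) * γ)

/-- The sifted set of `q`. -/
def GB (γ ρ : ℝ) (q B : ℕ) (A : ℤ) : Set ℝ :=
  GS γ q ρ (fun al => Int.gcd (al * B + A) q = 1)

/-- The weight of `q`. -/
noncomputable def cB (q B : ℕ) : ℝ := ∏ p ∈ q.primeFactors.filter (fun p => p ∣ B), (1 - 1 / (p : ℝ))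

/-- The linear form of a sheet. -/
def nt (u v B₁ : ℕ) (A₁ : ℤ) (B₂ : ℕ) (A₂ t : ℤ) : ℤ :=
  B₁ * B₂ * t - u * B₁ * A₂ + v * B₂ * A₁

open Classical in
/-- The cost of the sheet `t` (`u, v` are the cofactors, `g` the gcd). -/
noncomputable def Kt (g u v B₁ : ℕ) (A₁ : ℤ) (B₂ : ℕ) (A₂ t : ℤ) : ℝ :=
  if (∀ p ∈ u.primeFactors, ¬ p ∣ B₁ → ¬ (p : ℤ) ∣ B₁ * t + v * A₁) ∧
      (∀ p ∈ v.primeFactors, ¬ p ∣ B₂ → ¬ (p : ℤ) ∣ B₂ * t - u * A₂) then
    (∏ p ∈ u.primeFactors.filter (fun p => ¬ p ∣ B₁), (1 - 1 / (p : ℝ))⁻¹) *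
    (∏ p ∈ v.primeFactors.filter (fun p => ¬ p ∣ B₂), (1 - 1 / (p : ℝ))⁻¹) *
    ∏ p ∈ g.primeFactors.filter (fun p => ¬ p ∣ u ∧ ¬ p ∣ v ∧ ¬ p ∣ B₁ ∧ ¬ p ∣ B₂ ∧
      (p : ℤ) ∣ nt u v B₁ A₁ B₂ A₂ t), (1 - 1 / (p : ℝ))⁻¹
  else 0

/-- The sheets of a pair with cofactors `u, v` at distance `D`. -/
noncomputable def sheets (γ : ℝ) (u v : ℕ) (D : ℝ) : Finset ℤ :=
  (Finset.Icc ⌊((u : ℝ) - v) * γ - 2 * D⌋ ⌈((u : ℝ) - v) * γ + 2 * D⌉).filter
    (fun t => |(t : ℝ) - ((u : ℝ) - v) * γ| < 2 * D)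

/-- `D = max (v ρ₁) (u ρ₂)`. -/
noncomputable def Dpr (u v : ℕ) (ρ₁ ρ₂ : ℝ) : ℝ := max ((v : ℝ) * ρ₁) ((u : ℝ) * ρ₂)

end Vale.P028
end

section

/-!
# Definitions for Theorem K (all real `γ`)
-/

namespace Vale.P028

open Finset MeasureTheory

/-- `∑_{p ∣ n, p > T} 1/p`. -/
noncomputable def LL (T : ℝ) (n : ℕ) : ℝ :=
  ∑ p ∈ n.primeFactors.filter (fun p : ℕ => T < (p : ℝ)), 1 / (p : ℝ)

/-- `∏_{p ∈ Ps} (1 - 1/p)`. -/
noncomputable def pr (Ps : Finset ℕ) : ℝ := ∏ p ∈ Ps, (1 - 1 / (p : ℝ))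

/-- `∏_{p ∣ n} (1 - 1/p)⁻¹ = n / φ(n)`. -/
noncomputable def GG (n : ℕ) : ℝ := ∏ p ∈ n.primeFactors, (1 - 1 / (p : ℝ))⁻¹

/-- `∏_{p ∣ n, p > D} (1 - 1/p)⁻¹`. -/
noncomputable def GT (D : ℝ) (n : ℕ) : ℝ :=
  ∏ p ∈ n.primeFactors.filter (fun p : ℕ => D < (p : ℝ)), (1 - 1 / (p : ℝ))⁻¹

/-- largest prime factor (`0` for `n ≤ 1`) -/
noncomputable def gpf (n : ℕ) : ℕ := n.primeFactors.sup id

open Classical in
/-- weighted sum over the pairs of `R`. -/
noncomputable def wsum (R : ℕ → ℕ → Prop) (N : ℕ) (f h : ℕ → ℝ) (G : ℕ → ℕ → ℝ) : ℝ :=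
  ∑ q ∈ Icc 1 N, ∑ r ∈ Icc 1 N, if R q r then f q * h r * G q r else 0

/-- Far pairs at the level `s` (type (a)). -/
def TA (γ : ℝ) (ψ : ℕ → ℝ) (s : ℝ) (q r : ℕ) : Prop :=
  Rel γ ψ s q r ∧ Far γ s (cofac q r) (cofac r q) ∧
    s / 2 < max ((cofac r q : ℝ) * ψ q) ((cofac q r : ℝ) * ψ r)

/-- Unbalanced pairs at the level `s`. -/
def UB (ψ : ℕ → ℝ) (s : ℝ) (q r : ℕ) : Prop :=
  (cofac r q : ℝ) * ψ q ≤ s ∧ (cofac q r : ℝ) * ψ r ≤ s ∧
    ((cofac r q : ℝ) * ψ q ≤ s ^ 2 ∨ (cofac q r : ℝ) * ψ r ≤ s ^ 2)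

/-- The sifting denominator for arcs of size `x`. -/
noncomputable def Bq (γ x : ℝ) : ℕ := Bsel γ (1 / 1024) (min x (1 / 1024))

/-- The corresponding numerator. -/
noncomputable def Aq (γ x : ℝ) : ℤ := Anum γ (Bq γ x)

/-- `K = max 1 (‖B γ‖ / x)`. -/
noncomputable def KK (γ x : ℝ) : ℝ := max 1 (distInt ((Bq γ x : ℝ) * γ) / x)

/-- The sifting starts above `yK`. -/
noncomputable def yK (γ x : ℝ) : ℝ := 2 + 2 * Real.log (2 * Bq γ x * KK γ x)

/-- The sifting primes of `q`. -/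
noncomputable def PK (γ x : ℝ) (q : ℕ) : Finset ℕ :=
  q.primeFactors.filter (fun p : ℕ => yK γ x < (p : ℝ) ∧ ¬ p ∣ Bq γ x)

/-- Allowed centres of `q`. -/
def AK (γ x : ℝ) (q : ℕ) (al : ℤ) : Prop :=
  ∀ p ∈ PK γ x q, ¬ (p : ℤ) ∣ al * (Bq γ x : ℤ) + Aq γ x

/-- Weights: thinning by the primes that are not sifted. -/
noncomputable def wK (γ x : ℝ) (q : ℕ) : ℝ := ((q.totient : ℝ) / q) / pr (PK γ x q)

/-- The sifted sets. -/
def GK (γ : ℝ) (ψ : ℕ → ℝ) (q : ℕ) : Set ℝ := GS γ q (ψ q) (AK γ (ψ q) q)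

end Vale.P028
end

section

/-!
One dimensional inequality behind the tensor inequality: a Hoelder type inequality on the
integers with kernel weights `p^(-|d|)` and constant `1 + C/p`.
-/

namespace Vale.P028

open Finset

/-- Sum of powers of `r` over nonzero natural numbers. -/
theorem sum_pow_nat_le {r : ℝ} (h0 : 0 ≤ r) (h1 : r < 1) (G : Finset ℕ) (hG : ∀ n ∈ G, n ≠ 0) :
    ∑ n ∈ G, r ^ n ≤ r / (1 - r) := by
  have hs : Summable (fun n : ℕ => r ^ n) := summable_geometric_of_lt_one h0 h1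
  have hs' : Summable (fun n : ℕ => r ^ (n + 1)) := (summable_nat_add_iff 1).2 hs
  have ht : ∑' n : ℕ, r ^ (n + 1) = r / (1 - r) := by
    have h := hs.tsum_eq_zero_add
    rw [tsum_geometric_of_lt_one h0 h1] at h
    have : (1 - r) ≠ 0 := by linarith only [h1]
    have h2 : ∑' n : ℕ, r ^ (n + 1) = (1 - r)⁻¹ - 1 := by
      rw [pow_zero] at h
      linarith only [h]
    rw [h2]
    field_simp
    ring
  rw [← ht]
  have himg : ∑ n ∈ G, r ^ n = ∑ n ∈ G.image (fun n => n - 1), r ^ (n + 1) := by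
    rw [Finset.sum_image]
    · refine Finset.sum_congr rfl fun n hn => ?_
      have := hG n hn
      congr 1
      omega
    · intro a ha b hb hab
      have h1 := hG a ha
      have h2 := hG b hb
      simp only at hab
      omega
  rw [himg]
  exact hs'.sum_le_tsum _ (fun n _ => by (clear * - h0; positivity))

/-- Sum of powers of `r` over nonzero integers. -/
theorem sum_pow_int_le {r : ℝ} (h0 : 0 ≤ r) (h1 : r < 1) (F : Finset ℤ) (hF : ∀ d ∈ F, d ≠ 0) :
    ∑ d ∈ F, r ^ d.natAbs ≤ 2 * (r / (1 - r)) := by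
  have hsplit : ∑ d ∈ F, r ^ d.natAbs
      = ∑ d ∈ F.filter (fun d => 0 < d), r ^ d.natAbs
        + ∑ d ∈ F.filter (fun d => ¬ 0 < d), r ^ d.natAbs :=
    (Finset.sum_filter_add_sum_filter_not F _ _).symm
  have hA : ∑ d ∈ F.filter (fun d => 0 < d), r ^ d.natAbs ≤ r / (1 - r) := by
    have : ∑ d ∈ F.filter (fun d => 0 < d), r ^ d.natAbs
        = ∑ n ∈ (F.filter (fun d => 0 < d)).image Int.natAbs, r ^ n := by
      rw [Finset.sum_image]
      intro a ha b hb hab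
      simp only [Finset.coe_filter, Set.mem_ofPred_eq] at ha hb
      omega
    rw [this]
    refine sum_pow_nat_le h0 h1 _ ?_
    intro n hn
    obtain ⟨d, hd, rfl⟩ := Finset.mem_image.1 hn
    have := hF d (Finset.mem_filter.1 hd).1
    omega
  have hB : ∑ d ∈ F.filter (fun d => ¬ 0 < d), r ^ d.natAbs ≤ r / (1 - r) := by
    have : ∑ d ∈ F.filter (fun d => ¬ 0 < d), r ^ d.natAbs
        = ∑ n ∈ (F.filter (fun d => ¬ 0 < d)).image Int.natAbs, r ^ n := by
      rw [Finset.sum_image]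
      intro a ha b hb hab
      simp only [Finset.coe_filter, Set.mem_ofPred_eq] at ha hb
      omega
    rw [this]
    refine sum_pow_nat_le h0 h1 _ ?_
    intro n hn
    obtain ⟨d, hd, rfl⟩ := Finset.mem_image.1 hn
    have := hF d (Finset.mem_filter.1 hd).1
    omega
  linarith only [hsplit, hB, hA]

/-- Weighted inequality between geometric and arithmetic means, three terms. -/
theorem amgm3 {α β s c : ℝ} (hα : 0 < α) (hβ : 0 < β) (hs : 0 < s) (hsum : α + β + s = 1)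
    (hc : 0 < c) {X Y Z : ℝ} (hX : 0 ≤ X) (hY : 0 ≤ Y) (hZ : 0 ≤ Z) :
    X ^ α * Y ^ β * Z ^ s ≤ c * X + c * Y + c ^ (-((α + β) / s)) * Z := by
  have hc' : 0 ≤ c ^ (-((α + β) / s)) := (Real.rpow_pos_of_pos hc _).le
  have h := Real.geom_mean_le_arith_mean3_weighted hα.le hβ.le hs.le
    (mul_nonneg hc.le hX) (mul_nonneg hc.le hY) (mul_nonneg hc' hZ) hsum
  have e : (c * X) ^ α * (c * Y) ^ β * (c ^ (-((α + β) / s)) * Z) ^ s
      = X ^ α * Y ^ β * Z ^ s := by
    rw [Real.mul_rpow hc.le hX, Real.mul_rpow hc.le hY, Real.mul_rpow hc' hZ, ← Real.rpow_mul hc.le]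
    have : -((α + β) / s) * s = -(α + β) := by field_simp
    rw [this]
    have h3 : c ^ α * c ^ β * c ^ (-(α + β)) = 1 := by
      rw [← Real.rpow_add hc, ← Real.rpow_add hc]
      simp
    calc c ^ α * X ^ α * (c ^ β * Y ^ β) * (c ^ (-(α + β)) * Z ^ s)
        = (c ^ α * c ^ β * c ^ (-(α + β))) * (X ^ α * Y ^ β * Z ^ s) := by ring
      _ = _ := by rw [h3, one_mul]
  rw [e] at h
  refine h.trans ?_
  have hα1 : α ≤ 1 := by linarith only [hβ, hs, hsum]
  have hβ1 : β ≤ 1 := by linarith only [hα, hs, hsum]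
  have hs1 : s ≤ 1 := by linarith only [hβ, hα, hsum]
  have i1 : α * (c * X) ≤ c * X := mul_le_of_le_one_left (mul_nonneg hc.le hX) hα1
  have i2 : β * (c * Y) ≤ c * Y := mul_le_of_le_one_left (mul_nonneg hc.le hY) hβ1
  have i3 : s * (c ^ (-((α + β) / s)) * Z) ≤ c ^ (-((α + β) / s)) * Z :=
    mul_le_of_le_one_left (mul_nonneg hc' hZ) hs1
  linarith only [i3, i2, i1]

/-- The kernel `p^(-s |d|)`. -/
noncomputable def ker (p s : ℝ) (d : ℤ) : ℝ := (p⁻¹ ^ d.natAbs) ^ s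

theorem ker_nonneg {p : ℝ} (hp : 2 ≤ p) (s : ℝ) (d : ℤ) : 0 ≤ ker p s d := by
  have : 0 ≤ p⁻¹ := by positivity
  exact Real.rpow_nonneg (pow_nonneg this _) _

theorem ker_zero (p s : ℝ) : ker p s 0 = 1 := by
  simp only [ker, Int.natAbs_zero, pow_zero, Real.one_rpow]

theorem ker_eq {p : ℝ} (hp : 2 ≤ p) (s : ℝ) (d : ℤ) : ker p s d = ((p⁻¹) ^ s) ^ d.natAbs := by
  have h0 : 0 ≤ p⁻¹ := by positivity
  unfold ker
  rw [← Real.rpow_natCast, ← Real.rpow_natCast, ← Real.rpow_mul h0, ← Real.rpow_mul h0, mul_comm]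

theorem sum_ker_le {p s : ℝ} (hp : 2 ≤ p) (hs : 0 < s) (F : Finset ℤ) (hF : ∀ d ∈ F, d ≠ 0) :
    ∑ d ∈ F, ker p s d ≤ 2 * ((p⁻¹) ^ s / (1 - (p⁻¹) ^ s)) := by
  have h0 : 0 ≤ (p⁻¹) ^ s := Real.rpow_nonneg (by positivity) _
  have h1 : (p⁻¹) ^ s < 1 := by
    refine Real.rpow_lt_one (by positivity) ?_ hs
    rw [inv_lt_one₀ (by linarith only [hp])]
    linarith only [hp]
  simp_rw [ker_eq hp]
  exact sum_pow_int_le h0 h1 F hF

/-- Off-diagonal part. -/
theorem offdiag_le {α p s : ℝ} (hp : 2 ≤ p) (hs : 0 < s) (I J : Finset ℕ)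
    (x y : ℕ → ℝ) (hx : ∀ i, 0 ≤ x i) (hy : ∀ i, 0 ≤ y i) :
    ∑ i ∈ I, ∑ j ∈ J.filter (fun j => i ≠ j), x i ^ α * y j ^ α * ker p s ((i : ℤ) - j)
      ≤ 2 * ((p⁻¹) ^ s / (1 - (p⁻¹) ^ s))
        * ((∑ i ∈ I, x i ^ (2 * α) + ∑ j ∈ J, y j ^ (2 * α)) / 2) := by
  set η := 2 * ((p⁻¹) ^ s / (1 - (p⁻¹) ^ s)) with hη
  have hsq : ∀ t : ℝ, 0 ≤ t → (t ^ α) ^ 2 = t ^ (2 * α) := by
    intro t ht
    rw [← Real.rpow_natCast, ← Real.rpow_mul ht]
    congr 1
    push_cast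
    ring
  have step : ∀ i j : ℕ, x i ^ α * y j ^ α * ker p s ((i : ℤ) - j)
      ≤ x i ^ (2 * α) / 2 * ker p s ((i : ℤ) - j) + y j ^ (2 * α) / 2 * ker p s ((i : ℤ) - j) := by
    intro i j
    have h1 : x i ^ α * y j ^ α ≤ x i ^ (2 * α) / 2 + y j ^ (2 * α) / 2 := by
      rw [← hsq _ (hx i), ← hsq _ (hy j)]
      linarith only [sq_nonneg (x i ^ α - y j ^ α)]
    have := mul_le_mul_of_nonneg_right h1 (ker_nonneg hp s ((i : ℤ) - j))
    linarith only [this]
  have hrow : ∀ i : ℕ, ∀ K : Finset ℕ, ∑ j ∈ K.filter (fun j => i ≠ j), ker p s ((i : ℤ) - j) ≤ η := by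
    intro i K
    have : ∑ j ∈ K.filter (fun j => i ≠ j), ker p s ((i : ℤ) - j)
        = ∑ d ∈ (K.filter (fun j => i ≠ j)).image (fun j : ℕ => (i : ℤ) - j), ker p s d := by
      rw [Finset.sum_image]
      intro a _ b _ hab
      simp only at hab
      omega
    rw [this]
    refine sum_ker_le hp hs _ ?_
    intro d hd
    obtain ⟨j, hj, rfl⟩ := Finset.mem_image.1 hd
    have := (Finset.mem_filter.1 hj).2
    omega
  have hcol : ∀ j : ℕ, ∀ K : Finset ℕ, ∑ i ∈ K.filter (fun i => i ≠ j), ker p s ((i : ℤ) - j) ≤ η := by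
    intro j K
    have : ∑ i ∈ K.filter (fun i => i ≠ j), ker p s ((i : ℤ) - j)
        = ∑ d ∈ (K.filter (fun i => i ≠ j)).image (fun i : ℕ => (i : ℤ) - j), ker p s d := by
      rw [Finset.sum_image]
      intro a _ b _ hab
      simp only at hab
      omega
    rw [this]
    refine sum_ker_le hp hs _ ?_
    intro d hd
    obtain ⟨i, hi, rfl⟩ := Finset.mem_image.1 hd
    have := (Finset.mem_filter.1 hi).2
    omega
  calc ∑ i ∈ I, ∑ j ∈ J.filter (fun j => i ≠ j), x i ^ α * y j ^ α * ker p s ((i : ℤ) - j)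
      ≤ ∑ i ∈ I, ∑ j ∈ J.filter (fun j => i ≠ j), (x i ^ (2 * α) / 2 * ker p s ((i : ℤ) - j)
          + y j ^ (2 * α) / 2 * ker p s ((i : ℤ) - j)) :=
        Finset.sum_le_sum fun i _ => Finset.sum_le_sum fun j _ => step i j
    _ = ∑ i ∈ I, ∑ j ∈ J.filter (fun j => i ≠ j), x i ^ (2 * α) / 2 * ker p s ((i : ℤ) - j)
        + ∑ i ∈ I, ∑ j ∈ J.filter (fun j => i ≠ j), y j ^ (2 * α) / 2 * ker p s ((i : ℤ) - j) := by
        simp only [sum_add_distrib]
    _ = ∑ i ∈ I, ∑ j ∈ J.filter (fun j => i ≠ j), x i ^ (2 * α) / 2 * ker p s ((i : ℤ) - j)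
        + ∑ j ∈ J, ∑ i ∈ I.filter (fun i => i ≠ j), y j ^ (2 * α) / 2 * ker p s ((i : ℤ) - j) := by
        congr 1
        simp only [Finset.sum_filter]
        rw [Finset.sum_comm]
    _ ≤ ∑ i ∈ I, x i ^ (2 * α) / 2 * η + ∑ j ∈ J, y j ^ (2 * α) / 2 * η := by
        refine add_le_add (Finset.sum_le_sum fun i _ => ?_) (Finset.sum_le_sum fun j _ => ?_)
        · rw [← Finset.mul_sum]
          exact mul_le_mul_of_nonneg_left (hrow i J)
            (div_nonneg (Real.rpow_nonneg (hx i) _) (by norm_num))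
        · rw [← Finset.mul_sum]
          exact mul_le_mul_of_nonneg_left (hcol j I)
            (div_nonneg (Real.rpow_nonneg (hy j) _) (by norm_num))
    _ = η * ((∑ i ∈ I, x i ^ (2 * α) + ∑ j ∈ J, y j ^ (2 * α)) / 2) := by
        rw [← Finset.sum_mul, ← Finset.sum_mul, ← Finset.sum_div, ← Finset.sum_div]
        ring


/-- Bound for a row or a column through the dominating index. -/
theorem cross_le {α β s c p : ℝ} (hα : 0 < α) (hβ : 0 < β) (hs : 0 < s) (hsum : α + β + s = 1)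
    (hc : 0 < c) (hp : 2 ≤ p) (J : Finset ℕ) (D : Finset ℤ) (y : ℕ → ℝ) (z : ℤ → ℝ)
    (hy : ∀ j, 0 ≤ y j) (hz : ∀ d, 0 ≤ z d) (g : ℕ → ℤ) (ginj : Function.Injective g)
    (hg0 : ∀ j ∈ J, g j ≠ 0) (hgD : ∀ j ∈ J, g j ∈ D) :
    ∑ j ∈ J, y j ^ α * z (g j) ^ β * ker p s (g j)
      ≤ c * ∑ j ∈ J, y j + c * ∑ d ∈ D.erase 0, z d + c ^ (-((α + β) / s)) * (4 / p) := by
  have hp0 : 0 < p := by linarith only [hp]
  have hc' : 0 ≤ c ^ (-((α + β) / s)) := (Real.rpow_pos_of_pos hc _).le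
  have h1 : ∑ j ∈ J, y j ^ α * z (g j) ^ β * ker p s (g j)
      ≤ ∑ j ∈ J, (c * y j + c * z (g j) + c ^ (-((α + β) / s)) * (p⁻¹) ^ (g j).natAbs) := by
    refine Finset.sum_le_sum fun j _ => ?_
    exact amgm3 hα hβ hs hsum hc (hy j) (hz _) (by (clear * - hp; positivity))
  refine h1.trans ?_
  rw [Finset.sum_add_distrib, Finset.sum_add_distrib, ← Finset.mul_sum, ← Finset.mul_sum,
    ← Finset.mul_sum]
  have hz' : ∑ j ∈ J, z (g j) ≤ ∑ d ∈ D.erase 0, z d := by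
    rw [← Finset.sum_image (f := z) (s := J) (g := g) (fun a _ b _ h => ginj h)]
    refine Finset.sum_le_sum_of_subset_of_nonneg ?_ (fun d _ _ => hz d)
    intro d hd
    obtain ⟨j, hj, rfl⟩ := Finset.mem_image.1 hd
    exact Finset.mem_erase.2 ⟨hg0 j hj, hgD j hj⟩
  have hw : ∑ j ∈ J, (p⁻¹) ^ (g j).natAbs ≤ 4 / p := by
    have e : ∑ j ∈ J, (p⁻¹) ^ (g j).natAbs = ∑ d ∈ J.image g, (p⁻¹) ^ d.natAbs := by
      rw [Finset.sum_image (fun a _ b _ h => ginj h)]
    rw [e]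
    have hlt : p⁻¹ < 1 := by
      rw [inv_lt_one₀ hp0]
      linarith only [hp]
    refine (sum_pow_int_le (by positivity) hlt _ ?_).trans ?_
    · intro d hd
      obtain ⟨j, hj, rfl⟩ := Finset.mem_image.1 hd
      exact hg0 j hj
    · have h3 : p⁻¹ / (1 - p⁻¹) = 1 / (p - 1) := by
        have : p - 1 ≠ 0 := by linarith only [hp]
        have : 1 - p⁻¹ ≠ 0 := by
          intro h
          linarith only [h, hlt]
        field_simp
      rw [h3, ← mul_div_assoc, div_le_div_iff₀ (by linarith only [hp]) hp0]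
      linarith only [hp]
  have := mul_le_mul_of_nonneg_left hz' hc.le
  have := mul_le_mul_of_nonneg_left hw hc'
  linarith

/-- Near case: both sequences are concentrated at the same index. -/
theorem near_case {α β s c θ η p : ℝ} (hα : 1 / 2 < α) (hβ : 0 < β) (hs : 0 < s)
    (hsum : α + β + s = 1) (hc : 0 < c) (hcβ : c ≤ β / 6) (hcα : c ≤ α / 6)
    (hη : 2 * ((p⁻¹) ^ s / (1 - (p⁻¹) ^ s)) ≤ η) (hη0 : 0 ≤ η)
    (hθ : (1 + η) * θ ^ (2 * α - 1) / 2 ≤ α / 6)
    (hp : 2 ≤ p) (I : Finset ℕ) (D : Finset ℤ) (x y : ℕ → ℝ) (z : ℤ → ℝ)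
    (hx : ∀ j, 0 ≤ x j) (hy : ∀ j, 0 ≤ y j) (hz : ∀ d, 0 ≤ z d)
    (hD : ∀ i ∈ I, ∀ j ∈ I, (i : ℤ) - j ∈ D) (hxs : ∑ i ∈ I, x i ≤ 1) (hys : ∑ i ∈ I, y i ≤ 1)
    (hzs : ∑ d ∈ D, z d ≤ 1) (k : ℕ) (hk : k ∈ I) (hxk : 1 - θ ≤ x k) (hyk : 1 - θ ≤ y k) :
    ∑ i ∈ I, ∑ j ∈ I, x i ^ α * y j ^ α * z ((i : ℤ) - j) ^ β * ker p s ((i : ℤ) - j)
      ≤ 1 + 2 * (c ^ (-((α + β) / s)) * (4 / p)) := by
  have hα0 : 0 < α := by linarith only [hα]
  have h0D : (0 : ℤ) ∈ D := by simpa only [sub_self] using hD k hk k hk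
  set I' := I.erase k with hI'
  set A := ∑ i ∈ I', x i with hA
  set B := ∑ i ∈ I', y i with hB
  set Z := ∑ d ∈ D.erase 0, z d with hZ
  have hxA : x k + A ≤ 1 := by
    rw [hA, hI', Finset.add_sum_erase I x hk]
    exact hxs
  have hyB : y k + B ≤ 1 := by
    rw [hB, hI', Finset.add_sum_erase I y hk]
    exact hys
  have hzZ : z 0 + Z ≤ 1 := by
    rw [hZ, Finset.add_sum_erase D z h0D]
    exact hzs
  have hA0 : 0 ≤ A := Finset.sum_nonneg fun i _ => hx i
  have hB0 : 0 ≤ B := Finset.sum_nonneg fun i _ => hy i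
  have hZ0 : 0 ≤ Z := Finset.sum_nonneg fun i _ => hz i
  have hAθ : A ≤ θ := by linarith only [hxk, hxA]
  have hBθ : B ≤ θ := by linarith only [hyB, hyk]
  have hz1 : ∀ d ∈ D, z d ≤ 1 := fun d hd =>
    (Finset.single_le_sum (fun i _ => hz i) hd).trans hzs
  have hA1 : A ≤ 1 := by linarith only [hx k, hxA]
  have hB1 : B ≤ 1 := by linarith only [hy k, hyB]
  have hZ1 : Z ≤ 1 := by linarith only [hz 0, hzZ]
  -- the corner term
  have T00 : x k ^ α * y k ^ α * z ((k : ℤ) - k) ^ β * ker p s ((k : ℤ) - k)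
      ≤ 1 - (α * A + α * B + β * Z) / 3 := by
    rw [sub_self, ker_zero, mul_one]
    have e1 : x k ^ α ≤ 1 - α * A := by
      have h1 : x k ^ α ≤ (1 + (-A)) ^ α :=
        Real.rpow_le_rpow (hx k) (by linarith only [hxA]) hα0.le
      have h2 := rpow_one_add_le_one_add_mul_self (s := -A) (by linarith only [hA1]) hα0.le
        (by linarith only [hc, hs, hsum, hcβ] : α ≤ 1)
      linarith only [h2, h1]
    have e2 : y k ^ α ≤ 1 - α * B := by
      have h1 : y k ^ α ≤ (1 + (-B)) ^ α :=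
        Real.rpow_le_rpow (hy k) (by linarith only [hyB]) hα0.le
      have h2 := rpow_one_add_le_one_add_mul_self (s := -B) (by linarith only [hB1]) hα0.le
        (by linarith only [hc, hs, hsum, hcβ] : α ≤ 1)
      linarith only [h1, h2]
    have e3 : z 0 ^ β ≤ 1 - β * Z := by
      have h1 : z 0 ^ β ≤ (1 + (-Z)) ^ β :=
        Real.rpow_le_rpow (hz 0) (by linarith only [hzZ]) hβ.le
      have h2 := rpow_one_add_le_one_add_mul_self (s := -Z) (by linarith only [hZ1]) hβ.le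
        (by linarith only [hα, hs, hsum] : β ≤ 1)
      linarith only [h2, h1]
    have f1 : 0 ≤ x k ^ α := Real.rpow_nonneg (hx k) _
    have f2 : 0 ≤ y k ^ α := Real.rpow_nonneg (hy k) _
    have f3 : 0 ≤ z 0 ^ β := Real.rpow_nonneg (hz 0) _
    have g1 : 0 ≤ α * A := by (clear * - hα hA0; positivity)
    have g2 : 0 ≤ α * B := by (clear * - hα hB0; positivity)
    have g3 : 0 ≤ β * Z := by (clear * - hβ hZ0; positivity)
    have m1 : x k ^ α * y k ^ α * z 0 ^ β ≤ x k ^ α := by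
      calc x k ^ α * y k ^ α * z 0 ^ β ≤ x k ^ α * 1 * 1 := by
            gcongr
            · linarith only [g2, e2]
            · linarith only [g3, e3]
        _ = _ := by ring
    have m2 : x k ^ α * y k ^ α * z 0 ^ β ≤ y k ^ α := by
      calc x k ^ α * y k ^ α * z 0 ^ β ≤ 1 * y k ^ α * 1 := by
            gcongr
            · linarith only [g1, e1]
            · linarith only [g3, e3]
        _ = _ := by ring
    have m3 : x k ^ α * y k ^ α * z 0 ^ β ≤ z 0 ^ β := by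
      calc x k ^ α * y k ^ α * z 0 ^ β ≤ 1 * 1 * z 0 ^ β := by
            gcongr
            · linarith only [g1, e1]
            · linarith only [g2, e2]
        _ = _ := by ring
    linarith only [m3, e3, m2, e2, m1, e1]
  -- the row
  have hcd : 0 ≤ c ^ (-((α + β) / s)) * (4 / p) := by
    have : 0 ≤ c ^ (-((α + β) / s)) := (Real.rpow_pos_of_pos hc _).le
    positivity
  have hxk1 : x k ^ α ≤ 1 := Real.rpow_le_one (hx k) (by linarith only [hA0, hxA]) hα0.le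
  have hyk1 : y k ^ α ≤ 1 := Real.rpow_le_one (hy k) (by linarith only [hB0, hyB]) hα0.le
  have T01 : ∑ j ∈ I', x k ^ α * y j ^ α * z ((k : ℤ) - j) ^ β * ker p s ((k : ℤ) - j)
      ≤ c * B + c * Z + c ^ (-((α + β) / s)) * (4 / p) := by
    have h := cross_le hα0 hβ hs hsum hc hp I' D y z hy hz (fun j : ℕ => (k : ℤ) - j)
      (fun a b h => by simp only at h; omega)
      (fun j hj => by
        have := (Finset.mem_erase.1 hj).1
        omega)
      (fun j hj => hD k hk j (Finset.mem_erase.1 hj).2)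
    refine le_trans ?_ h
    refine Finset.sum_le_sum fun j _ => ?_
    have : 0 ≤ y j ^ α * z ((k : ℤ) - j) ^ β * ker p s ((k : ℤ) - j) :=
      mul_nonneg (mul_nonneg (Real.rpow_nonneg (hy j) _) (Real.rpow_nonneg (hz _) _))
        (ker_nonneg hp s _)
    calc x k ^ α * y j ^ α * z ((k : ℤ) - j) ^ β * ker p s ((k : ℤ) - j)
        = x k ^ α * (y j ^ α * z ((k : ℤ) - j) ^ β * ker p s ((k : ℤ) - j)) := by ring
      _ ≤ 1 * (y j ^ α * z ((k : ℤ) - j) ^ β * ker p s ((k : ℤ) - j)) :=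
          mul_le_mul_of_nonneg_right hxk1 this
      _ = _ := by ring
  have T10 : ∑ i ∈ I', x i ^ α * y k ^ α * z ((i : ℤ) - k) ^ β * ker p s ((i : ℤ) - k)
      ≤ c * A + c * Z + c ^ (-((α + β) / s)) * (4 / p) := by
    have h := cross_le hα0 hβ hs hsum hc hp I' D x z hx hz (fun j : ℕ => (j : ℤ) - k)
      (fun a b h => by simp only at h; omega)
      (fun j hj => by
        have := (Finset.mem_erase.1 hj).1
        omega)
      (fun j hj => hD j (Finset.mem_erase.1 hj).2 k hk)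
    refine le_trans ?_ h
    refine Finset.sum_le_sum fun j _ => ?_
    have : 0 ≤ x j ^ α * z ((j : ℤ) - k) ^ β * ker p s ((j : ℤ) - k) :=
      mul_nonneg (mul_nonneg (Real.rpow_nonneg (hx j) _) (Real.rpow_nonneg (hz _) _))
        (ker_nonneg hp s _)
    calc x j ^ α * y k ^ α * z ((j : ℤ) - k) ^ β * ker p s ((j : ℤ) - k)
        = y k ^ α * (x j ^ α * z ((j : ℤ) - k) ^ β * ker p s ((j : ℤ) - k)) := by ring
      _ ≤ 1 * (x j ^ α * z ((j : ℤ) - k) ^ β * ker p s ((j : ℤ) - k)) :=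
          mul_le_mul_of_nonneg_right hyk1 this
      _ = _ := by ring
  -- the rest
  have hpow : ∀ t : ℝ, 0 ≤ t → t ≤ θ → t ^ (2 * α) ≤ θ ^ (2 * α - 1) * t := by
    intro t ht htθ
    rcases eq_or_lt_of_le ht with h | h
    · rw [← h, Real.zero_rpow (by linarith only [hα]), mul_zero]
    · have : t ^ (2 * α) = t ^ (2 * α - 1) * t := by
        rw [← Real.rpow_add_one h.ne']
        congr 1
        ring
      rw [this]
      exact mul_le_mul_of_nonneg_right (Real.rpow_le_rpow ht htθ (by linarith only [hα])) ht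
  have hX2 : ∑ i ∈ I', x i ^ (2 * α) ≤ θ ^ (2 * α - 1) * A := by
    rw [hA, Finset.mul_sum]
    refine Finset.sum_le_sum fun i hi => hpow _ (hx i) ?_
    exact (Finset.single_le_sum (fun i _ => hx i) hi).trans hAθ
  have hY2 : ∑ i ∈ I', y i ^ (2 * α) ≤ θ ^ (2 * α - 1) * B := by
    rw [hB, Finset.mul_sum]
    refine Finset.sum_le_sum fun i hi => hpow _ (hy i) ?_
    exact (Finset.single_le_sum (fun i _ => hy i) hi).trans hBθ
  have hsq : ∀ t : ℝ, 0 ≤ t → (t ^ α) ^ 2 = t ^ (2 * α) := by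
    intro t ht
    rw [← Real.rpow_natCast, ← Real.rpow_mul ht]
    congr 1
    push_cast
    ring
  have T11 : ∑ i ∈ I', ∑ j ∈ I', x i ^ α * y j ^ α * z ((i : ℤ) - j) ^ β * ker p s ((i : ℤ) - j)
      ≤ α / 6 * (A + B) := by
    have h1 : ∑ i ∈ I', ∑ j ∈ I', x i ^ α * y j ^ α * z ((i : ℤ) - j) ^ β * ker p s ((i : ℤ) - j)
        ≤ ∑ i ∈ I', ∑ j ∈ I', x i ^ α * y j ^ α * ker p s ((i : ℤ) - j) := by
      refine Finset.sum_le_sum fun i hi => Finset.sum_le_sum fun j hj => ?_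
      have hzd : z ((i : ℤ) - j) ^ β ≤ 1 :=
        Real.rpow_le_one (hz _) (hz1 _ (hD i (Finset.mem_erase.1 hi).2 j (Finset.mem_erase.1 hj).2))
          hβ.le
      have hxy : 0 ≤ x i ^ α * y j ^ α :=
        mul_nonneg (Real.rpow_nonneg (hx i) _) (Real.rpow_nonneg (hy j) _)
      have hk' := ker_nonneg hp s ((i : ℤ) - j)
      calc x i ^ α * y j ^ α * z ((i : ℤ) - j) ^ β * ker p s ((i : ℤ) - j)
          ≤ x i ^ α * y j ^ α * 1 * ker p s ((i : ℤ) - j) := by (clear * - hzd hxy hk'; gcongr)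
        _ = _ := by ring
    have h2 : ∑ i ∈ I', ∑ j ∈ I', x i ^ α * y j ^ α * ker p s ((i : ℤ) - j)
        = ∑ i ∈ I', ∑ j ∈ I'.filter (fun j => i ≠ j), x i ^ α * y j ^ α * ker p s ((i : ℤ) - j)
          + ∑ i ∈ I', x i ^ α * y i ^ α := by
      rw [← Finset.sum_add_distrib]
      refine Finset.sum_congr rfl fun i hi => ?_
      have e := Finset.sum_filter_add_sum_filter_not I' (fun j => i ≠ j)
        (fun j => x i ^ α * y j ^ α * ker p s ((i : ℤ) - j))
      rw [← e]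
      congr 1
      have : I'.filter (fun j => ¬ i ≠ j) = {i} := by
        ext j
        simp only [Finset.mem_filter, not_not, Finset.mem_singleton]
        constructor
        · rintro ⟨_, h⟩
          exact h.symm
        · rintro rfl
          exact ⟨hi, rfl⟩
      rw [this, Finset.sum_singleton, sub_self, ker_zero, mul_one]
    have h3 := offdiag_le (α := α) hp hs I' I' x y hx hy
    have h4 : ∑ i ∈ I', x i ^ α * y i ^ α
        ≤ (∑ i ∈ I', x i ^ (2 * α) + ∑ j ∈ I', y j ^ (2 * α)) / 2 := by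
      rw [← Finset.sum_add_distrib, Finset.sum_div]
      refine Finset.sum_le_sum fun i _ => ?_
      rw [← hsq _ (hx i), ← hsq _ (hy i)]
      linarith only [sq_nonneg (x i ^ α - y i ^ α)]
    have hS : 0 ≤ (∑ i ∈ I', x i ^ (2 * α) + ∑ j ∈ I', y j ^ (2 * α)) / 2 := by
      have a1 : 0 ≤ ∑ i ∈ I', x i ^ (2 * α) :=
        Finset.sum_nonneg fun i _ => Real.rpow_nonneg (hx i) _
      have a2 : 0 ≤ ∑ i ∈ I', y i ^ (2 * α) :=
        Finset.sum_nonneg fun i _ => Real.rpow_nonneg (hy i) _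
      linarith only [a1, a2]
    have h5 : (∑ i ∈ I', x i ^ (2 * α) + ∑ j ∈ I', y j ^ (2 * α)) / 2
        ≤ θ ^ (2 * α - 1) * (A + B) / 2 := by
      have := add_le_add hX2 hY2
      linarith only [hY2, hX2]
    have h6 : (1 + η) * ((∑ i ∈ I', x i ^ (2 * α) + ∑ j ∈ I', y j ^ (2 * α)) / 2)
        ≤ (1 + η) * (θ ^ (2 * α - 1) * (A + B) / 2) :=
      mul_le_mul_of_nonneg_left h5 (by linarith only [hη0])
    have h7 : 2 * ((p⁻¹) ^ s / (1 - (p⁻¹) ^ s))
        * ((∑ i ∈ I', x i ^ (2 * α) + ∑ j ∈ I', y j ^ (2 * α)) / 2)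
        ≤ η * ((∑ i ∈ I', x i ^ (2 * α) + ∑ j ∈ I', y j ^ (2 * α)) / 2) :=
      mul_le_mul_of_nonneg_right hη hS
    have h8 : (1 + η) * (θ ^ (2 * α - 1) * (A + B) / 2) = ((1 + η) * θ ^ (2 * α - 1) / 2) * (A + B) := by
      ring
    have h9 : ((1 + η) * θ ^ (2 * α - 1) / 2) * (A + B) ≤ α / 6 * (A + B) :=
      mul_le_mul_of_nonneg_right hθ (by linarith only [hA0, hB0])
    linarith only [h9, h2, h3, h1, h4, h7, h6]
  -- total
  have split : ∑ i ∈ I, ∑ j ∈ I, x i ^ α * y j ^ α * z ((i : ℤ) - j) ^ β * ker p s ((i : ℤ) - j)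
      = x k ^ α * y k ^ α * z ((k : ℤ) - k) ^ β * ker p s ((k : ℤ) - k)
        + ∑ j ∈ I', x k ^ α * y j ^ α * z ((k : ℤ) - j) ^ β * ker p s ((k : ℤ) - j)
        + (∑ i ∈ I', x i ^ α * y k ^ α * z ((i : ℤ) - k) ^ β * ker p s ((i : ℤ) - k)
          + ∑ i ∈ I', ∑ j ∈ I', x i ^ α * y j ^ α * z ((i : ℤ) - j) ^ β * ker p s ((i : ℤ) - j)) := by
    rw [← Finset.add_sum_erase I _ hk, ← Finset.add_sum_erase I (fun j => x k ^ α * y j ^ α *
      z ((k : ℤ) - j) ^ β * ker p s ((k : ℤ) - j)) hk, ← Finset.sum_add_distrib]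
    congr 1
    refine Finset.sum_congr rfl fun i _ => ?_
    rw [← Finset.add_sum_erase I _ hk]
  rw [split]
  have i1 : c * B ≤ α / 6 * B := mul_le_mul_of_nonneg_right hcα hB0
  have i2 : c * A ≤ α / 6 * A := mul_le_mul_of_nonneg_right hcα hA0
  have i3 : c * Z ≤ β / 6 * Z := mul_le_mul_of_nonneg_right hcβ hZ0
  linarith only [T11, i3, i1, T10, T01, i2, T00]

/-- Far case: no common dominating index. -/
theorem far_case {α β s θ p : ℝ} (hα : 1 / 2 < α) (hβ : 0 < β) (hs : 0 < s) (hθ1 : θ ≤ 1)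
    (hp : 2 ≤ p) (I : Finset ℕ) (D : Finset ℤ) (x y : ℕ → ℝ) (z : ℤ → ℝ)
    (hx : ∀ j, 0 ≤ x j) (hy : ∀ j, 0 ≤ y j) (hz : ∀ d, 0 ≤ z d)
    (hD : ∀ i ∈ I, ∀ j ∈ I, (i : ℤ) - j ∈ D) (hxs : ∑ i ∈ I, x i ≤ 1) (hys : ∑ i ∈ I, y i ≤ 1)
    (hzs : ∑ d ∈ D, z d ≤ 1) (hfar : ∀ k ∈ I, 1 - θ ≤ x k → y k ≤ 1 - θ) :
    ∑ i ∈ I, ∑ j ∈ I, x i ^ α * y j ^ α * z ((i : ℤ) - j) ^ β * ker p s ((i : ℤ) - j)
      ≤ (1 - θ) ^ (α - 1 / 2) + 2 * ((p⁻¹) ^ s / (1 - (p⁻¹) ^ s)) := by
  have hα0 : 0 < α := by linarith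
  have hz1 : ∀ d ∈ D, z d ≤ 1 := fun d hd =>
    (Finset.single_le_sum (fun i _ => hz i) hd).trans hzs
  have hx1 : ∀ i ∈ I, x i ≤ 1 := fun i hi =>
    (Finset.single_le_sum (fun i _ => hx i) hi).trans hxs
  have hy1 : ∀ i ∈ I, y i ≤ 1 := fun i hi =>
    (Finset.single_le_sum (fun i _ => hy i) hi).trans hys
  have h1 : ∑ i ∈ I, ∑ j ∈ I, x i ^ α * y j ^ α * z ((i : ℤ) - j) ^ β * ker p s ((i : ℤ) - j)
      ≤ ∑ i ∈ I, ∑ j ∈ I, x i ^ α * y j ^ α * ker p s ((i : ℤ) - j) := by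
    refine Finset.sum_le_sum fun i hi => Finset.sum_le_sum fun j hj => ?_
    have hzd : z ((i : ℤ) - j) ^ β ≤ 1 :=
      Real.rpow_le_one (hz _) (hz1 _ (hD i hi j hj)) hβ.le
    have hxy : 0 ≤ x i ^ α * y j ^ α :=
      mul_nonneg (Real.rpow_nonneg (hx i) _) (Real.rpow_nonneg (hy j) _)
    have hk' := ker_nonneg hp s ((i : ℤ) - j)
    calc x i ^ α * y j ^ α * z ((i : ℤ) - j) ^ β * ker p s ((i : ℤ) - j)
        ≤ x i ^ α * y j ^ α * 1 * ker p s ((i : ℤ) - j) := by (clear * - hzd hxy hk'; gcongr)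
      _ = _ := by ring
  have h2 : ∑ i ∈ I, ∑ j ∈ I, x i ^ α * y j ^ α * ker p s ((i : ℤ) - j)
      = ∑ i ∈ I, ∑ j ∈ I.filter (fun j => i ≠ j), x i ^ α * y j ^ α * ker p s ((i : ℤ) - j)
        + ∑ i ∈ I, x i ^ α * y i ^ α := by
    rw [← Finset.sum_add_distrib]
    refine Finset.sum_congr rfl fun i hi => ?_
    have e := Finset.sum_filter_add_sum_filter_not I (fun j => i ≠ j)
      (fun j => x i ^ α * y j ^ α * ker p s ((i : ℤ) - j))
    rw [← e]
    congr 1
    have : I.filter (fun j => ¬ i ≠ j) = {i} := by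
      ext j
      simp only [Finset.mem_filter, not_not, Finset.mem_singleton]
      constructor
      · rintro ⟨_, h⟩
        exact h.symm
      · rintro rfl
        exact ⟨hi, rfl⟩
    rw [this, Finset.sum_singleton, sub_self, ker_zero, mul_one]
  have h3 := offdiag_le (α := α) hp hs I I x y hx hy
  have hpow : ∀ t : ℝ, 0 ≤ t → t ≤ 1 → t ^ (2 * α) ≤ t := by
    intro t ht ht1
    rcases eq_or_lt_of_le ht with h | h
    · rw [← h, Real.zero_rpow (by linarith only [hα])]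
    · calc t ^ (2 * α) ≤ t ^ (1 : ℝ) :=
          Real.rpow_le_rpow_of_exponent_ge h ht1 (by linarith only [hα])
        _ = t := Real.rpow_one t
  have hX2 : ∑ i ∈ I, x i ^ (2 * α) ≤ 1 :=
    (Finset.sum_le_sum fun i hi => hpow _ (hx i) (hx1 i hi)).trans hxs
  have hY2 : ∑ i ∈ I, y i ^ (2 * α) ≤ 1 :=
    (Finset.sum_le_sum fun i hi => hpow _ (hy i) (hy1 i hi)).trans hys
  have hη0 : 0 ≤ 2 * ((p⁻¹) ^ s / (1 - (p⁻¹) ^ s)) := by
    have h0 : 0 ≤ (p⁻¹) ^ s := Real.rpow_nonneg (by positivity) _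
    have h1 : (p⁻¹) ^ s < 1 := by
      refine Real.rpow_lt_one (by positivity) ?_ hs
      rw [inv_lt_one₀ (by linarith only [hp])]
      linarith only [hp]
    have : 0 ≤ (p⁻¹) ^ s / (1 - (p⁻¹) ^ s) := div_nonneg h0 (by linarith only [h1])
    linarith only [this]
  have h4 : ∑ i ∈ I, ∑ j ∈ I.filter (fun j => i ≠ j), x i ^ α * y j ^ α * ker p s ((i : ℤ) - j)
      ≤ 2 * ((p⁻¹) ^ s / (1 - (p⁻¹) ^ s)) := by
    refine h3.trans ?_
    calc _ ≤ 2 * ((p⁻¹) ^ s / (1 - (p⁻¹) ^ s)) * 1 :=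
          mul_le_mul_of_nonneg_left (by linarith only [hX2, hY2]) hη0
      _ = _ := mul_one _
  have h5 : ∑ i ∈ I, x i ^ α * y i ^ α ≤ (1 - θ) ^ (α - 1 / 2) := by
    have hb : 0 ≤ (1 - θ) ^ (α - 1 / 2) := Real.rpow_nonneg (by linarith only [hθ1]) _
    have key : ∀ i ∈ I, x i ^ α * y i ^ α ≤ (1 - θ) ^ (α - 1 / 2) * ((x i + y i) / 2) := by
      intro i hi
      rw [← Real.mul_rpow (hx i) (hy i)]
      have hxy : x i * y i ≤ 1 - θ := by
        by_cases h : 1 - θ ≤ x i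
        · have := hfar i hi h
          have h1 := hx1 i hi
          linarith only [mul_nonneg (sub_nonneg.2 (hy i)) (sub_nonneg.2 h1), this]
        · push Not at h
          have h1 := hy1 i hi
          linarith only [mul_nonneg (sub_nonneg.2 (hx i)) (sub_nonneg.2 h1), h]
      have hxy0 : 0 ≤ x i * y i := mul_nonneg (hx i) (hy i)
      rcases eq_or_lt_of_le hxy0 with h | h
      · rw [← h, Real.zero_rpow hα0.ne']
        have := hx i
        have := hy i
        (clear β s p hα hβ hs hp I D z hz hD hxs hys hzs hfar hα0 hz1 hx1 hy1 h1 h2 h3 hpow hX2 hY2 hη0 h4 hb hi hxy hxy0 h; positivity)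
      · have e : (x i * y i) ^ α = (x i * y i) ^ (α - 1 / 2) * (x i * y i) ^ (1 / 2 : ℝ) := by
          rw [← Real.rpow_add h]
          congr 1
          ring
        rw [e]
        have e1 : (x i * y i) ^ (α - 1 / 2) ≤ (1 - θ) ^ (α - 1 / 2) :=
          Real.rpow_le_rpow hxy0 hxy (by linarith only [hα])
        have e2 : (x i * y i) ^ (1 / 2 : ℝ) ≤ (x i + y i) / 2 := by
          rw [← Real.sqrt_eq_rpow]
          rw [Real.sqrt_le_left (by linarith only [hx i, hy i])]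
          linarith only [sq_nonneg (x i - y i)]
        exact mul_le_mul e1 e2 (Real.rpow_nonneg hxy0 _) hb
    calc ∑ i ∈ I, x i ^ α * y i ^ α
        ≤ ∑ i ∈ I, (1 - θ) ^ (α - 1 / 2) * ((x i + y i) / 2) := Finset.sum_le_sum key
      _ = (1 - θ) ^ (α - 1 / 2) * ((∑ i ∈ I, x i + ∑ i ∈ I, y i) / 2) := by
          rw [← Finset.mul_sum, ← Finset.sum_div, Finset.sum_add_distrib]
      _ ≤ (1 - θ) ^ (α - 1 / 2) * 1 := mul_le_mul_of_nonneg_left (by linarith only [hxs, hys]) hb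
      _ = _ := mul_one _
  linarith only [h5, h2, h4, h1]

/-- Normalised one dimensional inequality. -/
theorem oneDim_norm {α β s : ℝ} (hα : 1 / 2 < α) (hβ : 0 < β) (hs : 0 < s)
    (hsum : α + β + s = 1) :
    ∃ C ≥ 0, ∀ p : ℝ, 2 ≤ p → ∀ (I : Finset ℕ) (D : Finset ℤ) (x y : ℕ → ℝ) (z : ℤ → ℝ),
      (∀ j, 0 ≤ x j) → (∀ j, 0 ≤ y j) → (∀ d, 0 ≤ z d) →
      (∀ i ∈ I, ∀ j ∈ I, (i : ℤ) - j ∈ D) → ∑ i ∈ I, x i ≤ 1 → ∑ i ∈ I, y i ≤ 1 →
      ∑ d ∈ D, z d ≤ 1 →
      ∑ i ∈ I, ∑ j ∈ I, x i ^ α * y j ^ α * z ((i : ℤ) - j) ^ β * ker p s ((i : ℤ) - j)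
        ≤ 1 + C / p := by
  have hα0 : 0 < α := by linarith only [hα]
  set e2 : ℝ := (2⁻¹ : ℝ) ^ s with he2
  have he20 : 0 < e2 := Real.rpow_pos_of_pos (by norm_num) _
  have he21 : e2 < 1 := Real.rpow_lt_one (by norm_num) (by norm_num) hs
  set η : ℝ := 2 * (e2 / (1 - e2)) with hη
  have hη0 : 0 ≤ η := by
    have : 0 ≤ e2 / (1 - e2) := div_nonneg he20.le (by linarith only [he21])
    linarith only [this]
  -- the dependence on p
  have hηp : ∀ p : ℝ, 2 ≤ p → 2 * ((p⁻¹) ^ s / (1 - (p⁻¹) ^ s)) ≤ η := by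
    intro p hp
    have h1 : (p⁻¹) ^ s ≤ e2 := by
      refine Real.rpow_le_rpow (by positivity) ?_ hs.le
      exact inv_anti₀ (by norm_num) hp
    have h0 : 0 ≤ (p⁻¹) ^ s := Real.rpow_nonneg (by positivity) _
    have : (p⁻¹) ^ s / (1 - (p⁻¹) ^ s) ≤ e2 / (1 - e2) := by
      rw [div_le_div_iff₀ (by linarith only [he21, h1]) (by linarith only [he21])]
      linarith only [h1]
    linarith only [this]
  -- choice of θ
  obtain ⟨θ, hθ0, hθ1, hθ⟩ : ∃ θ : ℝ, 0 < θ ∧ θ ≤ 1 / 2 ∧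
      (1 + η) * θ ^ (2 * α - 1) / 2 ≤ α / 6 := by
    set w : ℝ := α / (3 * (1 + η)) with hw
    have hw0 : 0 < w := by positivity
    refine ⟨min (1 / 2) (w ^ (1 / (2 * α - 1))), ?_, min_le_left _ _, ?_⟩
    · exact lt_min (by norm_num) (Real.rpow_pos_of_pos hw0 _)
    · have hpos : 0 < 2 * α - 1 := by linarith only [hα]
      have : (min (1 / 2) (w ^ (1 / (2 * α - 1)))) ^ (2 * α - 1) ≤ w := by
        calc (min (1 / 2) (w ^ (1 / (2 * α - 1)))) ^ (2 * α - 1)
            ≤ (w ^ (1 / (2 * α - 1))) ^ (2 * α - 1) :=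
              Real.rpow_le_rpow (le_min (by norm_num) (Real.rpow_nonneg hw0.le _))
                (min_le_right _ _) hpos.le
          _ = w := by
              rw [← Real.rpow_mul hw0.le]
              rw [one_div, inv_mul_cancel₀ hpos.ne', Real.rpow_one]
      have h3 : (1 + η) * (min (1 / 2) (w ^ (1 / (2 * α - 1)))) ^ (2 * α - 1) ≤ (1 + η) * w :=
        mul_le_mul_of_nonneg_left this (by linarith only [hη0])
      have h4 : (1 + η) * w = α / 3 := by
        rw [hw]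
        have : (1 + η) ≠ 0 := by linarith only [hη0]
        field_simp
      linarith only [h4, h3]
  set c : ℝ := min (β / 6) (α / 6) with hc
  have hc0 : 0 < c := lt_min (by linarith only [hβ]) (by linarith only [hα])
  set Cc : ℝ := c ^ (-((α + β) / s)) with hCc
  have hCc0 : 0 < Cc := Real.rpow_pos_of_pos hc0 _
  set G : ℝ := (1 - θ) ^ (α - 1 / 2) with hG
  have hG0 : 0 ≤ G := Real.rpow_nonneg (by linarith only [hθ1]) _
  have hG1 : G < 1 := Real.rpow_lt_one (by linarith only [hθ1]) (by linarith only [hθ0]) (by linarith only [hα])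
  set p0 : ℝ := ((3 - G) / (1 - G)) ^ (1 / s) with hp0
  have hq : 0 < (3 - G) / (1 - G) := div_pos (by linarith only [hG1]) (by linarith only [hG1])
  have hp00 : 0 < p0 := Real.rpow_pos_of_pos hq _
  refine ⟨8 * Cc + η * p0, by (clear * - hβ hα he21 hq; positivity), ?_⟩
  intro p hp I D x y z hx hy hz hD hxs hys hzs
  have hpp : 0 < p := by linarith only [hp]
  by_cases hnear : ∃ k ∈ I, 1 - θ ≤ x k ∧ 1 - θ ≤ y k
  · obtain ⟨k, hk, hxk, hyk⟩ := hnear
    have h := near_case hα hβ hs hsum hc0 (min_le_left _ _) (min_le_right _ _)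
      (hηp p hp) hη0 hθ hp I D x y z hx hy hz hD hxs hys hzs k hk hxk hyk
    refine h.trans ?_
    have : (8 * Cc + η * p0) / p = 2 * (Cc * (4 / p)) + η * p0 / p := by
      field_simp
      ring
    rw [this]
    have : 0 ≤ η * p0 / p := by (clear * - he21 hq hp; positivity)
    linarith only [this]
  · push Not at hnear
    have hfar : ∀ k ∈ I, 1 - θ ≤ x k → y k ≤ 1 - θ := fun k hk h => (hnear k hk h).le
    have h := far_case hα hβ hs (by linarith only [hθ1] : θ ≤ 1) hp I D x y z hx hy hz hD hxs hys hzs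
      hfar
    have hCp : 0 ≤ 8 * Cc / p := by positivity
    by_cases hpl : p0 ≤ p
    · have h1 : (p⁻¹) ^ s ≤ (1 - G) / (3 - G) := by
        have : (p0)⁻¹ ^ s = (1 - G) / (3 - G) := by
          rw [hp0, Real.inv_rpow (Real.rpow_nonneg hq.le _), ← Real.rpow_mul hq.le, one_div,
            inv_mul_cancel₀ hs.ne', Real.rpow_one, inv_div]
        rw [← this]
        exact Real.rpow_le_rpow (by (clear * - hp; positivity)) (inv_anti₀ hp00 hpl) hs.le
      have h0 : 0 ≤ (p⁻¹) ^ s := Real.rpow_nonneg (by positivity) _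
      have h3G : 0 < 3 - G := by linarith only [hG1]
      have h2 : 2 * ((p⁻¹) ^ s / (1 - (p⁻¹) ^ s)) ≤ 1 - G := by
        have hlt : (1 - G) / (3 - G) < 1 := by
          rw [div_lt_one h3G]
          linarith only []
        rw [← mul_div_assoc, div_le_iff₀ (by linarith only [h1, hlt])]
        rw [le_div_iff₀ h3G] at h1
        linarith only [h1]
      have : 0 ≤ (8 * Cc + η * p0) / p := by (clear * - hβ hα he21 h3G hG1 hp; positivity)
      linarith only [h2, h, this]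
    · push Not at hpl
      have h1 := hηp p hp
      have h2 : η ≤ η * p0 / p := by
        rw [le_div_iff₀ hpp]
        exact mul_le_mul_of_nonneg_left hpl.le hη0
      have h3 : (8 * Cc + η * p0) / p = 8 * Cc / p + η * p0 / p := by
        rw [add_div]
      rw [h3]
      linarith only [h, hCp, hG1, h1, h2]

end Vale.P028
end

section
attribute [-instance] ProperSMul.toContinuousSMul IsTopologicalTorsor.toContinuousSMul IdemSemiring.toCanonicallyOrderedAdd IdemSemiring.toMulLeftMono IdemSemiring.toMulRightMono AddQuantale.instAddLeftMono AddQuantale.instAddRightMono Quantale.instMulLeftMono Quantale.instMulRightMono FiniteDimensional.rclike_to_real IsScalarTower.complexToReal FiniteDimensional.complexToReal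

/-!
# Tensor inequality
-/

namespace Vale.P028

open Finset

theorem ker_ad {p : ℝ} (hp : 2 ≤ p) (s : ℝ) (i j : ℕ) :
    ker p s ((i : ℤ) - j) = (p ^ (-s)) ^ ad i j := by
  rw [ker_eq hp]
  have h1 : (p⁻¹) ^ s = p ^ (-s) := by
    rw [Real.inv_rpow (by linarith only [hp]), Real.rpow_neg (by linarith only [hp])]
  rw [h1]
  congr 1
  unfold ad
  omega

theorem SPn_all {θ μ : ℝ} (hθ : 1 / 2 < θ) (hθ1 : θ < 1) (hμ : 0 < μ) (hμ1 : μ < 1 - θ) :
    ∃ C ≥ 0, ∀ p : ℕ, p.Prime → SPn θ μ ((p : ℝ) ^ (-(1 - θ - μ))) (1 + C / p) := by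
  obtain ⟨C, hC0, hC⟩ := oneDim_norm (s := 1 - θ - μ) hθ hμ (by linarith only [hμ1]) (by ring)
  refine ⟨C, hC0, ?_⟩
  intro p hp N φ χ ν hφ hχ hν
  have hp2 : (2 : ℝ) ≤ p := by exact_mod_cast hp.two_le
  have hθ0 : 0 < θ := by linarith only [hθ]
  set I := range (N + 1) with hI
  set D := Icc (-(N : ℤ)) (N : ℤ) with hD
  set Φ := ∑ i ∈ I, φ i with hΦ
  set X := ∑ i ∈ I, χ i with hX
  set V := ∑ l ∈ D, ν l with hV
  have hΦ0 : 0 ≤ Φ := Finset.sum_nonneg fun i _ => hφ i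
  have hX0 : 0 ≤ X := Finset.sum_nonneg fun i _ => hχ i
  have hV0 : 0 ≤ V := Finset.sum_nonneg fun i _ => hν i
  have hDmem : ∀ i ∈ I, ∀ j ∈ I, (i : ℤ) - j ∈ D := by
    intro i hi j hj
    rw [hI, Finset.mem_range] at hi hj
    rw [hD, Finset.mem_Icc]
    constructor <;> omega
  have hRHS : 0 ≤ (1 + C / (p : ℝ)) * (Φ * X) ^ θ * V ^ μ := by
    have : 0 ≤ C / (p : ℝ) := by (clear * - hC0 hp2; positivity)
    have h1 : 0 ≤ (Φ * X) ^ θ := Real.rpow_nonneg (mul_nonneg hΦ0 hX0) _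
    have h2 : 0 ≤ V ^ μ := Real.rpow_nonneg hV0 _
    (clear * - hC0 hp2 hΦ0 hX0 hV0; (clear * - hC0 hp2 hΦ0 hX0 hV0; positivity))
  rcases eq_or_lt_of_le hΦ0 with h0 | hΦp
  · refine le_trans (le_of_eq ?_) hRHS
    refine Finset.sum_eq_zero fun i hi => Finset.sum_eq_zero fun j _ => ?_
    have : φ i = 0 := (Finset.sum_eq_zero_iff_of_nonneg fun i _ => hφ i).1 h0.symm i hi
    rw [this, zero_mul, Real.zero_rpow hθ0.ne']
    ring
  rcases eq_or_lt_of_le hX0 with h0 | hXp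
  · refine le_trans (le_of_eq ?_) hRHS
    refine Finset.sum_eq_zero fun i _ => Finset.sum_eq_zero fun j hj => ?_
    have : χ j = 0 := (Finset.sum_eq_zero_iff_of_nonneg fun i _ => hχ i).1 h0.symm j hj
    rw [this, mul_zero, Real.zero_rpow hθ0.ne']
    ring
  rcases eq_or_lt_of_le hV0 with h0 | hVp
  · refine le_trans (le_of_eq ?_) hRHS
    refine Finset.sum_eq_zero fun i hi => Finset.sum_eq_zero fun j hj => ?_
    have : ν ((i : ℤ) - j) = 0 :=
      (Finset.sum_eq_zero_iff_of_nonneg fun i _ => hν i).1 h0.symm _ (hDmem i hi j hj)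
    rw [this, Real.zero_rpow hμ.ne']
    ring
  have key := hC p hp2 I D (fun i => φ i / Φ) (fun i => χ i / X) (fun l => ν l / V)
    (fun i => div_nonneg (hφ i) hΦ0) (fun i => div_nonneg (hχ i) hX0)
    (fun i => div_nonneg (hν i) hV0) hDmem
    (by rw [← Finset.sum_div, div_self hΦp.ne'])
    (by rw [← Finset.sum_div, div_self hXp.ne'])
    (by rw [← Finset.sum_div, div_self hVp.ne'])
  have hF : 0 ≤ (Φ * X) ^ θ * V ^ μ :=
    mul_nonneg (Real.rpow_nonneg (mul_nonneg hΦ0 hX0) _) (Real.rpow_nonneg hV0 _)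
  have hmul := mul_le_mul_of_nonneg_left key hF
  refine le_trans (le_of_eq ?_) (hmul.trans (le_of_eq ?_))
  · rw [Finset.mul_sum]
    refine Finset.sum_congr rfl fun i hi => ?_
    rw [Finset.mul_sum]
    refine Finset.sum_congr rfl fun j hj => ?_
    rw [ker_ad hp2, Real.div_rpow (hφ i) hΦ0, Real.div_rpow (hχ j) hX0, Real.div_rpow (hν _) hV0,
      Real.mul_rpow hΦ0 hX0, Real.mul_rpow (hφ i) (hχ j)]
    have n1 : Φ ^ θ ≠ 0 := (Real.rpow_pos_of_pos hΦp _).ne'
    have n2 : X ^ θ ≠ 0 := (Real.rpow_pos_of_pos hXp _).ne'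
    have n3 : V ^ μ ≠ 0 := (Real.rpow_pos_of_pos hVp _).ne'
    (clear * - n1 n2 n3 hp2; field_simp)
  · ring

/-- Splitting a sum over `[1,N]` according to the power of `p`. -/
theorem sum_split_prime {p : ℕ} (hp : p.Prime) (N : ℕ) (g : ℕ → ℝ) :
    ∑ q ∈ Icc 1 N, g q = ∑ i ∈ range (N + 1), ∑ q ∈ Icc 1 N,
      if ¬ p ∣ q ∧ p ^ i * q ≤ N then g (p ^ i * q) else 0 := by
  rw [← Finset.sum_product' (range (N + 1)) (Icc 1 N)
    (fun i q => if ¬ p ∣ q ∧ p ^ i * q ≤ N then g (p ^ i * q) else 0), ← Finset.sum_filter]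
  refine Finset.sum_nbij' (fun q => (q.factorization p, q / p ^ (q.factorization p)))
    (fun x => p ^ x.1 * x.2) ?_ ?_ ?_ ?_ ?_
  · intro q hq
    rw [Finset.mem_Icc] at hq
    have hq0 : q ≠ 0 := by omega
    have h1 : q.factorization p < q := Nat.factorization_lt p hq0
    have h2 : 0 < q / p ^ q.factorization p := Nat.ordCompl_pos p hq0
    have h3 : q / p ^ q.factorization p ≤ q := Nat.div_le_self _ _
    have h4 : ¬ p ∣ q / p ^ q.factorization p := Nat.not_dvd_ordCompl hp hq0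
    have h5 : p ^ q.factorization p * (q / p ^ q.factorization p) = q :=
      Nat.ordProj_mul_ordCompl_eq_self q p
    simp only [mem_filter, mem_product, mem_range, mem_Icc]
    refine ⟨⟨by omega, by omega, by omega⟩, h4, ?_⟩
    rw [h5]
    omega
  · intro x hx
    simp only [Finset.mem_filter, Finset.mem_product, Finset.mem_range, Finset.mem_Icc] at hx
    rw [Finset.mem_Icc]
    have : 0 < p ^ x.1 * x.2 := Nat.mul_pos (pow_pos hp.pos _) (by omega)
    omega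
  · intro q _
    exact Nat.ordProj_mul_ordCompl_eq_self q p
  · intro x hx
    simp only [Finset.mem_filter, Finset.mem_product, Finset.mem_range, Finset.mem_Icc] at hx
    obtain ⟨⟨_, hx1, _⟩, hnd, _⟩ := hx
    have hx2 : x.2 ≠ 0 := by omega
    have hf : (p ^ x.1 * x.2).factorization p = x.1 := by
      rw [Nat.factorization_mul (pow_pos hp.pos _).ne' hx2, Finsupp.add_apply,
        hp.factorization_pow, Finsupp.single_eq_same, Nat.factorization_eq_zero_of_not_dvd hnd,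
        add_zero]
    ext
    · simp only [hf]
    · simp only [hf]
      exact Nat.mul_div_cancel_left _ (pow_pos hp.pos _)
  · intro q _
    simp only
    rw [Nat.ordProj_mul_ordCompl_eq_self q p]

theorem gcd_prime_pow_mul {p : ℕ} (hp : p.Prime) {q r : ℕ} (hq : ¬ p ∣ q) (hr : ¬ p ∣ r)
    (i j : ℕ) : Nat.gcd (p ^ i * q) (p ^ j * r) = p ^ min i j * Nat.gcd q r := by
  have cq : ∀ k : ℕ, Nat.Coprime q (p ^ k) := fun k =>
    Nat.Coprime.pow_right k ((Nat.Prime.coprime_iff_not_dvd hp).2 hq).symm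
  have cr : ∀ k : ℕ, Nat.Coprime r (p ^ k) := fun k =>
    Nat.Coprime.pow_right k ((Nat.Prime.coprime_iff_not_dvd hp).2 hr).symm
  rcases le_total i j with h | h
  · obtain ⟨k, rfl⟩ := Nat.exists_eq_add_of_le h
    rw [min_eq_left h, pow_add, mul_assoc, Nat.gcd_mul_left,
      Nat.Coprime.gcd_mul_left_cancel_right r (cq k).symm]
  · obtain ⟨k, rfl⟩ := Nat.exists_eq_add_of_le h
    rw [min_eq_right h, pow_add, mul_assoc, Nat.gcd_mul_left,
      Nat.Coprime.gcd_mul_left_cancel q (cr k).symm]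

theorem cofac_prime_pow_mul {p : ℕ} (hp : p.Prime) {q r : ℕ} (hq : ¬ p ∣ q) (hr : ¬ p ∣ r)
    (i j : ℕ) : cofac (p ^ i * q) (p ^ j * r) = p ^ (i - j) * cofac q r := by
  unfold cofac
  rw [gcd_prime_pow_mul hp hq hr]
  have h1 : p ^ i * q = p ^ min i j * (p ^ (i - j) * q) := by
    rw [← mul_assoc, ← pow_add]
    congr 2
    omega
  rw [h1, Nat.mul_div_mul_left _ _ (pow_pos hp.pos _), Nat.mul_div_assoc _ (Nat.gcd_dvd_left q r)]

theorem cofac_dvd (q r : ℕ) : cofac q r ∣ q := Nat.div_dvd_of_dvd (Nat.gcd_dvd_left q r)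

theorem cofac_pos {q : ℕ} (r : ℕ) (hq : 0 < q) : 0 < cofac q r :=
  Nat.pos_of_dvd_of_pos (cofac_dvd q r) hq

theorem cofac_le {q : ℕ} (r : ℕ) (hq : 0 < q) : cofac q r ≤ q := Nat.le_of_dvd hq (cofac_dvd q r)

theorem cofac_coprime {q r : ℕ} (hq : 0 < q) : Nat.Coprime (cofac q r) (cofac r q) := by
  unfold cofac
  rw [Nat.gcd_comm r q]
  exact Nat.coprime_div_gcd_div_gcd (Nat.gcd_pos_of_pos_left r hq)

theorem gcd_mul_cofac (q r : ℕ) : Nat.gcd q r * cofac q r = q :=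
  Nat.mul_div_cancel' (Nat.gcd_dvd_left q r)

open Classical in
/-- The statement of the tensor inequality for a finite set of primes `P`. -/
def TensorStmt (θ μ : ℝ) (P : Finset ℕ) (K : ℝ) : Prop :=
  ∀ (N : ℕ) (f h : ℕ → ℝ) (z : ℕ → ℕ → ℝ), (∀ q, 0 ≤ f q) → (∀ q, 0 ≤ h q) →
    (∀ u v, 0 ≤ z u v) →
    ∑ q ∈ Icc 1 N, ∑ r ∈ Icc 1 N,
      (if (∀ l : ℕ, l.Prime → l ∣ cofac q r * cofac r q → l ∈ P) then
        (f q * h r) ^ θ * ((cofac q r : ℝ) * (cofac r q : ℝ)) ^ (-(1 - θ - μ)) *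
          (z (cofac q r) (cofac r q)) ^ μ else 0) ≤
    K * ((∑ q ∈ Icc 1 N, f q) * ∑ r ∈ Icc 1 N, h r) ^ θ *
      (∑ u ∈ Icc 1 N, ∑ v ∈ Icc 1 N, if Nat.Coprime u v then z u v else 0) ^ μ

theorem sum_mul_rpow_le {θ : ℝ} (hθ : 1 / 2 ≤ θ) (I : Finset ℕ) (f h : ℕ → ℝ)
    (hf : ∀ q, 0 ≤ f q) (hh : ∀ q, 0 ≤ h q) :
    ∑ q ∈ I, (f q * h q) ^ θ ≤ ((∑ q ∈ I, f q) * ∑ r ∈ I, h r) ^ θ := by
  have hθ0 : 0 < θ := by linarith only [hθ]
  set F := ∑ q ∈ I, f q with hF
  set H := ∑ q ∈ I, h q with hH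
  have hF0 : 0 ≤ F := Finset.sum_nonneg fun i _ => hf i
  have hH0 : 0 ≤ H := Finset.sum_nonneg fun i _ => hh i
  have hR : 0 ≤ (F * H) ^ θ := Real.rpow_nonneg (mul_nonneg hF0 hH0) _
  rcases eq_or_lt_of_le hF0 with h0 | hFp
  · refine le_trans (le_of_eq ?_) hR
    refine Finset.sum_eq_zero fun i hi => ?_
    have : f i = 0 := (Finset.sum_eq_zero_iff_of_nonneg fun i _ => hf i).1 h0.symm i hi
    rw [this, zero_mul, Real.zero_rpow hθ0.ne']
  rcases eq_or_lt_of_le hH0 with h0 | hHp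
  · refine le_trans (le_of_eq ?_) hR
    refine Finset.sum_eq_zero fun i hi => ?_
    have : h i = 0 := (Finset.sum_eq_zero_iff_of_nonneg fun i _ => hh i).1 h0.symm i hi
    rw [this, mul_zero, Real.zero_rpow hθ0.ne']
  have key : ∀ q ∈ I, (f q * h q) ^ θ ≤ (F * H) ^ θ * ((f q / F + h q / H) / 2) := by
    intro q hq
    have a0 : 0 ≤ f q / F := div_nonneg (hf q) hF0
    have b0 : 0 ≤ h q / H := div_nonneg (hh q) hH0
    have a1 : f q / F ≤ 1 := (div_le_one hFp).2 (Finset.single_le_sum (fun i _ => hf i) hq)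
    have b1 : h q / H ≤ 1 := (div_le_one hHp).2 (Finset.single_le_sum (fun i _ => hh i) hq)
    have e : f q * h q = (F * H) * ((f q / F) * (h q / H)) := by
      (clear * - hFp hHp; field_simp)
    rw [e, Real.mul_rpow (mul_nonneg hF0 hH0) (mul_nonneg a0 b0)]
    refine mul_le_mul_of_nonneg_left ?_ hR
    have hab : 0 ≤ f q / F * (h q / H) := mul_nonneg a0 b0
    have hab1 : f q / F * (h q / H) ≤ 1 := by linarith only [mul_nonneg (sub_nonneg.2 a0) (sub_nonneg.2 b1), mul_nonneg (sub_nonneg.2 a1) (sub_nonneg.2 a0), mul_nonneg (sub_nonneg.2 a1) (sub_nonneg.2 a1)]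
    calc (f q / F * (h q / H)) ^ θ ≤ (f q / F * (h q / H)) ^ (1 / 2 : ℝ) := by
          rcases eq_or_lt_of_le hab with h | h
          · rw [← h, Real.zero_rpow hθ0.ne', Real.zero_rpow (by norm_num)]
          · exact Real.rpow_le_rpow_of_exponent_ge h hab1 hθ
      _ ≤ (f q / F + h q / H) / 2 := by
          rw [← Real.sqrt_eq_rpow, Real.sqrt_le_left (by linarith only [a0, b0])]
          nlinarith only [sq_nonneg (f q / F - h q / H)]
  calc ∑ q ∈ I, (f q * h q) ^ θ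
      ≤ ∑ q ∈ I, (F * H) ^ θ * ((f q / F + h q / H) / 2) := Finset.sum_le_sum key
    _ = (F * H) ^ θ * ((∑ q ∈ I, f q) / F / 2 + (∑ q ∈ I, h q) / H / 2) := by
        rw [← Finset.mul_sum, ← Finset.sum_div, Finset.sum_add_distrib, ← Finset.sum_div,
          ← Finset.sum_div]
        ring
    _ = (F * H) ^ θ := by
        rw [← hF, ← hH, div_self hFp.ne', div_self hHp.ne']
        ring

theorem eq_of_cofac_eq_one {q r : ℕ} (h1 : cofac q r = 1) (h2 : cofac r q = 1) : q = r := by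
  have e1 := gcd_mul_cofac q r
  have e2 := gcd_mul_cofac r q
  rw [h1, mul_one] at e1
  rw [h2, mul_one, Nat.gcd_comm] at e2
  exact e1.symm.trans e2

theorem cofac_self {q : ℕ} (hq : 0 < q) : cofac q q = 1 := by
  unfold cofac
  rw [Nat.gcd_self, Nat.div_self hq]

theorem tensorStmt_empty {θ μ : ℝ} (hθ : 1 / 2 < θ) (hμ : 0 < μ) :
    TensorStmt θ μ ∅ 1 := by
  classical
  intro N f h z hf hh hz
  rcases Nat.eq_zero_or_pos N with hN | hN
  · subst hN
    simp only [Finset.Icc_eq_empty_of_lt (show (0 : ℕ) < 1 by norm_num), Finset.sum_empty]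
    rw [Real.zero_rpow hμ.ne', mul_zero]
  have hterm : ∀ q ∈ Icc 1 N, ∑ r ∈ Icc 1 N,
      (if (∀ l : ℕ, l.Prime → l ∣ cofac q r * cofac r q → l ∈ (∅ : Finset ℕ)) then
        (f q * h r) ^ θ * ((cofac q r : ℝ) * (cofac r q : ℝ)) ^ (-(1 - θ - μ)) *
          (z (cofac q r) (cofac r q)) ^ μ else 0) = (f q * h q) ^ θ * z 1 1 ^ μ := by
    intro q hq
    have hq0 : 0 < q := (Finset.mem_Icc.1 hq).1
    rw [Finset.sum_eq_single q]
    · rw [cofac_self hq0, if_pos]
      · simp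
      · intro l hl hd
        rw [mul_one, Nat.dvd_one] at hd
        exact absurd (hd ▸ hl) Nat.not_prime_one
    · intro r hr hrq
      rw [if_neg]
      intro hall
      have h1 : cofac q r * cofac r q = 1 := by
        by_contra hne
        obtain ⟨l, hl, hld⟩ := Nat.exists_prime_and_dvd hne
        exact absurd (hall l hl hld) (by simp)
      exact hrq (eq_of_cofac_eq_one (Nat.eq_one_of_mul_eq_one_right h1)
        (Nat.eq_one_of_mul_eq_one_left h1)).symm
    · intro hn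
      exact absurd hq hn
  rw [Finset.sum_congr rfl hterm, ← Finset.sum_mul, one_mul]
  have hz1 : z 1 1 ≤ ∑ u ∈ Icc 1 N, ∑ v ∈ Icc 1 N, if Nat.Coprime u v then z u v else 0 := by
    have m1 : (1 : ℕ) ∈ Icc 1 N := by
      rw [Finset.mem_Icc]
      omega
    have hnn : ∀ u v : ℕ, 0 ≤ (if Nat.Coprime u v then z u v else 0) := by
      intro u v
      split_ifs
      · exact hz u v
      · exact le_rfl
    calc z 1 1 = (if Nat.Coprime 1 1 then z 1 1 else 0) := by simp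
      _ ≤ ∑ v ∈ Icc 1 N, (if Nat.Coprime 1 v then z 1 v else 0) :=
          Finset.single_le_sum (f := fun v => (if Nat.Coprime 1 v then z 1 v else 0))
            (fun v _ => hnn 1 v) m1
      _ ≤ _ := Finset.single_le_sum
            (f := fun u => ∑ v ∈ Icc 1 N, (if Nat.Coprime u v then z u v else 0))
            (fun u _ => Finset.sum_nonneg fun v _ => hnn u v) m1
  exact mul_le_mul (sum_mul_rpow_le hθ.le _ f h hf hh) (Real.rpow_le_rpow (hz 1 1) hz1 hμ.le)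
    (Real.rpow_nonneg (hz 1 1) _)
    (Real.rpow_nonneg (mul_nonneg (Finset.sum_nonneg fun i _ => hf i)
      (Finset.sum_nonneg fun i _ => hh i)) _)

/-- The weights after removing the prime `p`, for the shift `l`. -/
noncomputable def zshift (p N : ℕ) (z : ℕ → ℕ → ℝ) (l : ℤ) (u v : ℕ) : ℝ :=
  if ¬ p ∣ u ∧ ¬ p ∣ v ∧ p ^ l.toNat * u ≤ N ∧ p ^ (-l).toNat * v ≤ N then
    z (p ^ l.toNat * u) (p ^ (-l).toNat * v) else 0

theorem zshift_nonneg (p N : ℕ) {z : ℕ → ℕ → ℝ} (hz : ∀ u v, 0 ≤ z u v) (l : ℤ) (u v : ℕ) :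
    0 ≤ zshift p N z l u v := by
  unfold zshift
  split_ifs
  · exact hz _ _
  · exact le_rfl

theorem sum_zshift_le {p : ℕ} (hp : p.Prime) (N : ℕ) (z : ℕ → ℕ → ℝ) (hz : ∀ u v, 0 ≤ z u v) :
    ∑ l ∈ Icc (-(N : ℤ)) N, ∑ u ∈ Icc 1 N, ∑ v ∈ Icc 1 N,
      (if Nat.Coprime u v then zshift p N z l u v else 0)
      ≤ ∑ u ∈ Icc 1 N, ∑ v ∈ Icc 1 N, if Nat.Coprime u v then z u v else 0 := by
  classical
  -- left side as a sum over triples
  set S : Finset (ℤ × ℕ × ℕ) := (Icc (-(N : ℤ)) (N : ℤ) ×ˢ (Icc 1 N ×ˢ Icc 1 N)).filter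
    (fun x => Nat.Coprime x.2.1 x.2.2 ∧ ¬ p ∣ x.2.1 ∧ ¬ p ∣ x.2.2 ∧ p ^ x.1.toNat * x.2.1 ≤ N ∧
      p ^ (-x.1).toNat * x.2.2 ≤ N) with hS
  set φ : ℤ × ℕ × ℕ → ℕ × ℕ := fun x => (p ^ x.1.toNat * x.2.1, p ^ (-x.1).toNat * x.2.2) with hφ
  have hL : ∑ l ∈ Icc (-(N : ℤ)) N, ∑ u ∈ Icc 1 N, ∑ v ∈ Icc 1 N,
      (if Nat.Coprime u v then zshift p N z l u v else 0) = ∑ x ∈ S, z (φ x).1 (φ x).2 := by
    rw [hS, Finset.sum_filter, Finset.sum_product]
    refine Finset.sum_congr rfl fun l _ => ?_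
    rw [Finset.sum_product]
    refine Finset.sum_congr rfl fun u _ => Finset.sum_congr rfl fun v _ => ?_
    unfold zshift
    by_cases h1 : Nat.Coprime u v
    · by_cases h2 : ¬ p ∣ u ∧ ¬ p ∣ v ∧ p ^ l.toNat * u ≤ N ∧ p ^ (-l).toNat * v ≤ N
      · rw [if_pos h1, if_pos h2, if_pos ⟨h1, h2⟩]
      · rw [if_pos h1, if_neg h2, if_neg (fun h => h2 h.2)]
    · rw [if_neg h1, if_neg (fun h => h1 h.1)]
  have hR : ∑ u ∈ Icc 1 N, ∑ v ∈ Icc 1 N, (if Nat.Coprime u v then z u v else 0)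
      = ∑ y ∈ (Icc 1 N ×ˢ Icc 1 N).filter (fun y => Nat.Coprime y.1 y.2), z y.1 y.2 := by
    rw [Finset.sum_filter, Finset.sum_product]
  have hfac : ∀ a m : ℕ, m ≠ 0 → ¬ p ∣ m → (p ^ a * m).factorization p = a := by
    intro a m hm hnd
    rw [Nat.factorization_mul (pow_pos hp.pos _).ne' hm, Finsupp.add_apply,
      hp.factorization_pow, Finsupp.single_eq_same, Nat.factorization_eq_zero_of_not_dvd hnd,
      add_zero]
  have hinj : Set.InjOn φ S := by
    intro x hx y hy hxy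
    simp only [hS, Finset.coe_filter, Finset.mem_product, Finset.mem_Icc, Set.mem_ofPred_eq] at hx hy
    obtain ⟨⟨_, ⟨hx1, _⟩, ⟨hx2, _⟩⟩, _, hxa, hxb, _, _⟩ := hx
    obtain ⟨⟨_, ⟨hy1, _⟩, ⟨hy2, _⟩⟩, _, hya, hyb, _, _⟩ := hy
    simp only [hφ, Prod.mk.injEq] at hxy
    obtain ⟨e1, e2⟩ := hxy
    have f1 : x.1.toNat = y.1.toNat := by
      rw [← hfac x.1.toNat x.2.1 (by omega) hxa, ← hfac y.1.toNat y.2.1 (by omega) hya, e1]
    have f2 : (-x.1).toNat = (-y.1).toNat := by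
      rw [← hfac (-x.1).toNat x.2.2 (by omega) hxb, ← hfac (-y.1).toNat y.2.2 (by omega) hyb, e2]
    have g0 : x.1 = y.1 := by (clear * - f1 f2; omega)
    rw [f1] at e1
    rw [f2] at e2
    have g1 := Nat.eq_of_mul_eq_mul_left (pow_pos hp.pos _) e1
    have g2 := Nat.eq_of_mul_eq_mul_left (pow_pos hp.pos _) e2
    exact Prod.ext g0 (Prod.ext g1 g2)
  rw [hL, hR, ← Finset.sum_image (f := fun y : ℕ × ℕ => z y.1 y.2) hinj]
  refine Finset.sum_le_sum_of_subset_of_nonneg ?_ (fun y _ _ => hz _ _)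
  intro y hy
  obtain ⟨x, hx, rfl⟩ := Finset.mem_image.1 hy
  simp only [hS, Finset.mem_filter, Finset.mem_product, Finset.mem_Icc] at hx
  obtain ⟨⟨_, ⟨hx1, _⟩, ⟨hx2, _⟩⟩, hco, hxa, hxb, hxN, hxM⟩ := hx
  simp only [hφ, Finset.mem_filter, Finset.mem_product, Finset.mem_Icc]
  refine ⟨⟨⟨?_, hxN⟩, ⟨?_, hxM⟩⟩, ?_⟩
  · exact Nat.mul_pos (pow_pos hp.pos _) (by omega)
  · exact Nat.mul_pos (pow_pos hp.pos _) (by omega)
  · have c1 : ∀ k : ℕ, Nat.Coprime (p ^ k) x.2.1 := fun k =>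
      Nat.Coprime.pow_left k ((Nat.Prime.coprime_iff_not_dvd hp).2 hxa)
    have c2 : ∀ k : ℕ, Nat.Coprime (p ^ k) x.2.2 := fun k =>
      Nat.Coprime.pow_left k ((Nat.Prime.coprime_iff_not_dvd hp).2 hxb)
    have c3 : Nat.Coprime (p ^ x.1.toNat) (p ^ (-x.1).toNat) := by
      rcases le_total 0 x.1 with h | h
      · have : (-x.1).toNat = 0 := by omega
        rw [this, pow_zero]
        exact Nat.coprime_one_right _
      · have : x.1.toNat = 0 := by omega
        rw [this, pow_zero]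
        exact Nat.coprime_one_left _
    exact Nat.Coprime.mul_left (Nat.Coprime.mul_right c3 (c2 _))
      (Nat.Coprime.mul_right (c1 _).symm hco)

theorem tensor_term_le {θ μ : ℝ} (hθ0 : 0 < θ) {p : ℕ} (hp : p.Prime)
    {P : Finset ℕ} (N : ℕ) (f h : ℕ → ℝ) (z : ℕ → ℕ → ℝ) (hz : ∀ u v, 0 ≤ z u v)
    (hf : ∀ q, 0 ≤ f q) (hh : ∀ q, 0 ≤ h q)
    (i j q r : ℕ) (hq0 : 0 < q) (hr0 : 0 < r) (hq : ¬ p ∣ q) (hqN : p ^ i * q ≤ N)
    (hr : ¬ p ∣ r) (hrN : p ^ j * r ≤ N)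
    (hcond : ∀ l : ℕ, l.Prime → l ∣ cofac (p ^ i * q) (p ^ j * r) * cofac (p ^ j * r) (p ^ i * q) →
      l ∈ insert p P) :
    (∀ l : ℕ, l.Prime → l ∣ cofac q r * cofac r q → l ∈ P) ∧
    (f (p ^ i * q) * h (p ^ j * r)) ^ θ *
      ((cofac (p ^ i * q) (p ^ j * r) : ℝ) * (cofac (p ^ j * r) (p ^ i * q) : ℝ)) ^ (-(1 - θ - μ)) *
        (z (cofac (p ^ i * q) (p ^ j * r)) (cofac (p ^ j * r) (p ^ i * q))) ^ μ
      = ((p : ℝ) ^ (-(1 - θ - μ))) ^ ad i j *
        ((f (p ^ i * q) * h (p ^ j * r)) ^ θ *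
          ((cofac q r : ℝ) * (cofac r q : ℝ)) ^ (-(1 - θ - μ)) *
          (zshift p N z ((i : ℤ) - j) (cofac q r) (cofac r q)) ^ μ) := by
  have hu : ¬ p ∣ cofac q r := fun hd => hq (hd.trans (cofac_dvd q r))
  have hv : ¬ p ∣ cofac r q := fun hd => hr (hd.trans (cofac_dvd r q))
  have e1 := cofac_prime_pow_mul hp hq hr i j
  have e2 := cofac_prime_pow_mul hp hr hq j i
  constructor
  · intro l hl hd
    have h1 : l ∣ cofac (p ^ i * q) (p ^ j * r) * cofac (p ^ j * r) (p ^ i * q) := by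
      rw [e1, e2]
      refine hd.trans ?_
      exact Nat.mul_dvd_mul (Dvd.intro_left _ rfl) (Dvd.intro_left _ rfl)
    have h2 := hcond l hl h1
    rw [Finset.mem_insert] at h2
    rcases h2 with h2 | h2
    · subst h2
      rcases hl.dvd_mul.1 hd with h3 | h3
      · exact absurd h3 hu
      · exact absurd h3 hv
    · exact h2
  · have hz1 : zshift p N z ((i : ℤ) - j) (cofac q r) (cofac r q)
        = z (cofac (p ^ i * q) (p ^ j * r)) (cofac (p ^ j * r) (p ^ i * q)) := by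
      have t1 : ((i : ℤ) - j).toNat = i - j := by omega
      have t2 : (-((i : ℤ) - j)).toNat = j - i := by (clear * -; omega)
      unfold zshift
      rw [t1, t2, ← e1, ← e2, if_pos]
      refine ⟨hu, hv, ?_, ?_⟩
      · exact (cofac_le _ (Nat.mul_pos (pow_pos hp.pos _) hq0)).trans hqN
      · exact (cofac_le _ (Nat.mul_pos (pow_pos hp.pos _) hr0)).trans hrN
    rw [hz1, e1, e2]
    have hp0 : (0 : ℝ) ≤ p := Nat.cast_nonneg p
    have hpow : (((p ^ (i - j) * cofac q r : ℕ) : ℝ) * ((p ^ (j - i) * cofac r q : ℕ) : ℝ))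
        ^ (-(1 - θ - μ)) = ((p : ℝ) ^ (-(1 - θ - μ))) ^ ad i j *
          ((cofac q r : ℝ) * (cofac r q : ℝ)) ^ (-(1 - θ - μ)) := by
      have : (((p ^ (i - j) * cofac q r : ℕ) : ℝ) * ((p ^ (j - i) * cofac r q : ℕ) : ℝ))
          = (p : ℝ) ^ (ad i j) * ((cofac q r : ℝ) * (cofac r q : ℝ)) := by
        unfold ad
        push_cast
        rw [pow_add]
        ring
      rw [this, Real.mul_rpow (by (clear * -; positivity)) (by (clear * -; positivity))]
      congr 1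
      rw [← Real.rpow_natCast, ← Real.rpow_natCast, ← Real.rpow_mul hp0, ← Real.rpow_mul hp0,
        mul_comm]
    rw [hpow]
    ring

theorem tensorStmt_insert {θ μ : ℝ} (hθ0 : 0 < θ) (hμ : 0 < μ) {p : ℕ} (hp : p.Prime)
    {P : Finset ℕ} {K c : ℝ} (hK : 0 ≤ K) (hc : 0 ≤ c) (hT : TensorStmt θ μ P K)
    (hS : SPn θ μ ((p : ℝ) ^ (-(1 - θ - μ))) c) : TensorStmt θ μ (insert p P) (c * K) := by
  classical
  intro N f h z hf hh hz
  set ε : ℝ := (p : ℝ) ^ (-(1 - θ - μ)) with hε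
  have hε0 : 0 ≤ ε := Real.rpow_nonneg (Nat.cast_nonneg p) _
  set fi : ℕ → ℕ → ℝ := fun i q => if ¬ p ∣ q ∧ p ^ i * q ≤ N then f (p ^ i * q) else 0 with hfi
  set hj : ℕ → ℕ → ℝ := fun j q => if ¬ p ∣ q ∧ p ^ j * q ≤ N then h (p ^ j * q) else 0 with hhj
  have hfi0 : ∀ i q, 0 ≤ fi i q := by
    intro i q
    simp only [hfi]
    split_ifs
    · exact hf _
    · exact le_rfl
  have hhj0 : ∀ i q, 0 ≤ hj i q := by
    intro i q
    simp only [hhj]
    split_ifs
    · exact hh _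
    · exact le_rfl
  set φ : ℕ → ℝ := fun i => ∑ q ∈ Icc 1 N, fi i q with hφ
  set χ : ℕ → ℝ := fun j => ∑ r ∈ Icc 1 N, hj j r with hχ
  set ν : ℤ → ℝ := fun l => ∑ u ∈ Icc 1 N, ∑ v ∈ Icc 1 N,
    (if Nat.Coprime u v then zshift p N z l u v else 0) with hν
  have hφ0 : ∀ i, 0 ≤ φ i := fun i => Finset.sum_nonneg fun q _ => hfi0 i q
  have hχ0 : ∀ i, 0 ≤ χ i := fun i => Finset.sum_nonneg fun q _ => hhj0 i q
  have hν0 : ∀ l, 0 ≤ ν l := by
    intro l
    refine Finset.sum_nonneg fun u _ => Finset.sum_nonneg fun v _ => ?_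
    split_ifs
    · exact zshift_nonneg p N hz l u v
    · exact le_rfl
  set G : ℕ → ℕ → ℝ := fun q r =>
    if (∀ l : ℕ, l.Prime → l ∣ cofac q r * cofac r q → l ∈ insert p P) then
        (f q * h r) ^ θ * ((cofac q r : ℝ) * (cofac r q : ℝ)) ^ (-(1 - θ - μ)) *
          (z (cofac q r) (cofac r q)) ^ μ else 0 with hG
  set G' : ℕ → ℕ → ℕ → ℕ → ℝ := fun i j q r =>
    if (∀ l : ℕ, l.Prime → l ∣ cofac q r * cofac r q → l ∈ P) then
        (fi i q * hj j r) ^ θ * ((cofac q r : ℝ) * (cofac r q : ℝ)) ^ (-(1 - θ - μ)) *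
          (zshift p N z ((i : ℤ) - j) (cofac q r) (cofac r q)) ^ μ else 0 with hG'
  have hG'0 : ∀ i j q r, 0 ≤ G' i j q r := by
    intro i j q r
    simp only [hG']
    split_ifs
    · exact mul_nonneg (mul_nonneg (Real.rpow_nonneg (mul_nonneg (hfi0 _ _) (hhj0 _ _)) _)
        (Real.rpow_nonneg (by (clear * -; positivity)) _))
        (Real.rpow_nonneg (zshift_nonneg p N hz _ _ _) _)
    · exact le_rfl
  have step1 : ∑ q ∈ Icc 1 N, ∑ r ∈ Icc 1 N, G q r
      = ∑ i ∈ range (N + 1), ∑ j ∈ range (N + 1), ∑ q ∈ Icc 1 N, ∑ r ∈ Icc 1 N,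
        (if (¬ p ∣ q ∧ p ^ i * q ≤ N) ∧ (¬ p ∣ r ∧ p ^ j * r ≤ N) then
          G (p ^ i * q) (p ^ j * r) else 0) := by
    rw [sum_split_prime hp N (fun q => ∑ r ∈ Icc 1 N, G q r)]
    refine Finset.sum_congr rfl fun i _ => ?_
    rw [Finset.sum_comm]
    refine Finset.sum_congr rfl fun q _ => ?_
    by_cases h1 : ¬ p ∣ q ∧ p ^ i * q ≤ N
    · rw [if_pos h1, sum_split_prime hp N (fun r => G (p ^ i * q) r)]
      refine Finset.sum_congr rfl fun j _ => Finset.sum_congr rfl fun r _ => ?_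
      by_cases h2 : ¬ p ∣ r ∧ p ^ j * r ≤ N
      · rw [if_pos h2, if_pos ⟨h1, h2⟩]
      · rw [if_neg h2, if_neg (fun h => h2 h.2)]
    · rw [if_neg h1]
      symm
      refine Finset.sum_eq_zero fun j _ => Finset.sum_eq_zero fun r _ => ?_
      rw [if_neg (fun h => h1 h.1)]
  have step2 : ∀ i j q r : ℕ, q ∈ Icc 1 N → r ∈ Icc 1 N →
      (if (¬ p ∣ q ∧ p ^ i * q ≤ N) ∧ (¬ p ∣ r ∧ p ^ j * r ≤ N) then
          G (p ^ i * q) (p ^ j * r) else 0) ≤ ε ^ ad i j * G' i j q r := by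
    intro i j q r hq hr
    have hpos : 0 ≤ ε ^ ad i j * G' i j q r := mul_nonneg (pow_nonneg hε0 _) (hG'0 i j q r)
    split_ifs with hc1
    · obtain ⟨⟨hq1, hq2⟩, hr1, hr2⟩ := hc1
      simp only [hG]
      split_ifs with hc2
      · obtain ⟨t1, t2⟩ := tensor_term_le (μ := μ) hθ0 hp (P := P) N f h z hz hf hh i j q r
          (Finset.mem_Icc.1 hq).1 (Finset.mem_Icc.1 hr).1 hq1 hq2 hr1 hr2 hc2
        rw [t2]
        simp only [hG']
        rw [if_pos t1]
        simp only [hfi, hhj]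
        rw [if_pos ⟨hq1, hq2⟩, if_pos ⟨hr1, hr2⟩]
      · exact hpos
    · exact hpos
  have step3 : ∀ i j : ℕ, ∑ q ∈ Icc 1 N, ∑ r ∈ Icc 1 N,
      (if (¬ p ∣ q ∧ p ^ i * q ≤ N) ∧ (¬ p ∣ r ∧ p ^ j * r ≤ N) then
          G (p ^ i * q) (p ^ j * r) else 0)
      ≤ K * (ε ^ ad i j * (φ i * χ j) ^ θ * (ν ((i : ℤ) - j)) ^ μ) := by
    intro i j
    calc _ ≤ ∑ q ∈ Icc 1 N, ∑ r ∈ Icc 1 N, ε ^ ad i j * G' i j q r :=
          Finset.sum_le_sum fun q hq => Finset.sum_le_sum fun r hr => step2 i j q r hq hr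
      _ = ε ^ ad i j * ∑ q ∈ Icc 1 N, ∑ r ∈ Icc 1 N, G' i j q r := by
          simp only [Finset.mul_sum]
      _ ≤ ε ^ ad i j * (K * (φ i * χ j) ^ θ * (ν ((i : ℤ) - j)) ^ μ) := by
          refine mul_le_mul_of_nonneg_left ?_ (pow_nonneg hε0 _)
          exact hT N (fi i) (hj j) (zshift p N z ((i : ℤ) - j)) (hfi0 i) (hhj0 j)
            (zshift_nonneg p N hz _)
      _ = _ := by ring
  have hφs : ∑ i ∈ range (N + 1), φ i = ∑ q ∈ Icc 1 N, f q := (sum_split_prime hp N f).symm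
  have hχs : ∑ i ∈ range (N + 1), χ i = ∑ q ∈ Icc 1 N, h q := (sum_split_prime hp N h).symm
  have hνs : ∑ l ∈ Icc (-(N : ℤ)) N, ν l
      ≤ ∑ u ∈ Icc 1 N, ∑ v ∈ Icc 1 N, if Nat.Coprime u v then z u v else 0 :=
    sum_zshift_le hp N z hz
  have hsp := hS N φ χ ν hφ0 hχ0 hν0
  rw [hφs, hχs] at hsp
  have hFH : 0 ≤ ((∑ q ∈ Icc 1 N, f q) * ∑ r ∈ Icc 1 N, h r) ^ θ :=
    Real.rpow_nonneg (mul_nonneg (Finset.sum_nonneg fun i _ => hf i)
      (Finset.sum_nonneg fun i _ => hh i)) _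
  change ∑ q ∈ Icc 1 N, ∑ r ∈ Icc 1 N, G q r ≤ _
  rw [step1]
  calc _ ≤ ∑ i ∈ range (N + 1), ∑ j ∈ range (N + 1),
        K * (ε ^ ad i j * (φ i * χ j) ^ θ * (ν ((i : ℤ) - j)) ^ μ) :=
        Finset.sum_le_sum fun i _ => Finset.sum_le_sum fun j _ => step3 i j
    _ = K * ∑ i ∈ range (N + 1), ∑ j ∈ range (N + 1),
        ε ^ ad i j * (φ i * χ j) ^ θ * (ν ((i : ℤ) - j)) ^ μ := by
        simp only [Finset.mul_sum]
    _ ≤ K * (c * ((∑ q ∈ Icc 1 N, f q) * ∑ r ∈ Icc 1 N, h r) ^ θ *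
          (∑ l ∈ Icc (-(N : ℤ)) N, ν l) ^ μ) := mul_le_mul_of_nonneg_left hsp hK
    _ ≤ K * (c * ((∑ q ∈ Icc 1 N, f q) * ∑ r ∈ Icc 1 N, h r) ^ θ *
          (∑ u ∈ Icc 1 N, ∑ v ∈ Icc 1 N, if Nat.Coprime u v then z u v else 0) ^ μ) := by
        refine mul_le_mul_of_nonneg_left ?_ hK
        refine mul_le_mul_of_nonneg_left ?_ (mul_nonneg hc hFH)
        exact Real.rpow_le_rpow (Finset.sum_nonneg fun l _ => hν0 l) hνs hμ.le
    _ = _ := by ring

theorem tensorStmt_primes {θ μ : ℝ} (hθ : 1 / 2 < θ) (hμ : 0 < μ)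
    (c : ℕ → ℝ) (hc : ∀ p : ℕ, p.Prime → 0 ≤ c p)
    (hSP : ∀ p : ℕ, p.Prime → SPn θ μ ((p : ℝ) ^ (-(1 - θ - μ))) (c p))
    (P : Finset ℕ) (hP : ∀ p ∈ P, p.Prime) : TensorStmt θ μ P (∏ p ∈ P, c p) := by
  classical
  induction P using Finset.induction_on with
  | empty =>
    rw [Finset.prod_empty]
    exact tensorStmt_empty hθ hμ
  | insert p P hpP ih =>
    rw [Finset.prod_insert hpP]
    have hpp := hP p (Finset.mem_insert_self p P)
    exact tensorStmt_insert (by linarith) hμ hpp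
      (Finset.prod_nonneg fun q hq => hc q (hP q (Finset.mem_insert_of_mem hq)))
      (hc p hpp) (ih fun q hq => hP q (Finset.mem_insert_of_mem hq)) (hSP p hpp)

open Classical in
theorem tensor {θ μ : ℝ} (hθ : 1 / 2 < θ) (hθ1 : θ < 1) (hμ : 0 < μ) (hμ1 : μ < 1 - θ)
    (c : ℕ → ℝ) (hc : ∀ p : ℕ, p.Prime → 1 ≤ c p)
    (hSP : ∀ p : ℕ, p.Prime → SPn θ μ ((p : ℝ) ^ (-(1 - θ - μ))) (c p))
    (Ω : ℕ → ℕ → Prop) (V N : ℕ) (f h : ℕ → ℝ) (hf : ∀ q, 0 ≤ f q) (hh : ∀ q, 0 ≤ h q) :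
    ∑ q ∈ Icc 1 N, ∑ r ∈ Icc 1 N,
      (if Ω (cofac q r) (cofac r q) ∧ cofac q r ≤ V ∧ cofac r q ≤ V then
        (f q * h r) ^ θ * ((cofac q r : ℝ) * (cofac r q : ℝ)) ^ (-(1 - θ)) else 0) ≤
    (∏ p ∈ (Icc 1 V).filter Nat.Prime, c p) *
      ((∑ q ∈ Icc 1 N, f q) * ∑ r ∈ Icc 1 N, h r) ^ θ *
      (∑ u ∈ Icc 1 V, ∑ v ∈ Icc 1 V,
        if Nat.Coprime u v ∧ Ω u v then 1 / ((u : ℝ) * v) else 0) ^ μ := by
  have hc0 : ∀ p : ℕ, p.Prime → 0 ≤ c p := fun p hp => zero_le_one.trans (hc p hp)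
  set P := (Icc 1 V).filter Nat.Prime with hP
  set z : ℕ → ℕ → ℝ := fun u v => if Ω u v ∧ u ≤ V ∧ v ≤ V then 1 / ((u : ℝ) * v) else 0 with hz
  have hz0 : ∀ u v, 0 ≤ z u v := by
    intro u v
    simp only [hz]
    split_ifs
    · (clear * -; positivity)
    · exact le_rfl
  have hT := tensorStmt_primes hθ hμ c hc0 hSP P (fun p hp => (Finset.mem_filter.1 hp).2) N f h z
    hf hh hz0
  have hK : 0 ≤ ∏ p ∈ P, c p :=
    Finset.prod_nonneg fun q hq => hc0 q (Finset.mem_filter.1 hq).2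
  have hFH : 0 ≤ ((∑ q ∈ Icc 1 N, f q) * ∑ r ∈ Icc 1 N, h r) ^ θ :=
    Real.rpow_nonneg (mul_nonneg (Finset.sum_nonneg fun i _ => hf i)
      (Finset.sum_nonneg fun i _ => hh i)) _
  have hLHS : ∑ q ∈ Icc 1 N, ∑ r ∈ Icc 1 N,
      (if Ω (cofac q r) (cofac r q) ∧ cofac q r ≤ V ∧ cofac r q ≤ V then
        (f q * h r) ^ θ * ((cofac q r : ℝ) * (cofac r q : ℝ)) ^ (-(1 - θ)) else 0)
      ≤ ∑ q ∈ Icc 1 N, ∑ r ∈ Icc 1 N,
      (if (∀ l : ℕ, l.Prime → l ∣ cofac q r * cofac r q → l ∈ P) then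
        (f q * h r) ^ θ * ((cofac q r : ℝ) * (cofac r q : ℝ)) ^ (-(1 - θ - μ)) *
          (z (cofac q r) (cofac r q)) ^ μ else 0) := by
    refine Finset.sum_le_sum fun q hq => Finset.sum_le_sum fun r hr => ?_
    have hq0 : 0 < q := (Finset.mem_Icc.1 hq).1
    have hr0 : 0 < r := (Finset.mem_Icc.1 hr).1
    have hu0 : 0 < cofac q r := cofac_pos r hq0
    have hv0 : 0 < cofac r q := cofac_pos q hr0
    by_cases hcnd : Ω (cofac q r) (cofac r q) ∧ cofac q r ≤ V ∧ cofac r q ≤ V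
    · rw [if_pos hcnd, if_pos]
      · simp only [hz]
        rw [if_pos hcnd]
        have hpos : (0 : ℝ) < (cofac q r : ℝ) * (cofac r q : ℝ) := by (clear * - hu0 hv0; positivity)
        rw [one_div, Real.inv_rpow hpos.le, ← Real.rpow_neg hpos.le, mul_assoc,
          ← Real.rpow_add hpos]
        refine le_of_eq ?_
        congr 2
        ring
      · intro l hl hd
        rw [hP, Finset.mem_filter, Finset.mem_Icc]
        refine ⟨⟨hl.one_lt.le, ?_⟩, hl⟩
        rcases hl.dvd_mul.1 hd with h1 | h1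
        · exact (Nat.le_of_dvd hu0 h1).trans hcnd.2.1
        · exact (Nat.le_of_dvd hv0 h1).trans hcnd.2.2
    · rw [if_neg hcnd]
      split_ifs
      · exact mul_nonneg (mul_nonneg (Real.rpow_nonneg (mul_nonneg (hf _) (hh _)) _)
          (Real.rpow_nonneg (by positivity) _)) (Real.rpow_nonneg (hz0 _ _) _)
      · exact le_rfl
  have hsum : ∑ u ∈ Icc 1 N, ∑ v ∈ Icc 1 N, (if Nat.Coprime u v then z u v else 0)
      ≤ ∑ u ∈ Icc 1 V, ∑ v ∈ Icc 1 V,
        if Nat.Coprime u v ∧ Ω u v then 1 / ((u : ℝ) * v) else 0 := by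
    have hA : ∑ u ∈ Icc 1 N, ∑ v ∈ Icc 1 N, (if Nat.Coprime u v then z u v else 0)
        = ∑ x ∈ (Icc 1 N ×ˢ Icc 1 N).filter
          (fun x => Nat.Coprime x.1 x.2 ∧ (Ω x.1 x.2 ∧ x.1 ≤ V ∧ x.2 ≤ V)),
          1 / ((x.1 : ℝ) * x.2) := by
      rw [← Finset.sum_product', Finset.sum_filter]
      refine Finset.sum_congr rfl fun x _ => ?_
      simp only [hz]
      by_cases h1 : Nat.Coprime x.1 x.2
      · by_cases h2 : Ω x.1 x.2 ∧ x.1 ≤ V ∧ x.2 ≤ V
        · rw [if_pos h1, if_pos h2, if_pos ⟨h1, h2⟩]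
        · rw [if_pos h1, if_neg h2, if_neg (fun h3 => h2 h3.2)]
      · rw [if_neg h1, if_neg (fun h3 => h1 h3.1)]
    have hB : ∑ u ∈ Icc 1 V, ∑ v ∈ Icc 1 V,
        (if Nat.Coprime u v ∧ Ω u v then 1 / ((u : ℝ) * v) else 0)
        = ∑ x ∈ (Icc 1 V ×ˢ Icc 1 V).filter
          (fun x => Nat.Coprime x.1 x.2 ∧ Ω x.1 x.2), 1 / ((x.1 : ℝ) * x.2) := by
      rw [← Finset.sum_product', Finset.sum_filter]
    rw [hA, hB]
    refine Finset.sum_le_sum_of_subset_of_nonneg ?_ (fun x _ _ => by (clear * -; positivity))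
    intro x hx
    simp only [Finset.mem_filter, Finset.mem_product, Finset.mem_Icc] at hx ⊢
    (clear * - hx; tauto)
  refine hLHS.trans (hT.trans ?_)
  refine mul_le_mul_of_nonneg_left ?_ (mul_nonneg hK hFH)
  refine Real.rpow_le_rpow ?_ hsum hμ.le
  refine Finset.sum_nonneg fun u _ => Finset.sum_nonneg fun v _ => ?_
  split_ifs
  · exact hz0 u v
  · exact le_rfl

end Vale.P028
end

section

namespace Vale.Agent.P013

open Finset Real

/-- `∑_{p < x} log p / p`. -/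
noncomputable def mA (x : ℕ) : ℝ := ∑ p ∈ (range x).filter Nat.Prime, Real.log p / p

lemma log_factorial_eq (n : ℕ) :
    Real.log (n.factorial : ℝ) =
      ∑ p ∈ (range (n + 1)).filter Nat.Prime, (padicValNat p n.factorial : ℝ) * Real.log p := by
  rw [Real.log_nat_eq_sum_factorization]
  unfold Finsupp.sum
  rw [Nat.support_factorization]
  have hsub : n.factorial.primeFactors ⊆ (range (n + 1)).filter Nat.Prime := by
    intro p hp
    rw [Nat.mem_primeFactors] at hp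
    rw [mem_filter, mem_range]
    refine ⟨?_, hp.1⟩
    have := (hp.1.dvd_factorial).mp hp.2.1
    omega
  rw [sum_subset hsub]
  · apply sum_congr rfl
    intro p hp
    rw [mem_filter] at hp
    rw [Nat.factorization_def _ hp.2]
  · intro p _ hp
    have : n.factorial.factorization p = 0 := by
      rw [← Finsupp.notMem_support_iff, Nat.support_factorization]; exact hp
    rw [this]; simp

lemma padic_le (p n : ℕ) (hp : p.Prime) :
    (padicValNat p n.factorial : ℝ) ≤ n / ((p : ℝ) - 1) := by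
  have := Fact.mk hp
  have h := @sub_one_mul_padicValNat_factorial p _ n
  have h1 : ((p : ℝ) - 1) * padicValNat p n.factorial ≤ n := by
    have h2 : (p - 1) * padicValNat p n.factorial ≤ n := by rw [h]; exact Nat.sub_le _ _
    have h3 : (((p - 1) * padicValNat p n.factorial : ℕ) : ℝ) ≤ n := by exact_mod_cast h2
    rw [Nat.cast_mul, Nat.cast_sub hp.one_le, Nat.cast_one] at h3
    exact h3
  have h4 : (0 : ℝ) < (p : ℝ) - 1 := by
    have : (2 : ℝ) ≤ p := by exact_mod_cast hp.two_le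
    linarith only [this]
  rw [le_div_iff₀ h4]
  linarith only [h1]

lemma le_padic (p n : ℕ) (hp : p.Prime) (hpn : p ≤ n) :
    ((n : ℝ) / p - 1) ≤ (padicValNat p n.factorial : ℝ) := by
  have := Fact.mk hp
  have h := padicValNat_factorial (p := p) (n := n) (b := Nat.log p n + 1) (Nat.lt_succ_self _)
  have h1 : n / p ≤ padicValNat p n.factorial := by
    rw [h]
    have hmem : 1 ∈ Ico 1 (Nat.log p n + 1) := by
      rw [mem_Ico]
      refine ⟨le_refl _, ?_⟩
      have : 0 < Nat.log p n := Nat.log_pos hp.one_lt hpn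
      omega
    calc n / p = n / p ^ 1 := by rw [pow_one]
      _ ≤ ∑ i ∈ Ico 1 (Nat.log p n + 1), n / p ^ i :=
        single_le_sum (f := fun i => n / p ^ i) (fun _ _ => Nat.zero_le _) hmem
  have h2 : (n : ℝ) / p < ((n / p : ℕ) : ℝ) + 1 := by
    have hp0 : (0 : ℝ) < p := by exact_mod_cast hp.pos
    rw [div_lt_iff₀ hp0]
    have := Nat.lt_div_mul_add hp.pos (a := n)
    have h3 : n < (n / p + 1) * p := by
      rw [add_mul, one_mul]; exact this
    exact_mod_cast h3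
  have h3 : ((n / p : ℕ) : ℝ) ≤ (padicValNat p n.factorial : ℝ) := by exact_mod_cast h1
  linarith only [h2, h3]

lemma log_factorial_le (n : ℕ) :
    Real.log (n.factorial : ℝ) ≤ n * Real.log n := by
  have h : (n.factorial : ℝ) ≤ (n : ℝ) ^ n := by exact_mod_cast Nat.factorial_le_pow n
  have h0 : (0 : ℝ) < n.factorial := by exact_mod_cast n.factorial_pos
  calc Real.log (n.factorial : ℝ) ≤ Real.log ((n : ℝ) ^ n) := Real.log_le_log h0 h
    _ = n * Real.log n := by rw [Real.log_pow]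

lemma le_log_factorial (n : ℕ) (hn : 1 ≤ n) :
    n * Real.log n - n ≤ Real.log (n.factorial : ℝ) := by
  have hn0 : (0 : ℝ) < n := by exact_mod_cast hn
  have h : (n : ℝ) ^ n / n.factorial ≤ Real.exp n := by
    have := Real.pow_div_factorial_le_exp (n : ℝ) (by positivity) n
    exact this
  have h0 : (0 : ℝ) < n.factorial := by exact_mod_cast n.factorial_pos
  have h2 : (0 : ℝ) < (n : ℝ) ^ n := pow_pos hn0 n
  have h1 : Real.log ((n : ℝ) ^ n / n.factorial) ≤ n := by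
    rw [Real.log_le_iff_le_exp (div_pos h2 h0)]
    exact h
  rw [Real.log_div h2.ne' h0.ne', Real.log_pow] at h1
  linarith only [h1]

lemma sum_log_le (n : ℕ) (hn : 1 ≤ n) :
    ∑ p ∈ (range (n + 1)).filter Nat.Prime, Real.log p / p ≤ Real.log n + Real.log 4 := by
  have hn0 : (0 : ℝ) < n := by exact_mod_cast hn
  have h1 := log_factorial_le n
  rw [log_factorial_eq] at h1
  have h2 : ∑ p ∈ (range (n + 1)).filter Nat.Prime, ((n : ℝ) / p - 1) * Real.log p ≤
      ∑ p ∈ (range (n + 1)).filter Nat.Prime, (padicValNat p n.factorial : ℝ) * Real.log p := by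
    apply sum_le_sum
    intro p hp
    rw [mem_filter, mem_range] at hp
    apply mul_le_mul_of_nonneg_right
    · exact le_padic p n hp.2 (by omega)
    · exact Real.log_nonneg (by exact_mod_cast hp.2.one_le)
  have h3 : ∑ p ∈ (range (n + 1)).filter Nat.Prime, Real.log p ≤ Real.log 4 * n := by
    have := Chebyshev.theta_le_log4_mul_x (x := (n : ℝ)) (by positivity)
    refine le_trans (le_of_eq ?_) this
    rw [Chebyshev.theta_eq_sum_primesLE_log]
    apply sum_congr _ (fun _ _ => rfl)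
    ext p
    simp [Nat.mem_primesLE, mem_filter, mem_range]
  have h4 : ∑ p ∈ (range (n + 1)).filter Nat.Prime, ((n : ℝ) / p - 1) * Real.log p =
      n * ∑ p ∈ (range (n + 1)).filter Nat.Prime, Real.log p / p -
      ∑ p ∈ (range (n + 1)).filter Nat.Prime, Real.log p := by
    rw [mul_sum, ← sum_sub_distrib]
    apply sum_congr rfl
    intro p _
    ring
  have h5 : n * ∑ p ∈ (range (n + 1)).filter Nat.Prime, Real.log p / p ≤
      n * (Real.log n + Real.log 4) := by linarith only [h1, h2, h3, h4]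
  exact le_of_mul_le_mul_left h5 hn0

lemma sum_log_ge : ∃ C : ℝ, 0 < C ∧ ∀ n : ℕ, 1 ≤ n →
    Real.log n - C ≤ ∑ p ∈ (range (n + 1)).filter Nat.Prime, Real.log p / p := by
  have hsum : Summable (fun n : ℕ => Real.log n / ((n : ℝ) * ((n : ℝ) - 1))) := by
    have h0 : Summable (fun n : ℕ => 4 * (1 / (n : ℝ) ^ (3 / 2 : ℝ))) := by
      apply Summable.mul_left
      exact Real.summable_one_div_nat_rpow.mpr (by norm_num)
    apply Summable.of_nonneg_of_le _ _ h0
    · intro n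
      rcases Nat.eq_zero_or_pos n with rfl | hn
      · simp
      · have h1 : (1 : ℝ) ≤ n := by exact_mod_cast hn
        apply div_nonneg (Real.log_nonneg h1)
        apply mul_nonneg (by linarith only [h1]) (by linarith only [h1])
    · intro n
      rcases Nat.lt_or_ge n 2 with hn | hn
      · interval_cases n <;> simp
      · have h1 : (2 : ℝ) ≤ n := by exact_mod_cast hn
        have hlog : Real.log n ≤ 2 * (n : ℝ) ^ (1 / 2 : ℝ) := by
          have := Real.log_le_rpow_div (x := (n : ℝ)) (ε := 1 / 2) (by linarith only [h1]) (by norm_num)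
          linarith only [this]
        have hn1 : (n : ℝ) / 2 ≤ (n : ℝ) - 1 := by linarith only [h1]
        have hn0 : (0 : ℝ) < n := by linarith only [h1]
        have hrp : (n : ℝ) ^ (3 / 2 : ℝ) * (n : ℝ) ^ (1 / 2 : ℝ) = n * n := by
          rw [← Real.rpow_add hn0]
          norm_num
          ring
        have hp1 : 0 < (n : ℝ) ^ (3 / 2 : ℝ) := Real.rpow_pos_of_pos hn0 _
        have hp2 : 0 < (n : ℝ) ^ (1 / 2 : ℝ) := Real.rpow_pos_of_pos hn0 _
        rw [div_le_iff₀ (by apply mul_pos hn0; linarith only [h1])]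
        have h5 : 4 * (1 / (n : ℝ) ^ (3 / 2 : ℝ)) * ((n : ℝ) * ((n : ℝ) - 1)) ≥
            4 * (1 / (n : ℝ) ^ (3 / 2 : ℝ)) * ((n : ℝ) * ((n : ℝ) / 2)) := by
          apply mul_le_mul_of_nonneg_left _ (by positivity)
          apply mul_le_mul_of_nonneg_left hn1 hn0.le
        have h6 : 4 * (1 / (n : ℝ) ^ (3 / 2 : ℝ)) * ((n : ℝ) * ((n : ℝ) / 2)) =
            2 * (n : ℝ) ^ (1 / 2 : ℝ) := by
          have : (n : ℝ) * ((n : ℝ) / 2) = (n : ℝ) ^ (3 / 2 : ℝ) * (n : ℝ) ^ (1 / 2 : ℝ) / 2 := by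
            rw [hrp]; ring
          rw [this]
          field_simp
          norm_num
        linarith only [h6, h5, hlog]
  refine ⟨1 + ∑' n : ℕ, Real.log n / ((n : ℝ) * ((n : ℝ) - 1)), ?_, ?_⟩
  · have : 0 ≤ ∑' n : ℕ, Real.log n / ((n : ℝ) * ((n : ℝ) - 1)) := by
      apply tsum_nonneg
      intro n
      rcases Nat.eq_zero_or_pos n with rfl | hn
      · simp
      · have h1 : (1 : ℝ) ≤ n := by exact_mod_cast hn
        apply div_nonneg (Real.log_nonneg h1)
        apply mul_nonneg (by linarith only [h1]) (by linarith)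
    linarith
  · intro n hn
    have hn0 : (0 : ℝ) < n := by exact_mod_cast hn
    have h1 := le_log_factorial n hn
    rw [log_factorial_eq] at h1
    have h2 : ∑ p ∈ (range (n + 1)).filter Nat.Prime, (padicValNat p n.factorial : ℝ) * Real.log p
        ≤ ∑ p ∈ (range (n + 1)).filter Nat.Prime, (n / ((p : ℝ) - 1)) * Real.log p := by
      apply sum_le_sum
      intro p hp
      rw [mem_filter, mem_range] at hp
      apply mul_le_mul_of_nonneg_right (padic_le p n hp.2)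
      exact Real.log_nonneg (by exact_mod_cast hp.2.one_le)
    have h3 : ∑ p ∈ (range (n + 1)).filter Nat.Prime, (n / ((p : ℝ) - 1)) * Real.log p =
        n * (∑ p ∈ (range (n + 1)).filter Nat.Prime, Real.log p / p +
          ∑ p ∈ (range (n + 1)).filter Nat.Prime, Real.log p / ((p : ℝ) * ((p : ℝ) - 1))) := by
      rw [← sum_add_distrib, mul_sum]
      apply sum_congr rfl
      intro p hp
      rw [mem_filter, mem_range] at hp
      have h1 : (2 : ℝ) ≤ p := by exact_mod_cast hp.2.two_le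
      have h2 : (p : ℝ) - 1 ≠ 0 := by linarith only [h1]
      have h3 : (p : ℝ) ≠ 0 := by linarith only [h1]
      field_simp
      ring
    have h4 : ∑ p ∈ (range (n + 1)).filter Nat.Prime, Real.log p / ((p : ℝ) * ((p : ℝ) - 1)) ≤
        ∑' n : ℕ, Real.log n / ((n : ℝ) * ((n : ℝ) - 1)) := by
      apply hsum.sum_le_tsum
      intro i _
      rcases Nat.eq_zero_or_pos i with rfl | hi
      · simp
      · have h1 : (1 : ℝ) ≤ i := by exact_mod_cast hi
        apply div_nonneg (Real.log_nonneg h1)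
        apply mul_nonneg (by linarith only [h1]) (by linarith only [h1])
    have h5 : n * (Real.log n - 1) ≤ n * (∑ p ∈ (range (n + 1)).filter Nat.Prime, Real.log p / p +
          ∑ p ∈ (range (n + 1)).filter Nat.Prime, Real.log p / ((p : ℝ) * ((p : ℝ) - 1))) := by
      linarith only [h1, h2, h3]
    have h6 := le_of_mul_le_mul_left h5 hn0
    linarith only [h4, h6]

/-- Mertens' first theorem. -/
theorem mertens_one : ∃ C : ℝ, 0 < C ∧ ∀ x : ℕ, 1 ≤ x →
    |(∑ p ∈ (range x).filter Nat.Prime, Real.log p / p) - Real.log x| ≤ C := by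
  obtain ⟨C, hC, hlow⟩ := sum_log_ge
  refine ⟨C + Real.log 4 + 1, by positivity, ?_⟩
  intro x hx
  have hlog4 : 0 ≤ Real.log 4 := Real.log_nonneg (by norm_num)
  rcases Nat.lt_or_ge x 2 with h | h
  · have : x = 1 := by omega
    subst this
    have : (range 1).filter Nat.Prime = ∅ := by decide
    rw [this]
    simp
    linarith only [hC, hlog4]
  · obtain ⟨n, rfl⟩ : ∃ n, x = n + 1 := ⟨x - 1, by omega⟩
    have hn : 1 ≤ n := by omega
    have hn0 : (0 : ℝ) < n := by exact_mod_cast hn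
    have hn1 : (1 : ℝ) ≤ n := by exact_mod_cast hn
    have h1 := sum_log_le n hn
    have h2 := hlow n hn
    have h3 : Real.log n ≤ Real.log ((n + 1 : ℕ) : ℝ) := by
      apply Real.log_le_log hn0
      push_cast; linarith only []
    have h4 : Real.log ((n + 1 : ℕ) : ℝ) ≤ Real.log n + 1 := by
      have : Real.log ((n + 1 : ℕ) : ℝ) ≤ Real.log (n * Real.exp 1) := by
        apply Real.log_le_log (by positivity)
        have : (2 : ℝ) ≤ Real.exp 1 := by
          have := Real.add_one_le_exp (1 : ℝ)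
          linarith only [this]
        push_cast
        nlinarith only [hn1, this]
      rw [Real.log_mul hn0.ne' (Real.exp_pos 1).ne', Real.log_exp] at this
      exact this
    rw [abs_le]
    constructor <;> linarith only [hlog4, h2, h4, hC, h1, h3]

/-- The step of the summation by parts in Mertens' second theorem. -/
lemma mertens_two_aux (C : ℝ) (hC : ∀ x : ℕ, 1 ≤ x → |mA x - Real.log x| ≤ C) (x : ℕ)
    (hx : 2 ≤ x) (z : ℕ) (hz : x ≤ z) :
    ∑ p ∈ (Ico x z).filter Nat.Prime, 1 / (p : ℝ) ≤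
      Real.log (Real.log z) - Real.log (Real.log x) +
      (mA z - Real.log z) / Real.log z - (mA x - Real.log x) / Real.log x +
      (C + 1) * (1 / Real.log x - 1 / Real.log z) := by
  induction z, hz using Nat.le_induction with
  | base => simp
  | succ z hz ih =>
    have hz2 : 2 ≤ z := hx.trans hz
    have hzR : (2 : ℝ) ≤ z := by exact_mod_cast hz2
    have hlz : 0 < Real.log z := Real.log_pos (by linarith only [hzR])
    have hlz1 : Real.log z < Real.log ((z + 1 : ℕ) : ℝ) := by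
      apply Real.log_lt_log (by linarith only [hzR])
      push_cast; linarith only []
    have hlz1' : 0 < Real.log ((z + 1 : ℕ) : ℝ) := hlz.trans hlz1
    set u := Real.log z with hu
    set v := Real.log ((z + 1 : ℕ) : ℝ) with hv
    have hIco : Ico x (z + 1) = insert z (Ico x z) := by
      rw [← Nat.Ico_succ_right_eq_insert_Ico hz]
    have hterm : ∑ p ∈ (Ico x (z + 1)).filter Nat.Prime, 1 / (p : ℝ) =
        ∑ p ∈ (Ico x z).filter Nat.Prime, 1 / (p : ℝ) + (mA (z + 1) - mA z) / u := by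
      have hA : mA (z + 1) = mA z + (if z.Prime then u / z else 0) := by
        unfold mA
        rw [range_add_one, filter_insert]
        split_ifs with hp
        · rw [sum_insert (by simp)]
          rw [hu]; ring
        · simp
      rw [hA, hIco, filter_insert]
      split_ifs with hp
      · rw [sum_insert (by simp)]
        have : (z : ℝ) ≠ 0 := by linarith only [hzR]
        field_simp
        ring
      · simp
    rw [hterm]
    have h1 : v - u ≤ 1 := by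
      have : v ≤ Real.log (z * Real.exp 1) := by
        apply Real.log_le_log (by positivity)
        have : (2 : ℝ) ≤ Real.exp 1 := by
          have := Real.add_one_le_exp (1 : ℝ)
          linarith only [this]
        push_cast
        nlinarith only [hzR, this]
      rw [Real.log_mul (by linarith only [hzR]) (Real.exp_pos 1).ne', Real.log_exp] at this
      linarith only [this]
    have h2 : (v - u) / v ≤ Real.log v - Real.log u := by
      have := Real.one_sub_inv_le_log_of_pos (show 0 < v / u by positivity)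
      rw [Real.log_div hlz1'.ne' hlz.ne'] at this
      refine le_trans (le_of_eq ?_) this
      field_simp
    have hE := hC (z + 1) (by omega)
    rw [abs_le] at hE
    set e := mA z - u with he
    set e' := mA (z + 1) - v with he'
    have hmA : mA (z + 1) - mA z = (v - u) + (e' - e) := by rw [he, he']; ring
    rw [hmA]
    have h3 : ((v - u) + (e' - e)) / u = (v - u) / v + (v - u) * (1 / u - 1 / v) +
        e' / v - e / u + e' * (1 / u - 1 / v) := by
      field_simp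
      ring
    have h4 : 0 ≤ 1 / u - 1 / v := by
      rw [sub_nonneg]
      exact one_div_le_one_div_of_le hlz hlz1.le
    have h5 : (v - u) * (1 / u - 1 / v) ≤ 1 * (1 / u - 1 / v) :=
      mul_le_mul_of_nonneg_right h1 h4
    have h6 : e' * (1 / u - 1 / v) ≤ C * (1 / u - 1 / v) :=
      mul_le_mul_of_nonneg_right hE.2 h4
    have h7 : (C + 1) * (1 / Real.log x - 1 / v) = (C + 1) * (1 / Real.log x - 1 / u) +
      (C * (1 / u - 1 / v) + 1 * (1 / u - 1 / v)) := by ring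
    rw [h3, h7]
    linarith only [h2, ih, h5, h6]

/-- One-sided Mertens' second theorem. -/
theorem mertens_two : ∃ C : ℝ, 0 < C ∧ ∀ x z : ℕ, 2 ≤ x → x ≤ z →
    ∑ p ∈ (Ico x z).filter Nat.Prime, 1 / (p : ℝ) ≤
      Real.log (Real.log z) - Real.log (Real.log x) + C / Real.log x := by
  obtain ⟨C, hC0, hC⟩ := mertens_one
  refine ⟨3 * C + 1, by linarith, ?_⟩
  intro x z hx hz
  have h := mertens_two_aux C (fun x hx => hC x hx) x hx z hz
  have hxR : (2 : ℝ) ≤ x := by exact_mod_cast hx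
  have hzR : (x : ℝ) ≤ z := by exact_mod_cast hz
  have hlx : 0 < Real.log x := Real.log_pos (by linarith only [hxR])
  have hlz : Real.log x ≤ Real.log z := Real.log_le_log (by linarith only [hxR]) hzR
  have hlz0 : 0 < Real.log z := lt_of_lt_of_le hlx hlz
  have hEz := hC z (by omega)
  have hEx := hC x (by omega)
  rw [abs_le] at hEz hEx
  have h1 : (mA z - Real.log z) / Real.log z ≤ C / Real.log x := by
    calc (mA z - Real.log z) / Real.log z ≤ C / Real.log z :=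
          div_le_div_of_nonneg_right hEz.2 hlz0.le
      _ ≤ C / Real.log x := div_le_div_of_nonneg_left hC0.le hlx hlz
  have h2 : -((mA x - Real.log x) / Real.log x) ≤ C / Real.log x := by
    rw [← neg_div]
    apply div_le_div_of_nonneg_right _ hlx.le
    have := hEx.1
    unfold mA
    linarith only [hEx]
  have h3 : (C + 1) * (1 / Real.log x - 1 / Real.log z) ≤ (C + 1) / Real.log x := by
    have : 0 ≤ 1 / Real.log z := by positivity
    calc (C + 1) * (1 / Real.log x - 1 / Real.log z) ≤ (C + 1) * (1 / Real.log x) := by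
          apply mul_le_mul_of_nonneg_left _ (by linarith only [hC0])
          linarith only [this]
      _ = (C + 1) / Real.log x := by ring
  have h4 : (3 * C + 1) / Real.log x = C / Real.log x + C / Real.log x + (C + 1) / Real.log x := by
    ring
  rw [h4]
  linarith only [h, h1, h2, h3]

theorem sum_inv_prime_le : ∃ C : ℝ, 0 < C ∧ ∀ z : ℕ, 2 ≤ z →
    ∑ p ∈ (range z).filter Nat.Prime, 1 / (p : ℝ) ≤ Real.log (Real.log z) + C := by
  obtain ⟨C, hC0, hC⟩ := mertens_two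
  have hl2 : 0 < Real.log 2 := Real.log_pos (by norm_num)
  refine ⟨|Real.log (Real.log 2)| + C / Real.log 2, by positivity, ?_⟩
  intro z hz
  have h1 := hC 2 z le_rfl hz
  have h2 : (range z).filter Nat.Prime = (Ico 2 z).filter Nat.Prime := by
    ext p
    simp only [mem_filter, mem_range, mem_Ico]
    constructor
    · rintro ⟨h1, h2⟩; exact ⟨⟨h2.two_le, h1⟩, h2⟩
    · rintro ⟨h1, h2⟩; exact ⟨h1.2, h2⟩
  rw [h2]
  have h3 := neg_abs_le (Real.log (Real.log 2))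
  have h4 : Real.log (Real.log ((2 : ℕ) : ℝ)) = Real.log (Real.log 2) := by norm_num
  have h5 : Real.log ((2 : ℕ) : ℝ) = Real.log 2 := by norm_num
  rw [h4, h5] at h1
  linarith only [h1, h3]

end Vale.Agent.P013
end

section

/-!
# Mertens type sums (from the Mertens file of P013)
-/

namespace Vale.P028

open Finset

theorem filter_Icc_eq_range (y : ℕ) :
    (Icc 1 y).filter Nat.Prime = (range (y + 1)).filter Nat.Prime := by
  ext p
  simp only [mem_filter, mem_Icc, mem_range]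
  constructor
  · rintro ⟨⟨_, h1⟩, h2⟩; exact ⟨by omega, h2⟩
  · rintro ⟨h1, h2⟩; exact ⟨⟨h2.one_lt.le, by omega⟩, h2⟩

theorem sum_log_div_prime_le : ∃ C ≥ 0, ∀ y : ℕ, 1 ≤ y →
    ∑ p ∈ (Icc 1 y).filter Nat.Prime, Real.log p / p ≤ Real.log y + C := by
  obtain ⟨C, hC0, hC⟩ := Vale.Agent.P013.mertens_one
  refine ⟨C + Real.log 2, add_nonneg hC0.le (Real.log_nonneg (by norm_num)), ?_⟩
  intro y hy
  have h1 := hC (y + 1) (by omega)
  rw [filter_Icc_eq_range]
  have h2 := (abs_le.mp h1).2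
  have hy0 : (0 : ℝ) < y := by exact_mod_cast hy
  have hy1 : (1 : ℝ) ≤ y := by exact_mod_cast hy
  have h3 : Real.log ((y + 1 : ℕ) : ℝ) ≤ Real.log y + Real.log 2 := by
    rw [← Real.log_mul hy0.ne' (by norm_num)]
    apply Real.log_le_log (by positivity)
    push_cast; linarith only [hy1]
  linarith only [h2, h3]

theorem prod_one_add_div_prime_le (A : ℝ) (hA : 0 ≤ A) : ∃ C > 0, ∃ k ≥ 0, ∀ V : ℕ, 1 ≤ V →
    ∏ p ∈ (Icc 1 V).filter Nat.Prime, (1 + A / (p : ℝ)) ≤ C * (1 + Real.log V) ^ (k : ℝ) := by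
  obtain ⟨C, hC0, hC⟩ := Vale.Agent.P013.sum_inv_prime_le
  refine ⟨Real.exp (A * C), Real.exp_pos _, A, hA, ?_⟩
  intro V hV
  have hV0 : (0 : ℝ) < V := by exact_mod_cast hV
  have hV1 : (1 : ℝ) ≤ V := by exact_mod_cast hV
  have h1 := hC (V + 1) (by omega)
  have hlV : 0 ≤ Real.log V := Real.log_nonneg hV1
  have hl1 : 0 < Real.log ((V + 1 : ℕ) : ℝ) := by
    apply Real.log_pos
    push_cast; linarith only [hV0]
  have h3 : Real.log ((V + 1 : ℕ) : ℝ) ≤ 1 + Real.log V := by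
    have : Real.log ((V + 1 : ℕ) : ℝ) ≤ Real.log (Real.exp 1 * V) := by
      apply Real.log_le_log (by positivity)
      have : (2 : ℝ) ≤ Real.exp 1 := by
        have := Real.add_one_le_exp (1 : ℝ)
        linarith only [this]
      push_cast
      nlinarith only [hV1, this]
    rwa [Real.log_mul (Real.exp_pos 1).ne' hV0.ne', Real.log_exp] at this
  have h4 : Real.log (Real.log ((V + 1 : ℕ) : ℝ)) ≤ Real.log (1 + Real.log V) :=
    Real.log_le_log hl1 h3
  calc ∏ p ∈ (Icc 1 V).filter Nat.Prime, (1 + A / (p : ℝ))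
      ≤ ∏ p ∈ (Icc 1 V).filter Nat.Prime, Real.exp (A / (p : ℝ)) := by
        refine prod_le_prod (fun p _ => by (clear * - hA; positivity)) (fun p _ => ?_)
        have := Real.add_one_le_exp (A / (p : ℝ))
        linarith only [this]
    _ = Real.exp (A * ∑ p ∈ (range (V + 1)).filter Nat.Prime, 1 / (p : ℝ)) := by
        rw [← Real.exp_sum, filter_Icc_eq_range, mul_sum]
        congr 1
        refine sum_congr rfl fun p _ => ?_
        ring
    _ ≤ Real.exp (A * (Real.log (1 + Real.log V) + C)) := by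
        apply Real.exp_le_exp.mpr
        apply mul_le_mul_of_nonneg_left _ hA
        linarith only [h1, h4]
    _ = Real.exp (A * C) * (1 + Real.log V) ^ A := by
        rw [Real.rpow_def_of_pos (by linarith only [hlV]), ← Real.exp_add]
        congr 1
        ring

end Vale.P028
end

section
attribute [-instance] ProperSMul.toContinuousSMul IsTopologicalTorsor.toContinuousSMul IdemSemiring.toCanonicallyOrderedAdd IdemSemiring.toMulLeftMono IdemSemiring.toMulRightMono AddQuantale.instAddLeftMono AddQuantale.instAddRightMono Quantale.instMulLeftMono Quantale.instMulRightMono FiniteDimensional.rclike_to_real IsScalarTower.complexToReal FiniteDimensional.complexToReal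

/-!
# From level sets `D ≤ s` to the second moment
-/

namespace Vale.P028

open Finset

theorem psum_nonneg (R : ℕ → ℕ → Prop) (N : ℕ) (f h : ℕ → ℝ) (hf : ∀ q, 0 ≤ f q)
    (hh : ∀ q, 0 ≤ h q) : 0 ≤ psum R N f h := by
  classical
  unfold psum
  refine sum_nonneg fun q _ => sum_nonneg fun r _ => ?_
  split_ifs
  · exact mul_nonneg (hf q) (hh r)
  · exact le_rfl

theorem psum_mono (R R' : ℕ → ℕ → Prop) (N : ℕ) (f h f' h' : ℕ → ℝ)
    (hf' : ∀ q, 0 ≤ f' q) (hh' : ∀ q, 0 ≤ h' q)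
    (H : ∀ q ∈ Icc 1 N, ∀ r ∈ Icc 1 N, R q r → f q * h r ≠ 0 →
      R' q r ∧ f q * h r ≤ f' q * h' r) : psum R N f h ≤ psum R' N f' h' := by
  classical
  unfold psum
  refine sum_le_sum fun q hq => sum_le_sum fun r hr => ?_
  by_cases h0 : f q * h r = 0
  · have h1 : 0 ≤ (if R' q r then f' q * h' r else 0) := by
      split_ifs
      · exact mul_nonneg (hf' q) (hh' r)
      · exact le_rfl
    rw [h0]
    simpa only [ite_self, ge_iff_le] using h1
  · by_cases hR : R q r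
    · obtain ⟨h1, h2⟩ := H q hq r hr hR h0
      rw [if_pos hR, if_pos h1]
      exact h2
    · rw [if_neg hR]
      split_ifs
      · exact mul_nonneg (hf' q) (hh' r)
      · exact le_rfl

theorem psum_or_le (R R₁ R₂ : ℕ → ℕ → Prop) (N : ℕ) (f h : ℕ → ℝ) (hf : ∀ q, 0 ≤ f q)
    (hh : ∀ q, 0 ≤ h q) (H : ∀ q r, R q r → R₁ q r ∨ R₂ q r) :
    psum R N f h ≤ psum R₁ N f h + psum R₂ N f h := by
  classical
  unfold psum
  rw [← sum_add_distrib]
  refine sum_le_sum fun q _ => ?_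
  rw [← sum_add_distrib]
  refine sum_le_sum fun r _ => ?_
  have h0 := mul_nonneg (hf q) (hh r)
  by_cases hR : R q r
  · rcases H q r hR with h1 | h1
    · rw [if_pos hR, if_pos h1]
      split_ifs <;> linarith only [h0]
    · rw [if_pos hR, if_pos h1]
      split_ifs <;> linarith
  · rw [if_neg hR]
    split_ifs <;> linarith

theorem sum_le_psum (R : ℕ → ℕ → Prop) (N : ℕ) (f h : ℕ → ℝ) (hf : ∀ q, 0 ≤ f q)
    (hh : ∀ q, 0 ≤ h q) (T : Finset (ℕ × ℕ))
    (hT : ∀ p ∈ T, p.1 ∈ Icc 1 N ∧ p.2 ∈ Icc 1 N ∧ R p.1 p.2) :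
    ∑ p ∈ T, f p.1 * h p.2 ≤ psum R N f h := by
  classical
  unfold psum
  rw [← sum_product' (f := fun q r => if R q r then f q * h r else 0)]
  have h1 : ∑ p ∈ T, f p.1 * h p.2 = ∑ p ∈ T, (if R p.1 p.2 then f p.1 * h p.2 else 0) := by
    refine sum_congr rfl fun p hp => ?_
    rw [if_pos (hT p hp).2.2]
  rw [h1]
  refine sum_le_sum_of_subset_of_nonneg ?_ ?_
  · intro p hp
    rw [mem_product]
    exact ⟨(hT p hp).1, (hT p hp).2.1⟩
  · intro p _ _
    split_ifs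
    · exact mul_nonneg (hf _) (hh _)
    · exact le_rfl

theorem eq_of_cofac_eq {q r : ℕ} (h : cofac q r = cofac r q) : q = r := by
  unfold cofac at h
  have h1 := Nat.div_mul_cancel (Nat.gcd_dvd_left q r)
  have h2 := Nat.div_mul_cancel (Nat.gcd_dvd_left r q)
  rw [Nat.gcd_comm r q] at h2 h
  calc q = q / q.gcd r * q.gcd r := h1.symm
    _ = r / q.gcd r * q.gcd r := by rw [h]
    _ = r := h2

theorem distInt_le_of_int {t ε : ℝ} (m : ℤ) (h : |(m : ℝ) - t| < ε) : distInt t < ε := by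
  unfold distInt
  have h1 := round_le t m
  rw [abs_sub_comm] at h
  linarith

end Vale.P028
end

section

/-!
# Theorem L: induction over the primes of `P`
-/

namespace Vale.P028

open Finset

theorem psum_le_psum {R R' : ℕ → ℕ → Prop} {N : ℕ} {f h f' h' : ℕ → ℝ}
    (hf : ∀ q, 0 ≤ f' q) (hh : ∀ r, 0 ≤ h' r)
    (hR : ∀ q r, 0 < q → 0 < r → R q r → f q * h r ≤ f' q * h' r ∧ (R' q r ∨ f' q * h' r = 0)) :
    psum R N f h ≤ psum R' N f' h' := by
  classical
  unfold psum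
  refine sum_le_sum fun q hq => sum_le_sum fun r hr => ?_
  have hq0 : 0 < q := (mem_Icc.mp hq).1
  have hr0 : 0 < r := (mem_Icc.mp hr).1
  by_cases h1 : R q r
  · obtain ⟨h2, h3⟩ := hR q r hq0 hr0 h1
    rw [if_pos h1]
    rcases h3 with h3 | h3
    · rwa [if_pos h3]
    · split_ifs
      · exact h2
      · linarith only [h2, h3]
  · rw [if_neg h1]
    split_ifs
    · exact mul_nonneg (hf q) (hh r)
    · exact le_refl _

theorem sum_reindex (p k N : ℕ) (hp : 0 < p) (G : ℕ → ℝ) (hG : ∀ q, ¬ p ^ k ∣ q → G q = 0) :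
    ∑ q ∈ Icc 1 N, G q = ∑ q' ∈ Icc 1 N, if p ^ k * q' ≤ N then G (p ^ k * q') else 0 := by
  have hpk : 0 < p ^ k := pow_pos hp k
  have h1 : ∑ q ∈ Icc 1 N, G q = ∑ q ∈ (Icc 1 N).filter (fun q => p ^ k ∣ q), G q := by
    rw [Finset.sum_filter]
    refine sum_congr rfl fun q _ => ?_
    split_ifs with h
    · rfl
    · exact hG q h
  rw [← Finset.sum_filter, h1]
  symm
  refine Finset.sum_nbij' (fun q' => p ^ k * q') (fun q => q / p ^ k) ?_ ?_ ?_ ?_ ?_
  · intro q hq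
    simp only [mem_filter, mem_Icc] at hq ⊢
    exact ⟨⟨Nat.mul_pos hpk hq.1.1, hq.2⟩, dvd_mul_right _ _⟩
  · intro q hq
    simp only [mem_filter, mem_Icc] at hq ⊢
    obtain ⟨⟨h2, h3⟩, m, rfl⟩ := hq
    rw [Nat.mul_div_cancel_left _ hpk]
    refine ⟨⟨Nat.pos_of_mul_pos_left h2 |> fun h => ?_, ?_⟩, h3⟩
    · rcases Nat.eq_zero_or_pos m with h0 | h0
      · subst h0; simp only [mul_zero, nonpos_iff_eq_zero, one_ne_zero] at h2
      · exact h0
    · exact le_trans (Nat.le_mul_of_pos_left m hpk) h3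
  · intro q _
    exact Nat.mul_div_cancel_left _ hpk
  · intro q hq
    simp only [mem_filter] at hq
    exact Nat.mul_div_cancel' hq.2
  · intro q _
    rfl

theorem psum_reindex (p i j N : ℕ) (hp : 0 < p) (R : ℕ → ℕ → Prop) (f h : ℕ → ℝ)
    (hR : ∀ q r, 0 < q → 0 < r → R q r → p ^ i ∣ q ∧ p ^ j ∣ r) :
    psum R N f h = psum (fun q r => R (p ^ i * q) (p ^ j * r)) N
      (fun q => if p ^ i * q ≤ N then f (p ^ i * q) else 0)
      (fun r => if p ^ j * r ≤ N then h (p ^ j * r) else 0) := by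
  classical
  unfold psum
  have h1 : ∑ q ∈ Icc 1 N, ∑ r ∈ Icc 1 N, (if R q r then f q * h r else 0)
      = ∑ q ∈ Icc 1 N, if 0 < q then ∑ r ∈ Icc 1 N, (if R q r then f q * h r else 0) else 0 := by
    refine sum_congr rfl fun q hq => ?_
    have hq0 : 0 < q := (mem_Icc.mp hq).1
    rw [if_pos hq0]
  rw [h1, sum_reindex p i N hp]
  · refine sum_congr rfl fun q hq => ?_
    have hq0 : 0 < q := (mem_Icc.mp hq).1
    split_ifs with h2 h3
    · have h4 : ∑ r ∈ Icc 1 N, (if R (p ^ i * q) r then f (p ^ i * q) * h r else 0)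
          = ∑ r ∈ Icc 1 N, if 0 < r then (if R (p ^ i * q) r then f (p ^ i * q) * h r else 0)
              else 0 := by
        refine sum_congr rfl fun r hr => ?_
        have hr0 : 0 < r := (mem_Icc.mp hr).1
        rw [if_pos hr0]
      rw [h4, sum_reindex p j N hp]
      · refine sum_congr rfl fun r hr => ?_
        have hr0 : 0 < r := (mem_Icc.mp hr).1
        have h5 : 0 < p ^ j * r := Nat.mul_pos (pow_pos hp j) hr0
        simp only [h5, if_true]
        split_ifs <;> simp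
      · intro r hr
        split_ifs with h5 h6
        · exact absurd (hR _ _ h3 h5 h6).2 hr
        · rfl
        · rfl
    · exact absurd (Nat.mul_pos (pow_pos hp i) hq0) h3
    · symm
      apply sum_eq_zero
      intro r _
      simp only [h2, ↓reduceIte, mul_ite, zero_mul, mul_zero, ite_self]
  · intro q hq
    split_ifs with h2
    · apply sum_eq_zero
      intro r hr
      split_ifs with h6
      · exact absurd (hR _ _ h2 (mem_Icc.mp hr).1 h6).1 hq
      · rfl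
    · rfl

theorem cofac_exact {p : ℕ} (hp : p.Prime) (i j q r : ℕ) (hq : ¬ p ∣ q) (hr : ¬ p ∣ r) :
    Nat.gcd (p ^ i * q) (p ^ j * r) = p ^ min i j * Nat.gcd q r ∧
    cofac (p ^ i * q) (p ^ j * r) = p ^ (i - j) * cofac q r := by
  have hq' : ∀ k, Nat.Coprime (p ^ k) q := fun k =>
    Nat.Coprime.pow_left k ((Nat.Prime.coprime_iff_not_dvd hp).mpr hq)
  have hr' : ∀ k, Nat.Coprime (p ^ k) r := fun k =>
    Nat.Coprime.pow_left k ((Nat.Prime.coprime_iff_not_dvd hp).mpr hr)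
  have hg : Nat.gcd (p ^ i * q) (p ^ j * r) = p ^ min i j * Nat.gcd q r := by
    rcases le_total i j with h | h
    · obtain ⟨l, rfl⟩ := Nat.exists_eq_add_of_le h
      rw [min_eq_left h, pow_add, mul_assoc, Nat.gcd_mul_left]
      congr 1
      exact Nat.Coprime.gcd_mul_left_cancel_right _ (hq' l).symm.symm
    · obtain ⟨l, rfl⟩ := Nat.exists_eq_add_of_le h
      rw [min_eq_right h, pow_add, mul_assoc, Nat.gcd_mul_left]
      congr 1
      exact Nat.Coprime.gcd_mul_left_cancel _ (hr' l)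
  refine ⟨hg, ?_⟩
  unfold cofac
  rw [hg]
  rcases le_total i j with h | h
  · rw [min_eq_left h, Nat.sub_eq_zero_of_le h, pow_zero, one_mul,
      Nat.mul_div_mul_left _ _ (pow_pos hp.pos i)]
  · obtain ⟨l, rfl⟩ := Nat.exists_eq_add_of_le h
    rw [min_eq_right h, pow_add, mul_assoc, Nat.mul_div_mul_left _ _ (pow_pos hp.pos j),
      Nat.add_sub_cancel_left, Nat.mul_div_assoc _ (Nat.gcd_dvd_left q r)]

theorem edge_exact {Ω : ℕ → ℕ → Prop} {P : Finset ℕ} {a b p : ℕ} {ψ₁ ψ₂ : ℕ → ℝ} {s₁ s₂ : ℝ}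
    (hp : p.Prime) {i j q r : ℕ} (hq : ¬ p ∣ q) (hr : ¬ p ∣ r)
    (h : Edge Ω (insert p P) a b ψ₁ ψ₂ s₁ s₂ (p ^ i * q) (p ^ j * r)) :
    Edge Ω P (a * p ^ (i - j)) (b * p ^ (j - i)) (fun q => ψ₁ (p ^ i * q))
      (fun r => ψ₂ (p ^ j * r)) s₁ s₂ q r := by
  obtain ⟨h1, h2, h3, h4⟩ := h
  obtain ⟨hg, hc⟩ := cofac_exact hp i j q r hq hr
  obtain ⟨-, hc'⟩ := cofac_exact hp j i r q hr hq
  rw [hc, hc'] at h2
  rw [hc'] at h3
  rw [hc] at h4
  refine ⟨?_, ?_, ?_, ?_⟩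
  · intro p' hp' hd
    have h5 := h1 p' hp' (by rw [hg]; exact Dvd.dvd.mul_left hd _)
    rcases mem_insert.mp h5 with h6 | h6
    · subst h6
      exact absurd (dvd_trans hd (Nat.gcd_dvd_left q r)) hq
    · exact h6
  · rwa [mul_assoc, mul_assoc]
  · push_cast at h3 ⊢
    rwa [mul_assoc (b : ℝ)]
  · push_cast at h4 ⊢
    rwa [mul_assoc (a : ℝ)]

theorem edge_L {Ω : ℕ → ℕ → Prop} {P : Finset ℕ} {a b p : ℕ} {ψ₁ ψ₂ : ℕ → ℝ} {s₁ s₂ t : ℝ}
    (hp : p.Prime) {k q r : ℕ} (hg : ¬ p ∣ Nat.gcd q r) (ht : 0 ≤ t)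
    (h : Edge Ω (insert p P) a b ψ₁ ψ₂ s₁ s₂ (p ^ k * q) (p ^ k * r)) :
    Edge Ω P a b (fun q => t * ψ₁ (p ^ k * q))
      (fun r => t * ψ₂ (p ^ k * r)) (t * s₁) (t * s₂) q r := by
  obtain ⟨h1, h2, h3, h4⟩ := h
  have hpk : 0 < p ^ k := pow_pos hp.pos k
  have hc : cofac (p ^ k * q) (p ^ k * r) = cofac q r := by
    unfold cofac
    rw [Nat.gcd_mul_left, Nat.mul_div_mul_left _ _ hpk]
  have hc' : cofac (p ^ k * r) (p ^ k * q) = cofac r q := by
    unfold cofac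
    rw [Nat.gcd_mul_left, Nat.mul_div_mul_left _ _ hpk]
  rw [hc, hc'] at h2
  rw [hc'] at h3
  rw [hc] at h4
  refine ⟨?_, h2, ?_, ?_⟩
  · intro p' hp' hd
    have h5 := h1 p' hp' (by rw [Nat.gcd_mul_left]; exact Dvd.dvd.mul_left hd _)
    rcases mem_insert.mp h5 with h6 | h6
    · subst h6
      exact absurd hd hg
    · exact h6
  · calc (b : ℝ) * (cofac r q : ℝ) * (t * ψ₁ (p ^ k * q))
        = t * ((b : ℝ) * (cofac r q : ℝ) * ψ₁ (p ^ k * q)) := by ring
      _ ≤ t * s₁ := mul_le_mul_of_nonneg_left h3 ht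
  · calc (a : ℝ) * (cofac q r : ℝ) * (t * ψ₂ (p ^ k * r))
        = t * ((a : ℝ) * (cofac q r : ℝ) * ψ₂ (p ^ k * r)) := by ring
      _ ≤ t * s₂ := mul_le_mul_of_nonneg_left h4 ht

/-- the weight `∏_{p ∈ P, p ∣ q} (1 - x p)`. -/
noncomputable def wt (x : ℕ → ℝ) (P : Finset ℕ) (q : ℕ) : ℝ := ∏ p ∈ P with p ∣ q, (1 - x p)

theorem wt_insert {x : ℕ → ℝ} {p : ℕ} {P : Finset ℕ} (hpP : p ∉ P) (q : ℕ) :
    wt x (insert p P) q = (if p ∣ q then (1 - x p) else 1) * wt x P q := by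
  unfold wt
  rw [filter_insert]
  split_ifs with h
  · rw [prod_insert]
    simp [hpP]
  · rw [one_mul]

theorem wt_mul_pow {x : ℕ → ℝ} {p : ℕ} {P : Finset ℕ} (hP : ∀ p' ∈ P, p'.Prime) (hp : p.Prime)
    (hpP : p ∉ P) (i q : ℕ) : wt x P (p ^ i * q) = wt x P q := by
  unfold wt
  congr 1
  refine filter_congr fun p' hp' => ?_
  have hne : p' ≠ p := fun h => hpP (h ▸ hp')
  constructor
  · intro h
    rcases (Nat.Prime.dvd_mul (hP p' hp')).mp h with h1 | h1
    · exact absurd ((Nat.prime_dvd_prime_iff_eq (hP p' hp') hp).mp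
        ((hP p' hp').dvd_of_dvd_pow h1)) hne
    · exact h1
  · intro h
    exact Dvd.dvd.mul_left h _

theorem wt_nonneg {x : ℕ → ℝ} {P : Finset ℕ} (hx : ∀ p ∈ P, x p < 1) (q : ℕ) :
    0 ≤ wt x P q := by
  unfold wt
  refine prod_nonneg fun p hp => ?_
  have := hx p (mem_filter.mp hp).1
  linarith

/-- the conclusion of Theorem L. -/
def LBound (Ω : ℕ → ℕ → Prop) (θ : ℝ) (K : ℕ → ℕ → ℝ) (P : Finset ℕ) (x : ℕ → ℝ) (M : ℝ) :
    Prop :=
  ∀ (a b : ℕ), 0 < a → 0 < b → ∀ (ψ₁ ψ₂ f h : ℕ → ℝ) (s₁ s₂ : ℝ) (N : ℕ), 0 < s₁ → 0 < s₂ →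
      (∀ q, 0 ≤ ψ₁ q) → (∀ q, 0 ≤ ψ₂ q) →
      (∀ q, 0 ≤ f q ∧ f q ≤ ψ₁ q * wt x P q) →
      (∀ r, 0 ≤ h r ∧ h r ≤ ψ₂ r * wt x P r) →
      Lam Ω P a b ψ₁ ψ₂ s₁ s₂ N f h ≤
        M * (s₁ * s₂) ^ (1 - θ) * K a b *
          ((∑ q ∈ Icc 1 N, f q) * ∑ r ∈ Icc 1 N, h r) ^ θ

theorem fac_mul {p : ℕ} (hp : p.Prime) (i : ℕ) {q : ℕ} (hq : 0 < q) :
    (p ^ i * q).factorization p = i + q.factorization p := by
  rw [Nat.factorization_mul (pow_pos hp.pos i).ne' hq.ne', hp.factorization_pow]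
  simp only [Finsupp.coe_add, Pi.add_apply, Finsupp.single_eq_same, Nat.add_left_cancel_iff]

theorem fac_eq_zero {p : ℕ} (hp : p.Prime) {q : ℕ} (hq : 0 < q) :
    q.factorization p = 0 ↔ ¬ p ∣ q := by
  rw [Nat.factorization_eq_zero_iff]
  constructor
  · rintro (h | h | h)
    · exact absurd hp h
    · exact h
    · omega
  · intro h
    exact Or.inr (Or.inl h)

theorem pow_dvd_of_le {p k q : ℕ} (h : k ≤ q.factorization p) : p ^ k ∣ q :=
  dvd_trans (pow_dvd_pow p h) (Nat.ordProj_dvd q p)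

theorem exact_cell {Ω : ℕ → ℕ → Prop} {θ : ℝ} {K : ℕ → ℕ → ℝ} {P : Finset ℕ} (hP : ∀ p ∈ P, p.Prime)
    {x : ℕ → ℝ} {M : ℝ} (hM : 0 ≤ M) (ih : LBound Ω θ K P x M) {p : ℕ} (hp : p.Prime)
    (hpP : p ∉ P) (hxp : 0 ≤ x p ∧ x p < 1) (hx : ∀ p ∈ P, x p < 1) {Bp : ℝ} (hB : 0 ≤ Bp)
    (hgrow1 : ∀ a b l, 0 < a → 0 < b → K (a * p ^ l) b ≤ Bp ^ l * K a b)
    (hgrow2 : ∀ a b l, 0 < a → 0 < b → K a (b * p ^ l) ≤ Bp ^ l * K a b)
    {a b : ℕ} (ha : 0 < a) (hb : 0 < b) {ψ₁ ψ₂ f h : ℕ → ℝ} {s₁ s₂ : ℝ} {N : ℕ} (hs₁ : 0 < s₁)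
    (hs₂ : 0 < s₂) (hψ₁ : ∀ q, 0 ≤ ψ₁ q) (hψ₂ : ∀ q, 0 ≤ ψ₂ q)
    (hf : ∀ q, 0 ≤ f q ∧ f q ≤ ψ₁ q * wt x (insert p P) q)
    (hh : ∀ r, 0 ≤ h r ∧ h r ≤ ψ₂ r * wt x (insert p P) r) (i j : ℕ) :
    psum (fun q r => Edge Ω (insert p P) a b ψ₁ ψ₂ s₁ s₂ q r ∧ q.factorization p = i ∧
        r.factorization p = j) N f h ≤
      M * (s₁ * s₂) ^ (1 - θ) * K a b * (Bp ^ ad i j *
        ((∑ q ∈ Icc 1 N, if q.factorization p = i then f q else 0) *
          ∑ r ∈ Icc 1 N, if r.factorization p = j then h r else 0) ^ θ) := by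
  have hw : ∀ k q, wt x (insert p P) (p ^ k * q) ≤ wt x P q := by
    intro k q
    rw [wt_insert hpP, wt_mul_pow hP hp hpP]
    have h0 := wt_nonneg hx q
    split_ifs
    · nlinarith only [hxp, h0]
    · rw [one_mul]
  have hsum : ∀ (g : ℕ → ℝ) (i : ℕ), ∑ q ∈ Icc 1 N, (if q.factorization p = i then g q else 0)
      = ∑ q ∈ Icc 1 N, (if ¬ p ∣ q ∧ p ^ i * q ≤ N then g (p ^ i * q) else 0) := by
    intro g i
    rw [sum_reindex p i N hp.pos]
    · refine sum_congr rfl fun q hq => ?_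
      have hq0 : 0 < q := (mem_Icc.mp hq).1
      rw [fac_mul hp i hq0]
      have e := fac_eq_zero hp hq0
      by_cases h1 : p ∣ q
      · have : q.factorization p ≠ 0 := fun h2 => (e.mp h2) h1
        simp only [Nat.add_eq_left, this, ↓reduceIte, ite_self, h1, not_true_eq_false, false_and]
      · have : q.factorization p = 0 := e.mpr h1
        simp only [this, add_zero, ↓reduceIte, h1, not_false_eq_true, true_and]
    · intro q hq
      rw [if_neg]
      intro h1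
      exact hq (pow_dvd_of_le h1.ge)
  rw [hsum f i, hsum h j]
  set f' : ℕ → ℝ := fun q => if ¬ p ∣ q ∧ p ^ i * q ≤ N then f (p ^ i * q) else 0 with hf'
  set h' : ℕ → ℝ := fun r => if ¬ p ∣ r ∧ p ^ j * r ≤ N then h (p ^ j * r) else 0 with hh'
  have hf'0 : ∀ q, 0 ≤ f' q ∧ f' q ≤ ψ₁ (p ^ i * q) * wt x P q := by
    intro q
    simp only [hf']
    split_ifs with h1
    · exact ⟨(hf _).1, (hf _).2.trans (mul_le_mul_of_nonneg_left (hw i q) (hψ₁ _))⟩
    · exact ⟨le_refl _, mul_nonneg (hψ₁ _) (wt_nonneg hx q)⟩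
  have hh'0 : ∀ r, 0 ≤ h' r ∧ h' r ≤ ψ₂ (p ^ j * r) * wt x P r := by
    intro r
    simp only [hh']
    split_ifs with h1
    · exact ⟨(hh _).1, (hh _).2.trans (mul_le_mul_of_nonneg_left (hw j r) (hψ₂ _))⟩
    · exact ⟨le_refl _, mul_nonneg (hψ₂ _) (wt_nonneg hx r)⟩
  have key := ih (a * p ^ (i - j)) (b * p ^ (j - i)) (Nat.mul_pos ha (pow_pos hp.pos _))
    (Nat.mul_pos hb (pow_pos hp.pos _)) (fun q => ψ₁ (p ^ i * q)) (fun r => ψ₂ (p ^ j * r))
    f' h' s₁ s₂ N hs₁ hs₂ (fun q => hψ₁ _) (fun r => hψ₂ _) hf'0 hh'0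
  have h1 : psum (fun q r => Edge Ω (insert p P) a b ψ₁ ψ₂ s₁ s₂ q r ∧ q.factorization p = i ∧
        r.factorization p = j) N f h ≤ Lam Ω P (a * p ^ (i - j)) (b * p ^ (j - i))
          (fun q => ψ₁ (p ^ i * q)) (fun r => ψ₂ (p ^ j * r)) s₁ s₂ N f' h' := by
    rw [psum_reindex p i j N hp.pos]
    · refine psum_le_psum (fun q => (hf'0 q).1) (fun r => (hh'0 r).1) ?_
      intro q r hq hr ⟨h2, h3, h4⟩
      rw [fac_mul hp i hq] at h3
      rw [fac_mul hp j hr] at h4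
      have h5 : ¬ p ∣ q := (fac_eq_zero hp hq).mp (by omega)
      have h6 : ¬ p ∣ r := (fac_eq_zero hp hr).mp (by (clear * - h4; omega))
      refine ⟨?_, Or.inl (edge_exact hp h5 h6 h2)⟩
      simp only [hf', hh', h5, h6, not_false_eq_true, true_and]
      exact le_refl _
    · intro q r _ _ ⟨_, h3, h4⟩
      exact ⟨pow_dvd_of_le h3.ge, pow_dvd_of_le h4.ge⟩
  have h2 : K (a * p ^ (i - j)) (b * p ^ (j - i)) ≤ Bp ^ ad i j * K a b := by
    have h3 := hgrow1 a (b * p ^ (j - i)) (i - j) ha (Nat.mul_pos hb (pow_pos hp.pos _))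
    have h4 := hgrow2 a b (j - i) ha hb
    calc K (a * p ^ (i - j)) (b * p ^ (j - i)) ≤ Bp ^ (i - j) * K a (b * p ^ (j - i)) := h3
      _ ≤ Bp ^ (i - j) * (Bp ^ (j - i) * K a b) :=
          mul_le_mul_of_nonneg_left h4 (pow_nonneg hB _)
      _ = Bp ^ ad i j * K a b := by unfold ad; rw [pow_add]; ring
  have hS : 0 ≤ ((∑ q ∈ Icc 1 N, f' q) * ∑ r ∈ Icc 1 N, h' r) ^ θ :=
    Real.rpow_nonneg (mul_nonneg (sum_nonneg fun q _ => (hf'0 q).1)
      (sum_nonneg fun r _ => (hh'0 r).1)) _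
  have hA : 0 ≤ M * (s₁ * s₂) ^ (1 - θ) :=
    mul_nonneg hM (Real.rpow_nonneg (mul_nonneg hs₁.le hs₂.le) _)
  calc _ ≤ _ := h1
    _ ≤ _ := key
    _ ≤ M * (s₁ * s₂) ^ (1 - θ) * (Bp ^ ad i j * K a b) *
        ((∑ q ∈ Icc 1 N, f' q) * ∑ r ∈ Icc 1 N, h' r) ^ θ :=
      mul_le_mul_of_nonneg_right (mul_le_mul_of_nonneg_left h2 hA) hS
    _ = _ := by ring

theorem L_cell {Ω : ℕ → ℕ → Prop} {θ : ℝ} {K : ℕ → ℕ → ℝ}
    {P : Finset ℕ} (hP : ∀ p ∈ P, p.Prime)
    {x : ℕ → ℝ} {M : ℝ} (ih : LBound Ω θ K P x M) {p : ℕ} (hp : p.Prime)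
    (hpP : p ∉ P) (hxp : 0 ≤ x p ∧ x p < 1) (hx : ∀ p ∈ P, x p < 1)
    {a b : ℕ} (ha : 0 < a) (hb : 0 < b) {ψ₁ ψ₂ f h : ℕ → ℝ} {s₁ s₂ : ℝ} {N : ℕ} (hs₁ : 0 < s₁)
    (hs₂ : 0 < s₂) (hψ₁ : ∀ q, 0 ≤ ψ₁ q) (hψ₂ : ∀ q, 0 ≤ ψ₂ q)
    (hf : ∀ q, 0 ≤ f q ∧ f q ≤ ψ₁ q * wt x (insert p P) q)
    (hh : ∀ r, 0 ≤ h r ∧ h r ≤ ψ₂ r * wt x (insert p P) r) (k : ℕ) :
    psum (fun q r => Edge Ω (insert p P) a b ψ₁ ψ₂ s₁ s₂ q r ∧ min (q.factorization p)
        (r.factorization p) = k) N f h ≤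
      M * (s₁ * s₂) ^ (1 - θ) * K a b * ((if k = 0 then (1 : ℝ) else (1 - x p) ^ (2 * (1 - θ))) *
        ((∑ q ∈ Icc 1 N, if k ≤ q.factorization p then f q else 0) *
          ∑ r ∈ Icc 1 N, if k ≤ r.factorization p then h r else 0) ^ θ) := by
  set t : ℝ := if k = 0 then 1 else 1 - x p with ht
  have ht0 : 0 < t := by
    rw [ht]; split_ifs
    · exact one_pos
    · linarith only [hxp]
  have ht1 : (if k = 0 then (1 : ℝ) else (1 - x p) ^ (2 * (1 - θ))) = t ^ (2 * (1 - θ)) := by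
    rw [ht]; split_ifs
    · rw [Real.one_rpow]
    · rfl
  have hw : ∀ q, wt x (insert p P) (p ^ k * q) ≤ t * wt x P q := by
    intro q
    rw [wt_insert hpP, wt_mul_pow hP hp hpP, ht]
    have h0 := wt_nonneg hx q
    split_ifs with h1 h2 h3
    · nlinarith only [hxp, h0]
    · exact le_refl _
    · exact le_refl _
    · exact absurd (Dvd.dvd.mul_right (dvd_pow_self p h3) q) h1
  have hsum : ∀ (g : ℕ → ℝ), ∑ q ∈ Icc 1 N, (if k ≤ q.factorization p then g q else 0)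
      = ∑ q ∈ Icc 1 N, (if p ^ k * q ≤ N then g (p ^ k * q) else 0) := by
    intro g
    rw [sum_reindex p k N hp.pos]
    · refine sum_congr rfl fun q hq => ?_
      have hq0 : 0 < q := (mem_Icc.mp hq).1
      rw [fac_mul hp k hq0, if_pos (Nat.le_add_right k (q.factorization p))]
    · intro q hq
      rw [if_neg]
      intro h1
      exact hq (pow_dvd_of_le h1)
  rw [hsum f, hsum h, ht1]
  have hf'0 : ∀ q, 0 ≤ (if p ^ k * q ≤ N then f (p ^ k * q) else 0) ∧
      (if p ^ k * q ≤ N then f (p ^ k * q) else 0) ≤ (t * ψ₁ (p ^ k * q)) * wt x P q := by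
    intro q
    split_ifs with h1
    · refine ⟨(hf _).1, (hf _).2.trans ?_⟩
      have := mul_le_mul_of_nonneg_left (hw q) (hψ₁ (p ^ k * q))
      linarith only [this]
    · exact ⟨le_refl _, mul_nonneg (mul_nonneg ht0.le (hψ₁ _)) (wt_nonneg hx q)⟩
  have hh'0 : ∀ r, 0 ≤ (if p ^ k * r ≤ N then h (p ^ k * r) else 0) ∧
      (if p ^ k * r ≤ N then h (p ^ k * r) else 0) ≤ (t * ψ₂ (p ^ k * r)) * wt x P r := by
    intro r
    split_ifs with h1
    · refine ⟨(hh _).1, (hh _).2.trans ?_⟩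
      have := mul_le_mul_of_nonneg_left (hw r) (hψ₂ (p ^ k * r))
      linarith only [this]
    · exact ⟨le_refl _, mul_nonneg (mul_nonneg ht0.le (hψ₂ _)) (wt_nonneg hx r)⟩
  have key := ih a b ha hb (fun q => t * ψ₁ (p ^ k * q)) (fun r => t * ψ₂ (p ^ k * r))
    (fun q => if p ^ k * q ≤ N then f (p ^ k * q) else 0)
    (fun r => if p ^ k * r ≤ N then h (p ^ k * r) else 0) (t * s₁) (t * s₂) N
    (mul_pos ht0 hs₁) (mul_pos ht0 hs₂) (fun q => mul_nonneg ht0.le (hψ₁ _))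
    (fun r => mul_nonneg ht0.le (hψ₂ _)) hf'0 hh'0
  have h1 : psum (fun q r => Edge Ω (insert p P) a b ψ₁ ψ₂ s₁ s₂ q r ∧ min (q.factorization p)
        (r.factorization p) = k) N f h ≤ Lam Ω P a b (fun q => t * ψ₁ (p ^ k * q))
          (fun r => t * ψ₂ (p ^ k * r)) (t * s₁) (t * s₂) N
          (fun q => if p ^ k * q ≤ N then f (p ^ k * q) else 0)
          (fun r => if p ^ k * r ≤ N then h (p ^ k * r) else 0) := by
    rw [psum_reindex p k k N hp.pos]
    · refine psum_le_psum (fun q => (hf'0 q).1) (fun r => (hh'0 r).1) ?_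
      intro q r hq hr ⟨h2, h3⟩
      rw [fac_mul hp k hq, fac_mul hp k hr] at h3
      refine ⟨le_refl _, Or.inl (edge_L hp ?_ ht0.le h2)⟩
      intro h4
      have h5 : q.factorization p ≠ 0 := fun h => (fac_eq_zero hp hq).mp h
        (dvd_trans h4 (Nat.gcd_dvd_left q r))
      have h6 : r.factorization p ≠ 0 := fun h => (fac_eq_zero hp hr).mp h
        (dvd_trans h4 (Nat.gcd_dvd_right q r))
      omega
    · intro q r _ _ ⟨_, h3⟩
      exact ⟨pow_dvd_of_le (h3 ▸ min_le_left _ _), pow_dvd_of_le (h3 ▸ min_le_right _ _)⟩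
  have h2 : (t * s₁ * (t * s₂)) ^ (1 - θ) = t ^ (2 * (1 - θ)) * (s₁ * s₂) ^ (1 - θ) := by
    have : t * s₁ * (t * s₂) = t ^ (2 : ℕ) * (s₁ * s₂) := by ring
    rw [this, Real.mul_rpow (pow_nonneg ht0.le 2) (mul_nonneg hs₁.le hs₂.le),
      ← Real.rpow_natCast t 2, ← Real.rpow_mul ht0.le]
    norm_num
  rw [h2] at key
  calc _ ≤ _ := h1
    _ ≤ _ := key
    _ = _ := by ring

open Classical in
theorem cells_weighted (R : ℕ → ℕ → Prop) (N p : ℕ) (f h : ℕ → ℝ) (w : ℕ → ℕ → ℝ) :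
    ∑ i ∈ range (N + 1), ∑ j ∈ range (N + 1), w i j *
      psum (fun q r => R q r ∧ q.factorization p = i ∧ r.factorization p = j) N f h =
    ∑ q ∈ Icc 1 N, ∑ r ∈ Icc 1 N, if R q r then
      w (q.factorization p) (r.factorization p) * (f q * h r) else 0 := by
  unfold psum
  simp only [mul_sum]
  have h1 : ∀ (T : ℕ → ℕ → ℕ → ℕ → ℝ), ∑ i ∈ range (N + 1), ∑ j ∈ range (N + 1),
      ∑ q ∈ Icc 1 N, ∑ r ∈ Icc 1 N, T i j q r = ∑ q ∈ Icc 1 N, ∑ r ∈ Icc 1 N,
      ∑ i ∈ range (N + 1), ∑ j ∈ range (N + 1), T i j q r := by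
    intro T
    have h2 : ∀ i ∈ range (N + 1), ∑ j ∈ range (N + 1), ∑ q ∈ Icc 1 N, ∑ r ∈ Icc 1 N, T i j q r
        = ∑ q ∈ Icc 1 N, ∑ r ∈ Icc 1 N, ∑ j ∈ range (N + 1), T i j q r := by
      intro i _
      rw [sum_comm]
      refine sum_congr rfl fun q _ => ?_
      rw [sum_comm]
    rw [sum_congr rfl h2, sum_comm]
    refine sum_congr rfl fun q _ => ?_
    rw [sum_comm]
  rw [h1]
  refine sum_congr rfl fun q hq => sum_congr rfl fun r hr => ?_
  have hq0 : q ≠ 0 := by have := (mem_Icc.mp hq).1; omega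
  have hr0 : r ≠ 0 := by have := (mem_Icc.mp hr).1; omega
  have h2 : q.factorization p ∈ range (N + 1) := by
    have := Nat.factorization_lt p hq0
    have := (mem_Icc.mp hq).2
    rw [mem_range]; omega
  have h3 : r.factorization p ∈ range (N + 1) := by
    have := Nat.factorization_lt p hr0
    have := (mem_Icc.mp hr).2
    rw [mem_range]; omega
  rw [sum_eq_single_of_mem _ h2, sum_eq_single_of_mem _ h3]
  · by_cases h4 : R q r
    · simp [h4]
    · simp [h4]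
  · intro j _ hj
    rw [if_neg, mul_zero]
    rintro ⟨_, _, h5⟩
    exact hj h5.symm
  · intro i _ hi
    apply sum_eq_zero
    intro j _
    rw [if_neg, mul_zero]
    rintro ⟨_, h5, _⟩
    exact hi h5.symm

theorem psum_eq_cells (R : ℕ → ℕ → Prop) (N p : ℕ) (f h : ℕ → ℝ) :
    psum R N f h = ∑ i ∈ range (N + 1), ∑ j ∈ range (N + 1),
      psum (fun q r => R q r ∧ q.factorization p = i ∧ r.factorization p = j) N f h := by
  classical
  have h1 := cells_weighted R N p f h (fun _ _ => 1)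
  simp only [one_mul] at h1
  rw [h1]
  unfold psum
  refine sum_congr rfl fun q _ => sum_congr rfl fun r _ => ?_
  split_ifs <;> rfl

theorem psum_eq_L (R : ℕ → ℕ → Prop) (N p k : ℕ) (f h : ℕ → ℝ) :
    psum R N f h = psum (fun q r => R q r ∧ min (q.factorization p) (r.factorization p) = k) N f h
      + ∑ i ∈ range (N + 1), ∑ j ∈ range (N + 1), if min i j = k then 0 else
      psum (fun q r => R q r ∧ q.factorization p = i ∧ r.factorization p = j) N f h := by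
  classical
  have h1 := cells_weighted R N p f h (fun i j => if min i j = k then 0 else 1)
  have h2 : ∑ i ∈ range (N + 1), ∑ j ∈ range (N + 1), (if min i j = k then 0 else
      psum (fun q r => R q r ∧ q.factorization p = i ∧ r.factorization p = j) N f h) =
      ∑ i ∈ range (N + 1), ∑ j ∈ range (N + 1), (if min i j = k then (0 : ℝ) else 1) *
      psum (fun q r => R q r ∧ q.factorization p = i ∧ r.factorization p = j) N f h := by
    refine sum_congr rfl fun q _ => sum_congr rfl fun r _ => ?_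
    split_ifs <;> simp
  rw [h2, h1]
  unfold psum
  rw [← sum_add_distrib]
  refine sum_congr rfl fun q _ => ?_
  rw [← sum_add_distrib]
  refine sum_congr rfl fun r _ => ?_
  by_cases h3 : R q r
  · by_cases h4 : min (q.factorization p) (r.factorization p) = k
    · simp only [h3, ↓reduceIte, h4, and_self, zero_mul, add_zero]
    · simp only [h3, ↓reduceIte, h4, and_false, one_mul, zero_add]
  · simp only [h3, ↓reduceIte, false_and, add_zero]

theorem sum_cells (N p : ℕ) (f : ℕ → ℝ) (k : ℕ) :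
    ∑ i ∈ Icc k N, ∑ q ∈ Icc 1 N, (if q.factorization p = i then f q else 0) =
      ∑ q ∈ Icc 1 N, if k ≤ q.factorization p then f q else 0 := by
  rw [sum_comm]
  refine sum_congr rfl fun q hq => ?_
  have hq0 : q ≠ 0 := by have := (mem_Icc.mp hq).1; omega
  have h2 := Nat.factorization_lt p hq0
  have h3 := (mem_Icc.mp hq).2
  rw [sum_ite_eq]
  by_cases h : k ≤ q.factorization p
  · rw [if_pos h, if_pos]
    rw [mem_Icc]; omega
  · rw [if_neg h, if_neg]
    rw [mem_Icc]; omega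

theorem theoremL (Ω : ℕ → ℕ → Prop) {θ : ℝ} (_hθ : 1 / 2 < θ) (_hθ1 : θ < 1) (K : ℕ → ℕ → ℝ)
    (hK0 : ∀ a b, 0 ≤ K a b) (hbase : BaseBound Ω θ K) (P : Finset ℕ) (hP : ∀ p ∈ P, p.Prime)
    (B x c : ℕ → ℝ) (hb : ∀ p ∈ P, 0 ≤ B p) (hx : ∀ p ∈ P, 0 ≤ x p ∧ x p < 1)
    (hc : ∀ p ∈ P, 0 ≤ c p)
    (hgrow1 : ∀ p ∈ P, ∀ a b l, 0 < a → 0 < b → K (a * p ^ l) b ≤ B p ^ l * K a b)
    (hgrow2 : ∀ p ∈ P, ∀ a b l, 0 < a → 0 < b → K a (b * p ^ l) ≤ B p ^ l * K a b)
    (hSP : ∀ p ∈ P, SP θ (B p) (x p) (c p)) :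
    ∀ (a b : ℕ), 0 < a → 0 < b → ∀ (ψ₁ ψ₂ f h : ℕ → ℝ) (s₁ s₂ : ℝ) (N : ℕ), 0 < s₁ → 0 < s₂ →
      (∀ q, 0 ≤ ψ₁ q) → (∀ q, 0 ≤ ψ₂ q) →
      (∀ q, 0 ≤ f q ∧ f q ≤ ψ₁ q * ∏ p ∈ P with p ∣ q, (1 - x p)) →
      (∀ r, 0 ≤ h r ∧ h r ≤ ψ₂ r * ∏ p ∈ P with p ∣ r, (1 - x p)) →
      Lam Ω P a b ψ₁ ψ₂ s₁ s₂ N f h ≤
        (∏ p ∈ P, c p) * (s₁ * s₂) ^ (1 - θ) * K a b *
          ((∑ q ∈ Icc 1 N, f q) * ∑ r ∈ Icc 1 N, h r) ^ θ := by
  change LBound Ω θ K P x (∏ p ∈ P, c p)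
  induction P using Finset.induction_on with
  | empty =>
    intro a b ha hb' ψ₁ ψ₂ f h s₁ s₂ N hs₁ hs₂ hψ₁ hψ₂ hf hh
    have h1 := hbase a b ha hb' ψ₁ ψ₂ f h s₁ s₂ N hs₁ hs₂
      (fun q => ⟨(hf q).1, by simpa only [wt, filter_empty, prod_empty, mul_one] using (hf q).2⟩)
      (fun q => ⟨(hh q).1, by simpa only [wt, filter_empty, prod_empty, mul_one] using (hh q).2⟩)
    rw [prod_empty, one_mul]
    exact h1
  | insert p P hpP ih =>
    have hmem : ∀ p' ∈ P, p' ∈ insert p P := fun p' h => mem_insert_of_mem h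
    have hself : p ∈ insert p P := mem_insert_self p P
    have ih' := ih (fun p' h => hP p' (hmem p' h)) (fun p' h => hb p' (hmem p' h))
      (fun p' h => hx p' (hmem p' h)) (fun p' h => hc p' (hmem p' h))
      (fun p' h => hgrow1 p' (hmem p' h)) (fun p' h => hgrow2 p' (hmem p' h))
      (fun p' h => hSP p' (hmem p' h))
    have hM : 0 ≤ ∏ p ∈ P, c p := prod_nonneg fun p' h => hc p' (hmem p' h)
    have hxP : ∀ p' ∈ P, x p' < 1 := fun p' h => (hx p' (hmem p' h)).2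
    intro a b ha hb' ψ₁ ψ₂ f h s₁ s₂ N hs₁ hs₂ hψ₁ hψ₂ hf hh
    rw [prod_insert hpP]
    have hcell := fun i j => exact_cell (fun p' h => hP p' (hmem p' h)) hM ih'
      (hP p hself) hpP (hx p hself) hxP (hb p hself) (hgrow1 p hself) (hgrow2 p hself) ha hb'
      hs₁ hs₂ hψ₁ hψ₂ hf hh (N := N) i j
    have hL := fun k => L_cell (fun p' h => hP p' (hmem p' h)) ih'
      (hP p hself) hpP (hx p hself) hxP ha hb' hs₁ hs₂ hψ₁ hψ₂ hf hh (N := N) k
    set φ : ℕ → ℝ := fun i => ∑ q ∈ Icc 1 N, if q.factorization p = i then f q else 0 with hφ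
    set χ : ℕ → ℝ := fun j => ∑ r ∈ Icc 1 N, if r.factorization p = j then h r else 0 with hχ
    have hφ0 : ∀ i, 0 ≤ φ i := by
      intro i
      refine sum_nonneg fun q _ => ?_
      split_ifs
      · exact (hf q).1
      · exact le_refl _
    have hχ0 : ∀ i, 0 ≤ χ i := by
      intro i
      refine sum_nonneg fun q _ => ?_
      split_ifs
      · exact (hh q).1
      · exact le_refl _
    have hφs : ∀ k, ∑ i ∈ Icc k N, φ i = ∑ q ∈ Icc 1 N, if k ≤ q.factorization p then f q else 0 :=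
      fun k => sum_cells N p f k
    have hχs : ∀ k, ∑ i ∈ Icc k N, χ i = ∑ q ∈ Icc 1 N, if k ≤ q.factorization p then h q else 0 :=
      fun k => sum_cells N p h k
    have hφt : ∑ i ∈ range (N + 1), φ i = ∑ q ∈ Icc 1 N, f q := by
      rw [Nat.range_succ_eq_Icc_zero, hφs 0]
      simp only [zero_le, ↓reduceIte]
    have hχt : ∑ i ∈ range (N + 1), χ i = ∑ q ∈ Icc 1 N, h q := by
      rw [Nat.range_succ_eq_Icc_zero, hχs 0]
      simp only [zero_le, ↓reduceIte]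
    have hA : 0 ≤ (∏ p ∈ P, c p) * (s₁ * s₂) ^ (1 - θ) * K a b :=
      mul_nonneg (mul_nonneg hM (Real.rpow_nonneg (mul_nonneg hs₁.le hs₂.le) _)) (hK0 a b)
    have goal : ∀ T : ℝ, Lam Ω (insert p P) a b ψ₁ ψ₂ s₁ s₂ N f h ≤
        ((∏ p ∈ P, c p) * (s₁ * s₂) ^ (1 - θ) * K a b) * T →
        T ≤ c p * ((∑ i ∈ range (N + 1), φ i) * ∑ j ∈ range (N + 1), χ j) ^ θ →
        Lam Ω (insert p P) a b ψ₁ ψ₂ s₁ s₂ N f h ≤
          c p * (∏ p ∈ P, c p) * (s₁ * s₂) ^ (1 - θ) * K a b *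
          ((∑ q ∈ Icc 1 N, f q) * ∑ r ∈ Icc 1 N, h r) ^ θ := by
      intro T h1 h2
      rw [hφt, hχt] at h2
      calc _ ≤ _ := h1
        _ ≤ ((∏ p ∈ P, c p) * (s₁ * s₂) ^ (1 - θ) * K a b) *
            (c p * ((∑ q ∈ Icc 1 N, f q) * ∑ r ∈ Icc 1 N, h r) ^ θ) :=
          mul_le_mul_of_nonneg_left h2 hA
        _ = _ := by ring
    rcases hSP p hself N φ χ hφ0 hχ0 with hs | ⟨k, hk, hs⟩
    · refine goal _ ?_ hs
      unfold Lam
      rw [psum_eq_cells _ N p, mul_sum]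
      refine sum_le_sum fun i _ => ?_
      rw [mul_sum]
      exact sum_le_sum fun j _ => hcell i j
    · refine goal _ ?_ hs
      unfold Lam
      rw [psum_eq_L _ N p k, mul_add]
      refine add_le_add ?_ ?_
      · rw [hφs, hχs]
        exact hL k
      · rw [mul_sum]
        refine sum_le_sum fun i _ => ?_
        rw [mul_sum]
        refine sum_le_sum fun j _ => ?_
        split_ifs
        · rw [mul_zero]
        · exact hcell i j

end Vale.P028
end

section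

/-!
# Single prime inequalities
-/

namespace Vale.P028

open Finset

theorem ad_eq_natAbs (i j : ℕ) : ad i j = ((i : ℤ) - j).natAbs := by
  unfold ad
  omega

theorem ad_comm' (i j : ℕ) : ad i j = ad j i := by
  unfold ad
  (clear * -; omega)

theorem ad_self' (i : ℕ) : ad i i = 0 := by
  unfold ad
  omega

/-- Row sums of the kernel `b^|i-j|` off the diagonal. -/
theorem sum_ad_off {b : ℝ} (hb : 0 ≤ b) (hb1 : b < 1) (i : ℕ) (J : Finset ℕ)
    (hJ : ∀ j ∈ J, j ≠ i) : ∑ j ∈ J, b ^ ad i j ≤ 2 * (b / (1 - b)) := by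
  have h := sum_pow_int_le hb hb1 (J.image (fun j : ℕ => (i : ℤ) - j)) (by
    intro d hd
    obtain ⟨j, hj, rfl⟩ := Finset.mem_image.1 hd
    have := hJ j hj
    omega)
  rw [Finset.sum_image (by
    intro a _ b _ hab
    simp only at hab
    omega)] at h
  simpa only [ad_eq_natAbs, ge_iff_le] using h

theorem sum_ad_lt {b : ℝ} (hb : 0 ≤ b) (hb1 : b < 1) (k : ℕ) :
    ∑ j ∈ range k, b ^ ad k j ≤ b / (1 - b) := by
  have h := sum_pow_nat_le hb hb1 ((range k).image (fun j : ℕ => k - j)) (by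
    intro d hd
    obtain ⟨j, hj, rfl⟩ := Finset.mem_image.1 hd
    have := Finset.mem_range.1 hj
    omega)
  rw [Finset.sum_image (by
    intro a ha b hb' hab
    simp only [Finset.coe_range, Set.mem_Iio] at ha hb'
    simp only at hab
    omega)] at h
  refine le_trans (le_of_eq ?_) h
  refine Finset.sum_congr rfl fun j hj => ?_
  have := Finset.mem_range.1 hj
  congr 1
  unfold ad
  omega

theorem sum_ad_all {b : ℝ} (hb : 0 ≤ b) (hb1 : b < 1) (i : ℕ) (J : Finset ℕ) :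
    ∑ j ∈ J, b ^ ad i j ≤ (1 + b) / (1 - b) := by
  have h1 : (1 + b) / (1 - b) = 1 + 2 * (b / (1 - b)) := by
    have : (1 - b) ≠ 0 := by linarith only [hb1]
    field_simp
    ring
  rw [h1]
  by_cases hi : i ∈ J
  · rw [← Finset.add_sum_erase J _ hi, ad_self', pow_zero]
    have := sum_ad_off hb hb1 i (J.erase i) (fun j hj => Finset.ne_of_mem_erase hj)
    linarith only [this]
  · have := sum_ad_off hb hb1 i J (fun j hj h => hi (h ▸ hj))
    linarith

/-- Two sequences, normalised version with an arbitrary bound for the row sums. -/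
theorem bilin_norm {θ b K : ℝ} (hθ : 1 / 2 ≤ θ) (hb : 0 ≤ b) (I J : Finset ℕ)
    (R : ℕ → ℕ → Prop) [DecidableRel R] (φ χ : ℕ → ℝ) (hφ : ∀ i, 0 ≤ φ i) (hχ : ∀ i, 0 ≤ χ i)
    (hφ1 : ∑ i ∈ I, φ i ≤ 1) (hχ1 : ∑ j ∈ J, χ j ≤ 1)
    (h1 : ∀ i ∈ I, ∑ j ∈ J, (if R i j then b ^ ad i j else 0) ≤ K)
    (h2 : ∀ j ∈ J, ∑ i ∈ I, (if R i j then b ^ ad i j else 0) ≤ K) (hK : 0 ≤ K) :
    ∑ i ∈ I, ∑ j ∈ J, (if R i j then b ^ ad i j * (φ i * χ j) ^ θ else 0) ≤ K := by
  have hterm : ∀ i ∈ I, ∀ j ∈ J, (if R i j then b ^ ad i j * (φ i * χ j) ^ θ else 0) ≤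
      φ i / 2 * (if R i j then b ^ ad i j else 0) + χ j / 2 * (if R i j then b ^ ad i j else 0) := by
    intro i hi j hj
    split_ifs
    · have hφi : φ i ≤ 1 := (Finset.single_le_sum (fun i _ => hφ i) hi).trans hφ1
      have hχj : χ j ≤ 1 := (Finset.single_le_sum (fun i _ => hχ i) hj).trans hχ1
      have e1 : (φ i) ^ (2 * θ) ≤ φ i := by
        rcases (hφ i).eq_or_lt with h | h
        · rw [← h, Real.zero_rpow (by linarith only [hθ])]
        · calc (φ i) ^ (2 * θ) ≤ (φ i) ^ (1 : ℝ) :=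
              Real.rpow_le_rpow_of_exponent_ge h hφi (by linarith)
            _ = φ i := Real.rpow_one _
      have e2 : (χ j) ^ (2 * θ) ≤ χ j := by
        rcases (hχ j).eq_or_lt with h | h
        · rw [← h, Real.zero_rpow (by linarith only [hθ])]
        · calc (χ j) ^ (2 * θ) ≤ (χ j) ^ (1 : ℝ) :=
              Real.rpow_le_rpow_of_exponent_ge h hχj (by linarith)
            _ = χ j := Real.rpow_one _
      have e3 : (φ i * χ j) ^ θ ≤ (φ i) ^ (2 * θ) / 2 + (χ j) ^ (2 * θ) / 2 := by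
        rw [Real.mul_rpow (hφ i) (hχ j)]
        have a1 : (φ i) ^ (2 * θ) = ((φ i) ^ θ) ^ 2 := by
          rw [← Real.rpow_natCast, ← Real.rpow_mul (hφ i)]
          norm_num
          ring_nf
        have a2 : (χ j) ^ (2 * θ) = ((χ j) ^ θ) ^ 2 := by
          rw [← Real.rpow_natCast, ← Real.rpow_mul (hχ j)]
          norm_num
          ring_nf
        rw [a1, a2]
        linarith only [sq_nonneg ((φ i) ^ θ - (χ j) ^ θ)]
      have e4 : 0 ≤ b ^ ad i j := pow_nonneg hb _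
      have e5 : (φ i * χ j) ^ θ ≤ φ i / 2 + χ j / 2 := by linarith only [e1, e2, e3]
      have := mul_le_mul_of_nonneg_left e5 e4
      linarith
    · simp
  calc ∑ i ∈ I, ∑ j ∈ J, (if R i j then b ^ ad i j * (φ i * χ j) ^ θ else 0)
      ≤ ∑ i ∈ I, ∑ j ∈ J, (φ i / 2 * (if R i j then b ^ ad i j else 0)
        + χ j / 2 * (if R i j then b ^ ad i j else 0)) :=
        Finset.sum_le_sum fun i hi => Finset.sum_le_sum fun j hj => hterm i hi j hj
    _ = ∑ i ∈ I, φ i / 2 * ∑ j ∈ J, (if R i j then b ^ ad i j else 0)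
        + ∑ j ∈ J, χ j / 2 * ∑ i ∈ I, (if R i j then b ^ ad i j else 0) := by
        simp only [Finset.sum_add_distrib]
        congr 1
        · refine Finset.sum_congr rfl fun i _ => ?_
          rw [Finset.mul_sum]
        · rw [Finset.sum_comm]
          refine Finset.sum_congr rfl fun j _ => ?_
          rw [Finset.mul_sum]
    _ ≤ ∑ i ∈ I, φ i / 2 * K + ∑ j ∈ J, χ j / 2 * K := by
        refine add_le_add (Finset.sum_le_sum fun i hi => ?_) (Finset.sum_le_sum fun j hj => ?_)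
        · exact mul_le_mul_of_nonneg_left (h1 i hi) (by have := hφ i; linarith only [this])
        · exact mul_le_mul_of_nonneg_left (h2 j hj) (by have := hχ j; linarith)
    _ = (∑ i ∈ I, φ i) / 2 * K + (∑ j ∈ J, χ j) / 2 * K := by
        rw [← Finset.sum_mul, ← Finset.sum_mul, Finset.sum_div, Finset.sum_div]
    _ ≤ 1 / 2 * K + 1 / 2 * K := by
        refine add_le_add ?_ ?_
        · exact mul_le_mul_of_nonneg_right (by linarith only [hφ1]) hK
        · exact mul_le_mul_of_nonneg_right (by linarith only [hχ1]) hK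
    _ = K := by ring

/-- General version for all pairs. -/
theorem bilin_all {θ b : ℝ} (hθ : 1 / 2 ≤ θ) (hb : 0 ≤ b) (hb1 : b < 1) (I J : Finset ℕ)
    (φ χ : ℕ → ℝ) (hφ : ∀ i, 0 ≤ φ i) (hχ : ∀ i, 0 ≤ χ i) :
    ∑ i ∈ I, ∑ j ∈ J, b ^ ad i j * (φ i * χ j) ^ θ ≤
      (1 + b) / (1 - b) * ((∑ i ∈ I, φ i) * ∑ j ∈ J, χ j) ^ θ := by
  have hθ0 : θ ≠ 0 := by linarith
  have hK : 0 ≤ (1 + b) / (1 - b) := div_nonneg (by linarith only [hb]) (by linarith only [hb1])
  rcases (Finset.sum_nonneg fun i (_ : i ∈ I) => hφ i).eq_or_lt with h | h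
  · have h0 : ∀ i ∈ I, φ i = 0 := (Finset.sum_eq_zero_iff_of_nonneg (fun i _ => hφ i)).1 h.symm
    rw [← h, zero_mul, Real.zero_rpow hθ0, mul_zero]
    refine le_of_eq (Finset.sum_eq_zero fun i hi => Finset.sum_eq_zero fun j _ => ?_)
    rw [h0 i hi, zero_mul, Real.zero_rpow hθ0, mul_zero]
  rcases (Finset.sum_nonneg fun i (_ : i ∈ J) => hχ i).eq_or_lt with h' | h'
  · have h0 : ∀ i ∈ J, χ i = 0 := (Finset.sum_eq_zero_iff_of_nonneg (fun i _ => hχ i)).1 h'.symm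
    rw [← h', mul_zero, Real.zero_rpow hθ0, mul_zero]
    refine le_of_eq (Finset.sum_eq_zero fun i _ => Finset.sum_eq_zero fun j hj => ?_)
    rw [h0 j hj, mul_zero, Real.zero_rpow hθ0, mul_zero]
  set Φ := ∑ i ∈ I, φ i with hΦ
  set X := ∑ j ∈ J, χ j with hX
  have hmain := bilin_norm hθ hb I J (fun _ _ => True) (fun i => φ i / Φ) (fun j => χ j / X)
    (fun i => div_nonneg (hφ i) h.le) (fun j => div_nonneg (hχ j) h'.le)
    (by rw [← Finset.sum_div, div_self h.ne']) (by rw [← Finset.sum_div, div_self h'.ne'])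
    (K := (1 + b) / (1 - b))
    (by
      intro i _
      simpa only [↓reduceIte] using sum_ad_all hb hb1 i J)
    (by
      intro j _
      have := sum_ad_all hb hb1 j I
      simpa only [↓reduceIte, ad_comm', ge_iff_le] using this) hK
  simp only [if_true] at hmain
  have hpos : 0 < Φ * X := mul_pos h h'
  have hscale : ∀ i j, b ^ ad i j * (φ i * χ j) ^ θ
      = (Φ * X) ^ θ * (b ^ ad i j * (φ i / Φ * (χ j / X)) ^ θ) := by
    intro i j
    have e : φ i * χ j = (Φ * X) * (φ i / Φ * (χ j / X)) := by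
      (clear * - h h'; field_simp)
    rw [e, Real.mul_rpow hpos.le (mul_nonneg (div_nonneg (hφ i) h.le) (div_nonneg (hχ j) h'.le))]
    have e2 : Φ * X * (φ i / Φ * (χ j / X)) / (Φ * X) = φ i / Φ * (χ j / X) := by
      (clear * - h' h; field_simp)
    ring
  calc ∑ i ∈ I, ∑ j ∈ J, b ^ ad i j * (φ i * χ j) ^ θ
      = ∑ i ∈ I, ∑ j ∈ J, (Φ * X) ^ θ * (b ^ ad i j * (φ i / Φ * (χ j / X)) ^ θ) := by
        refine Finset.sum_congr rfl fun i _ => Finset.sum_congr rfl fun j _ => hscale i j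
    _ = (Φ * X) ^ θ * ∑ i ∈ I, ∑ j ∈ J, b ^ ad i j * (φ i / Φ * (χ j / X)) ^ θ := by
        simp only [Finset.mul_sum]
    _ ≤ (Φ * X) ^ θ * ((1 + b) / (1 - b)) :=
        mul_le_mul_of_nonneg_left hmain (Real.rpow_nonneg hpos.le _)
    _ = _ := mul_comm _ _

theorem SP_large {θ b x : ℝ} (hθ : 1 / 2 < θ) (hθ1 : θ < 1) (hb : 0 ≤ b) (hb1 : b < 1)
    (hx : 0 ≤ x) (hx1 : x ≤ 1) : SP θ b x ((1 + b) / (1 - b)) := by
  intro N φ χ hφ hχ
  exact Or.inl (bilin_all hθ.le hb hb1 _ _ φ χ hφ hχ)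

/-- Hoelder inequality for one row. -/
theorem holder_row {θ B : ℝ} (hθ : 0 < θ) (hθ1 : θ < 1) (hB : 0 ≤ B) (k : ℕ) (J : Finset ℕ)
    (χ : ℕ → ℝ) (hχ : ∀ i, 0 ≤ χ i) :
    ∑ j ∈ J, (B ^ (1 - θ)) ^ ad k j * (χ j) ^ θ ≤
      (∑ j ∈ J, χ j) ^ θ * (∑ j ∈ J, B ^ ad k j) ^ (1 - θ) := by
  have hpq : (1 / θ).HolderConjugate (1 / (1 - θ)) :=
    Real.holderConjugate_one_div hθ (by linarith) (by ring)
  have h := Real.inner_le_Lp_mul_Lq_of_nonneg (s := J) (f := fun j => (χ j) ^ θ)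
    (g := fun j => (B ^ (1 - θ)) ^ ad k j) hpq (fun j _ => Real.rpow_nonneg (hχ j) _)
    (fun j _ => pow_nonneg (Real.rpow_nonneg hB _) _)
  have e1 : ∀ j, ((χ j) ^ θ) ^ (1 / θ) = χ j := by
    intro j
    rw [← Real.rpow_mul (hχ j), mul_one_div_cancel hθ.ne', Real.rpow_one]
  have e2 : ∀ j, ((B ^ (1 - θ)) ^ ad k j) ^ (1 / (1 - θ)) = B ^ ad k j := by
    intro j
    rw [← Real.rpow_natCast, ← Real.rpow_mul hB, ← Real.rpow_mul hB]
    have : (1 - θ) * (ad k j : ℝ) * (1 / (1 - θ)) = (ad k j : ℝ) := by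
      have : (1 - θ) ≠ 0 := by linarith only [hθ1]
      field_simp
    rw [this, Real.rpow_natCast]
  simp only [e1, e2, one_div_one_div] at h
  refine le_trans (le_of_eq ?_) h
  refine Finset.sum_congr rfl fun j _ => ?_
  ring

/-- Splitting a double sum along row and column `k`. -/
theorem split_cross {r : Finset ℕ} {k : ℕ} (hk : k ∈ r) (T : ℕ → ℕ → ℝ) :
    ∑ i ∈ r, ∑ j ∈ r, T i j = T k k + ∑ j ∈ r.erase k, T k j + ∑ i ∈ r.erase k, T i k +
      ∑ i ∈ r.erase k, ∑ j ∈ r.erase k, T i j := by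
  rw [← Finset.add_sum_erase r _ hk, ← Finset.add_sum_erase r _ hk]
  have : ∑ i ∈ r.erase k, ∑ j ∈ r, T i j
      = ∑ i ∈ r.erase k, (T i k + ∑ j ∈ r.erase k, T i j) := by
    refine Finset.sum_congr rfl fun i _ => ?_
    rw [Finset.add_sum_erase r _ hk]
  rw [this, Finset.sum_add_distrib]
  ring

theorem bern {θ t : ℝ} (hθ : 0 ≤ θ) (hθ1 : θ ≤ 1) (ht : t ≤ 1) : (1 - t) ^ θ ≤ 1 - θ * t := by
  have h := rpow_one_add_le_one_add_mul_self (s := -t) (by linarith) hθ hθ1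
  calc (1 - t) ^ θ = (1 + -t) ^ θ := by ring_nf
    _ ≤ 1 + θ * -t := h
    _ = _ := by ring

/-- Main estimate of the exact sum around the index `k`. -/
theorem exact_le {θ B : ℝ} (hθ : 1 / 2 < θ) (hθ1 : θ < 1) (hB : 0 < B) (hB2 : B ≤ 1 / 2)
    (hb2 : B ^ (1 - θ) ≤ 1 / 2) (N : ℕ) (φ χ : ℕ → ℝ) (hφ : ∀ i, 0 ≤ φ i) (hχ : ∀ i, 0 ≤ χ i)
    (hφ1 : ∑ i ∈ range (N + 1), φ i = 1) (hχ1 : ∑ i ∈ range (N + 1), χ i = 1) {k : ℕ}
    (hk : k ∈ range (N + 1)) :
    ∑ i ∈ range (N + 1), ∑ j ∈ range (N + 1), (B ^ (1 - θ)) ^ ad i j * (φ i * χ j) ^ θ ≤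
      (φ k) ^ θ * (χ k) ^ θ + 2 * B ^ (1 - θ) * ((1 - φ k) ^ θ + (1 - χ k) ^ θ) +
        3 * ((1 - φ k) * (1 - χ k)) ^ θ := by
  set r := range (N + 1) with hr
  set b := B ^ (1 - θ) with hb
  have hb0 : 0 < b := Real.rpow_pos_of_pos hB _
  have hξ : ∑ i ∈ r.erase k, φ i = 1 - φ k := by
    rw [← hφ1, ← Finset.add_sum_erase r _ hk]; ring
  have hζ : ∑ i ∈ r.erase k, χ i = 1 - χ k := by
    rw [← hχ1, ← Finset.add_sum_erase r _ hk]; ring
  have hφk : φ k ≤ 1 := by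
    rw [← hφ1]; exact Finset.single_le_sum (fun i _ => hφ i) hk
  have hχk : χ k ≤ 1 := by
    rw [← hχ1]; exact Finset.single_le_sum (fun i _ => hχ i) hk
  have hK : (1 + b) / (1 - b) ≤ 3 := by
    rw [div_le_iff₀ (by linarith only [hb2])]; linarith only [hb2]
  have hKB : (∑ j ∈ r.erase k, B ^ ad k j) ^ (1 - θ) ≤ 2 * b := by
    have h1 := sum_ad_off hB.le (by linarith only [hB2] : B < 1) k (r.erase k)
      (fun j hj => Finset.ne_of_mem_erase hj)
    have h2 : 2 * (B / (1 - B)) ≤ 4 * B := by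
      have : B / (1 - B) ≤ 2 * B := by
        rw [div_le_iff₀ (by linarith only [hB2])]
        nlinarith only [hB, hB2]
      linarith only [this]
    have h0 : 0 ≤ ∑ j ∈ r.erase k, B ^ ad k j := Finset.sum_nonneg fun j _ => by (clear * - hB; positivity)
    calc (∑ j ∈ r.erase k, B ^ ad k j) ^ (1 - θ) ≤ (4 * B) ^ (1 - θ) :=
          Real.rpow_le_rpow h0 (h1.trans h2) (by linarith only [hθ1])
      _ = 4 ^ (1 - θ) * b := by rw [Real.mul_rpow (by norm_num) hB.le]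
      _ ≤ 2 * b := by
          refine mul_le_mul_of_nonneg_right ?_ hb0.le
          calc (4 : ℝ) ^ (1 - θ) ≤ (4 : ℝ) ^ (1 / 2 : ℝ) :=
                Real.rpow_le_rpow_of_exponent_le (by norm_num) (by linarith only [hθ])
            _ = 2 := by
                rw [← Real.sqrt_eq_rpow, show (4 : ℝ) = 2 ^ 2 by norm_num,
                  Real.sqrt_sq (by norm_num)]
  rw [split_cross hk]
  have t1 : b ^ ad k k * (φ k * χ k) ^ θ = (φ k) ^ θ * (χ k) ^ θ := by
    rw [ad_self', pow_zero, one_mul, Real.mul_rpow (hφ k) (hχ k)]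
  have t2 : ∑ j ∈ r.erase k, b ^ ad k j * (φ k * χ j) ^ θ ≤ 2 * b * (1 - χ k) ^ θ := by
    calc ∑ j ∈ r.erase k, b ^ ad k j * (φ k * χ j) ^ θ
        ≤ ∑ j ∈ r.erase k, b ^ ad k j * (χ j) ^ θ := by
          refine Finset.sum_le_sum fun j _ => mul_le_mul_of_nonneg_left ?_ (by (clear * - hB; positivity))
          exact Real.rpow_le_rpow (mul_nonneg (hφ k) (hχ j))
            (mul_le_of_le_one_left (hχ j) hφk) (by linarith only [hθ])
      _ ≤ (∑ j ∈ r.erase k, χ j) ^ θ * (∑ j ∈ r.erase k, B ^ ad k j) ^ (1 - θ) :=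
          holder_row (by linarith only [hθ]) hθ1 hB.le k _ χ hχ
      _ ≤ (1 - χ k) ^ θ * (2 * b) := by
          rw [hζ]
          exact mul_le_mul_of_nonneg_left hKB (Real.rpow_nonneg (by linarith only [hχk]) _)
      _ = _ := by ring
  have t3 : ∑ i ∈ r.erase k, b ^ ad i k * (φ i * χ k) ^ θ ≤ 2 * b * (1 - φ k) ^ θ := by
    calc ∑ i ∈ r.erase k, b ^ ad i k * (φ i * χ k) ^ θ
        ≤ ∑ i ∈ r.erase k, b ^ ad k i * (φ i) ^ θ := by
          refine Finset.sum_le_sum fun i _ => ?_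
          rw [ad_comm' i k]
          refine mul_le_mul_of_nonneg_left ?_ (by (clear * - hB; positivity))
          exact Real.rpow_le_rpow (mul_nonneg (hφ i) (hχ k))
            (mul_le_of_le_one_right (hφ i) hχk) (by linarith only [hθ])
      _ ≤ (∑ j ∈ r.erase k, φ j) ^ θ * (∑ j ∈ r.erase k, B ^ ad k j) ^ (1 - θ) :=
          holder_row (by linarith only [hθ]) hθ1 hB.le k _ φ hφ
      _ ≤ (1 - φ k) ^ θ * (2 * b) := by
          rw [hξ]
          exact mul_le_mul_of_nonneg_left hKB (Real.rpow_nonneg (by linarith only [hφk]) _)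
      _ = _ := by ring
  have t4 : ∑ i ∈ r.erase k, ∑ j ∈ r.erase k, b ^ ad i j * (φ i * χ j) ^ θ ≤
      3 * ((1 - φ k) * (1 - χ k)) ^ θ := by
    have h := bilin_all hθ.le hb0.le (by linarith only [hb2] : b < 1) (r.erase k) (r.erase k) φ χ hφ hχ
    rw [hξ, hζ] at h
    refine h.trans (mul_le_mul_of_nonneg_right hK (Real.rpow_nonneg ?_ _))
    exact mul_nonneg (by linarith only [hφk]) (by linarith only [hχk])
  rw [t1]
  linarith only [t2, t3, t4]

/-- Estimate of the cells outside the `L`-shaped cell `k`. -/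
theorem lcell_le {θ B : ℝ} (hθ : 1 / 2 < θ) (hθ1 : θ < 1) (hB : 0 < B) (hB2 : B ≤ 1 / 2)
    (hb2 : B ^ (1 - θ) ≤ 1 / 2) (N : ℕ) (φ χ : ℕ → ℝ) (hφ : ∀ i, 0 ≤ φ i) (hχ : ∀ i, 0 ≤ χ i)
    (hφ1 : ∑ i ∈ range (N + 1), φ i = 1) (hχ1 : ∑ i ∈ range (N + 1), χ i = 1) {k : ℕ}
    (hk : k ∈ range (N + 1)) :
    ∑ i ∈ range (N + 1), ∑ j ∈ range (N + 1),
      (if min i j = k then 0 else (B ^ (1 - θ)) ^ ad i j * (φ i * χ j) ^ θ) ≤
      (1 + 2 * B) * B ^ (1 - θ) * ((∑ i ∈ range k, φ i) ^ θ + (∑ i ∈ range k, χ i) ^ θ) +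
        3 * ((1 - φ k) * (1 - χ k)) ^ θ := by
  set r := range (N + 1) with hr
  set b := B ^ (1 - θ) with hb
  have hb0 : 0 < b := Real.rpow_pos_of_pos hB _
  have hξ : ∑ i ∈ r.erase k, φ i = 1 - φ k := by
    rw [← hφ1, ← Finset.add_sum_erase r _ hk]; ring
  have hζ : ∑ i ∈ r.erase k, χ i = 1 - χ k := by
    rw [← hχ1, ← Finset.add_sum_erase r _ hk]; ring
  have hφk : φ k ≤ 1 := by
    rw [← hφ1]; exact Finset.single_le_sum (fun i _ => hφ i) hk
  have hχk : χ k ≤ 1 := by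
    rw [← hχ1]; exact Finset.single_le_sum (fun i _ => hχ i) hk
  have hK : (1 + b) / (1 - b) ≤ 3 := by
    rw [div_le_iff₀ (by linarith only [hb2])]; linarith only [hb2]
  have hkN : k < N + 1 := Finset.mem_range.1 hk
  have hKB : (∑ j ∈ range k, B ^ ad k j) ^ (1 - θ) ≤ (1 + 2 * B) * b := by
    have h1 := sum_ad_lt hB.le (by linarith only [hB2] : B < 1) k
    have h2 : B / (1 - B) ≤ (1 + 2 * B) * B := by
      rw [div_le_iff₀ (by linarith only [hB2])]
      linarith only [mul_nonneg (mul_nonneg hB.le hB.le) (by linarith : 0 ≤ 1 - 2 * B)]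
    have h0 : 0 ≤ ∑ j ∈ range k, B ^ ad k j := Finset.sum_nonneg fun j _ => by positivity
    calc (∑ j ∈ range k, B ^ ad k j) ^ (1 - θ) ≤ ((1 + 2 * B) * B) ^ (1 - θ) :=
          Real.rpow_le_rpow h0 (h1.trans h2) (by linarith only [hθ1])
      _ = (1 + 2 * B) ^ (1 - θ) * b := by rw [Real.mul_rpow (by linarith only [hB]) hB.le]
      _ ≤ (1 + 2 * B) * b := by
          refine mul_le_mul_of_nonneg_right ?_ hb0.le
          calc (1 + 2 * B) ^ (1 - θ) ≤ (1 + 2 * B) ^ (1 : ℝ) :=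
                Real.rpow_le_rpow_of_exponent_le (by linarith only [hB]) (by linarith only [hθ])
            _ = 1 + 2 * B := Real.rpow_one _
  have hT0 : ∀ i j, 0 ≤ b ^ ad i j * (φ i * χ j) ^ θ := fun i j =>
    mul_nonneg (by positivity) (Real.rpow_nonneg (mul_nonneg (hφ i) (hχ j)) _)
  rw [split_cross hk (fun i j => if min i j = k then 0 else b ^ ad i j * (φ i * χ j) ^ θ)]
  have t1 : (if min k k = k then (0 : ℝ) else b ^ ad k k * (φ k * χ k) ^ θ) = 0 := by simp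
  have t2 : ∑ j ∈ r.erase k, (if min k j = k then (0 : ℝ) else b ^ ad k j * (φ k * χ j) ^ θ) ≤
      (1 + 2 * B) * b * (∑ i ∈ range k, χ i) ^ θ := by
    calc ∑ j ∈ r.erase k, (if min k j = k then (0 : ℝ) else b ^ ad k j * (φ k * χ j) ^ θ)
        ≤ ∑ j ∈ range k, b ^ ad k j * (χ j) ^ θ := by
          have e : ∑ j ∈ r.erase k, (if min k j = k then (0 : ℝ) else
              b ^ ad k j * (φ k * χ j) ^ θ)
              = ∑ j ∈ (r.erase k).filter (fun j => j < k), b ^ ad k j * (φ k * χ j) ^ θ := by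
            rw [Finset.sum_filter]
            refine Finset.sum_congr rfl fun j hj => ?_
            have hjk : j ≠ k := Finset.ne_of_mem_erase hj
            by_cases hlt : j < k
            · rw [if_neg (by (clear * - hlt; omega)), if_pos hlt]
            · rw [if_pos (by omega), if_neg hlt]
          rw [e]
          have hsub : (r.erase k).filter (fun j => j < k) ⊆ range k := by
            intro j hj
            exact Finset.mem_range.2 (Finset.mem_filter.1 hj).2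
          refine (Finset.sum_le_sum_of_subset_of_nonneg hsub
            (fun j _ _ => hT0 k j)).trans ?_
          refine Finset.sum_le_sum fun j _ => mul_le_mul_of_nonneg_left ?_ (by positivity)
          exact Real.rpow_le_rpow (mul_nonneg (hφ k) (hχ j))
            (mul_le_of_le_one_left (hχ j) hφk) (by linarith only [hθ])
      _ ≤ (∑ j ∈ range k, χ j) ^ θ * (∑ j ∈ range k, B ^ ad k j) ^ (1 - θ) :=
          holder_row (by linarith only [hθ]) hθ1 hB.le k _ χ hχ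
      _ ≤ (∑ j ∈ range k, χ j) ^ θ * ((1 + 2 * B) * b) :=
          mul_le_mul_of_nonneg_left hKB
            (Real.rpow_nonneg (Finset.sum_nonneg fun i _ => hχ i) _)
      _ = _ := by ring
  have t3 : ∑ i ∈ r.erase k, (if min i k = k then (0 : ℝ) else b ^ ad i k * (φ i * χ k) ^ θ) ≤
      (1 + 2 * B) * b * (∑ i ∈ range k, φ i) ^ θ := by
    calc ∑ i ∈ r.erase k, (if min i k = k then (0 : ℝ) else b ^ ad i k * (φ i * χ k) ^ θ)
        ≤ ∑ i ∈ range k, b ^ ad k i * (φ i) ^ θ := by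
          have e : ∑ i ∈ r.erase k, (if min i k = k then (0 : ℝ) else
              b ^ ad i k * (φ i * χ k) ^ θ)
              = ∑ i ∈ (r.erase k).filter (fun i => i < k), b ^ ad i k * (φ i * χ k) ^ θ := by
            rw [Finset.sum_filter]
            refine Finset.sum_congr rfl fun i hi => ?_
            have hik : i ≠ k := Finset.ne_of_mem_erase hi
            by_cases hlt : i < k
            · rw [if_neg (by (clear * - hlt; omega)), if_pos hlt]
            · rw [if_pos (by omega), if_neg hlt]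
          rw [e]
          have hsub : (r.erase k).filter (fun i => i < k) ⊆ range k := by
            intro i hi
            exact Finset.mem_range.2 (Finset.mem_filter.1 hi).2
          refine (Finset.sum_le_sum_of_subset_of_nonneg hsub
            (fun i _ _ => hT0 i k)).trans ?_
          refine Finset.sum_le_sum fun i _ => ?_
          rw [ad_comm' i k]
          refine mul_le_mul_of_nonneg_left ?_ (by (clear * - hB; positivity))
          exact Real.rpow_le_rpow (mul_nonneg (hφ i) (hχ k))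
            (mul_le_of_le_one_right (hφ i) hχk) (by linarith only [hθ])
      _ ≤ (∑ j ∈ range k, φ j) ^ θ * (∑ j ∈ range k, B ^ ad k j) ^ (1 - θ) :=
          holder_row (by linarith only [hθ]) hθ1 hB.le k _ φ hφ
      _ ≤ (∑ j ∈ range k, φ j) ^ θ * ((1 + 2 * B) * b) :=
          mul_le_mul_of_nonneg_left hKB
            (Real.rpow_nonneg (Finset.sum_nonneg fun i _ => hφ i) _)
      _ = _ := by ring
  have t4 : ∑ i ∈ r.erase k, ∑ j ∈ r.erase k,
      (if min i j = k then (0 : ℝ) else b ^ ad i j * (φ i * χ j) ^ θ) ≤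
      3 * ((1 - φ k) * (1 - χ k)) ^ θ := by
    have h := bilin_all hθ.le hb0.le (by linarith only [hb2] : b < 1) (r.erase k) (r.erase k) φ χ hφ hχ
    rw [hξ, hζ] at h
    refine le_trans (Finset.sum_le_sum fun i _ => Finset.sum_le_sum fun j _ => ?_)
      (h.trans (mul_le_mul_of_nonneg_right hK (Real.rpow_nonneg
        (mul_nonneg (by linarith only [hφk]) (by linarith only [hχk])) _)))
    split_ifs
    · exact hT0 i j
    · exact le_rfl
  rw [t1]
  linarith only [t2, t3, t4]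

/-- If the exact sum exceeds one then there is a common index carrying almost all the mass. -/
theorem exists_peak {θ b : ℝ} (hθ : 1 / 2 < θ) (hθ1 : θ < 1) (hb0 : 0 ≤ b) (hb2 : b ≤ 1 / 4)
    (N : ℕ) (φ χ : ℕ → ℝ) (hφ : ∀ i, 0 ≤ φ i) (hχ : ∀ i, 0 ≤ χ i)
    (hφ1 : ∑ i ∈ range (N + 1), φ i = 1) (hχ1 : ∑ i ∈ range (N + 1), χ i = 1)
    (hS : 1 < ∑ i ∈ range (N + 1), ∑ j ∈ range (N + 1), b ^ ad i j * (φ i * χ j) ^ θ) :
    ∃ k ∈ range (N + 1), 1 - φ k ≤ 1 / (θ - 1 / 2) * (4 * b) ∧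
      1 - χ k ≤ 1 / (θ - 1 / 2) * (4 * b) := by
  set r := range (N + 1) with hr
  have hne : r.Nonempty := ⟨0, by simp only [hr, mem_range, lt_add_iff_pos_left, Order.lt_add_one_iff, zero_le]⟩
  obtain ⟨k, hk, hmax⟩ := Finset.exists_max_image r (fun i => φ i * χ i) hne
  refine ⟨k, hk, ?_⟩
  have hφk : φ k ≤ 1 := by
    rw [← hφ1]; exact Finset.single_le_sum (fun i _ => hφ i) hk
  have hχk : χ k ≤ 1 := by
    rw [← hχ1]; exact Finset.single_le_sum (fun i _ => hχ i) hk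
  have hm0 : 0 ≤ φ k * χ k := mul_nonneg (hφ k) (hχ k)
  -- splitting into diagonal and off-diagonal part
  have hsplit : ∑ i ∈ r, ∑ j ∈ r, b ^ ad i j * (φ i * χ j) ^ θ
      = ∑ i ∈ r, (φ i * χ i) ^ θ +
        ∑ i ∈ r, ∑ j ∈ r, (if i ≠ j then b ^ ad i j * (φ i * χ j) ^ θ else 0) := by
    rw [← Finset.sum_add_distrib]
    refine Finset.sum_congr rfl fun i hi => ?_
    rw [← Finset.add_sum_erase r _ hi, ← Finset.add_sum_erase r (fun j => if i ≠ j then
      b ^ ad i j * (φ i * χ j) ^ θ else 0) hi]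
    simp only [ad_self', pow_zero, one_mul, ne_eq, not_true_eq_false, if_false, zero_add]
    congr 1
    refine Finset.sum_congr rfl fun j hj => ?_
    rw [if_pos (Finset.ne_of_mem_erase hj).symm]
  have hoff : ∑ i ∈ r, ∑ j ∈ r, (if i ≠ j then b ^ ad i j * (φ i * χ j) ^ θ else 0) ≤ 4 * b := by
    have hK : 2 * (b / (1 - b)) ≤ 4 * b := by
      have : b / (1 - b) ≤ 2 * b := by
        rw [div_le_iff₀ (by linarith only [hb2])]
        linarith only [mul_nonneg (sub_nonneg.2 hb0) (sub_nonneg.2 hb2), mul_nonneg (sub_nonneg.2 hb0) (sub_nonneg.2 hb0)]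
      linarith only [this]
    refine bilin_norm hθ.le hb0 r r (fun i j => i ≠ j) φ χ hφ hχ hφ1.le hχ1.le ?_ ?_
      (by linarith only [hb0])
    · intro i _
      rw [← Finset.sum_filter]
      refine (sum_ad_off hb0 (by linarith only [hb2]) i _ ?_).trans hK
      intro j hj
      exact (Finset.mem_filter.1 hj).2.symm
    · intro j _
      rw [← Finset.sum_filter]
      have := (sum_ad_off hb0 (by linarith only [hb2]) j (r.filter (fun i => i ≠ j)) ?_).trans hK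
      · simpa only [ne_eq, ad_comm', ge_iff_le] using this
      · intro i hi
        exact (Finset.mem_filter.1 hi).2
  have hdiag : ∑ i ∈ r, (φ i * χ i) ^ θ ≤ (φ k * χ k) ^ (θ - 1 / 2) := by
    calc ∑ i ∈ r, (φ i * χ i) ^ θ
        ≤ ∑ i ∈ r, (φ k * χ k) ^ (θ - 1 / 2) * ((φ i + χ i) / 2) := by
          refine Finset.sum_le_sum fun i hi => ?_
          have h0 : 0 ≤ φ i * χ i := mul_nonneg (hφ i) (hχ i)
          have e : (φ i * χ i) ^ θ = (φ i * χ i) ^ (θ - 1 / 2) * (φ i * χ i) ^ (1 / 2 : ℝ) := by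
            rw [← Real.rpow_add_of_nonneg h0 (by linarith only [hθ]) (by norm_num)]
            congr 1
            ring
          rw [e]
          refine mul_le_mul (Real.rpow_le_rpow h0 (hmax i hi) (by linarith only [hθ])) ?_
            (Real.rpow_nonneg h0 _) (Real.rpow_nonneg hm0 _)
          rw [← Real.sqrt_eq_rpow]
          refine Real.sqrt_le_iff.2 ⟨by have := hφ i; have := hχ i; (clear θ b hθ hθ1 hb0 hb2 N r hφ1 hχ1 hS hr hne k hk hmax hφk hχk hm0 hsplit hoff hi h0 e; linarith), ?_⟩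
          nlinarith only [sq_nonneg (φ i - χ i)]
      _ = (φ k * χ k) ^ (θ - 1 / 2) := by
          rw [← Finset.mul_sum, ← Finset.sum_div, Finset.sum_add_distrib, hφ1, hχ1]
          norm_num
  have hbig : 1 - 4 * b ≤ (φ k * χ k) ^ (θ - 1 / 2) := by
    rw [hsplit] at hS
    linarith only [hS, hoff, hdiag]
  have hr1 : 1 ≤ 1 / (θ - 1 / 2) := by
    rw [le_div_iff₀ (by linarith only [hθ])]
    linarith only [hθ1]
  have hm : 1 - 1 / (θ - 1 / 2) * (4 * b) ≤ φ k * χ k := by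
    have h1 := one_add_mul_self_le_rpow_one_add (s := -(4 * b)) (by linarith only [hb2]) hr1
    have h2 : (1 - 4 * b) ^ (1 / (θ - 1 / 2)) ≤ φ k * χ k := by
      calc (1 - 4 * b) ^ (1 / (θ - 1 / 2))
          ≤ ((φ k * χ k) ^ (θ - 1 / 2)) ^ (1 / (θ - 1 / 2)) :=
            Real.rpow_le_rpow (by linarith only [hb2]) hbig (by linarith only [hr1])
        _ = φ k * χ k := by
            rw [← Real.rpow_mul hm0, mul_one_div_cancel (by linarith only [hθ]), Real.rpow_one]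
    have e : (1 : ℝ) + -(4 * b) = 1 - 4 * b := by ring
    rw [e] at h1
    linarith only [h1, h2]
  constructor
  · have : φ k * χ k ≤ φ k := mul_le_of_le_one_right (hφ k) hχk
    linarith only [hm, this]
  · have : φ k * χ k ≤ χ k := mul_le_of_le_one_left (hχ k) hφk
    linarith only [hm, this]

/-- Numerical inequality when the mass off the peak is not too small. -/
theorem num_far {θ B b ξ ζ C₁ T₀ : ℝ} (hθ : 1 / 2 < θ) (hθ1 : θ < 1) (hB : 0 < B)
    (hb : b = B ^ (1 - θ)) (hC₁ : 0 < C₁) (hC : C₁ ^ (1 - θ) = 16 / (3 * θ))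
    (hT1 : T₀ ≤ 1) (hTθ : T₀ ^ (2 * θ - 1) ≤ θ / 8)
    (hξ : 0 ≤ ξ) (hξT : ξ ≤ T₀) (hζ : 0 ≤ ζ) (hζT : ζ ≤ T₀) (hmax : C₁ * B ≤ max ξ ζ) :
    (1 - ξ) ^ θ * (1 - ζ) ^ θ + 2 * b * (ξ ^ θ + ζ ^ θ) + 3 * (ξ * ζ) ^ θ ≤ 1 := by
  have hb0 : 0 < b := by
    rw [hb]; exact Real.rpow_pos_of_pos hB _
  have hξ1 : ξ ≤ 1 := hξT.trans hT1
  have hζ1 : ζ ≤ 1 := hζT.trans hT1
  set m := max ξ ζ with hm
  have hm0 : 0 < m := lt_of_lt_of_le (by (clear * - hC₁ hB; positivity)) hmax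
  have hT0 : 0 ≤ T₀ := hξ.trans hξT
  have b1 : (1 - ξ) ^ θ ≤ 1 - θ * ξ := bern (by linarith only [hθ]) hθ1.le hξ1
  have b2 : (1 - ζ) ^ θ ≤ 1 - θ * ζ := bern (by linarith only [hθ]) hθ1.le hζ1
  have hθξ : θ * ξ ≤ 1 := by nlinarith only [hθ1, hT1, hξT, hθ]
  have hθζ : θ * ζ ≤ 1 := by nlinarith only [hθ1, hT1, hζT, hθ]
  have b3 : (1 - ξ) ^ θ * (1 - ζ) ^ θ ≤ (1 - θ * ξ) * (1 - θ * ζ) :=
    mul_le_mul b1 b2 (Real.rpow_nonneg (by linarith only [hT1, hζT]) _) (by linarith only [hθξ])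
  have hξζ0 : 0 ≤ ξ * ζ := mul_nonneg hξ hζ
  have hξζ1 : ξ * ζ ≤ 1 := by nlinarith only [hT1, hξT, hξ, hζT]
  have b4 : ξ * ζ ≤ (ξ * ζ) ^ θ := by
    rcases hξζ0.eq_or_lt with h | h
    · rw [← h, Real.zero_rpow (by linarith only [hθ])]
    · calc ξ * ζ = (ξ * ζ) ^ (1 : ℝ) := (Real.rpow_one _).symm
        _ ≤ (ξ * ζ) ^ θ := Real.rpow_le_rpow_of_exponent_ge h hξζ1 hθ1.le
  have b5 : θ ^ 2 * (ξ * ζ) ≤ (ξ * ζ) ^ θ := by
    have : θ ^ 2 ≤ 1 := by nlinarith only [hθ1, hθ]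
    nlinarith only [b4, hξζ0, this]
  have b6 : 4 * (ξ * ζ) ^ θ ≤ θ / 4 * (ξ + ζ) := by
    have hw0 : 0 ≤ (ξ + ζ) / 2 := by linarith only [hξ, hζ]
    have hwT : (ξ + ζ) / 2 ≤ T₀ := by linarith only [hξT, hζT]
    have e1 : (ξ * ζ) ^ θ ≤ ((ξ + ζ) / 2) ^ (2 * θ) := by
      calc (ξ * ζ) ^ θ ≤ (((ξ + ζ) / 2) ^ 2) ^ θ :=
            Real.rpow_le_rpow hξζ0 (by nlinarith only [sq_nonneg (ξ - ζ)]) (by linarith only [hθ])
        _ = ((ξ + ζ) / 2) ^ (2 * θ) := by
            rw [← Real.rpow_natCast, ← Real.rpow_mul hw0]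
            norm_num
    have e2 : ((ξ + ζ) / 2) ^ (2 * θ) = (ξ + ζ) / 2 * ((ξ + ζ) / 2) ^ (2 * θ - 1) := by
      rcases hw0.eq_or_lt with h | h
      · rw [← h, Real.zero_rpow (by linarith only [hθ]), zero_mul]
      · nth_rewrite 2 [← Real.rpow_one ((ξ + ζ) / 2)]
        rw [← Real.rpow_add h]
        congr 1
        ring
    have e3 : ((ξ + ζ) / 2) ^ (2 * θ - 1) ≤ θ / 8 :=
      (Real.rpow_le_rpow hw0 hwT (by linarith only [hθ])).trans hTθ
    have e4 := mul_le_mul_of_nonneg_left e3 hw0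
    rw [e2] at e1
    linarith only [e1, e4]
  have b7 : 2 * b * (ξ ^ θ + ζ ^ θ) ≤ 3 * θ / 4 * (ξ + ζ) := by
    have hbm : b ≤ m ^ (1 - θ) * (3 * θ / 16) := by
      have h1 : C₁ ^ (1 - θ) * b ≤ m ^ (1 - θ) := by
        rw [hb, ← Real.mul_rpow hC₁.le hB.le]
        exact Real.rpow_le_rpow (by (clear * - hC₁ hB; positivity)) hmax (by linarith only [hθ1])
      rw [hC] at h1
      have h2 : 16 / (3 * θ) * b * (3 * θ / 16) = b := by
        have : θ ≠ 0 := by linarith only [hθ]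
        (clear * - this hb0; field_simp)
      calc b = 16 / (3 * θ) * b * (3 * θ / 16) := h2.symm
        _ ≤ m ^ (1 - θ) * (3 * θ / 16) := mul_le_mul_of_nonneg_right h1 (by linarith only [hθ])
    have hξm : ξ ^ θ ≤ m ^ θ := Real.rpow_le_rpow hξ (le_max_left _ _) (by linarith only [hθ])
    have hζm : ζ ^ θ ≤ m ^ θ := Real.rpow_le_rpow hζ (le_max_right _ _) (by linarith only [hθ])
    have hmm : m ^ (1 - θ) * m ^ θ = m := by
      rw [← Real.rpow_add hm0]
      simp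
    have hmθ : 0 ≤ m ^ θ := Real.rpow_nonneg hm0.le _
    have hmle : m ≤ ξ + ζ := max_le (by linarith only [hζ]) (by linarith only [hξ])
    calc 2 * b * (ξ ^ θ + ζ ^ θ) ≤ 2 * b * (m ^ θ + m ^ θ) :=
          mul_le_mul_of_nonneg_left (by linarith only [hξm, hζm]) (by linarith only [hb0])
      _ = 4 * (b * m ^ θ) := by ring
      _ ≤ 4 * (m ^ (1 - θ) * (3 * θ / 16) * m ^ θ) := by
          have := mul_le_mul_of_nonneg_right hbm hmθ
          linarith only [this]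
      _ = 3 * θ / 4 * (m ^ (1 - θ) * m ^ θ) := by ring
      _ = 3 * θ / 4 * m := by rw [hmm]
      _ ≤ 3 * θ / 4 * (ξ + ζ) := mul_le_mul_of_nonneg_left hmle (by linarith only [hθ])
  linarith only [b7, b6, b5, b3]

/-- Numerical inequality for the `L`-shaped cell `k ≥ 1`. -/
theorem num_near {θ B b x ξ ζ ξ' ζ' C₁ : ℝ} (hθ : 1 / 2 < θ) (hθ1 : θ < 1) (hB : 0 < B)
    (hB2 : B ≤ 1 / 2) (hb : b = B ^ (1 - θ)) (hC₁ : 1 ≤ C₁) (hx : 0 ≤ x) (hxB : x ≤ B)
    (hξ : 0 ≤ ξ) (hζ : 0 ≤ ζ) (hξC : ξ ≤ C₁ * B) (hζC : ζ ≤ C₁ * B)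
    (hξ'0 : 0 ≤ ξ') (hζ'0 : 0 ≤ ζ') (hξ' : ξ' ≤ ξ) (hζ' : ζ' ≤ ζ) (hξ1 : ξ ≤ 1) (hζ1 : ζ ≤ 1) :
    (1 - x) ^ (2 * (1 - θ)) * ((1 - ξ') * (1 - ζ')) ^ θ +
      ((1 + 2 * B) * b * (ξ' ^ θ + ζ' ^ θ) + 3 * (ξ * ζ) ^ θ) ≤
      1 + 2 * (1 - θ) * (B - x) + 14 * C₁ ^ 2 * B ^ (2 * θ) := by
  have hb0 : 0 < b := by
    rw [hb]; exact Real.rpow_pos_of_pos hB _
  have hξ'1 : ξ' ≤ 1 := hξ'.trans hξ1
  have hζ'1 : ζ' ≤ 1 := hζ'.trans hζ1
  have hx1 : x ≤ 1 := by linarith only [hB2, hxB]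
  have b0 : (1 - x) ^ (2 * (1 - θ)) ≤ 1 - 2 * (1 - θ) * x :=
    bern (by linarith only [hθ1]) (by linarith only [hθ]) hx1
  have b1 : (1 - ξ') ^ θ ≤ 1 - θ * ξ' := bern (by linarith only [hθ]) hθ1.le hξ'1
  have b2 : (1 - ζ') ^ θ ≤ 1 - θ * ζ' := bern (by linarith only [hθ]) hθ1.le hζ'1
  have hθξ : θ * ξ' ≤ 1 := by nlinarith only [hθ1, hξ', hξ1, hθ]
  have hθζ : θ * ζ' ≤ 1 := by nlinarith only [hθ1, hζ', hζ1, hθ]
  have b3 : ((1 - ξ') * (1 - ζ')) ^ θ ≤ (1 - θ * ξ') * (1 - θ * ζ') := by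
    rw [Real.mul_rpow (by linarith only [hξ', hξ1]) (by linarith only [hζ', hζ1])]
    exact mul_le_mul b1 b2 (Real.rpow_nonneg (by linarith only [hζ', hζ1]) _) (by linarith only [hθξ])
  have hax : 2 * (1 - θ) * x ≤ 1 := by nlinarith only [hB2, hxB, hθ, hx]
  have b4 : (1 - x) ^ (2 * (1 - θ)) * ((1 - ξ') * (1 - ζ')) ^ θ ≤
      (1 - 2 * (1 - θ) * x) * ((1 - θ * ξ') * (1 - θ * ζ')) :=
    mul_le_mul b0 b3 (Real.rpow_nonneg (mul_nonneg (by linarith only [hξ', hξ1]) (by linarith only [hζ', hζ1])) _) (by linarith only [hax])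
  -- expansion of the product
  set a := 2 * (1 - θ) * x with ha
  set e := θ * ξ' with he
  set f := θ * ζ' with hf
  have ha0 : 0 ≤ a := by
    rw [ha]
    have : 0 ≤ 1 - θ := by linarith only [hθ1]
    (clear * - hθ1 hx; positivity)
  have he0 : 0 ≤ e := by rw [he]; (clear * - hθ hξ'0; positivity)
  have hf0 : 0 ≤ f := by rw [hf]; (clear * - hθ hζ'0; positivity)
  have haB : a ≤ B := by
    rw [ha]
    calc 2 * (1 - θ) * x ≤ 1 * x := mul_le_mul_of_nonneg_right (by linarith only [hθ]) hx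
      _ ≤ B := by linarith only [hxB]
  have heB : e ≤ C₁ * B := by
    rw [he]
    calc θ * ξ' ≤ 1 * ξ' := mul_le_mul_of_nonneg_right hθ1.le hξ'0
      _ ≤ C₁ * B := by linarith only [hξC, hξ']
  have hfB : f ≤ C₁ * B := by
    rw [hf]
    calc θ * ζ' ≤ 1 * ζ' := mul_le_mul_of_nonneg_right hθ1.le hζ'0
      _ ≤ C₁ * B := by linarith only [hζC, hζ']
  have hC0 : 0 ≤ C₁ * B := by (clear * - hC₁ hB; positivity)
  have b5 : (1 - a) * ((1 - e) * (1 - f)) ≤ 1 - a - e - f + 3 * C₁ ^ 2 * B ^ 2 := by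
    have h1 : a * e ≤ B * (C₁ * B) := mul_le_mul haB heB he0 hB.le
    have h2 : a * f ≤ B * (C₁ * B) := mul_le_mul haB hfB hf0 hB.le
    have h3 : e * f ≤ C₁ * B * (C₁ * B) := mul_le_mul heB hfB hf0 hC0
    have h4 : 0 ≤ a * e * f := mul_nonneg (mul_nonneg ha0 he0) hf0
    have h5 : B * (C₁ * B) ≤ C₁ ^ 2 * B ^ 2 := by
      have h6 : C₁ ≤ C₁ ^ 2 := by (by_contra nlg; linarith only [nlg, mul_pos (sub_pos.2 (not_le.1 nlg)) (sub_pos.2 (not_le.1 nlg)), mul_nonneg (sq_nonneg (C₁ : ℝ)) (sub_nonneg.2 hC₁), mul_nonneg (sq_nonneg (C₁ : ℝ)) (le_of_lt (sub_pos.2 (not_le.1 nlg)))])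
      have h7 : 0 ≤ B ^ 2 := by positivity
      have h8 := mul_le_mul_of_nonneg_right h6 h7
      calc B * (C₁ * B) = C₁ * B ^ 2 := by ring
        _ ≤ _ := h8
    have h6 : (1 - a) * ((1 - e) * (1 - f)) = 1 - a - e - f + (a * e + a * f + e * f)
        - a * e * f := by ring
    have h7 : C₁ * B * (C₁ * B) = C₁ ^ 2 * B ^ 2 := by ring
    rw [h6]
    linarith only [h1, h2, h3, h4, h5]
  -- weighted AM-GM
  have hag : ∀ t : ℝ, 0 ≤ t → b * t ^ θ ≤ (1 - θ) * B + θ * t := by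
    intro t ht
    have := Real.geom_mean_le_arith_mean2_weighted (w₁ := 1 - θ) (w₂ := θ) (by linarith only [hθ1])
      (by linarith only [hθ]) hB.le ht (by ring)
    rw [hb]
    exact this
  have g1 := hag ξ' hξ'0
  have g2 := hag ζ' hζ'0
  have hBB : 0 ≤ B ^ 2 := by positivity
  have b6 : (1 + 2 * B) * b * (ξ' ^ θ + ζ' ^ θ) ≤
      2 * (1 - θ) * B + e + f + 8 * C₁ ^ 2 * B ^ 2 := by
    have h1 : (1 + 2 * B) * b * (ξ' ^ θ + ζ' ^ θ) = (1 + 2 * B) * (b * ξ' ^ θ + b * ζ' ^ θ) := by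
      ring
    have h2 : b * ξ' ^ θ + b * ζ' ^ θ ≤ 2 * (1 - θ) * B + e + f := by
      rw [he, hf]
      linarith only [g1, g2]
    have h3 : 2 * (1 - θ) * B + e + f ≤ 3 * (C₁ * B) := by
      have h6 : 2 * (1 - θ) * B ≤ 1 * B := mul_le_mul_of_nonneg_right (by linarith only [hθ]) hB.le
      have h7 : 1 * B ≤ C₁ * B := mul_le_mul_of_nonneg_right hC₁ hB.le
      linarith only [heB, hfB, h6, h7]
    have h4 : 2 * B * (b * ξ' ^ θ + b * ζ' ^ θ) ≤ 2 * B * (3 * (C₁ * B)) :=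
      mul_le_mul_of_nonneg_left (h2.trans h3) (by linarith only [hB])
    have h5 : 2 * B * (3 * (C₁ * B)) ≤ 8 * C₁ ^ 2 * B ^ 2 := by
      have h6 : C₁ ≤ C₁ ^ 2 := by nlinarith only [hC₁]
      have h7 : 0 ≤ B ^ 2 := by positivity
      have h8 := mul_le_mul_of_nonneg_right h6 h7
      have h9 : 0 ≤ C₁ ^ 2 * B ^ 2 := by positivity
      calc 2 * B * (3 * (C₁ * B)) = 6 * (C₁ * B ^ 2) := by ring
        _ ≤ 6 * (C₁ ^ 2 * B ^ 2) := by linarith only [h8]
        _ ≤ 8 * (C₁ ^ 2 * B ^ 2) := by linarith only [h9]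
        _ = _ := by ring
    rw [h1]
    linarith only [g1, g2, h4, h5]
  have hB1 : B ≤ 1 := by linarith only [hB2]
  have b7 : B ^ 2 ≤ B ^ (2 * θ) := by
    rw [← Real.rpow_natCast]
    exact Real.rpow_le_rpow_of_exponent_ge hB hB1 (by push_cast; linarith only [hθ1])
  have b8 : (ξ * ζ) ^ θ ≤ C₁ ^ 2 * B ^ (2 * θ) := by
    calc (ξ * ζ) ^ θ ≤ ((C₁ * B) * (C₁ * B)) ^ θ :=
          Real.rpow_le_rpow (mul_nonneg hξ hζ) (mul_le_mul hξC hζC hζ hC0) (by linarith only [hθ])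
      _ = (C₁ * B) ^ (2 * θ) := by
          rw [Real.mul_rpow hC0 hC0, ← Real.rpow_add (by positivity)]
          congr 1
          ring
      _ = C₁ ^ (2 * θ) * B ^ (2 * θ) := Real.mul_rpow (by linarith only [hC₁]) hB.le
      _ ≤ C₁ ^ 2 * B ^ (2 * θ) := by
          refine mul_le_mul_of_nonneg_right ?_ (Real.rpow_nonneg hB.le _)
          rw [← Real.rpow_natCast]
          exact Real.rpow_le_rpow_of_exponent_le hC₁ (by push_cast; linarith only [hθ1])
  have hCC : 0 ≤ C₁ ^ 2 := by positivity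
  have b9 : 11 * C₁ ^ 2 * B ^ 2 ≤ 11 * C₁ ^ 2 * B ^ (2 * θ) :=
    mul_le_mul_of_nonneg_left b7 (by positivity)
  have e0 : 2 * (1 - θ) * (B - x) = 2 * (1 - θ) * B - a := by rw [ha]; ring
  rw [e0]
  linarith only [b4, b5, b6, b8, b9]

/-- Normalised form of `SP_small`. -/
theorem SP_norm_small {θ : ℝ} (hθ : 1 / 2 < θ) (hθ1 : θ < 1) :
    ∃ B₀ > 0, ∃ C ≥ 0, B₀ < 1 ∧ ∀ B x : ℝ, 0 < B → B ≤ B₀ → 0 ≤ x → x ≤ B →
      ∀ (N : ℕ) (φ χ : ℕ → ℝ), (∀ i, 0 ≤ φ i) → (∀ i, 0 ≤ χ i) →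
      ∑ i ∈ range (N + 1), φ i = 1 → ∑ i ∈ range (N + 1), χ i = 1 →
      (∑ i ∈ range (N + 1), ∑ j ∈ range (N + 1), (B ^ (1 - θ)) ^ ad i j * (φ i * χ j) ^ θ ≤ 1) ∨
      ∃ k ≤ N, (if k = 0 then (1 : ℝ) else (1 - x) ^ (2 * (1 - θ))) *
          ((∑ i ∈ Icc k N, φ i) * ∑ j ∈ Icc k N, χ j) ^ θ
        + ∑ i ∈ range (N + 1), ∑ j ∈ range (N + 1),
            (if min i j = k then 0 else (B ^ (1 - θ)) ^ ad i j * (φ i * χ j) ^ θ)
        ≤ 1 + 2 * (1 - θ) * (B - x) + C * B ^ (2 * θ) := by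
  have hlam : 0 < 1 - θ := by linarith only [hθ1]
  set C₁ : ℝ := (16 / (3 * θ)) ^ (1 / (1 - θ)) with hC₁
  have h16 : 1 ≤ 16 / (3 * θ) := by
    rw [le_div_iff₀ (by linarith only [hθ])]
    linarith only [hθ1]
  have hC1 : 1 ≤ C₁ := Real.one_le_rpow h16 (by positivity)
  have hCθ : C₁ ^ (1 - θ) = 16 / (3 * θ) := by
    rw [hC₁, ← Real.rpow_mul (by linarith only [h16]), one_div_mul_cancel hlam.ne', Real.rpow_one]
  set T₀ : ℝ := min 1 ((θ / 8) ^ (1 / (2 * θ - 1))) with hT₀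
  have h2θ : 0 < 2 * θ - 1 := by linarith only [hθ]
  have hT0 : 0 < T₀ := lt_min one_pos (Real.rpow_pos_of_pos (by linarith only [hθ]) _)
  have hT1 : T₀ ≤ 1 := min_le_left _ _
  have hTθ : T₀ ^ (2 * θ - 1) ≤ θ / 8 := by
    calc T₀ ^ (2 * θ - 1) ≤ ((θ / 8) ^ (1 / (2 * θ - 1))) ^ (2 * θ - 1) :=
          Real.rpow_le_rpow hT0.le (min_le_right _ _) h2θ.le
      _ = θ / 8 := by
          rw [← Real.rpow_mul (by linarith only [hθ]), one_div_mul_cancel h2θ.ne', Real.rpow_one]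
  set ρ : ℝ := 1 / (θ - 1 / 2) with hρ
  have hρ0 : 0 < ρ := by
    rw [hρ]
    have : 0 < θ - 1 / 2 := by linarith only [hθ]
    positivity
  set β : ℝ := min (1 / 4) (T₀ / (4 * ρ)) with hβ
  have hβ0 : 0 < β := lt_min (by norm_num) (by positivity)
  have hβ4 : β ≤ 1 / 4 := min_le_left _ _
  have hβT : ρ * (4 * β) ≤ T₀ := by
    have h : β ≤ T₀ / (4 * ρ) := min_le_right _ _
    rw [le_div_iff₀ (by positivity)] at h
    linarith only [h]
  have hβ1 : β ^ (1 / (1 - θ)) ≤ 1 / 2 := by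
    calc β ^ (1 / (1 - θ)) ≤ β ^ (1 : ℝ) := by
          refine Real.rpow_le_rpow_of_exponent_ge hβ0 (by linarith only [hβ4]) ?_
          rw [le_div_iff₀ hlam]
          linarith only [hθ]
      _ ≤ 1 / 2 := by
          rw [Real.rpow_one]
          linarith only [hβ4]
  refine ⟨β ^ (1 / (1 - θ)), Real.rpow_pos_of_pos hβ0 _, 14 * C₁ ^ 2, by positivity,
    by linarith only [hβ1], ?_⟩
  intro B x hB hBB hx hxB N φ χ hφ hχ hφ1 hχ1
  have hB2 : B ≤ 1 / 2 := hBB.trans hβ1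
  have hbβ : B ^ (1 - θ) ≤ β := by
    calc B ^ (1 - θ) ≤ (β ^ (1 / (1 - θ))) ^ (1 - θ) := Real.rpow_le_rpow hB.le hBB hlam.le
      _ = β := by rw [← Real.rpow_mul hβ0.le, one_div_mul_cancel hlam.ne', Real.rpow_one]
  have hb0 : 0 < B ^ (1 - θ) := Real.rpow_pos_of_pos hB _
  by_cases hS : ∑ i ∈ range (N + 1), ∑ j ∈ range (N + 1),
      (B ^ (1 - θ)) ^ ad i j * (φ i * χ j) ^ θ ≤ 1
  · exact Or.inl hS
  push Not at hS
  obtain ⟨k, hk, hk1, hk2⟩ := exists_peak hθ hθ1 hb0.le (hbβ.trans hβ4) N φ χ hφ hχ hφ1 hχ1 hS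
  have hφk : φ k ≤ 1 := by
    rw [← hφ1]; exact Finset.single_le_sum (fun i _ => hφ i) hk
  have hχk : χ k ≤ 1 := by
    rw [← hχ1]; exact Finset.single_le_sum (fun i _ => hχ i) hk
  have hξT : 1 - φ k ≤ T₀ := by
    refine hk1.trans (le_trans ?_ hβT)
    exact mul_le_mul_of_nonneg_left (by linarith only [hbβ]) hρ0.le
  have hζT : 1 - χ k ≤ T₀ := by
    refine hk2.trans (le_trans ?_ hβT)
    exact mul_le_mul_of_nonneg_left (by linarith only [hbβ]) hρ0.le
  by_cases hmax : C₁ * B ≤ max (1 - φ k) (1 - χ k)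
  · exfalso
    have h1 := exact_le hθ hθ1 hB hB2 (by linarith only [hβ4, hbβ]) N φ χ hφ hχ hφ1 hχ1 hk
    have h2 := num_far (ξ := 1 - φ k) (ζ := 1 - χ k) hθ hθ1 hB rfl (by linarith only [hC1]) hCθ hT1 hTθ
      (by linarith only [hφk]) hξT (by linarith only [hχk]) hζT hmax
    have e1 : 1 - (1 - φ k) = φ k := by ring
    have e2 : 1 - (1 - χ k) = χ k := by ring
    rw [e1, e2] at h2
    linarith only [hS, h1, h2]
  push Not at hmax
  have hm1 : 1 - φ k ≤ C₁ * B := (le_max_left _ _).trans hmax.le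
  have hm2 : 1 - χ k ≤ C₁ * B := (le_max_right _ _).trans hmax.le
  right
  have hkN : k ≤ N := by
    have := Finset.mem_range.1 hk
    (clear * - this; omega)
  refine ⟨k, hkN, ?_⟩
  have hL := lcell_le hθ hθ1 hB hB2 (by linarith only [hβ4, hbβ]) N φ χ hφ hχ hφ1 hχ1 hk
  have hnb : ∀ ψ : ℕ → ℝ, (∀ i, 0 ≤ ψ i) → ∑ i ∈ range (N + 1), ψ i = 1 →
      ∑ i ∈ Icc k N, ψ i = 1 - ∑ i ∈ range k, ψ i ∧ ∑ i ∈ range k, ψ i ≤ 1 - ψ k := by
    intro ψ hψ hψ1
    have h1 : ∑ i ∈ range k, ψ i + ∑ i ∈ Icc k N, ψ i = 1 := by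
      rw [← hψ1, ← Finset.sum_union]
      · refine Finset.sum_congr ?_ fun _ _ => rfl
        ext i
        simp only [mem_union, mem_range, mem_Icc]
        omega
      · rw [Finset.disjoint_left]
        intro i hi hi'
        rw [Finset.mem_range] at hi
        rw [Finset.mem_Icc] at hi'
        omega
    have h2 : ψ k ≤ ∑ i ∈ Icc k N, ψ i :=
      Finset.single_le_sum (fun i _ => hψ i) (Finset.mem_Icc.2 ⟨le_rfl, hkN⟩)
    constructor <;> linarith only [h1, h2]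
  obtain ⟨p1, p2⟩ := hnb φ hφ hφ1
  obtain ⟨p3, p4⟩ := hnb χ hχ hχ1
  have q1 : 0 ≤ ∑ i ∈ range k, φ i := Finset.sum_nonneg fun i _ => hφ i
  have q2 : 0 ≤ ∑ i ∈ range k, χ i := Finset.sum_nonneg fun i _ => hχ i
  have hn := num_near (x := x) (ξ := 1 - φ k) (ζ := 1 - χ k) (ξ' := ∑ i ∈ range k, φ i)
    (ζ' := ∑ i ∈ range k, χ i) hθ hθ1 hB hB2 rfl hC1 hx hxB (by linarith only [hφk]) (by linarith only [hχk]) hm1 hm2
    q1 q2 p2 p4 (by have := hφ k; linarith only [hT1, hξT]) (by have := hχ k; linarith only [hT1, hζT])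
  rw [p1, p3]
  by_cases hk0 : k = 0
  · rw [if_pos hk0]
    subst hk0
    simp only [Finset.range_zero, Finset.sum_empty, sub_zero, mul_one, Real.one_rpow] at hL ⊢
    have hn' := num_near (x := x) (ξ := 1 - φ 0) (ζ := 1 - χ 0) (ξ' := 0) (ζ' := 0) hθ hθ1 hB hB2
      rfl hC1 hx hxB (by linarith only [hφk]) (by linarith only [hχk]) hm1 hm2
      le_rfl le_rfl (by linarith only [hφk]) (by linarith only [hχk]) (by have := hφ 0; linarith only [hT1, hξT])
      (by have := hχ 0; linarith only [hT1, hζT])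
    have h0 : (0 : ℝ) ^ θ = 0 := Real.zero_rpow (by linarith only [hθ])
    rw [h0] at hL
    have b8 : 3 * ((1 - φ 0) * (1 - χ 0)) ^ θ ≤ 14 * C₁ ^ 2 * B ^ (2 * θ) := by
      have hC0 : 0 ≤ C₁ * B := by positivity
      have h3 : ((1 - φ 0) * (1 - χ 0)) ^ θ ≤ C₁ ^ 2 * B ^ (2 * θ) := by
        calc ((1 - φ 0) * (1 - χ 0)) ^ θ ≤ ((C₁ * B) * (C₁ * B)) ^ θ :=
              Real.rpow_le_rpow (mul_nonneg (by linarith only [hφk]) (by linarith only [hχk]))
                (mul_le_mul hm1 hm2 (by linarith only [hχk]) hC0) (by linarith only [hθ])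
          _ = (C₁ * B) ^ (2 * θ) := by
              rw [Real.mul_rpow hC0 hC0, ← Real.rpow_add (by (clear * - hθ hB; positivity))]
              congr 1
              ring
          _ = C₁ ^ (2 * θ) * B ^ (2 * θ) := Real.mul_rpow (by linarith only [hC1]) hB.le
          _ ≤ C₁ ^ 2 * B ^ (2 * θ) := by
              refine mul_le_mul_of_nonneg_right ?_ (Real.rpow_nonneg hB.le _)
              rw [← Real.rpow_natCast]
              exact Real.rpow_le_rpow_of_exponent_le hC1 (by push_cast; linarith only [hθ1])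
      have h4 : 0 ≤ C₁ ^ 2 * B ^ (2 * θ) := by positivity
      linarith only [h3, h4]
    have h5 : 0 ≤ 2 * (1 - θ) * (B - x) := mul_nonneg (by linarith only [hθ1]) (by linarith only [hxB])
    linarith only [hL, b8, h5]
  · rw [if_neg hk0]
    linarith only [hL, hn]

theorem SP_small {θ : ℝ} (hθ : 1 / 2 < θ) (hθ1 : θ < 1) :
    ∃ B₀ > 0, ∃ C ≥ 0, B₀ < 1 ∧ ∀ B x : ℝ, 0 < B → B ≤ B₀ → 0 ≤ x → x ≤ B →
      SP θ (B ^ (1 - θ)) x (1 + 2 * (1 - θ) * (B - x) + C * B ^ (2 * θ)) := by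
  obtain ⟨B₀, hB₀, C, hC, hB₀1, hmain⟩ := SP_norm_small hθ hθ1
  refine ⟨B₀, hB₀, C, hC, hB₀1, ?_⟩
  intro B x hB hBB hx hxB N φ χ hφ hχ
  have hθ0 : θ ≠ 0 := by (clear * - hθ hθ1; linarith)
  set c : ℝ := 1 + 2 * (1 - θ) * (B - x) + C * B ^ (2 * θ) with hc
  have hc1 : 1 ≤ c := by
    have h1 : 0 ≤ 2 * (1 - θ) * (B - x) := mul_nonneg (by linarith only [hθ1]) (by linarith only [hxB])
    have h2 : 0 ≤ C * B ^ (2 * θ) := mul_nonneg hC (Real.rpow_nonneg hB.le _)
    linarith only [h1, h2]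
  set Φ := ∑ i ∈ range (N + 1), φ i with hΦ
  set X := ∑ i ∈ range (N + 1), χ i with hX
  have hΦ0 : 0 ≤ Φ := Finset.sum_nonneg fun i _ => hφ i
  have hX0 : 0 ≤ X := Finset.sum_nonneg fun i _ => hχ i
  rcases hΦ0.eq_or_lt with h | h
  · left
    have h0 : ∀ i ∈ range (N + 1), φ i = 0 :=
      (Finset.sum_eq_zero_iff_of_nonneg (fun i _ => hφ i)).1 h.symm
    rw [← h, zero_mul, Real.zero_rpow hθ0, mul_zero]
    refine le_of_eq (Finset.sum_eq_zero fun i hi => Finset.sum_eq_zero fun j _ => ?_)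
    rw [h0 i hi, zero_mul, Real.zero_rpow hθ0, mul_zero]
  rcases hX0.eq_or_lt with h' | h'
  · left
    have h0 : ∀ i ∈ range (N + 1), χ i = 0 :=
      (Finset.sum_eq_zero_iff_of_nonneg (fun i _ => hχ i)).1 h'.symm
    rw [← h', mul_zero, Real.zero_rpow hθ0, mul_zero]
    refine le_of_eq (Finset.sum_eq_zero fun i _ => Finset.sum_eq_zero fun j hj => ?_)
    rw [h0 j hj, mul_zero, Real.zero_rpow hθ0, mul_zero]
  have hpos : 0 < Φ * X := mul_pos h h'
  have hP : 0 ≤ (Φ * X) ^ θ := Real.rpow_nonneg hpos.le _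
  have hscale : ∀ i j, (φ i * χ j) ^ θ = (Φ * X) ^ θ * (φ i / Φ * (χ j / X)) ^ θ := by
    intro i j
    rw [← Real.mul_rpow hpos.le (mul_nonneg (div_nonneg (hφ i) h.le) (div_nonneg (hχ j) h'.le))]
    congr 1
    (clear * - h h'; field_simp)
  rcases hmain B x hB hBB hx hxB N (fun i => φ i / Φ) (fun j => χ j / X)
    (fun i => div_nonneg (hφ i) h.le) (fun j => div_nonneg (hχ j) h'.le)
    (by rw [← Finset.sum_div]; exact div_self h.ne')
    (by rw [← Finset.sum_div]; exact div_self h'.ne') with hA | ⟨k, hkN, hA⟩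
  · left
    calc ∑ i ∈ range (N + 1), ∑ j ∈ range (N + 1), (B ^ (1 - θ)) ^ ad i j * (φ i * χ j) ^ θ
        = (Φ * X) ^ θ * ∑ i ∈ range (N + 1), ∑ j ∈ range (N + 1),
          (B ^ (1 - θ)) ^ ad i j * (φ i / Φ * (χ j / X)) ^ θ := by
          rw [Finset.mul_sum]
          refine Finset.sum_congr rfl fun i _ => ?_
          rw [Finset.mul_sum]
          refine Finset.sum_congr rfl fun j _ => ?_
          rw [hscale i j]
          ring
      _ ≤ (Φ * X) ^ θ * 1 := mul_le_mul_of_nonneg_left hA hP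
      _ ≤ (Φ * X) ^ θ * c := mul_le_mul_of_nonneg_left hc1 hP
      _ = _ := mul_comm _ _
  · right
    refine ⟨k, hkN, ?_⟩
    have e1 : ((∑ i ∈ Icc k N, φ i) * ∑ j ∈ Icc k N, χ j) ^ θ
        = (Φ * X) ^ θ * ((∑ i ∈ Icc k N, φ i / Φ) * ∑ j ∈ Icc k N, χ j / X) ^ θ := by
      rw [← Real.mul_rpow hpos.le (mul_nonneg
        (Finset.sum_nonneg fun i _ => div_nonneg (hφ i) h.le)
        (Finset.sum_nonneg fun i _ => div_nonneg (hχ i) h'.le)),
        ← Finset.sum_div, ← Finset.sum_div]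
      congr 1
      (clear * - h h'; field_simp)
    have e2 : ∑ i ∈ range (N + 1), ∑ j ∈ range (N + 1),
        (if min i j = k then 0 else (B ^ (1 - θ)) ^ ad i j * (φ i * χ j) ^ θ)
        = (Φ * X) ^ θ * ∑ i ∈ range (N + 1), ∑ j ∈ range (N + 1),
          (if min i j = k then 0 else (B ^ (1 - θ)) ^ ad i j * (φ i / Φ * (χ j / X)) ^ θ) := by
      rw [Finset.mul_sum]
      refine Finset.sum_congr rfl fun i _ => ?_
      rw [Finset.mul_sum]
      refine Finset.sum_congr rfl fun j _ => ?_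
      split_ifs
      · rw [mul_zero]
      · rw [hscale i j]
        ring
    rw [e1, e2]
    calc _ = (Φ * X) ^ θ * ((if k = 0 then (1 : ℝ) else (1 - x) ^ (2 * (1 - θ))) *
          ((∑ i ∈ Icc k N, φ i / Φ) * ∑ j ∈ Icc k N, χ j / X) ^ θ
        + ∑ i ∈ range (N + 1), ∑ j ∈ range (N + 1),
            (if min i j = k then 0 else
              (B ^ (1 - θ)) ^ ad i j * (φ i / Φ * (χ j / X)) ^ θ)) := by ring
      _ ≤ (Φ * X) ^ θ * c := mul_le_mul_of_nonneg_left hA hP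
      _ = _ := mul_comm _ _

end Vale.P028
end

section

/-!
# Base case: the maximal vertex trick
-/

namespace Vale.P028

open Finset

open Classical in
theorem max_vertex (E : ℕ → ℕ → Prop) (N : ℕ) (f h : ℕ → ℝ) (hf : ∀ q, 0 ≤ f q)
    (hh : ∀ r, 0 ≤ h r) (hΛ : 0 < psum E N f h) (hF : 0 < ∑ q ∈ Icc 1 N, f q)
    (hH : 0 < ∑ r ∈ Icc 1 N, h r) :
    ∃ q₀ r₀ : ℕ, 0 < q₀ ∧ 0 < r₀ ∧ E q₀ r₀ ∧
      psum E N f h / (4 * ∑ r ∈ Icc 1 N, h r) ≤ ∑ q ∈ Icc 1 q₀, (if E q r₀ then f q else 0) ∧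
      psum E N f h / (4 * ∑ q ∈ Icc 1 N, f q) ≤ ∑ r ∈ Icc 1 r₀, (if E q₀ r then h r else 0) := by
  set Λ := psum E N f h with hΛdef
  set F := ∑ q ∈ Icc 1 N, f q with hFdef
  set H := ∑ r ∈ Icc 1 N, h r with hHdef
  set e : ℕ → ℕ → ℝ := fun q r => if E q r then f q * h r else 0 with he
  have he0 : ∀ q r, 0 ≤ e q r := by
    intro q r
    simp only [he]
    split_ifs
    · exact mul_nonneg (hf q) (hh r)
    · exact le_refl _
  set Φ : Finset ℕ × Finset ℕ → ℝ := fun S =>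
    ∑ q ∈ S.1, ∑ r ∈ S.2, e q r - Λ / (4 * F) * ∑ q ∈ S.1, f q - Λ / (4 * H) * ∑ r ∈ S.2, h r
    with hΦ
  obtain ⟨⟨A, B⟩, hmem, hmax⟩ := Finset.exists_max_image
    ((Icc 1 N).powerset ×ˢ (Icc 1 N).powerset) Φ
    ⟨(Icc 1 N, Icc 1 N), by simp⟩
  rw [mem_product, mem_powerset, mem_powerset] at hmem
  obtain ⟨hA, hB⟩ := hmem
  simp only at hA hB
  have hval : Λ / 2 ≤ Φ (A, B) := by
    have h1 := hmax (Icc 1 N, Icc 1 N) (by simp)
    have h2 : Φ (Icc 1 N, Icc 1 N) = Λ / 2 := by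
      simp only [hΦ]
      have h3 : ∑ q ∈ Icc 1 N, ∑ r ∈ Icc 1 N, e q r = Λ := by
        rw [hΛdef]; rfl
      rw [h3, ← hFdef, ← hHdef]
      field_simp
      ring
    linarith only [h1, h2]
  have hc1 : 0 < Λ / (4 * F) := by (clear * - hΛ hF; positivity)
  have hc2 : 0 < Λ / (4 * H) := by (clear * - hΛ hH; positivity)
  have hfA : 0 ≤ ∑ q ∈ A, f q := sum_nonneg fun q _ => hf q
  have hhB : 0 ≤ ∑ r ∈ B, h r := sum_nonneg fun r _ => hh r
  have hpos : 0 < ∑ q ∈ A, ∑ r ∈ B, e q r := by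
    have h1 : Φ (A, B) = ∑ q ∈ A, ∑ r ∈ B, e q r - Λ / (4 * F) * ∑ q ∈ A, f q
      - Λ / (4 * H) * ∑ r ∈ B, h r := rfl
    have h2 := mul_nonneg hc1.le hfA
    have h3 := mul_nonneg hc2.le hhB
    linarith only [hΛ, hval, h2, h3]
  -- degrees
  have hdegA : ∀ q ∈ A, 0 < f q → Λ / (4 * F) ≤ ∑ r ∈ B, if E q r then h r else 0 := by
    intro q hq hfq
    have h1 := hmax (A.erase q, B) (by
      rw [mem_product, mem_powerset, mem_powerset]
      exact ⟨(erase_subset _ _).trans hA, hB⟩)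
    have h2 : ∑ q' ∈ A, ∑ r ∈ B, e q' r = ∑ r ∈ B, e q r + ∑ q' ∈ A.erase q, ∑ r ∈ B, e q' r :=
      (add_sum_erase A _ hq).symm
    have h3 : ∑ q' ∈ A, f q' = f q + ∑ q' ∈ A.erase q, f q' := (add_sum_erase A _ hq).symm
    have h4 : ∑ r ∈ B, e q r = f q * ∑ r ∈ B, if E q r then h r else 0 := by
      rw [mul_sum]
      refine sum_congr rfl fun r _ => ?_
      simp only [he]
      split_ifs <;> simp
    simp only [hΦ] at h1
    rw [h2, h3, h4] at h1
    have h5 : f q * (Λ / (4 * F)) ≤ f q * ∑ r ∈ B, if E q r then h r else 0 := by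
      linarith only [h1]
    exact le_of_mul_le_mul_left h5 hfq
  have hdegB : ∀ r ∈ B, 0 < h r → Λ / (4 * H) ≤ ∑ q ∈ A, if E q r then f q else 0 := by
    intro r hr hhr
    have h1 := hmax (A, B.erase r) (by
      rw [mem_product, mem_powerset, mem_powerset]
      exact ⟨hA, (erase_subset _ _).trans hB⟩)
    have h2 : ∑ q ∈ A, ∑ r' ∈ B, e q r' = ∑ q ∈ A, e q r + ∑ q ∈ A, ∑ r' ∈ B.erase r, e q r' := by
      rw [← sum_add_distrib]
      exact sum_congr rfl fun q _ => (add_sum_erase B _ hr).symm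
    have h3 : ∑ r' ∈ B, h r' = h r + ∑ r' ∈ B.erase r, h r' := (add_sum_erase B _ hr).symm
    have h4 : ∑ q ∈ A, e q r = h r * ∑ q ∈ A, if E q r then f q else 0 := by
      rw [mul_sum]
      refine sum_congr rfl fun q _ => ?_
      simp only [he]
      split_ifs
      · ring
      · ring
    simp only [hΦ] at h1
    rw [h2, h3, h4] at h1
    have h5 : h r * (Λ / (4 * H)) ≤ h r * ∑ q ∈ A, if E q r then f q else 0 := by
      linarith only [h1]
    exact le_of_mul_le_mul_left h5 hhr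
  -- the maximal vertices
  have hprop : ∀ q r, 0 < e q r → E q r ∧ 0 < f q ∧ 0 < h r := by
    intro q r h1
    simp only [he] at h1
    split_ifs at h1 with h2
    · refine ⟨h2, ?_, ?_⟩
      · rcases (hf q).lt_or_eq with h3 | h3
        · exact h3
        · rw [← h3, zero_mul] at h1; exact absurd h1 (lt_irrefl _)
      · rcases (hh r).lt_or_eq with h3 | h3
        · exact h3
        · rw [← h3, mul_zero] at h1; exact absurd h1 (lt_irrefl _)
    · exact absurd h1 (lt_irrefl _)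
  have hprop' : ∀ q r, E q r → 0 < f q → 0 < h r → 0 < e q r := by
    intro q r h1 h2 h3
    simp only [he]
    rw [if_pos h1]
    exact mul_pos h2 h3
  set S := B.filter (fun r => ∃ q ∈ A, 0 < e q r) with hS
  have hSne : S.Nonempty := by
    by_contra hne
    rw [not_nonempty_iff_eq_empty] at hne
    have : ∑ q ∈ A, ∑ r ∈ B, e q r = 0 := by
      refine sum_eq_zero fun q hq => sum_eq_zero fun r hr => ?_
      by_contra h1
      have h2 : 0 < e q r := lt_of_le_of_ne (he0 q r) (Ne.symm h1)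
      have h3 : r ∈ S := by rw [hS, mem_filter]; exact ⟨hr, q, hq, h2⟩
      rw [hne] at h3
      exact absurd h3 (notMem_empty r)
    linarith only [hpos, this]
  obtain ⟨r₀, hr₀S, hr₀max⟩ := S.exists_max_image (fun r => r) hSne
  rw [hS, mem_filter] at hr₀S
  obtain ⟨hr₀B, q₁, hq₁A, hq₁⟩ := hr₀S
  set T := A.filter (fun q => 0 < e q r₀) with hT
  obtain ⟨q₀, hq₀T, hq₀max⟩ := T.exists_max_image (fun q => q)
    ⟨q₁, by rw [hT, mem_filter]; exact ⟨hq₁A, hq₁⟩⟩
  rw [hT, mem_filter] at hq₀T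
  obtain ⟨hq₀A, hq₀⟩ := hq₀T
  obtain ⟨hE₀, hfq₀, hhr₀⟩ := hprop q₀ r₀ hq₀
  have hq₀1 : 0 < q₀ := (mem_Icc.mp (hA hq₀A)).1
  have hr₀1 : 0 < r₀ := (mem_Icc.mp (hB hr₀B)).1
  refine ⟨q₀, r₀, hq₀1, hr₀1, hE₀, ?_, ?_⟩
  · refine (hdegB r₀ hr₀B hhr₀).trans ?_
    calc ∑ q ∈ A, (if E q r₀ then f q else 0)
        = ∑ q ∈ A.filter (fun q => E q r₀ ∧ 0 < f q), (if E q r₀ then f q else 0) := by
          symm
          apply sum_subset (filter_subset _ _)
          intro q hq hq2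
          rw [mem_filter, not_and_or, not_and_or] at hq2
          rcases hq2 with h1 | h1 | h1
          · exact absurd hq h1
          · rw [if_neg h1]
          · have : f q = 0 := le_antisymm (not_lt.mp h1) (hf q)
            rw [this]; simp
      _ ≤ ∑ q ∈ Icc 1 q₀, (if E q r₀ then f q else 0) := by
          apply sum_le_sum_of_subset_of_nonneg
          · intro q hq
            rw [mem_filter] at hq
            rw [mem_Icc]
            refine ⟨(mem_Icc.mp (hA hq.1)).1, ?_⟩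
            apply hq₀max q
            rw [hT, mem_filter]
            exact ⟨hq.1, hprop' q r₀ hq.2.1 hq.2.2 hhr₀⟩
          · intro q _ _
            split_ifs
            · exact hf q
            · exact le_refl _
  · refine (hdegA q₀ hq₀A hfq₀).trans ?_
    calc ∑ r ∈ B, (if E q₀ r then h r else 0)
        = ∑ r ∈ B.filter (fun r => E q₀ r ∧ 0 < h r), (if E q₀ r then h r else 0) := by
          symm
          apply sum_subset (filter_subset _ _)
          intro r hr hr2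
          rw [mem_filter, not_and_or, not_and_or] at hr2
          rcases hr2 with h1 | h1 | h1
          · exact absurd hr h1
          · rw [if_neg h1]
          · have : h r = 0 := le_antisymm (not_lt.mp h1) (hh r)
            rw [this]; simp
      _ ≤ ∑ r ∈ Icc 1 r₀, (if E q₀ r then h r else 0) := by
          apply sum_le_sum_of_subset_of_nonneg
          · intro r hr
            rw [mem_filter] at hr
            rw [mem_Icc]
            refine ⟨(mem_Icc.mp (hB hr.1)).1, ?_⟩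
            apply hr₀max r
            rw [hS, mem_filter]
            exact ⟨hr.1, q₀, hq₀A, hprop' q₀ r hr.2.1 hfq₀ hr.2.2⟩
          · intro r _ _
            split_ifs
            · exact hh r
            · exact le_refl _

theorem edge_empty {Ω : ℕ → ℕ → Prop} {a b : ℕ} {ψ₁ ψ₂ : ℕ → ℝ} {s₁ s₂ : ℝ} {q r : ℕ}
    (_hq : 0 < q) (h : Edge Ω ∅ a b ψ₁ ψ₂ s₁ s₂ q r) :
    Ω (a * q) (b * r) ∧ (b : ℝ) * (r : ℝ) * ψ₁ q ≤ s₁ ∧ (a : ℝ) * (q : ℝ) * ψ₂ r ≤ s₂ := by
  obtain ⟨h1, h2, h3, h4⟩ := h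
  have hg : Nat.gcd q r = 1 := by
    by_contra hne
    obtain ⟨p, hp, hpd⟩ := Nat.exists_prime_and_dvd hne
    exact absurd (h1 p hp hpd) (notMem_empty p)
  have hg' : Nat.gcd r q = 1 := by rw [Nat.gcd_comm]; exact hg
  have e1 : cofac q r = q := by unfold cofac; rw [hg, Nat.div_one]
  have e2 : cofac r q = r := by unfold cofac; rw [hg', Nat.div_one]
  rw [e1, e2] at h2
  rw [e2] at h3
  rw [e1] at h4
  exact ⟨h2, h3, h4⟩

open Classical in
theorem base_trick (Ω : ℕ → ℕ → Prop) {θ : ℝ} (hθ : 1 / 2 < θ) (hθ1 : θ < 1) (δ : ℝ) (hδ : 0 ≤ δ)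
    (a b : ℕ) (ha : 0 < a) (hb : 0 < b)
    (hdens : ∀ q₀ r₀ : ℕ, 0 < q₀ → 0 < r₀ → Ω (a * q₀) (b * r₀) →
      (((Icc 1 q₀).filter (fun m => Ω (a * m) (b * r₀))).card : ℝ) *
        (((Icc 1 r₀).filter (fun n => Ω (a * q₀) (b * n))).card : ℝ) ≤ δ * q₀ * r₀)
    (ψ₁ ψ₂ f h : ℕ → ℝ) (s₁ s₂ : ℝ) (N : ℕ) (hs₁ : 0 < s₁) (hs₂ : 0 < s₂)
    (hf : ∀ q, 0 ≤ f q ∧ f q ≤ ψ₁ q) (hh : ∀ r, 0 ≤ h r ∧ h r ≤ ψ₂ r) :
    Lam Ω ∅ a b ψ₁ ψ₂ s₁ s₂ N f h ≤
      (16 * s₁ * s₂ * δ / (a * b)) ^ (1 - θ) *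
        ((∑ q ∈ Icc 1 N, f q) * ∑ r ∈ Icc 1 N, h r) ^ θ := by
  have ha0 : (0 : ℝ) < a := by exact_mod_cast ha
  have hb0 : (0 : ℝ) < b := by exact_mod_cast hb
  set Z : ℝ := 16 * s₁ * s₂ * δ / (a * b) with hZ
  have hZ0 : 0 ≤ Z := by (clear * - hs₁ hs₂ hδ ha hb; positivity)
  set F := ∑ q ∈ Icc 1 N, f q with hFdef
  set H := ∑ r ∈ Icc 1 N, h r with hHdef
  have hF0 : 0 ≤ F := sum_nonneg fun q _ => (hf q).1
  have hH0 : 0 ≤ H := sum_nonneg fun r _ => (hh r).1
  set Λ := Lam Ω ∅ a b ψ₁ ψ₂ s₁ s₂ N f h with hΛdef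
  have hRHS : 0 ≤ Z ^ (1 - θ) * (F * H) ^ θ :=
    mul_nonneg (Real.rpow_nonneg hZ0 _) (Real.rpow_nonneg (mul_nonneg hF0 hH0) _)
  have hΛle : Λ ≤ F * H := by
    rw [hΛdef, Lam, psum, hFdef, hHdef, sum_mul_sum]
    refine sum_le_sum fun q _ => sum_le_sum fun r _ => ?_
    split_ifs
    · exact le_refl _
    · exact mul_nonneg (hf q).1 (hh r).1
  rcases le_or_gt Λ 0 with hΛ | hΛ
  · exact hΛ.trans hRHS
  have hFH : 0 < F * H := lt_of_lt_of_le hΛ hΛle
  have hF : 0 < F := by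
    rcases hF0.lt_or_eq with h1 | h1
    · exact h1
    · rw [← h1, zero_mul] at hFH; exact absurd hFH (lt_irrefl _)
  have hH : 0 < H := by
    rcases hH0.lt_or_eq with h1 | h1
    · exact h1
    · rw [← h1, mul_zero] at hFH; exact absurd hFH (lt_irrefl _)
  obtain ⟨q₀, r₀, hq₀, hr₀, hE, h1, h2⟩ := max_vertex (Edge Ω ∅ a b ψ₁ ψ₂ s₁ s₂) N f h
    (fun q => (hf q).1) (fun r => (hh r).1) hΛ hF hH
  have hq0 : (0 : ℝ) < q₀ := by exact_mod_cast hq₀
  have hr0 : (0 : ℝ) < r₀ := by exact_mod_cast hr₀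
  have hΩ := (edge_empty hq₀ hE).1
  have h3 : ∑ q ∈ Icc 1 q₀, (if Edge Ω ∅ a b ψ₁ ψ₂ s₁ s₂ q r₀ then f q else 0) ≤
      (((Icc 1 q₀).filter (fun m => Ω (a * m) (b * r₀))).card : ℝ) * (s₁ / (b * r₀)) := by
    rw [← nsmul_eq_mul, ← sum_const, sum_filter]
    refine sum_le_sum fun q hq => ?_
    have hq1 : 0 < q := (mem_Icc.mp hq).1
    by_cases h4 : Edge Ω ∅ a b ψ₁ ψ₂ s₁ s₂ q r₀
    · obtain ⟨h5, h6, h7⟩ := edge_empty hq1 h4
      rw [if_pos h4, if_pos h5, le_div_iff₀ (by (clear * - hb hr₀; positivity))]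
      calc f q * (b * r₀) ≤ ψ₁ q * (b * r₀) :=
            mul_le_mul_of_nonneg_right (hf q).2 (by positivity)
        _ = b * r₀ * ψ₁ q := by ring
        _ ≤ s₁ := h6
    · rw [if_neg h4]
      split_ifs
      · (clear * - hs₁ hb hr₀; positivity)
      · exact le_refl _
  have h4 : ∑ r ∈ Icc 1 r₀, (if Edge Ω ∅ a b ψ₁ ψ₂ s₁ s₂ q₀ r then h r else 0) ≤
      (((Icc 1 r₀).filter (fun n => Ω (a * q₀) (b * n))).card : ℝ) * (s₂ / (a * q₀)) := by
    rw [← nsmul_eq_mul, ← sum_const, sum_filter]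
    refine sum_le_sum fun r hr => ?_
    by_cases h4 : Edge Ω ∅ a b ψ₁ ψ₂ s₁ s₂ q₀ r
    · obtain ⟨h5, h6, h7⟩ := edge_empty hq₀ h4
      rw [if_pos h4, if_pos h5, le_div_iff₀ (by (clear * - ha hq₀; positivity))]
      calc h r * (a * q₀) ≤ ψ₂ r * (a * q₀) :=
            mul_le_mul_of_nonneg_right (hh r).2 (by positivity)
        _ = a * q₀ * ψ₂ r := by ring
        _ ≤ s₂ := h7
    · rw [if_neg h4]
      split_ifs
      · (clear * - hs₂ ha hq₀; positivity)
      · exact le_refl _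
  have h5 := h1.trans h3
  have h6 := h2.trans h4
  have h7 := hdens q₀ r₀ hq₀ hr₀ hΩ
  set c₁ : ℝ := (((Icc 1 q₀).filter (fun m => Ω (a * m) (b * r₀))).card : ℝ) with hc₁
  set c₂ : ℝ := (((Icc 1 r₀).filter (fun n => Ω (a * q₀) (b * n))).card : ℝ) with hc₂
  have hc₁0 : 0 ≤ c₁ := Nat.cast_nonneg _
  have hc₂0 : 0 ≤ c₂ := Nat.cast_nonneg _
  have h8 : Λ / (4 * H) * (Λ / (4 * F)) ≤ c₁ * (s₁ / (b * r₀)) * (c₂ * (s₂ / (a * q₀))) :=
    mul_le_mul h5 h6 (by (clear * - hΛ hF; positivity)) (by (clear * - hs₁ hb hr₀; positivity))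
  have h9 : c₁ * (s₁ / (b * r₀)) * (c₂ * (s₂ / (a * q₀))) ≤ s₁ * s₂ * δ / (a * b) := by
    have : c₁ * (s₁ / (b * r₀)) * (c₂ * (s₂ / (a * q₀)))
        = (c₁ * c₂) * (s₁ * s₂ / (a * b * q₀ * r₀)) := by
      (clear * - hq₀ ha hs₂ hr₀ hb hs₁; field_simp)
    rw [this]
    calc (c₁ * c₂) * (s₁ * s₂ / (a * b * q₀ * r₀))
        ≤ (δ * q₀ * r₀) * (s₁ * s₂ / (a * b * q₀ * r₀)) :=
          mul_le_mul_of_nonneg_right h7 (by (clear * - hs₁ hs₂ ha hb hq₀ hr₀; positivity))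
      _ = s₁ * s₂ * δ / (a * b) := by (clear * - hq₀ hr₀ hb ha hs₂ hs₁; field_simp)
  have h10 : Λ ^ 2 ≤ Z * (F * H) := by
    have h11 := h8.trans h9
    have h12 : Λ / (4 * H) * (Λ / (4 * F)) = Λ ^ 2 / (16 * (F * H)) := by
      field_simp
      ring
    rw [h12, div_le_iff₀ (by (clear * - hF hH; positivity))] at h11
    rw [hZ]
    calc Λ ^ 2 ≤ s₁ * s₂ * δ / (a * b) * (16 * (F * H)) := h11
      _ = 16 * s₁ * s₂ * δ / (a * b) * (F * H) := by ring
  calc Λ = (Λ ^ 2) ^ (1 - θ) * Λ ^ (2 * θ - 1) := by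
        rw [← Real.rpow_natCast Λ 2, ← Real.rpow_mul hΛ.le, ← Real.rpow_add hΛ]
        norm_num
        rw [show 2 * (1 - θ) + (2 * θ - 1) = 1 by ring, Real.rpow_one]
    _ ≤ (Z * (F * H)) ^ (1 - θ) * (F * H) ^ (2 * θ - 1) := by
        apply mul_le_mul
        · exact Real.rpow_le_rpow (by (clear * - hΛ; positivity)) h10 (by linarith only [hθ1])
        · exact Real.rpow_le_rpow hΛ.le hΛle (by linarith only [hθ])
        · exact Real.rpow_nonneg hΛ.le _
        · exact Real.rpow_nonneg (mul_nonneg hZ0 hFH.le) _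
    _ = Z ^ (1 - θ) * (F * H) ^ θ := by
        rw [Real.mul_rpow hZ0 hFH.le, mul_assoc, ← Real.rpow_add hFH]
        congr 2
        ring

end Vale.P028
end

section

/-!
# The lossless bound with weights `φ(q)/q`
-/

namespace Vale.P028

open Finset

open Classical in
theorem card_filter_cl (p : ℕ → Prop) (n : ℕ) : (((Icc 1 n).filter p).card : ℝ) ≤ n := by
  refine le_trans (b := ((Icc 1 n).card : ℝ)) ?_ (by simp only [Nat.card_Icc, add_tsub_cancel_right, Std.le_refl])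
  exact Nat.cast_le.2 (card_filter_le _ _)

/-- the totient weight is at most the product over the primes of `P` dividing `q` -/
theorem totient_weight_le (P : Finset ℕ) (hP : ∀ p ∈ P, p.Prime) (q : ℕ) :
    ((q.totient : ℝ) / q) ≤ ∏ p ∈ P with p ∣ q, (1 - 1 / (p : ℝ)) := by
  have hfac : ∀ p : ℕ, p.Prime → 0 ≤ 1 - 1 / (p : ℝ) := by
    intro p hp
    have h2 := hp.two_le
    have h2' : (2 : ℝ) ≤ p := by exact_mod_cast h2
    have : 1 / (p : ℝ) ≤ 1 / 2 := one_div_le_one_div_of_le (by norm_num) h2'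
    linarith
  rcases Nat.eq_zero_or_pos q with rfl | hq
  · simp only [Nat.totient_zero, Nat.cast_zero, div_zero]
    exact prod_nonneg fun p hp => hfac p (hP p (mem_filter.1 hp).1)
  · have hq' : (0 : ℝ) < q := by exact_mod_cast hq
    have h1 : (q.totient : ℚ) = q * ∏ p ∈ q.primeFactors, (1 - (p : ℚ)⁻¹) :=
      Nat.totient_eq_mul_prod_factors q
    have h2 : (q.totient : ℝ) = q * ∏ p ∈ q.primeFactors, (1 - 1 / (p : ℝ)) := by
      have h3 : ((q.totient : ℚ) : ℝ) = ((q * ∏ p ∈ q.primeFactors, (1 - (p : ℚ)⁻¹) : ℚ) : ℝ) := by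
        rw [h1]
      push_cast at h3
      simpa only [one_div] using h3
    rw [h2, mul_div_cancel_left₀ _ hq'.ne']
    have hsub : (P.filter (fun p => p ∣ q)) ⊆ q.primeFactors := by
      intro p hp
      rw [mem_filter] at hp
      exact Nat.mem_primeFactors.2 ⟨hP p hp.1, hp.2, hq.ne'⟩
    refine prod_le_prod_of_subset_of_le_one hsub ?_ ?_
    · intro p hp
      exact hfac p (Nat.prime_of_mem_primeFactors hp)
    · intro p hp _
      have : 0 ≤ 1 / (p : ℝ) := by (clear * -; positivity)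
      linarith only [this]

/-- a product over a set of primes of `1 + C p^{-2θ}` (or bounded for small `p`) is bounded -/
theorem prod_bounded {θ B₀ C M : ℝ} (hθ : 1 / 2 < θ) (hB₀ : 0 < B₀) (hC : 0 ≤ C) (hM : 1 ≤ M)
    (c : ℕ → ℝ) (hc0 : ∀ p : ℕ, p.Prime → 0 ≤ c p)
    (hc1 : ∀ p : ℕ, p.Prime → 1 / (p : ℝ) ≤ B₀ → c p ≤ 1 + C * (1 / (p : ℝ)) ^ (2 * θ))
    (hc2 : ∀ p : ℕ, p.Prime → ¬ 1 / (p : ℝ) ≤ B₀ → c p ≤ M) :
    ∃ K > 0, ∀ P : Finset ℕ, (∀ p ∈ P, p.Prime) → ∏ p ∈ P, c p ≤ K := by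
  set n₀ : ℕ := ⌈1 / B₀⌉₊ with hn₀
  set d₁ : ℕ → ℝ := fun n => if n < n₀ + 1 then Real.log M else 0 with hd₁
  set d₂ : ℕ → ℝ := fun n => C * (1 / (n : ℝ) ^ (2 * θ)) with hd₂
  have hs₁ : Summable d₁ := by
    refine summable_of_ne_finset_zero (s := range (n₀ + 1)) ?_
    intro n hn
    simp only [hd₁]
    rw [if_neg]
    simpa only [Order.lt_add_one_iff, not_le, mem_range] using hn
  have hs₂ : Summable d₂ := by
    refine Summable.mul_left _ ?_
    exact Real.summable_one_div_nat_rpow.2 (by linarith only [hθ])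
  have hlogM : 0 ≤ Real.log M := Real.log_nonneg hM
  have hd₁0 : ∀ n, 0 ≤ d₁ n := by
    intro n
    simp only [hd₁]
    split_ifs
    · exact hlogM
    · exact le_rfl
  have hd₂0 : ∀ n, 0 ≤ d₂ n := by
    intro n
    simp only [hd₂]
    (clear * - hC; positivity)
  have hs : Summable (fun n => d₁ n + d₂ n) := hs₁.add hs₂
  refine ⟨Real.exp (∑' n, (d₁ n + d₂ n)), Real.exp_pos _, ?_⟩
  intro P hP
  have hle : ∀ p ∈ P, c p ≤ Real.exp (d₁ p + d₂ p) := by
    intro p hp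
    have hpp := hP p hp
    have hp0 : (0 : ℝ) < p := by exact_mod_cast hpp.pos
    by_cases h : 1 / (p : ℝ) ≤ B₀
    · refine (hc1 p hpp h).trans ?_
      have h1 : (1 / (p : ℝ)) ^ (2 * θ) = 1 / (p : ℝ) ^ (2 * θ) := by
        rw [Real.div_rpow zero_le_one hp0.le, Real.one_rpow]
      rw [h1]
      have h2 : d₂ p ≤ d₁ p + d₂ p := by linarith only [hd₁0 p]
      have h3 := Real.add_one_le_exp (d₂ p)
      have h4 : Real.exp (d₂ p) ≤ Real.exp (d₁ p + d₂ p) := Real.exp_le_exp.2 h2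
      have h5 : d₂ p = C * (1 / (p : ℝ) ^ (2 * θ)) := rfl
      linarith only [h3, h4]
    · refine (hc2 p hpp h).trans ?_
      push Not at h
      have h1 : (p : ℝ) < 1 / B₀ := by
        rw [lt_div_iff₀ hB₀]
        rw [lt_div_iff₀ hp0] at h
        linarith only [h]
      have h2 : p < n₀ + 1 := by
        have : (p : ℝ) < n₀ := lt_of_lt_of_le h1 (Nat.le_ceil _)
        have h3 : p < n₀ := by exact_mod_cast this
        omega
      have h3 : d₁ p = Real.log M := by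
        simp only [hd₁]
        rw [if_pos h2]
      calc M = Real.exp (Real.log M) := (Real.exp_log (by linarith only [hM])).symm
        _ ≤ Real.exp (d₁ p + d₂ p) := by
          apply Real.exp_le_exp.2
          rw [h3]
          linarith only [hd₂0 p]
  calc ∏ p ∈ P, c p ≤ ∏ p ∈ P, Real.exp (d₁ p + d₂ p) :=
        prod_le_prod (fun p hp => hc0 p (hP p hp)) hle
    _ = Real.exp (∑ p ∈ P, (d₁ p + d₂ p)) := (Real.exp_sum _ _).symm
    _ ≤ Real.exp (∑' n, (d₁ n + d₂ n)) := by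
        apply Real.exp_le_exp.2
        exact hs.sum_le_tsum P (fun n _ => add_nonneg (hd₁0 n) (hd₂0 n))

/-- `T1`: lossless bound with weights `φ(q)/q`. -/
theorem T1 {θ : ℝ} (hθ : 1 / 2 < θ) (hθ1 : θ < 1) :
    ∃ C > 0, ∀ (ψ₁ ψ₂ f h : ℕ → ℝ) (s₁ s₂ : ℝ) (N : ℕ), 0 < s₁ → 0 < s₂ →
      (∀ q, 0 ≤ ψ₁ q) → (∀ q, 0 ≤ ψ₂ q) →
      (∀ q, 0 ≤ f q ∧ f q ≤ ψ₁ q * (q.totient / q)) →
      (∀ r, 0 ≤ h r ∧ h r ≤ ψ₂ r * (r.totient / r)) →
      psum (fun q r => (cofac r q : ℝ) * ψ₁ q ≤ s₁ ∧ (cofac q r : ℝ) * ψ₂ r ≤ s₂) N f h ≤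
        C * (s₁ * s₂) ^ (1 - θ) * ((∑ q ∈ Icc 1 N, f q) * ∑ r ∈ Icc 1 N, h r) ^ θ := by
  classical
  obtain ⟨B₀, hB₀, C, hC, hB₀1, hSPs⟩ := SP_small hθ hθ1
  have hl0 : 0 < 1 - θ := by (clear * - hθ1; linarith)
  -- the growth factor
  set B : ℕ → ℝ := fun p => (1 / (p : ℝ)) ^ (1 - θ) with hB
  set x : ℕ → ℝ := fun p => 1 / (p : ℝ) with hx
  set c : ℕ → ℝ := fun p => if 1 / (p : ℝ) ≤ B₀ then 1 + C * (1 / (p : ℝ)) ^ (2 * θ)
    else (1 + B p) / (1 - B p) with hc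
  have hpinv : ∀ p : ℕ, p.Prime → 0 < 1 / (p : ℝ) ∧ 1 / (p : ℝ) ≤ 1 / 2 := by
    intro p hp
    have h2' : (2 : ℝ) ≤ p := by exact_mod_cast hp.two_le
    exact ⟨by (clear * - h2'; positivity), one_div_le_one_div_of_le (by norm_num) h2'⟩
  have hBp : ∀ p : ℕ, p.Prime → 0 ≤ B p ∧ B p ≤ (1 / 2 : ℝ) ^ (1 - θ) := by
    intro p hp
    obtain ⟨h1, h2⟩ := hpinv p hp
    exact ⟨by simp only [hB]; (clear * - h1; positivity), Real.rpow_le_rpow h1.le h2 hl0.le⟩
  set b₂ : ℝ := (1 / 2 : ℝ) ^ (1 - θ) with hb₂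
  have hb₂1 : b₂ < 1 := Real.rpow_lt_one (by (clear * -; norm_num)) (by norm_num) hl0
  have hb₂0 : 0 < b₂ := by positivity
  have hSP : ∀ p : ℕ, p.Prime → SP θ (B p) (x p) (c p) := by
    intro p hp
    obtain ⟨h1, h2⟩ := hpinv p hp
    obtain ⟨h3, h4⟩ := hBp p hp
    by_cases h : 1 / (p : ℝ) ≤ B₀
    · have h5 := hSPs (1 / (p : ℝ)) (1 / (p : ℝ)) h1 h h1.le le_rfl
      have h6 : c p = 1 + 2 * (1 - θ) * (1 / (p : ℝ) - 1 / (p : ℝ)) +
          C * (1 / (p : ℝ)) ^ (2 * θ) := by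
        simp only [hc]
        rw [if_pos h]
        ring
      rw [h6]
      exact h5
    · have h6 : c p = (1 + B p) / (1 - B p) := by
        simp only [hc]
        rw [if_neg h]
      rw [h6]
      exact SP_large hθ hθ1 h3 (lt_of_le_of_lt h4 hb₂1) h1.le (by simp only [hx]; linarith only [h2])
  have hc0 : ∀ p : ℕ, p.Prime → 0 ≤ c p := by
    intro p hp
    obtain ⟨h3, h4⟩ := hBp p hp
    simp only [hc]
    split_ifs
    · (clear * - hC; positivity)
    · apply div_nonneg <;> linarith only [h3, hb₂1, h4]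
  obtain ⟨K₀, hK₀, hprod⟩ := prod_bounded (M := (1 + b₂) / (1 - b₂)) hθ hB₀ hC (by
      rw [le_div_iff₀ (by linarith only [hb₂1])]
      linarith only [hb₂0]) c hc0 (by
      intro p hp h
      simp only [hc]
      rw [if_pos h]) (by
      intro p hp h
      obtain ⟨h3, h4⟩ := hBp p hp
      simp only [hc]
      rw [if_neg h]
      apply div_le_div₀ <;> linarith only [h4, hb₂0, hb₂1])
  set K : ℕ → ℕ → ℝ := fun a b => (16 / ((a : ℝ) * b)) ^ (1 - θ) with hK
  have hKgrow : ∀ p : ℕ, p.Prime → ∀ a b l : ℕ, 0 < a → 0 < b →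
      (16 / (((a * p ^ l : ℕ) : ℝ) * b)) ^ (1 - θ) ≤ B p ^ l * (16 / ((a : ℝ) * b)) ^ (1 - θ) := by
    intro p hp a b l ha hb
    have ha' : (0 : ℝ) < a := by exact_mod_cast ha
    have hb' : (0 : ℝ) < b := by exact_mod_cast hb
    have hp' : (0 : ℝ) < p := by exact_mod_cast hp.pos
    have h1 : (16 / (((a * p ^ l : ℕ) : ℝ) * b)) = (1 / (p : ℝ)) ^ l * (16 / ((a : ℝ) * b)) := by
      push_cast
      rw [one_div, inv_pow]
      field_simp
    rw [h1, Real.mul_rpow (by (clear * - hp'; positivity)) (by (clear * - ha hb; positivity))]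
    apply le_of_eq
    congr 1
    simp only [hB]
    rw [← Real.rpow_natCast, ← Real.rpow_natCast, ← Real.rpow_mul (by (clear * - hp'; positivity)),
      ← Real.rpow_mul (by (clear * - hp'; positivity)), mul_comm]
  have hK0 : ∀ a b, 0 ≤ K a b := by
    intro a b
    simp only [hK]
    (clear * -; positivity)
  have hbase : BaseBound (fun _ _ => True) θ K := by
    intro a b ha hb ψ₁ ψ₂ f h s₁ s₂ N hs₁ hs₂ hf hh
    have ha' : (0 : ℝ) < a := by exact_mod_cast ha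
    have hb' : (0 : ℝ) < b := by exact_mod_cast hb
    have h1 := base_trick (fun _ _ => True) hθ hθ1 1 zero_le_one a b ha hb (by
      intro q₀ r₀ hq₀ hr₀ _
      rw [one_mul]
      refine mul_le_mul ?_ ?_ (by (clear * -; positivity)) (by (clear * - hq₀; positivity))
      · exact card_filter_cl _ _
      · exact card_filter_cl _ _) ψ₁ ψ₂ f h s₁ s₂ N hs₁ hs₂ hf hh
    refine h1.trans (le_of_eq ?_)
    congr 1
    simp only [hK]
    rw [← Real.mul_rpow (by (clear * - hs₁ hs₂; positivity)) (by (clear * - ha hb; positivity))]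
    congr 1
    (clear * - hb ha hs₂ hs₁; field_simp)
  refine ⟨K₀ * (16 : ℝ) ^ (1 - θ), by positivity, ?_⟩
  intro ψ₁ ψ₂ f h s₁ s₂ N hs₁ hs₂ hψ₁ hψ₂ hf hh
  set P : Finset ℕ := (Icc 1 N).filter Nat.Prime with hPdef
  have hP : ∀ p ∈ P, p.Prime := fun p hp => (mem_filter.1 hp).2
  have hF0 : 0 ≤ ∑ q ∈ Icc 1 N, f q := sum_nonneg fun q _ => (hf q).1
  have hH0 : 0 ≤ ∑ q ∈ Icc 1 N, h q := sum_nonneg fun q _ => (hh q).1
  have hL := theoremL (fun _ _ => True) hθ hθ1 K hK0 hbase P hP B x c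
    (fun p hp => (hBp p (hP p hp)).1)
    (fun p hp => ⟨(hpinv p (hP p hp)).1.le, by
      have := (hpinv p (hP p hp)).2
      simp only [hx]
      linarith only [this]⟩)
    (fun p hp => hc0 p (hP p hp))
    (fun p hp a b l ha hb => hKgrow p (hP p hp) a b l ha hb)
    (fun p hp a b l ha hb => by
      have := hKgrow p (hP p hp) b a l hb ha
      simp only [hK]
      rw [mul_comm (a : ℝ) (b : ℝ), mul_comm (a : ℝ) ((b * p ^ l : ℕ) : ℝ)]
      exact this)
    (fun p hp => hSP p (hP p hp)) 1 1 one_pos one_pos ψ₁ ψ₂ f h s₁ s₂ N hs₁ hs₂ hψ₁ hψ₂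
    (fun q => ⟨(hf q).1, (hf q).2.trans
      (mul_le_mul_of_nonneg_left (totient_weight_le P hP q) (hψ₁ q))⟩)
    (fun q => ⟨(hh q).1, (hh q).2.trans
      (mul_le_mul_of_nonneg_left (totient_weight_le P hP q) (hψ₂ q))⟩)
  have hmono : psum (fun q r => (cofac r q : ℝ) * ψ₁ q ≤ s₁ ∧ (cofac q r : ℝ) * ψ₂ r ≤ s₂) N f h ≤
      Lam (fun _ _ => True) P 1 1 ψ₁ ψ₂ s₁ s₂ N f h := by
    unfold Lam
    refine psum_mono _ _ N f h f h (fun q => (hf q).1) (fun q => (hh q).1) ?_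
    intro q hq r hr hqr _
    refine ⟨⟨?_, trivial, ?_, ?_⟩, le_rfl⟩
    · intro p hp hpd
      rw [mem_Icc] at hq
      have h1 : p ∣ q := hpd.trans (Nat.gcd_dvd_left q r)
      have h2 : p ≤ q := Nat.le_of_dvd (by (clear * - hq; omega)) h1
      simp only [hPdef, mem_filter, mem_Icc]
      exact ⟨⟨hp.one_lt.le, by omega⟩, hp⟩
    · simpa only [Nat.cast_one, one_mul] using hqr.1
    · simpa only [Nat.cast_one, one_mul] using hqr.2
  refine hmono.trans (hL.trans ?_)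
  have hK11 : K 1 1 = (16 : ℝ) ^ (1 - θ) := by
    simp only [hK]
    norm_num
  rw [hK11]
  have h1 := hprod P hP
  have h2 : 0 ≤ (s₁ * s₂) ^ (1 - θ) := by (clear * - hs₁ hs₂; positivity)
  have h3 : 0 ≤ ((∑ q ∈ Icc 1 N, f q) * ∑ r ∈ Icc 1 N, h r) ^ θ := by (clear * - hF0 hH0; positivity)
  calc (∏ p ∈ P, c p) * (s₁ * s₂) ^ (1 - θ) * (16 : ℝ) ^ (1 - θ) *
        ((∑ q ∈ Icc 1 N, f q) * ∑ r ∈ Icc 1 N, h r) ^ θ
      = (∏ p ∈ P, c p) * ((s₁ * s₂) ^ (1 - θ) * (16 : ℝ) ^ (1 - θ) *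
        ((∑ q ∈ Icc 1 N, f q) * ∑ r ∈ Icc 1 N, h r) ^ θ) := by ring
    _ ≤ K₀ * ((s₁ * s₂) ^ (1 - θ) * (16 : ℝ) ^ (1 - θ) *
        ((∑ q ∈ Icc 1 N, f q) * ∑ r ∈ Icc 1 N, h r) ^ θ) :=
        mul_le_mul_of_nonneg_right h1 (by (clear * - hs₁ hs₂ hF0 hH0; positivity))
    _ = K₀ * (16 : ℝ) ^ (1 - θ) * (s₁ * s₂) ^ (1 - θ) *
        ((∑ q ∈ Icc 1 N, f q) * ∑ r ∈ Icc 1 N, h r) ^ θ := by ring

end Vale.P028
end

section

set_option linter.all false

/-!
# Variants of `T1`: divisibility conditions on the cofactors, weights, anatomy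
-/

namespace Vale.P028

open Finset

theorem bt_totient_div_eq {q : ℕ} (hq : 0 < q) :
    (q.totient : ℝ) / q = ∏ p ∈ q.primeFactors, (1 - 1 / (p : ℝ)) := by
  have hq' : (0 : ℝ) < q := by exact_mod_cast hq
  have h1 : (q.totient : ℚ) = q * ∏ p ∈ q.primeFactors, (1 - (p : ℚ)⁻¹) :=
    Nat.totient_eq_mul_prod_factors q
  have h2 : (q.totient : ℝ) = q * ∏ p ∈ q.primeFactors, (1 - 1 / (p : ℝ)) := by
    have h3 : ((q.totient : ℚ) : ℝ) = ((q * ∏ p ∈ q.primeFactors, (1 - (p : ℚ)⁻¹) : ℚ) : ℝ) := by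
      rw [h1]
    push_cast at h3
    simpa only [one_div] using h3
  rw [h2, mul_div_cancel_left₀ _ hq'.ne']

theorem bt_one_sub_inv {p : ℕ} (hp : p.Prime) : 0 < 1 - 1 / (p : ℝ) ∧ 1 - 1 / (p : ℝ) ≤ 1 := by
  have h2' : (2 : ℝ) ≤ p := by exact_mod_cast hp.two_le
  have h3 : 1 / (p : ℝ) ≤ 1 / 2 := one_div_le_one_div_of_le (by norm_num) h2'
  have h4 : 0 ≤ 1 / (p : ℝ) := by (clear * - h2'; positivity)
  constructor <;> linarith only [h3, h4]

/-- `φ(dq)/(dq) ≤ φ(q)/q`. -/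
theorem bt_totient_mul_le {d q : ℕ} (hd : 0 < d) :
    (((d * q).totient : ℝ) / ((d * q : ℕ) : ℝ)) ≤ (q.totient : ℝ) / q := by
  rcases Nat.eq_zero_or_pos q with rfl | hq
  · simp
  rw [bt_totient_div_eq (Nat.mul_pos hd hq), bt_totient_div_eq hq]
  refine prod_le_prod_of_subset_of_le_one (Nat.primeFactors_mono (Dvd.intro_left d rfl)
    (Nat.mul_pos hd hq).ne') ?_ ?_
  · intro p hp
    exact (bt_one_sub_inv (Nat.prime_of_mem_primeFactors hp)).1.le
  · intro p hp _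
    exact (bt_one_sub_inv (Nat.prime_of_mem_primeFactors hp)).2

/-- the cofactors after removing `d₁ ∣ u`, `d₂ ∣ v`. -/
theorem bt_cofac_dvd {q r d₁ d₂ : ℕ} (hq : 0 < q) (hr : 0 < r)
    (h1 : d₁ ∣ cofac q r) (h2 : d₂ ∣ cofac r q) :
    ∃ q' r' : ℕ, 0 < q' ∧ 0 < r' ∧ q = d₁ * q' ∧ r = d₂ * r' ∧
      cofac q r = d₁ * cofac q' r' ∧ cofac r q = d₂ * cofac r' q' := by
  obtain ⟨u, hu⟩ := h1
  obtain ⟨v, hv⟩ := h2
  set g := Nat.gcd q r with hg
  have hg0 : 0 < g := Nat.gcd_pos_of_pos_left _ hq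
  have hq1 : g * cofac q r = q := gcd_mul_cofac q r
  have hr1 : g * cofac r q = r := by
    have := gcd_mul_cofac r q
    rwa [Nat.gcd_comm] at this
  have hcop : Nat.Coprime (cofac q r) (cofac r q) := cofac_coprime hq
  have hu0 : 0 < u := by
    rcases Nat.eq_zero_or_pos u with rfl | h
    · rw [mul_zero] at hu
      rw [hu, mul_zero] at hq1
      omega
    · exact h
  have hv0 : 0 < v := by
    rcases Nat.eq_zero_or_pos v with rfl | h
    · rw [mul_zero] at hv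
      rw [hv, mul_zero] at hr1
      omega
    · exact h
  have hcop' : Nat.Coprime u v := by
    rw [hu, hv] at hcop
    exact (hcop.coprime_mul_left).coprime_mul_left_right
  refine ⟨g * u, g * v, Nat.mul_pos hg0 hu0, Nat.mul_pos hg0 hv0, ?_, ?_, ?_, ?_⟩
  · rw [← hq1, hu]; ring
  · rw [← hr1, hv]; ring
  · have h3 : Nat.gcd (g * u) (g * v) = g := by
      rw [Nat.gcd_mul_left, hcop'.gcd_eq_one, mul_one]
    have h4 : cofac (g * u) (g * v) = u := by
      unfold cofac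
      rw [h3, Nat.mul_div_cancel_left _ hg0]
    rw [h4, hu]
  · have h3 : Nat.gcd (g * v) (g * u) = g := by
      rw [Nat.gcd_mul_left, hcop'.symm.gcd_eq_one, mul_one]
    have h4 : cofac (g * v) (g * u) = v := by
      unfold cofac
      rw [h3, Nat.mul_div_cancel_left _ hg0]
    rw [h4, hv]

/-- `f(d q)`, supported on `d q ≤ N` -/
noncomputable def btshift (d N : ℕ) (f : ℕ → ℝ) (q : ℕ) : ℝ := if d * q ≤ N then f (d * q) else 0

theorem bt_sum_btshift_le {d : ℕ} (hd : 0 < d) (N : ℕ) (f : ℕ → ℝ) (hf : ∀ q, 0 ≤ f q) :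
    ∑ q ∈ Icc 1 N, btshift d N f q ≤ ∑ q ∈ Icc 1 N, f q := by
  classical
  have h1 : ∑ q ∈ Icc 1 N, btshift d N f q = ∑ q ∈ (Icc 1 N).filter (fun q => d * q ≤ N), f (d * q) := by
    rw [sum_filter]
    rfl
  rw [h1]
  have h2 : ∑ q ∈ (Icc 1 N).filter (fun q => d * q ≤ N), f (d * q) =
      ∑ m ∈ ((Icc 1 N).filter (fun q => d * q ≤ N)).image (fun q => d * q), f m := by
    rw [sum_image]
    intro a _ b _ hab
    exact Nat.eq_of_mul_eq_mul_left hd hab
  rw [h2]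
  refine sum_le_sum_of_subset_of_nonneg ?_ (fun q _ _ => hf q)
  intro m hm
  rw [mem_image] at hm
  obtain ⟨q, hq, rfl⟩ := hm
  rw [mem_filter, mem_Icc] at hq
  rw [mem_Icc]
  exact ⟨Nat.mul_pos hd hq.1.1, hq.2⟩

/-- `T1` with divisibility conditions on the cofactors. -/
theorem T1_dvd {θ : ℝ} (hθ : 1 / 2 < θ) (hθ1 : θ < 1) :
    ∃ C > 0, ∀ (d₁ d₂ : ℕ), 0 < d₁ → 0 < d₂ → ∀ (ψ₁ ψ₂ f h : ℕ → ℝ) (s₁ s₂ : ℝ) (N : ℕ),
      0 < s₁ → 0 < s₂ → (∀ q, 0 ≤ ψ₁ q) → (∀ q, 0 ≤ ψ₂ q) →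
      (∀ q, 0 ≤ f q ∧ f q ≤ ψ₁ q * (q.totient / q)) →
      (∀ r, 0 ≤ h r ∧ h r ≤ ψ₂ r * (r.totient / r)) →
      psum (fun q r => d₁ ∣ cofac q r ∧ d₂ ∣ cofac r q ∧ (cofac r q : ℝ) * ψ₁ q ≤ s₁ ∧
          (cofac q r : ℝ) * ψ₂ r ≤ s₂) N f h ≤
        C * (s₁ * s₂) ^ (1 - θ) * ((∑ q ∈ Icc 1 N, f q) * ∑ r ∈ Icc 1 N, h r) ^ θ *
          (((d₁ : ℝ) ^ (-(1 - θ))) * ((d₂ : ℝ) ^ (-(1 - θ)))) := by
  classical
  obtain ⟨C, hC, hT⟩ := T1 hθ hθ1
  refine ⟨C, hC, ?_⟩
  intro d₁ d₂ hd₁ hd₂ ψ₁ ψ₂ f h s₁ s₂ N hs₁ hs₂ hψ₁ hψ₂ hf hh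
  have hd₁' : (0 : ℝ) < d₁ := by exact_mod_cast hd₁
  have hd₂' : (0 : ℝ) < d₂ := by exact_mod_cast hd₂
  -- the new sequences
  have hf' : ∀ q, 0 ≤ btshift d₁ N f q ∧
      btshift d₁ N f q ≤ (fun q => ψ₁ (d₁ * q)) q * (q.totient / q) := by
    intro q
    unfold btshift
    split_ifs
    · refine ⟨(hf _).1, (hf _).2.trans ?_⟩
      exact mul_le_mul_of_nonneg_left (bt_totient_mul_le hd₁) (hψ₁ _)
    · exact ⟨le_rfl, mul_nonneg (hψ₁ _) (by (clear * -; positivity))⟩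
  have hh' : ∀ q, 0 ≤ btshift d₂ N h q ∧
      btshift d₂ N h q ≤ (fun q => ψ₂ (d₂ * q)) q * (q.totient / q) := by
    intro q
    unfold btshift
    split_ifs
    · refine ⟨(hh _).1, (hh _).2.trans ?_⟩
      exact mul_le_mul_of_nonneg_left (bt_totient_mul_le hd₂) (hψ₂ _)
    · exact ⟨le_rfl, mul_nonneg (hψ₂ _) (by (clear * -; positivity))⟩
  have key := hT (fun q => ψ₁ (d₁ * q)) (fun q => ψ₂ (d₂ * q)) (btshift d₁ N f) (btshift d₂ N h)
    (s₁ / d₂) (s₂ / d₁) N (by positivity) (by positivity) (fun q => hψ₁ _) (fun q => hψ₂ _) hf' hh'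
  -- the sum is at most the new sum
  have hle : psum (fun q r => d₁ ∣ cofac q r ∧ d₂ ∣ cofac r q ∧ (cofac r q : ℝ) * ψ₁ q ≤ s₁ ∧
          (cofac q r : ℝ) * ψ₂ r ≤ s₂) N f h ≤
      psum (fun q r => (cofac r q : ℝ) * (fun q => ψ₁ (d₁ * q)) q ≤ s₁ / d₂ ∧
        (cofac q r : ℝ) * (fun q => ψ₂ (d₂ * q)) r ≤ s₂ / d₁) N
        (btshift d₁ N f) (btshift d₂ N h) := by
    unfold psum
    rw [← sum_product', ← sum_product']
    set A : ℕ × ℕ → ℝ := fun z => if (d₁ ∣ cofac z.1 z.2 ∧ d₂ ∣ cofac z.2 z.1 ∧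
      (cofac z.2 z.1 : ℝ) * ψ₁ z.1 ≤ s₁ ∧ (cofac z.1 z.2 : ℝ) * ψ₂ z.2 ≤ s₂) then
        f z.1 * h z.2 else 0 with hA
    set A' : ℕ × ℕ → ℝ := fun z => if ((cofac z.2 z.1 : ℝ) * ψ₁ (d₁ * z.1) ≤ s₁ / d₂ ∧
      (cofac z.1 z.2 : ℝ) * ψ₂ (d₂ * z.2) ≤ s₂ / d₁) then
        btshift d₁ N f z.1 * btshift d₂ N h z.2 else 0 with hA'
    refine le_trans (le_of_eq (sum_congr rfl (g := A) fun z _ => ?_))
      (le_trans (?_ : ∑ z ∈ Icc 1 N ×ˢ Icc 1 N, A z ≤ ∑ z ∈ Icc 1 N ×ˢ Icc 1 N, A' z)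
        (le_of_eq (sum_congr rfl (f := A') fun z _ => ?_)))
    · simp only [hA]
      congr
    swap
    · simp only [hA']
      congr
    have hA'0 : ∀ z, 0 ≤ A' z := by
      intro z
      simp only [hA']
      split_ifs
      · exact mul_nonneg (hf' _).1 (hh' _).1
      · exact le_rfl
    -- injection on the support
    have h1 : ∑ z ∈ Icc 1 N ×ˢ Icc 1 N, A z =
        ∑ z ∈ (Icc 1 N ×ˢ Icc 1 N).filter (fun z => A z ≠ 0), A z := by
      rw [sum_filter_ne_zero]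
    rw [h1]
    have h2 : ∑ z ∈ (Icc 1 N ×ˢ Icc 1 N).filter (fun z => A z ≠ 0), A z ≤
        ∑ z ∈ ((Icc 1 N ×ˢ Icc 1 N).filter (fun z => A z ≠ 0)).image
          (fun z => ((z.1 / d₁, z.2 / d₂) : ℕ × ℕ)), A' z := by
      have hprop : ∀ z ∈ (Icc 1 N ×ˢ Icc 1 N).filter (fun z => A z ≠ 0),
          d₁ * (z.1 / d₁) = z.1 ∧ d₂ * (z.2 / d₂) = z.2 ∧
          A z = A' (z.1 / d₁, z.2 / d₂) := by
        intro z hz
        rw [mem_filter, mem_product, mem_Icc, mem_Icc] at hz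
        obtain ⟨⟨⟨hz1, hz2⟩, hz3, hz4⟩, hz5⟩ := hz
        have hcond : (d₁ ∣ cofac z.1 z.2 ∧ d₂ ∣ cofac z.2 z.1 ∧
            (cofac z.2 z.1 : ℝ) * ψ₁ z.1 ≤ s₁ ∧ (cofac z.1 z.2 : ℝ) * ψ₂ z.2 ≤ s₂) := by
          by_contra hne
          exact hz5 (by simp only [hA]; rw [if_neg hne])
        obtain ⟨q', r', hq', hr', hq, hr, hu, hv⟩ := bt_cofac_dvd (by omega) (by omega)
          hcond.1 hcond.2.1
        have e1 : z.1 / d₁ = q' := by rw [hq]; exact Nat.mul_div_cancel_left _ hd₁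
        have e2 : z.2 / d₂ = r' := by rw [hr]; exact Nat.mul_div_cancel_left _ hd₂
        refine ⟨by rw [e1, hq], by rw [e2, hr], ?_⟩
        rw [e1, e2]
        have hc3 := hcond.2.2.1
        have hc4 := hcond.2.2.2
        rw [hv] at hc3
        rw [hu] at hc4
        simp only [hA, hA']
        rw [if_pos hcond, if_pos]
        · unfold btshift
          rw [← hq, ← hr, if_pos hz2, if_pos hz4]
        · rw [← hq, ← hr]
          push_cast at hc3 hc4
          constructor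
          · rw [le_div_iff₀ hd₂']
            linarith only [hc3]
          · rw [le_div_iff₀ hd₁']
            linarith only [hc4]
      rw [sum_image]
      · exact le_of_eq (sum_congr rfl fun z hz => (hprop z hz).2.2)
      · intro z hz w hw hzw
        obtain ⟨a1, a2, -⟩ := hprop z hz
        obtain ⟨b1, b2, -⟩ := hprop w hw
        simp only [Prod.mk.injEq] at hzw
        rw [Prod.ext_iff]
        constructor
        · rw [← a1, ← b1, hzw.1]
        · rw [← a2, ← b2, hzw.2]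
    refine h2.trans ?_
    refine sum_le_sum_of_subset_of_nonneg ?_ (fun z _ _ => hA'0 z)
    intro w hw
    rw [mem_image] at hw
    obtain ⟨z, hz, rfl⟩ := hw
    rw [mem_filter, mem_product, mem_Icc, mem_Icc] at hz
    obtain ⟨⟨⟨hz1, hz2⟩, hz3, hz4⟩, hz5⟩ := hz
    have hcond : (d₁ ∣ cofac z.1 z.2 ∧ d₂ ∣ cofac z.2 z.1 ∧
        (cofac z.2 z.1 : ℝ) * ψ₁ z.1 ≤ s₁ ∧ (cofac z.1 z.2 : ℝ) * ψ₂ z.2 ≤ s₂) := by
      by_contra hne
      exact hz5 (by simp only [hA]; rw [if_neg hne])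
    obtain ⟨q', r', hq', hr', hq, hr, -, -⟩ := bt_cofac_dvd (by omega) (by omega)
      hcond.1 hcond.2.1
    have e1 : z.1 / d₁ = q' := by rw [hq]; exact Nat.mul_div_cancel_left _ hd₁
    have e2 : z.2 / d₂ = r' := by rw [hr]; exact Nat.mul_div_cancel_left _ hd₂
    rw [mem_product, mem_Icc, mem_Icc]
    simp only
    refine ⟨⟨by rw [e1]; exact hq', (Nat.div_le_self _ _).trans hz2⟩,
      by rw [e2]; exact hr', (Nat.div_le_self _ _).trans hz4⟩
  refine hle.trans (key.trans ?_)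
  have hF := bt_sum_btshift_le hd₁ N f (fun q => (hf q).1)
  have hH := bt_sum_btshift_le hd₂ N h (fun q => (hh q).1)
  have hF0 : 0 ≤ ∑ q ∈ Icc 1 N, btshift d₁ N f q := sum_nonneg fun q _ => (hf' q).1
  have hH0 : 0 ≤ ∑ q ∈ Icc 1 N, btshift d₂ N h q := sum_nonneg fun q _ => (hh' q).1
  have hFF0 : 0 ≤ ∑ q ∈ Icc 1 N, f q := sum_nonneg fun q _ => (hf q).1
  have h3 : ((∑ q ∈ Icc 1 N, btshift d₁ N f q) * ∑ r ∈ Icc 1 N, btshift d₂ N h r) ^ θ ≤
      ((∑ q ∈ Icc 1 N, f q) * ∑ r ∈ Icc 1 N, h r) ^ θ := by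
    apply Real.rpow_le_rpow (by (clear * - hF0 hH0; positivity)) _ (by linarith only [hθ])
    exact mul_le_mul hF hH hH0 hFF0
  have h4 : (s₁ / d₂ * (s₂ / d₁)) ^ (1 - θ) =
      (s₁ * s₂) ^ (1 - θ) * (((d₁ : ℝ) ^ (-(1 - θ))) * ((d₂ : ℝ) ^ (-(1 - θ)))) := by
    rw [show s₁ / d₂ * (s₂ / d₁) = (s₁ * s₂) * ((d₁ : ℝ)⁻¹ * (d₂ : ℝ)⁻¹) by
      (clear * - hd₁ hs₂ hd₂ hs₁; field_simp)]
    rw [Real.mul_rpow (by (clear * - hs₁ hs₂; positivity)) (by positivity),
      Real.mul_rpow (inv_nonneg.2 hd₁'.le) (inv_nonneg.2 hd₂'.le),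
      Real.inv_rpow hd₁'.le, Real.inv_rpow hd₂'.le, Real.rpow_neg hd₁'.le,
      Real.rpow_neg hd₂'.le]
  rw [h4]
  calc C * ((s₁ * s₂) ^ (1 - θ) * (((d₁ : ℝ) ^ (-(1 - θ))) * ((d₂ : ℝ) ^ (-(1 - θ))))) *
        ((∑ q ∈ Icc 1 N, btshift d₁ N f q) * ∑ r ∈ Icc 1 N, btshift d₂ N h r) ^ θ
      ≤ C * ((s₁ * s₂) ^ (1 - θ) * (((d₁ : ℝ) ^ (-(1 - θ))) * ((d₂ : ℝ) ^ (-(1 - θ))))) *
        ((∑ q ∈ Icc 1 N, f q) * ∑ r ∈ Icc 1 N, h r) ^ θ := by
        refine mul_le_mul_of_nonneg_left h3 (by (clear * - hC hs₁ hs₂ hd₁ hd₂; positivity))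
    _ = _ := by ring

/-! ### anatomy -/

end Vale.P028
end

section
attribute [-instance] ProperSMul.toContinuousSMul IsTopologicalTorsor.toContinuousSMul IdemSemiring.toCanonicallyOrderedAdd IdemSemiring.toMulLeftMono IdemSemiring.toMulRightMono AddQuantale.instAddLeftMono AddQuantale.instAddRightMono Quantale.instMulLeftMono Quantale.instMulRightMono FiniteDimensional.rclike_to_real IsScalarTower.complexToReal FiniteDimensional.complexToReal

set_option linter.all false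

/-!
# The selected bad denominator, products over prime factors, `T1div`
-/

namespace Vale.P028

open Finset MeasureTheory

/-- `T1` with a divisibility condition on the cofactor. -/
theorem T1div {θ : ℝ} (hθ : 1 / 2 < θ) (hθ1 : θ < 1) :
    ∃ C > 0, ∀ (ψ₁ ψ₂ f h : ℕ → ℝ) (s₁ s₂ : ℝ) (N d e : ℕ), 0 < s₁ → 0 < s₂ → 0 < d → 0 < e →
      (∀ q, 0 ≤ ψ₁ q) → (∀ q, 0 ≤ ψ₂ q) →
      (∀ q, 0 ≤ f q ∧ f q ≤ ψ₁ q * (q.totient / q)) →
      (∀ r, 0 ≤ h r ∧ h r ≤ ψ₂ r * (r.totient / r)) →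
      psum (fun q r => d ∣ cofac q r ∧ e ∣ cofac r q ∧
        (cofac r q : ℝ) * ψ₁ q ≤ s₁ ∧ (cofac q r : ℝ) * ψ₂ r ≤ s₂) N f h ≤
        C * (s₁ * s₂ / (d * e)) ^ (1 - θ) * ((∑ q ∈ Icc 1 N, f q) * ∑ r ∈ Icc 1 N, h r) ^ θ := by
  obtain ⟨C, hC, hT⟩ := T1_dvd hθ hθ1
  refine ⟨C, hC, ?_⟩
  intro ψ₁ ψ₂ f h s₁ s₂ N d e hs₁ hs₂ hd he hψ₁ hψ₂ hf hh
  have hd' : (0 : ℝ) < d := by exact_mod_cast hd
  have he' : (0 : ℝ) < e := by exact_mod_cast he
  refine (hT d e hd he ψ₁ ψ₂ f h s₁ s₂ N hs₁ hs₂ hψ₁ hψ₂ hf hh).trans (le_of_eq ?_)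
  have h1 : (s₁ * s₂ / (d * e)) ^ (1 - θ) =
      (s₁ * s₂) ^ (1 - θ) * (((d : ℝ) ^ (-(1 - θ))) * ((e : ℝ) ^ (-(1 - θ)))) := by
    rw [show s₁ * s₂ / (d * e) = (s₁ * s₂) * ((d : ℝ)⁻¹ * (e : ℝ)⁻¹) by field_simp]
    rw [Real.mul_rpow (by positivity) (by positivity),
      Real.mul_rpow (inv_nonneg.2 hd'.le) (inv_nonneg.2 he'.le),
      Real.inv_rpow hd'.le, Real.inv_rpow he'.le, Real.rpow_neg hd'.le, Real.rpow_neg he'.le]
  rw [h1]
  ring

/-! ### the selected denominator -/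

theorem Bsel_spec (γ s₁ x : ℝ) : Bsel γ s₁ x = 1 ∨
    (Bad γ s₁ (Bsel γ s₁ x) ∧ (Bsel γ s₁ x : ℝ) ^ 4 * x ≤ 1) := by
  classical
  unfold Bsel
  set F := Nat.findGreatest (fun B => Bad γ s₁ B ∧ (B : ℝ) ^ 4 * x ≤ 1) ⌊1 / x⌋₊ with hF
  by_cases h : F ≤ 1
  · left
    have : max 1 F = 1 := max_eq_left h
    convert this
  · right
    have h1 : max 1 F = F := max_eq_right (by omega)
    have h2 := Nat.findGreatest_of_ne_zero (m := F) (n := ⌊1 / x⌋₊)
      (P := fun B => Bad γ s₁ B ∧ (B : ℝ) ^ 4 * x ≤ 1) hF.symm (by omega)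
    have h3 : Bad γ s₁ (max 1 F) ∧ ((max 1 F : ℕ) : ℝ) ^ 4 * x ≤ 1 := by rw [h1]; exact h2
    convert h3

theorem Bsel_ge {γ s₁ x : ℝ} (hx : 0 < x) {B : ℕ} (hB : Bad γ s₁ B) (hBx : (B : ℝ) ^ 4 * x ≤ 1) :
    B ≤ Bsel γ s₁ x := by
  classical
  have hB1 : B ≤ ⌊1 / x⌋₊ := by
    apply Nat.le_floor
    rw [le_div_iff₀ hx]
    have hB0 : (1 : ℝ) ≤ B := by
      obtain ⟨s, _, _, h⟩ := hB
      exact_mod_cast h.1.1
    have h1 : (B : ℝ) ≤ (B : ℝ) ^ 4 := le_self_pow₀ hB0 (by norm_num)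
    calc (B : ℝ) * x ≤ (B : ℝ) ^ 4 * x := by gcongr
      _ ≤ 1 := hBx
  have h2 : B ≤ Nat.findGreatest (fun B => Bad γ s₁ B ∧ (B : ℝ) ^ 4 * x ≤ 1) ⌊1 / x⌋₊ :=
    Nat.le_findGreatest hB1 ⟨hB, hBx⟩
  have h3 := h2.trans (le_max_right 1 _)
  unfold Bsel
  convert h3

/-- the selected denominator: elementary properties. -/
theorem Bsel_pos (γ s₁ x : ℝ) : 0 < Bsel γ s₁ x := by
  unfold Bsel
  exact lt_of_lt_of_le one_pos (le_max_left _ _)

theorem Bsel_coprime {γ s₁ x : ℝ} (hs₁ : s₁ ≤ 1 / 1000) :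
    IsCoprime (Bsel γ s₁ x : ℤ) (Anum γ (Bsel γ s₁ x)) := by
  rcases Bsel_spec γ s₁ x with h | ⟨⟨s, hs, hss, hb⟩, -⟩
  · rw [h]
    exact isCoprime_one_left
  · have h1 := hb.gcd_eq_one hs (hss.trans hs₁)
    unfold Anum
    exact (Int.isCoprime_iff_gcd_eq_one.mpr h1).symm

theorem Bsel_pow_le {γ s₁ x : ℝ} (_hx : 0 < x) (hx1 : x ≤ 1) :
    (Bsel γ s₁ x : ℝ) ^ 4 * x ≤ 1 := by
  rcases Bsel_spec γ s₁ x with h | ⟨-, h⟩
  · rw [h]
    simpa using hx1
  · exact h

/-- two different selected denominators -/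
theorem Bsel_ratio {γ s₁ x y : ℝ} (hs : 0 < s₁) (hs₁ : s₁ ≤ 1 / 1000) (hx : 0 < x) (hx1 : x ≤ s₁)
    (hy : 0 < y) (hy1 : y ≤ s₁) (hlt : Bsel γ s₁ x < Bsel γ s₁ y) :
    3 / 16 * s₁ ^ (-(1 / 4 : ℝ)) ≤
      (Bsel γ s₁ y / Nat.gcd (Bsel γ s₁ x) (Bsel γ s₁ y) : ℕ) := by
  set a := Bsel γ s₁ x with ha
  set b := Bsel γ s₁ y with hb
  have ha0 : 0 < a := Bsel_pos γ s₁ x
  have hb0 : 0 < b := Bsel_pos γ s₁ y
  have ha1 : (1 : ℝ) ≤ a := by exact_mod_cast ha0
  have hbR : (0 : ℝ) < b := by exact_mod_cast hb0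
  have hs1 : s₁ ≤ 1 := by linarith only [hs₁]
  have hbb : Bad γ s₁ b := by
    rcases Bsel_spec γ s₁ y with h | ⟨h, -⟩
    · omega
    · exact h
  have hsq : 1 ≤ s₁ ^ (-(1 / 4 : ℝ)) :=
    Real.one_le_rpow_of_pos_of_le_one_of_nonpos hs hs1 (by norm_num)
  -- `b > s₁ ^ (-1/4)`
  have hb1 : s₁ ^ (-(1 / 4 : ℝ)) ≤ b := by
    have h1 : ¬ ((b : ℝ) ^ 4 * x ≤ 1) := fun h => absurd (Bsel_ge hx hbb h) (by omega)
    push Not at h1
    have h2 : 1 < (b : ℝ) ^ 4 * s₁ := lt_of_lt_of_le h1 (by gcongr)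
    have h3 : s₁⁻¹ ≤ (b : ℝ) ^ 4 := by
      rw [inv_le_iff_one_le_mul₀ hs]
      exact h2.le
    have h4 : s₁ ^ (-(1 / 4 : ℝ)) = (s₁⁻¹) ^ (1 / 4 : ℝ) := by
      rw [Real.rpow_neg hs.le, Real.inv_rpow hs.le]
    rw [h4]
    calc (s₁⁻¹) ^ (1 / 4 : ℝ) ≤ ((b : ℝ) ^ 4) ^ (1 / 4 : ℝ) :=
          Real.rpow_le_rpow (by positivity) h3 (by norm_num)
      _ = b := by
          rw [← Real.rpow_natCast, ← Real.rpow_mul hbR.le]
          norm_num
  -- the gcd
  have hg : Nat.gcd a b ∣ b := Nat.gcd_dvd_right a b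
  have hg0 : 0 < Nat.gcd a b := Nat.gcd_pos_of_pos_left _ ha0
  have hgR : (0 : ℝ) < (Nat.gcd a b : ℕ) := by exact_mod_cast hg0
  have hga : ((Nat.gcd a b : ℕ) : ℝ) ≤ a := by exact_mod_cast Nat.gcd_le_left b ha0
  rw [Nat.cast_div hg hgR.ne']
  rcases Bsel_spec γ s₁ x with h | ⟨hba, -⟩
  · have h1 : Nat.gcd a b = 1 := by
      rw [ha, h]
      exact Nat.gcd_one_left _
    rw [h1]
    simp only [Nat.cast_one, div_one]
    linarith only [hb1]
  · have hgap := Bad.gap hs₁ hba hbb hlt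
    have h1 : 3 / 16 * (a : ℝ) ^ 4 ≤ b :=
      (mul_le_mul_of_nonneg_left (le_max_left _ _) (by norm_num)).trans hgap
    have h2 : 3 / 16 * (1 / s₁) ≤ b :=
      (mul_le_mul_of_nonneg_left (le_max_right _ _) (by norm_num)).trans hgap
    rw [le_div_iff₀ hgR]
    have h3 : 3 / 16 * s₁ ^ (-(1 / 4 : ℝ)) * (Nat.gcd a b : ℕ) ≤
        3 / 16 * s₁ ^ (-(1 / 4 : ℝ)) * a := by gcongr
    refine h3.trans ?_
    -- 3/16 * t * a ≤ b with t = s₁^(-1/4): both 3/16 t^4 ≤ b and 3/16 a^4 ≤ b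
    set t := s₁ ^ (-(1 / 4 : ℝ)) with ht
    have ht4 : t ^ 4 = 1 / s₁ := by
      rw [ht, ← Real.rpow_natCast, ← Real.rpow_mul hs.le,
        show (-(1 / 4 : ℝ)) * ((4 : ℕ) : ℝ) = -1 by norm_num, Real.rpow_neg_one, one_div]
    have h4 : 3 / 16 * t ^ 4 ≤ b := by rw [ht4]; exact h2
    have h5 : t * a ≤ max (t ^ 4) ((a : ℝ) ^ 4) := by
      rcases le_total t a with h | h
      · refine le_trans ?_ (le_max_right _ _)
        calc t * a ≤ a * a := by gcongr
          _ = (a : ℝ) ^ 2 := by ring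
          _ ≤ (a : ℝ) ^ 4 := pow_le_pow_right₀ ha1 (by norm_num)
      · refine le_trans ?_ (le_max_left _ _)
        calc t * a ≤ t * t := by gcongr
          _ = t ^ 2 := by ring
          _ ≤ t ^ 4 := pow_le_pow_right₀ hsq (by norm_num)
    rcases max_choice (t ^ 4) ((a : ℝ) ^ 4) with h6 | h6
    · rw [h6] at h5
      calc 3 / 16 * t * a = 3 / 16 * (t * a) := by ring
        _ ≤ 3 / 16 * t ^ 4 := by gcongr
        _ ≤ b := h4
    · rw [h6] at h5
      calc 3 / 16 * t * a = 3 / 16 * (t * a) := by ring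
        _ ≤ 3 / 16 * (a : ℝ) ^ 4 := by gcongr
        _ ≤ b := h1

theorem Bad.two_mul_le {γ s₁ : ℝ} (hs : 0 < s₁) (hs₁ : s₁ ≤ 1 / 1000) {B B' : ℕ}
    (h : Bad γ s₁ B) (h' : Bad γ s₁ B') (hlt : B < B') : 2 * B ≤ B' := by
  have hgap := Bad.gap hs₁ h h' hlt
  have h1 : 3 / 16 * (B : ℝ) ^ 4 ≤ B' :=
    (mul_le_mul_of_nonneg_left (le_max_left _ _) (by norm_num)).trans hgap
  have h2 : 3 / 16 * (1 / s₁) ≤ B' :=
    (mul_le_mul_of_nonneg_left (le_max_right _ _) (by norm_num)).trans hgap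
  have h3 : (1000 : ℝ) ≤ 1 / s₁ := by
    rw [le_div_iff₀ hs]
    linarith only [hs₁]
  by_cases hB : B ≤ 4
  · have h4 : (187 : ℝ) ≤ B' := by linarith only [h3, h2]
    have h5 : 187 ≤ B' := by exact_mod_cast h4
    omega
  · push Not at hB
    have hB5 : (5 : ℝ) ≤ B := by exact_mod_cast hB
    have h4 : (2 : ℝ) * B ≤ 3 / 16 * (B : ℝ) ^ 4 := by
      have h5 : (125 : ℝ) ≤ (B : ℝ) ^ 3 := by
        calc (125 : ℝ) = 5 ^ 3 := by norm_num
          _ ≤ (B : ℝ) ^ 3 := by gcongr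
      nlinarith only [h5]
    have h6 : ((2 * B : ℕ) : ℝ) ≤ B' := by
      push_cast
      linarith only [h4, h1]
    exact_mod_cast h6

/-- the values of `Bsel` for `x ≥ exp (-X)` lie in a set with at most `2 + 2 X` elements -/
theorem Bsel_values {γ s₁ : ℝ} (hs : 0 < s₁) (hs₁ : s₁ ≤ 1 / 1000) (X : ℝ) (hX : 0 ≤ X) :
    ∃ 𝓑 : Finset ℕ, (𝓑.card : ℝ) ≤ 2 + 2 * X ∧
      ∀ x : ℝ, Real.exp (-X) ≤ x → x ≤ 1 → Bsel γ s₁ x ∈ 𝓑 := by
  classical
  set Y : ℕ := ⌊Real.exp X⌋₊ with hY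
  have hY1 : 1 ≤ Y := Nat.le_floor (by
    rw [Nat.cast_one]
    exact Real.one_le_exp hX)
  set T : Finset ℕ := (Icc 1 Y).filter (fun B => Bad γ s₁ B) with hT
  refine ⟨insert 1 T, ?_, ?_⟩
  · have h1 : T.card ≤ (range (Nat.log 2 Y + 1)).card := by
      refine card_le_card_of_injOn (fun B => Nat.log 2 B) ?_ ?_
      · intro B hB
        have hB' : B ∈ T := hB
        rw [hT, mem_filter, mem_Icc] at hB'
        rw [coe_range, Set.mem_Iio]
        exact Nat.lt_succ_of_le (Nat.log_mono_right hB'.1.2)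
      · intro B hB B' hB' heq
        have hB1 : B ∈ T := hB
        have hB1' : B' ∈ T := hB'
        rw [hT, mem_filter, mem_Icc] at hB1 hB1'
        have key : ∀ a b : ℕ, Bad γ s₁ a → Bad γ s₁ b → 0 < a → a < b →
            Nat.log 2 a < Nat.log 2 b := by
          intro a b ha hb ha0 hab
          have h2 := Bad.two_mul_le hs hs₁ ha hb hab
          have h3 : Nat.log 2 (a * 2) = Nat.log 2 a + 1 :=
            Nat.log_mul_base (by norm_num) ha0.ne'
          have h4 : Nat.log 2 (a * 2) ≤ Nat.log 2 b := Nat.log_mono_right (by omega)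
          omega
        rcases lt_trichotomy B B' with h | h | h
        · have := key B B' hB1.2 hB1'.2 (by omega) h
          simp only at heq
          omega
        · exact h
        · have := key B' B hB1'.2 hB1.2 (by omega) h
          simp only at heq
          omega
    have h2 : (insert 1 T).card ≤ Nat.log 2 Y + 2 := by
      refine (card_insert_le _ _).trans ?_
      rw [card_range] at h1
      omega
    have h3 : ((Nat.log 2 Y : ℕ) : ℝ) ≤ 2 * X := by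
      have h4 : 2 ^ Nat.log 2 Y ≤ Y := Nat.pow_log_le_self 2 (by omega)
      have h5 : ((2 : ℝ) ^ Nat.log 2 Y) ≤ Real.exp X := by
        calc ((2 : ℝ) ^ Nat.log 2 Y) ≤ (Y : ℝ) := by exact_mod_cast h4
          _ ≤ Real.exp X := Nat.floor_le (Real.exp_pos X).le
      have h6 := Real.log_le_log (by positivity) h5
      rw [Real.log_pow, Real.log_exp] at h6
      have h7 : (1 / 2 : ℝ) ≤ Real.log 2 := by
        have := Real.log_two_gt_d9
        linarith only [this]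
      have h8 : (0 : ℝ) ≤ (Nat.log 2 Y : ℕ) := by positivity
      nlinarith only [h7, h6]
    calc ((insert 1 T).card : ℝ) ≤ ((Nat.log 2 Y + 2 : ℕ) : ℝ) := by exact_mod_cast h2
      _ = (Nat.log 2 Y : ℕ) + 2 := by push_cast; ring
      _ ≤ 2 + 2 * X := by linarith only [h3]
  · intro x hx hx1
    have hx0 : 0 < x := lt_of_lt_of_le (Real.exp_pos _) hx
    rw [mem_insert]
    rcases Bsel_spec γ s₁ x with h | ⟨h, h'⟩
    · left; exact h
    · right
      rw [hT, mem_filter, mem_Icc]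
      refine ⟨⟨Bsel_pos _ _ _, ?_⟩, h⟩
      apply Nat.le_floor
      have hB0 : (1 : ℝ) ≤ Bsel γ s₁ x := by exact_mod_cast Bsel_pos γ s₁ x
      have h1 : (Bsel γ s₁ x : ℝ) ≤ (Bsel γ s₁ x : ℝ) ^ 4 := le_self_pow₀ hB0 (by norm_num)
      have h2 : (Bsel γ s₁ x : ℝ) ^ 4 ≤ 1 / x := by
        rw [le_div_iff₀ hx0]
        exact h'
      have h3 : 1 / x ≤ Real.exp X := by
        rw [div_le_iff₀ hx0]
        calc (1 : ℝ) = Real.exp X * Real.exp (-X) := by rw [← Real.exp_add]; simp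
          _ ≤ Real.exp X * x := by gcongr
      linarith only [h2, h1, h3]

/-- gap between bad denominators in terms of `‖B γ‖`. -/
theorem Bad.gap_dist {γ s₁ : ℝ} {B B' : ℕ} (hs1 : s₁ ≤ 1 / 1000) (h : Bad γ s₁ B)
    (h' : Bad γ s₁ B') (hlt : B < B') :
    3 / 4 ≤ B' * distInt (B * γ) ∧ 0 < distInt (B * γ) := by
  obtain ⟨s, hs, hss₁, hb⟩ := h
  obtain ⟨s', hs', hss₁', hb'⟩ := h'
  have hg := hb.gcd_eq_one hs (hss₁.trans hs1)
  have hg' := hb'.gcd_eq_one hs' (hss₁'.trans hs1)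
  have hm := hb.mul_le hs (hss₁.trans hs1)
  obtain ⟨⟨hB, h1, h2⟩, h3⟩ := hb
  obtain ⟨⟨hB', h1', h2'⟩, h3'⟩ := hb'
  have hBR : (0 : ℝ) < B := by exact_mod_cast hB
  have hBR' : (0 : ℝ) < B' := by exact_mod_cast hB'
  have h4 := h2' B hB hlt
  set A := round ((B : ℝ) * γ) with hA
  set A' := round ((B' : ℝ) * γ) with hA'
  have hne : A' * B - A * B' ≠ 0 := by
    intro h0
    have h5 : A' * B = A * B' := by linarith only [h0]
    have h6 : (B : ℤ) ∣ B' := by
      have : (B : ℤ) ∣ A * B' := ⟨A', by rw [← h5]; ring⟩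
      exact (Int.isCoprime_iff_gcd_eq_one.mpr hg).symm.dvd_of_dvd_mul_left this
    have h7 : (B' : ℤ) ∣ B := by
      have : (B' : ℤ) ∣ A' * B := ⟨A, by rw [h5]; ring⟩
      exact (Int.isCoprime_iff_gcd_eq_one.mpr hg').symm.dvd_of_dvd_mul_left this
    have h8 : B ∣ B' := by exact_mod_cast h6
    have h9 : B' ∣ B := by exact_mod_cast h7
    have := Nat.dvd_antisymm h8 h9
    omega
  have h5 : (1 : ℝ) ≤ |((A' * B - A * B' : ℤ) : ℝ)| := by
    rw [← Int.cast_abs]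
    exact_mod_cast Int.one_le_abs hne
  set β := distInt (B * γ) with hβ
  set β' := distInt (B' * γ) with hβ'
  have h6 : |((A' * B - A * B' : ℤ) : ℝ)| ≤ B * β' + B' * β := by
    have e : ((A' * B - A * B' : ℤ) : ℝ) = B' * ((B : ℝ) * γ - A) - B * ((B' : ℝ) * γ - A') := by
      push_cast; ring
    rw [e]
    calc |(B' : ℝ) * ((B : ℝ) * γ - A) - B * ((B' : ℝ) * γ - A')|
        ≤ |(B' : ℝ) * ((B : ℝ) * γ - A)| + |(B : ℝ) * ((B' : ℝ) * γ - A')| := abs_sub _ _
      _ = B * β' + B' * β := by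
          rw [abs_mul, abs_mul, abs_of_pos hBR, abs_of_pos hBR', hβ, hβ']
          unfold distInt
          ring
  have h7 : B * β' ≤ 1 / 4 := by
    have : (B : ℝ) * β' ≤ B * (4 * s) := mul_le_mul_of_nonneg_left (by linarith only [h4, h1', h1]) hBR.le
    linarith only [this, hm]
  refine ⟨by linarith only [h6, h7, h5], by linarith only [h4, hs']⟩

/-- near and balanced pairs use the bad denominator -/
theorem Bsel_eq_of_near {γ s s₁ ρ : ℝ} {v B : ℕ} (hs : 0 < s) (hs1 : s ≤ s₁)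
    (hs₁ : s₁ ≤ 1 / 1000) (hv : 0 < v)
    (hB : BadAt γ s B) (hnear : 4 * distInt (B * γ) * v < 1) (hρ1 : (v : ℝ) * ρ ≤ s)
    (hρ2 : s ^ 2 ≤ v * ρ) : Bsel γ s₁ (min ρ s₁) = B := by
  have hv1 : (1 : ℝ) ≤ v := by exact_mod_cast hv
  have hρ0 : 0 < ρ := by
    by_contra hne
    push Not at hne
    have h1 : (v : ℝ) * ρ ≤ 0 := mul_nonpos_of_nonneg_of_nonpos (by linarith only []) hne
    have h2 : 0 < s ^ 2 := by positivity
    linarith only [h1, h2, hρ2]
  have hρs : ρ ≤ s := by nlinarith only [hv1, hρ0, hρ1]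
  have hmin : min ρ s₁ = ρ := min_eq_left (hρs.trans hs1)
  rw [hmin]
  have hBad : Bad γ s₁ B := ⟨s, hs, hs1, hB⟩
  have hB4 : (B : ℝ) ^ 4 * ρ ≤ 1 := by
    calc (B : ℝ) ^ 4 * ρ ≤ (B : ℝ) ^ 4 * s := by gcongr
      _ ≤ 1 := hB.2
  have hge := Bsel_ge hρ0 hBad hB4
  by_contra hne
  have hlt : B < Bsel γ s₁ ρ := lt_of_le_of_ne hge (Ne.symm hne)
  have hB0 : 0 < B := hB.1.1
  have hBad' : Bad γ s₁ (Bsel γ s₁ ρ) := by
    rcases Bsel_spec γ s₁ ρ with h | ⟨h, -⟩
    · omega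
    · exact h
  have h4' : (Bsel γ s₁ ρ : ℝ) ^ 4 * ρ ≤ 1 := by
    rcases Bsel_spec γ s₁ ρ with h | ⟨-, h⟩
    · omega
    · exact h
  obtain ⟨h5, h6⟩ := Bad.gap_dist hs₁ hBad hBad' hlt
  set β := distInt (B * γ) with hβ
  set b : ℝ := (Bsel γ s₁ ρ : ℝ) with hb
  have h7 : β ≤ 4 * s := hB.1.2.1
  have hb0 : 0 < b := by
    rw [hb]
    exact_mod_cast Bsel_pos γ s₁ ρ
  -- `ρ ≥ s²/v > 4 β s² ≥ β³/4`
  have h8 : β ^ 3 / 4 ≤ ρ := by
    have h9 : 4 * β * s ^ 2 ≤ ρ := by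
      have h10 : 4 * β * s ^ 2 ≤ 4 * β * (v * ρ) := by gcongr
      have h11 : 4 * β * (v * ρ) = (4 * β * v) * ρ := by ring
      have h12 : (4 * β * v) * ρ ≤ 1 * ρ := by gcongr
      linarith only [h10, h12]
    have h13 : β ^ 2 ≤ 16 * s ^ 2 := by nlinarith only [h7, h6]
    have h14 : β ^ 3 / 4 ≤ 4 * β * s ^ 2 := by nlinarith only [h6, h13]
    linarith only [h9, h14]
  -- `b⁴ ρ ≥ (b β)⁴ /(4 β) ≥ (3/4)⁴/(4β) > 1`
  have h9 : (3 / 4 : ℝ) ^ 4 ≤ (b * β) ^ 4 := by gcongr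
  have h10 : b ^ 4 * (β ^ 3 / 4) ≤ 1 := by
    calc b ^ 4 * (β ^ 3 / 4) ≤ b ^ 4 * ρ := by gcongr
      _ ≤ 1 := h4'
  have h11 : (b * β) ^ 4 = (b ^ 4 * (β ^ 3 / 4)) * (4 * β) := by ring
  have h12 : (b * β) ^ 4 ≤ 1 * (4 * β) := by
    rw [h11]
    gcongr
  have h13 : β ≤ 4 / 1000 := by linarith only [hs1, h7, hs₁]
  norm_num at h9
  linarith only [h12, hs1, h9, h7, hs₁]

/-! ### products over prime factors -/

theorem bs_inv_le_exp {p : ℕ} (hp : p.Prime) : (1 - 1 / (p : ℝ))⁻¹ ≤ Real.exp (2 * (1 / (p : ℝ))) := by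
  have hp2 : (2 : ℝ) ≤ p := by exact_mod_cast hp.two_le
  have h1 : 1 / (p : ℝ) ≤ 1 / 2 := one_div_le_one_div_of_le (by norm_num) hp2
  have h0 : 0 < 1 / (p : ℝ) := by positivity
  set x := 1 / (p : ℝ) with hx
  have h2 : (1 - x)⁻¹ ≤ 1 + 2 * x := by
    rw [inv_le_iff_one_le_mul₀ (by linarith)]
    nlinarith
  have h3 := Real.add_one_le_exp (2 * x)
  linarith only [h2, h3]

theorem bs_prod_le_exp (P : Finset ℕ) (hP : ∀ p ∈ P, p.Prime) :
    ∏ p ∈ P, (1 - 1 / (p : ℝ))⁻¹ ≤ Real.exp (2 * ∑ p ∈ P, 1 / (p : ℝ)) := by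
  rw [mul_sum, Real.exp_sum]
  refine prod_le_prod ?_ ?_
  · intro p hp
    exact inv_nonneg.2 (bt_one_sub_inv (hP p hp)).1.le
  · intro p hp
    exact bs_inv_le_exp (hP p hp)

/-- number of prime factors above `y`, weighted. -/
theorem bs_sum_large {n : ℕ} (hn : 0 < n) {y : ℝ} (hy : 2 ≤ y) :
    ∑ p ∈ n.primeFactors.filter (fun p : ℕ => y < (p : ℝ)), 1 / (p : ℝ) ≤
      2 * Real.log n / y := by
  have hy0 : 0 < y := by linarith
  have h1 : ∑ p ∈ n.primeFactors.filter (fun p : ℕ => y < (p : ℝ)), 1 / (p : ℝ) ≤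
      ∑ p ∈ n.primeFactors.filter (fun p : ℕ => y < (p : ℝ)), (2 * Real.log p) * (1 / y) := by
    refine sum_le_sum fun p hp => ?_
    rw [mem_filter] at hp
    have hp2 : (2 : ℝ) ≤ p := by exact_mod_cast (Nat.prime_of_mem_primeFactors hp.1).two_le
    have h2 : 1 / (p : ℝ) ≤ 1 / y := one_div_le_one_div_of_le hy0 hp.2.le
    have h3 : (1 / 2 : ℝ) ≤ Real.log p := by
      have h4 := Real.log_two_gt_d9
      have h5 := Real.log_le_log (by norm_num) hp2
      linarith only [h4, h5]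
    have h6 : 0 < 1 / y := by positivity
    nlinarith only [h2, h3, h6]
  refine h1.trans ?_
  rw [← sum_mul, ← mul_sum]
  have h2 : ∑ p ∈ n.primeFactors.filter (fun p : ℕ => y < (p : ℝ)), Real.log p ≤ Real.log n := by
    have h3 : ∑ p ∈ n.primeFactors.filter (fun p : ℕ => y < (p : ℝ)), Real.log p ≤
        ∑ p ∈ n.primeFactors, Real.log p := by
      refine sum_le_sum_of_subset_of_nonneg (filter_subset _ _) fun p hp _ => ?_
      exact Real.log_nonneg (by exact_mod_cast (Nat.prime_of_mem_primeFactors hp).one_lt.le)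
    have h4 : ∑ p ∈ n.primeFactors, Real.log p = Real.log (∏ p ∈ n.primeFactors, (p : ℝ)) := by
      rw [Real.log_prod]
      intro p hp
      exact_mod_cast (Nat.prime_of_mem_primeFactors hp).ne_zero
    have h5 : (∏ p ∈ n.primeFactors, (p : ℝ)) ≤ n := by
      have h7 : ((∏ p ∈ n.primeFactors, p : ℕ) : ℝ) ≤ n :=
        Nat.cast_le.mpr (Nat.le_of_dvd hn (Nat.prod_primeFactors_dvd n))
      rwa [Nat.cast_prod] at h7
    have h6 : 0 < (∏ p ∈ n.primeFactors, (p : ℝ)) := by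
      refine prod_pos fun p hp => ?_
      exact_mod_cast (Nat.prime_of_mem_primeFactors hp).pos
    rw [h4] at h3
    exact h3.trans (Real.log_le_log h6 h5)
  calc 2 * (∑ p ∈ n.primeFactors.filter (fun p : ℕ => y < (p : ℝ)), Real.log p) * (1 / y)
      ≤ 2 * Real.log n * (1 / y) := by gcongr
    _ = 2 * Real.log n / y := by ring

/-- `q/φ(q) ≤ C (1 + log log q)^k`, and the version for a product over the primes
dividing an integer `≤ exp X`. -/
theorem prod_primeFactors_le : ∃ C > 0, ∃ k : ℕ, ∀ (n : ℕ) (X : ℝ), 0 < n → 1 ≤ X →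
    (n : ℝ) ≤ Real.exp X →
    ∏ p ∈ n.primeFactors, (1 - 1 / (p : ℝ))⁻¹ ≤ C * (1 + Real.log X) ^ k := by
  classical
  obtain ⟨C, hC0, hC⟩ := Vale.Agent.P013.sum_inv_prime_le
  refine ⟨Real.exp (2 * C + 4) * 16, by positivity, 2, ?_⟩
  intro n X hn hX hnX
  set z : ℕ := ⌈X⌉₊ + 2 with hz
  have hz2 : 2 ≤ z := by omega
  have hzX : X + 2 ≤ z := by
    have := Nat.le_ceil X
    rw [hz]
    push_cast
    linarith only [this]
  have hzX' : (z : ℝ) ≤ 4 * X := by
    have := Nat.ceil_lt_add_one (by linarith only [hX] : 0 ≤ X)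
    rw [hz]
    push_cast
    linarith
  have hlogn : Real.log n ≤ X := by
    have h1 : (0 : ℝ) < n := by exact_mod_cast hn
    have h2 := Real.log_le_log h1 hnX
    rwa [Real.log_exp] at h2
  have h1 : ∑ p ∈ n.primeFactors, 1 / (p : ℝ) ≤ Real.log (Real.log z) + C + 2 := by
    rw [← sum_filter_add_sum_filter_not n.primeFactors (fun p : ℕ => X + 1 < (p : ℝ))]
    have h2 := bs_sum_large hn (y := X + 1) (by linarith)
    have h3 : 2 * Real.log n / (X + 1) ≤ 2 := by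
      rw [div_le_iff₀ (by linarith)]
      linarith only [hlogn]
    have h4 : ∑ p ∈ n.primeFactors.filter (fun p : ℕ => ¬ X + 1 < (p : ℝ)), 1 / (p : ℝ) ≤
        ∑ p ∈ (range z).filter Nat.Prime, 1 / (p : ℝ) := by
      refine sum_le_sum_of_subset_of_nonneg ?_ fun p _ _ => by positivity
      intro p hp
      rw [mem_filter, not_lt] at hp
      rw [mem_filter, mem_range]
      refine ⟨?_, Nat.prime_of_mem_primeFactors hp.1⟩
      have : (p : ℝ) < z := by linarith only [hp.2, hzX]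
      exact_mod_cast this
    have h5 := hC z hz2
    linarith
  refine (bs_prod_le_exp _ fun p hp => Nat.prime_of_mem_primeFactors hp).trans ?_
  have hlz : 0 < Real.log z := Real.log_pos (by exact_mod_cast (by omega : 1 < z))
  have h2 : Real.log z ≤ 4 * (1 + Real.log X) := by
    have h3 : Real.log z ≤ Real.log (4 * X) := Real.log_le_log (by positivity) hzX'
    rw [Real.log_mul (by norm_num) (by linarith only [hX])] at h3
    have h4 : Real.log 4 ≤ 4 := by
      have := Real.log_le_sub_one_of_pos (by norm_num : (0 : ℝ) < 4)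
      linarith
    have h5 : 0 ≤ Real.log X := Real.log_nonneg hX
    linarith only [h5, h3, h4]
  calc Real.exp (2 * ∑ p ∈ n.primeFactors, 1 / (p : ℝ))
      ≤ Real.exp (2 * (Real.log (Real.log z) + C + 2)) := by
        apply Real.exp_le_exp.2
        linarith only [h1]
    _ = Real.exp (2 * C + 4) * (Real.log z) ^ 2 := by
        have h9 : Real.exp (Real.log (Real.log z) + Real.log (Real.log z)) =
            (Real.log z) ^ 2 := by
          rw [Real.exp_add, Real.exp_log hlz]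
          ring
        rw [show 2 * (Real.log (Real.log z) + C + 2) = (2 * C + 4) +
          (Real.log (Real.log z) + Real.log (Real.log z)) by ring, Real.exp_add (2 * C + 4), h9]
    _ ≤ Real.exp (2 * C + 4) * (4 * (1 + Real.log X)) ^ 2 := by gcongr
    _ = _ := by ring

/-- the large primes: `n ≤ exp (D^a)` has `∏_{p | n, p > D} (1-1/p)^{-1} ≤ C_a`. -/
theorem prod_large_primeFactors_le (a : ℝ) (_ha : 0 < a) : ∃ C > 0, ∀ (n : ℕ) (D : ℝ), 0 < n →
    2 ≤ D → (n : ℝ) ≤ Real.exp (D ^ a) →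
    ∏ p ∈ n.primeFactors.filter (fun p : ℕ => D < (p : ℝ)), (1 - 1 / (p : ℝ))⁻¹ ≤ C := by
  classical
  obtain ⟨C, hC0, hC⟩ := Vale.Agent.P013.mertens_two
  have hl2 : 0 < Real.log 2 := Real.log_pos (by norm_num)
  set b : ℝ := a + 4 with hb
  refine ⟨Real.exp (2 * (Real.log b + C / Real.log 2 + 2)), Real.exp_pos _, ?_⟩
  intro n D hn hD hnD
  have hD0 : 0 < D := by linarith
  have hlD : 0 < Real.log D := Real.log_pos (by linarith only [hD])
  set x : ℕ := ⌈D⌉₊ with hx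
  have hx2 : 2 ≤ x := by
    have h1 : (2 : ℝ) ≤ x := hD.trans (Nat.le_ceil D)
    exact_mod_cast h1
  set y : ℝ := D ^ a + D with hy
  have hDa : 0 < D ^ a := by positivity
  set z : ℕ := ⌈y⌉₊ + 1 with hz
  have hzy : y + 1 ≤ z := by
    have := Nat.le_ceil y
    rw [hz]
    push_cast
    linarith only [this]
  have hxz : x ≤ z := by
    have h1 : x ≤ ⌈y⌉₊ := Nat.ceil_mono (by rw [hy]; linarith only [hDa])
    omega
  have hzD : (z : ℝ) ≤ D ^ b := by
    have h1 := Nat.ceil_lt_add_one (by positivity : 0 ≤ y)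
    have h2 : (z : ℝ) ≤ D ^ a + D + 2 := by
      rw [hz]
      push_cast
      linarith only [h1]
    have h3 : D ^ b = D ^ a * D ^ (4 : ℝ) := by rw [hb, Real.rpow_add hD0]
    have h4 : D ^ (4 : ℝ) = D ^ (4 : ℕ) := by
      rw [← Real.rpow_natCast]
      norm_num
    have h5 : D ^ (4 : ℕ) = D * D ^ 3 := by ring
    have h6 : (8 : ℝ) ≤ D ^ 3 := by
      calc (8 : ℝ) = 2 ^ 3 := by norm_num
        _ ≤ D ^ 3 := by gcongr
    have h7 : 8 * D ≤ D ^ (4 : ℕ) := by
      rw [h5]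
      nlinarith only [hD, h6]
    have h8 : 1 ≤ D ^ a := Real.one_le_rpow (by linarith only [hD]) _ha.le
    rw [h3, h4]
    calc (z : ℝ) ≤ D ^ a + D + 2 := h2
      _ ≤ D ^ a * (1 + D + 2) := by nlinarith only [hD, h8]
      _ ≤ D ^ a * D ^ (4 : ℕ) := by
          refine mul_le_mul_of_nonneg_left ?_ hDa.le
          linarith only [hD, h7]
  have hlogn : Real.log n ≤ D ^ a := by
    have h1 : (0 : ℝ) < n := by exact_mod_cast hn
    have h2 := Real.log_le_log h1 hnD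
    rwa [Real.log_exp] at h2
  have h1 : ∑ p ∈ n.primeFactors.filter (fun p : ℕ => D < (p : ℝ)), 1 / (p : ℝ) ≤
      Real.log b + C / Real.log 2 + 2 := by
    rw [← sum_filter_add_sum_filter_not (n.primeFactors.filter (fun p : ℕ => D < (p : ℝ)))
      (fun p : ℕ => y < (p : ℝ))]
    have h2 : ∑ p ∈ (n.primeFactors.filter (fun p : ℕ => D < (p : ℝ))).filter
        (fun p : ℕ => y < (p : ℝ)), 1 / (p : ℝ) ≤ 2 := by
      have h3 : ∑ p ∈ (n.primeFactors.filter (fun p : ℕ => D < (p : ℝ))).filter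
          (fun p : ℕ => y < (p : ℝ)), 1 / (p : ℝ) ≤
          ∑ p ∈ n.primeFactors.filter (fun p : ℕ => y < (p : ℝ)), 1 / (p : ℝ) := by
        refine sum_le_sum_of_subset_of_nonneg ?_ fun p _ _ => by positivity
        intro p hp
        rw [mem_filter, mem_filter] at hp
        rw [mem_filter]
        exact ⟨hp.1.1, hp.2⟩
      have h4 := bs_sum_large hn (y := y) (by rw [hy]; linarith only [hD, hDa])
      have h5 : 2 * Real.log n / y ≤ 2 := by
        rw [div_le_iff₀ (by positivity), hy]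
        linarith only [hD, hlogn]
      linarith only [h4, h5, h3]
    have h3 : ∑ p ∈ (n.primeFactors.filter (fun p : ℕ => D < (p : ℝ))).filter
        (fun p : ℕ => ¬ y < (p : ℝ)), 1 / (p : ℝ) ≤
        ∑ p ∈ (Ico x z).filter Nat.Prime, 1 / (p : ℝ) := by
      refine sum_le_sum_of_subset_of_nonneg ?_ fun p _ _ => by positivity
      intro p hp
      rw [mem_filter, mem_filter, not_lt] at hp
      rw [mem_filter, mem_Ico]
      refine ⟨⟨Nat.ceil_le.2 hp.1.2.le, ?_⟩, Nat.prime_of_mem_primeFactors hp.1.1⟩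
      have : (p : ℝ) < z := by linarith only [hp.2, hzy]
      exact_mod_cast this
    have h4 := hC x z hx2 hxz
    have hxR : (2 : ℝ) ≤ x := by exact_mod_cast hx2
    have hDx : D ≤ x := Nat.le_ceil D
    have hlx : Real.log D ≤ Real.log x := Real.log_le_log hD0 hDx
    have hlx2 : Real.log 2 ≤ Real.log x := Real.log_le_log (by norm_num) hxR
    have hlz : Real.log z ≤ b * Real.log D := by
      have h5 := Real.log_le_log (by linarith only [hzy, hDa, hD] : (0 : ℝ) < z) hzD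
      rwa [Real.log_rpow hD0] at h5
    have hb0 : 0 < b := by rw [hb]; linarith only [_ha]
    have hlz0 : 0 < Real.log z := by
      apply Real.log_pos
      have : D ^ a + D + 1 ≤ z := hzy
      linarith only [hD, hDa, hzy]
    have h5 : Real.log (Real.log z) - Real.log (Real.log x) ≤ Real.log b := by
      have h6 : Real.log (Real.log z) ≤ Real.log (b * Real.log D) :=
        Real.log_le_log hlz0 hlz
      rw [Real.log_mul hb0.ne' hlD.ne'] at h6
      have h7 : Real.log (Real.log D) ≤ Real.log (Real.log x) := Real.log_le_log hlD hlx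
      linarith only [h7, h6]
    have h6 : C / Real.log x ≤ C / Real.log 2 := by gcongr
    linarith only [h5, h4, h3, h2, h6]
  refine (bs_prod_le_exp _ fun p hp => Nat.prime_of_mem_primeFactors (mem_filter.1 hp).1).trans ?_
  apply Real.exp_le_exp.2
  linarith only [h1]

end Vale.P028
end

section
attribute [-instance] ProperSMul.toContinuousSMul IsTopologicalTorsor.toContinuousSMul IdemSemiring.toCanonicallyOrderedAdd IdemSemiring.toMulLeftMono IdemSemiring.toMulRightMono AddQuantale.instAddLeftMono AddQuantale.instAddRightMono Quantale.instMulLeftMono Quantale.instMulRightMono FiniteDimensional.rclike_to_real IsScalarTower.complexToReal FiniteDimensional.complexToReal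

set_option linter.all false

/-!
# Residual sum (exact pairs)
-/

namespace Vale.P028

open Finset

theorem gpf_mul {u v : ℕ} (hu : u ≠ 0) (hv : v ≠ 0) : gpf (u * v) = max (gpf u) (gpf v) := by
  unfold gpf
  rw [Nat.primeFactors_mul hu hv, Finset.sup_union]

theorem gpf_le_self (u : ℕ) : gpf u ≤ u := by
  unfold gpf
  refine Finset.sup_le fun p hp => ?_
  exact Nat.le_of_mem_primeFactors hp

/-- `n ↦ n^{-1/8}`. -/
noncomputable def rdf : ℕ →* ℝ where
  toFun n := (n : ℝ) ^ (-(1 / 8) : ℝ)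
  map_one' := by simp
  map_mul' m n := by
    push_cast
    exact Real.mul_rpow (Nat.cast_nonneg _) (Nat.cast_nonneg _)

theorem rdf_apply (n : ℕ) : rdf n = (n : ℝ) ^ (-(1 / 8) : ℝ) := rfl

theorem rdf_nonneg (n : ℕ) : 0 ≤ rdf n := by
  rw [rdf_apply]
  positivity

/-- Euler product bound. -/
theorem resid_prod : ∃ C > 0, ∀ P : ℕ,
    ∏ p ∈ (P + 1).primesBelow, (1 - rdf p)⁻¹ ≤ C * Real.exp ((P : ℝ) / 64) := by
  -- the factor at `2`
  set κ : ℝ := 1 - (2 : ℝ) ^ (-(1 / 8) : ℝ) with hκ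
  have h2lt : (2 : ℝ) ^ (-(1 / 8) : ℝ) < 1 :=
    Real.rpow_lt_one_of_one_lt_of_neg (by norm_num) (by norm_num)
  have hκ0 : 0 < κ := by rw [hκ]; linarith only [h2lt]
  have hκ1 : κ ≤ 1 := by
    rw [hκ]
    have : 0 < (2 : ℝ) ^ (-(1 / 8) : ℝ) := by positivity
    linarith only [this]
  have hx : ∀ p : ℕ, p.Prime → 0 ≤ rdf p ∧ rdf p ≤ 1 - κ := by
    intro p hp
    refine ⟨rdf_nonneg p, ?_⟩
    rw [rdf_apply, hκ]
    have hp2 : (2 : ℝ) ≤ p := by exact_mod_cast hp.two_le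
    have := Real.rpow_le_rpow_of_nonpos (by norm_num) hp2 (by norm_num : (-(1 / 8) : ℝ) ≤ 0)
    linarith only [this]
  -- for large `p` the factor is `≤ e^{1/64}`
  obtain ⟨p₀, hp₀⟩ : ∃ p₀ : ℕ, ∀ p : ℕ, p₀ ≤ p → rdf p ≤ κ / 64 := by
    have h1 : Filter.Tendsto (fun n : ℕ => (n : ℝ) ^ (-(1 / 8) : ℝ)) Filter.atTop (nhds 0) := by
      exact (tendsto_rpow_neg_atTop (by norm_num)).comp tendsto_natCast_atTop_atTop
    have h2 := h1.eventually (gt_mem_nhds (by positivity : (0 : ℝ) < κ / 64))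
    obtain ⟨p₀, h3⟩ := Filter.eventually_atTop.1 h2
    exact ⟨p₀, fun p hp => (h3 p hp).le⟩
  set M : ℝ := κ⁻¹ with hM
  have hM1 : 1 ≤ M := (one_le_inv₀ hκ0).2 hκ1
  refine ⟨M ^ p₀, by positivity, ?_⟩
  intro P
  set Ps := (P + 1).primesBelow with hPs
  have hprime : ∀ p ∈ Ps, p.Prime := fun p hp => Nat.prime_of_mem_primesBelow hp
  have hlt : ∀ p ∈ Ps, p < P + 1 := fun p hp => Nat.lt_of_mem_primesBelow hp
  have hfac : ∀ p ∈ Ps, 0 ≤ (1 - rdf p)⁻¹ := by
    intro p hp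
    obtain ⟨h1, h2⟩ := hx p (hprime p hp)
    exact inv_nonneg.2 (by linarith only [h2lt, h2])
  rw [← prod_filter_mul_prod_filter_not Ps (fun p => p < p₀)]
  have h1 : ∏ p ∈ Ps.filter (fun p => p < p₀), (1 - rdf p)⁻¹ ≤ M ^ p₀ := by
    calc ∏ p ∈ Ps.filter (fun p => p < p₀), (1 - rdf p)⁻¹
        ≤ ∏ _p ∈ Ps.filter (fun p => p < p₀), M := by
          refine prod_le_prod (fun p hp => hfac p (mem_filter.1 hp).1) fun p hp => ?_
          obtain ⟨h1, h2⟩ := hx p (hprime p (mem_filter.1 hp).1)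
          rw [hM]
          exact inv_anti₀ hκ0 (by linarith only [h2])
      _ = M ^ (Ps.filter (fun p => p < p₀)).card := by rw [prod_const]
      _ ≤ M ^ p₀ := by
          refine pow_le_pow_right₀ hM1 ?_
          calc (Ps.filter (fun p => p < p₀)).card ≤ (range p₀).card := by
                refine card_le_card fun p hp => ?_
                rw [mem_range]
                exact (mem_filter.1 hp).2
            _ = p₀ := card_range _
  have h2 : ∏ p ∈ Ps.filter (fun p => ¬ p < p₀), (1 - rdf p)⁻¹ ≤ Real.exp ((P : ℝ) / 64) := by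
    calc ∏ p ∈ Ps.filter (fun p => ¬ p < p₀), (1 - rdf p)⁻¹
        ≤ ∏ _p ∈ Ps.filter (fun p => ¬ p < p₀), Real.exp (1 / 64) := by
          refine prod_le_prod (fun p hp => hfac p (mem_filter.1 hp).1) fun p hp => ?_
          obtain ⟨h1, h2⟩ := hx p (hprime p (mem_filter.1 hp).1)
          have h3 := hp₀ p (not_lt.1 (mem_filter.1 hp).2)
          have h4 : (1 - rdf p)⁻¹ ≤ 1 + 1 / 64 := by
            rw [inv_le_iff_one_le_mul₀ (by linarith only [h2lt, h2])]
            have h5 : rdf p ≤ 1 / 65 * 1 + 0 := by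
              have : κ / 64 ≤ κ / 64 := le_rfl
              nlinarith only [h2, h3]
            linarith only [h2, h3]
          have h5 := Real.add_one_le_exp (1 / 64 : ℝ)
          linarith only [h4, h5]
      _ = Real.exp (1 / 64) ^ (Ps.filter (fun p => ¬ p < p₀)).card := by rw [prod_const]
      _ ≤ Real.exp (1 / 64) ^ P := by
          refine pow_le_pow_right₀ (Real.one_le_exp (by norm_num)) ?_
          calc (Ps.filter (fun p => ¬ p < p₀)).card ≤ (Icc 1 P).card := by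
                refine card_le_card fun p hp => ?_
                have h3 := (mem_filter.1 hp).1
                rw [mem_Icc]
                have h4 := hlt p h3
                have h5 := (hprime p h3).one_lt
                omega
            _ = P := by rw [Nat.card_Icc]; omega
      _ = Real.exp ((P : ℝ) / 64) := by
          rw [← Real.exp_nat_mul]
          congr 1
          ring
  exact mul_le_mul h1 h2 (prod_nonneg fun p hp => hfac p (mem_filter.1 hp).1) (by positivity)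

/-- one variable sum -/
theorem resid_one : ∃ C > 0, ∀ N : ℕ,
    ∑ u ∈ Icc 1 N, Real.exp (-(gpf u : ℝ) / 32) * rdf u ≤ C := by
  obtain ⟨C, hC, hprod⟩ := resid_prod
  have hlt1 : ∀ {p : ℕ}, p.Prime → ‖rdf p‖ < 1 := by
    intro p hp
    rw [Real.norm_of_nonneg (rdf_nonneg p), rdf_apply]
    exact Real.rpow_lt_one_of_one_lt_of_neg (by exact_mod_cast hp.one_lt) (by norm_num)
  have hgeo : Summable (fun n : ℕ => C * Real.exp (-(1 / 64 : ℝ)) ^ n) :=
    (summable_geometric_of_lt_one (Real.exp_pos _).le (by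
      rw [Real.exp_lt_one_iff]
      norm_num)).mul_left C
  refine ⟨∑' n : ℕ, C * Real.exp (-(1 / 64 : ℝ)) ^ n + 1,
    add_pos_of_nonneg_of_pos (tsum_nonneg fun n => by positivity) one_pos, ?_⟩
  intro N
  have h1 : ∑ u ∈ Icc 1 N, Real.exp (-(gpf u : ℝ) / 32) * rdf u =
      ∑ P ∈ range (N + 1), ∑ u ∈ (Icc 1 N).filter (fun u => gpf u = P),
        Real.exp (-(gpf u : ℝ) / 32) * rdf u := by
    symm
    refine sum_fiberwise_of_maps_to ?_ _
    intro u hu
    rw [mem_Icc] at hu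
    rw [mem_range]
    have := gpf_le_self u
    omega
  rw [h1]
  have h2 : ∀ P ∈ range (N + 1), ∑ u ∈ (Icc 1 N).filter (fun u => gpf u = P),
        Real.exp (-(gpf u : ℝ) / 32) * rdf u ≤ C * Real.exp (-(1 / 64 : ℝ)) ^ P := by
    intro P _
    obtain ⟨hsum, hhas⟩ :=
      EulerProduct.summable_and_hasSum_smoothNumbers_prod_primesBelow_geometric
        (f := rdf) hlt1 (P + 1)
    have h3 : ∑ u ∈ (Icc 1 N).filter (fun u => gpf u = P), Real.exp (-(gpf u : ℝ) / 32) * rdf u =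
        Real.exp (-(P : ℝ) / 32) * ∑ u ∈ (Icc 1 N).filter (fun u => gpf u = P), rdf u := by
      rw [mul_sum]
      refine sum_congr rfl fun u hu => ?_
      rw [(mem_filter.1 hu).2]
    rw [h3]
    have hmem : ∀ u ∈ (Icc 1 N).filter (fun u => gpf u = P), u ∈ (P + 1).smoothNumbers := by
      intro u hu
      rw [mem_filter, mem_Icc] at hu
      rw [Nat.mem_smoothNumbers]
      refine ⟨by omega, fun p hp => ?_⟩
      have hp' : p ∈ u.primeFactors := by
        rw [Nat.mem_primeFactors]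
        exact ⟨Nat.prime_of_mem_primeFactorsList hp, Nat.dvd_of_mem_primeFactorsList hp,
          by omega⟩
      have : p ≤ gpf u := by
        unfold gpf
        exact Finset.le_sup (f := id) hp'
      omega
    have h4 : ∑ u ∈ (Icc 1 N).filter (fun u => gpf u = P), rdf u ≤
        ∏ p ∈ (P + 1).primesBelow, (1 - rdf p)⁻¹ := by
      classical
      have h5 : ∑ u ∈ (Icc 1 N).filter (fun u => gpf u = P), rdf u =
          ∑ m ∈ ((Icc 1 N).filter (fun u => gpf u = P)).attach.image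
            (fun u => (⟨u.1, hmem u.1 u.2⟩ : (P + 1).smoothNumbers)), rdf m.1 := by
        rw [sum_image]
        · rw [← sum_attach]
        · intro a _ b _ hab
          have : a.1 = b.1 := by simpa using congrArg Subtype.val hab
          exact Subtype.ext this
      rw [h5, ← hhas.tsum_eq]
      exact hhas.summable.sum_le_tsum _ (fun m _ => rdf_nonneg _)
    calc Real.exp (-(P : ℝ) / 32) * ∑ u ∈ (Icc 1 N).filter (fun u => gpf u = P), rdf u
        ≤ Real.exp (-(P : ℝ) / 32) * (C * Real.exp ((P : ℝ) / 64)) := by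
          refine mul_le_mul_of_nonneg_left (h4.trans (hprod P)) (Real.exp_pos _).le
      _ = C * (Real.exp (-(P : ℝ) / 32) * Real.exp ((P : ℝ) / 64)) := by ring
      _ = C * Real.exp (-(1 / 64 : ℝ)) ^ P := by
          rw [← Real.exp_add, ← Real.exp_nat_mul]
          congr 2
          ring
  calc _ ≤ ∑ P ∈ range (N + 1), C * Real.exp (-(1 / 64 : ℝ)) ^ P := sum_le_sum h2
    _ ≤ ∑' n : ℕ, C * Real.exp (-(1 / 64 : ℝ)) ^ n :=
        hgeo.sum_le_tsum _ (fun n _ => by positivity)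
    _ ≤ _ := by linarith only []

/-- the kernel -/
noncomputable def rker (u v : ℕ) : ℝ :=
  Real.exp (-(gpf (u * v) : ℝ) / 16) * ((u : ℝ) * (v : ℝ)) ^ (-(1 / 8) : ℝ)

theorem rker_nonneg (u v : ℕ) : 0 ≤ rker u v := by
  unfold rker
  positivity

theorem rker_comm (u v : ℕ) : rker u v = rker v u := by
  unfold rker
  rw [mul_comm u v, mul_comm (u : ℝ) v]

theorem resid_two : ∃ C > 0, ∀ N : ℕ,
    ∑ u ∈ Icc 1 N, ∑ v ∈ Icc 1 N, rker u v ≤ C := by
  obtain ⟨C, hC, h⟩ := resid_one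
  refine ⟨C * C, by positivity, ?_⟩
  intro N
  have h0 : 0 ≤ ∑ u ∈ Icc 1 N, Real.exp (-(gpf u : ℝ) / 32) * rdf u :=
    sum_nonneg fun u _ => mul_nonneg (Real.exp_pos _).le (rdf_nonneg u)
  calc ∑ u ∈ Icc 1 N, ∑ v ∈ Icc 1 N, rker u v
      ≤ ∑ u ∈ Icc 1 N, ∑ v ∈ Icc 1 N, (Real.exp (-(gpf u : ℝ) / 32) * rdf u) *
        (Real.exp (-(gpf v : ℝ) / 32) * rdf v) := by
        refine sum_le_sum fun u hu => sum_le_sum fun v hv => ?_
        rw [mem_Icc] at hu hv
        unfold rker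
        rw [Real.mul_rpow (Nat.cast_nonneg _) (Nat.cast_nonneg _), rdf_apply, rdf_apply,
          gpf_mul (by omega) (by omega)]
        have h1 : Real.exp (-((max (gpf u) (gpf v) : ℕ) : ℝ) / 16) ≤
            Real.exp (-(gpf u : ℝ) / 32) * Real.exp (-(gpf v : ℝ) / 32) := by
          rw [← Real.exp_add]
          apply Real.exp_le_exp.2
          have h2 : (gpf u : ℝ) ≤ ((max (gpf u) (gpf v) : ℕ) : ℝ) := by
            exact_mod_cast le_max_left _ _
          have h3 : (gpf v : ℝ) ≤ ((max (gpf u) (gpf v) : ℕ) : ℝ) := by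
            exact_mod_cast le_max_right _ _
          linarith only [h2, h3]
        calc Real.exp (-((max (gpf u) (gpf v) : ℕ) : ℝ) / 16) *
              ((u : ℝ) ^ (-(1 / 8) : ℝ) * (v : ℝ) ^ (-(1 / 8) : ℝ))
            ≤ (Real.exp (-(gpf u : ℝ) / 32) * Real.exp (-(gpf v : ℝ) / 32)) *
              ((u : ℝ) ^ (-(1 / 8) : ℝ) * (v : ℝ) ^ (-(1 / 8) : ℝ)) := by
              refine mul_le_mul_of_nonneg_right h1 (by positivity)
          _ = _ := by ring
    _ = (∑ u ∈ Icc 1 N, Real.exp (-(gpf u : ℝ) / 32) * rdf u) *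
        ∑ v ∈ Icc 1 N, Real.exp (-(gpf v : ℝ) / 32) * rdf v := by rw [sum_mul_sum]
    _ ≤ C * C := mul_le_mul (h N) (h N) h0 hC.le

theorem rd_cofac_inj {q r r' : ℕ} (hq : 0 < q)
    (h1 : cofac q r = cofac q r') (h2 : cofac r q = cofac r' q) : r = r' := by
  have e1 := gcd_mul_cofac q r
  have e2 := gcd_mul_cofac q r'
  have e3 := gcd_mul_cofac r q
  have e4 := gcd_mul_cofac r' q
  have hu : 0 < cofac q r := cofac_pos r hq
  have hg : Nat.gcd q r = Nat.gcd q r' := by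
    rw [h1] at e1 hu
    have : Nat.gcd q r * cofac q r' = Nat.gcd q r' * cofac q r' := by rw [e1, e2]
    exact Nat.eq_of_mul_eq_mul_right hu this
  rw [Nat.gcd_comm] at e3 e4
  rw [← e3, ← e4, hg, h2]

theorem resid : ∃ C > 0, ∀ (N : ℕ) (f : ℕ → ℝ), (∀ q, 0 ≤ f q) →
    ∑ q ∈ Icc 1 N, ∑ r ∈ Icc 1 N, Real.sqrt (f q * f r) *
      (Real.exp (-(gpf (cofac q r * cofac r q) : ℝ) / 16) *
        ((cofac q r : ℝ) * (cofac r q : ℝ)) ^ (-(1 / 8) : ℝ)) ≤ C * ∑ q ∈ Icc 1 N, f q := by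
  classical
  obtain ⟨C, hC, hK⟩ := resid_two
  refine ⟨C, hC, ?_⟩
  intro N f hf
  change ∑ q ∈ Icc 1 N, ∑ r ∈ Icc 1 N, Real.sqrt (f q * f r) *
    rker (cofac q r) (cofac r q) ≤ C * ∑ q ∈ Icc 1 N, f q
  have hrow : ∀ q ∈ Icc 1 N, ∑ r ∈ Icc 1 N, rker (cofac q r) (cofac r q) ≤ C := by
    intro q hq
    rw [mem_Icc] at hq
    refine le_trans ?_ (hK N)
    rw [← sum_product']
    have h1 : ∑ r ∈ Icc 1 N, rker (cofac q r) (cofac r q) =
        ∑ z ∈ (Icc 1 N).image (fun r => ((cofac q r, cofac r q) : ℕ × ℕ)), rker z.1 z.2 := by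
      rw [sum_image]
      intro a _ b _ hab
      simp only [Prod.mk.injEq] at hab
      exact rd_cofac_inj (by omega) hab.1 hab.2
    rw [h1]
    refine sum_le_sum_of_subset_of_nonneg ?_ (fun z _ _ => rker_nonneg _ _)
    intro z hz
    rw [mem_image] at hz
    obtain ⟨r, hr, rfl⟩ := hz
    rw [mem_Icc] at hr
    rw [mem_product, mem_Icc, mem_Icc]
    refine ⟨⟨cofac_pos r (by omega), (cofac_le r (by omega)).trans hq.2⟩,
      cofac_pos q (by omega), (cofac_le q (by omega)).trans hr.2⟩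
  have h1 : ∑ q ∈ Icc 1 N, ∑ r ∈ Icc 1 N, Real.sqrt (f q * f r) *
      rker (cofac q r) (cofac r q) ≤
      ∑ q ∈ Icc 1 N, ∑ r ∈ Icc 1 N, (f q / 2 * rker (cofac q r) (cofac r q) +
        f r / 2 * rker (cofac q r) (cofac r q)) := by
    refine sum_le_sum fun q _ => sum_le_sum fun r _ => ?_
    have h2 : Real.sqrt (f q * f r) ≤ f q / 2 + f r / 2 := by
      rw [Real.sqrt_le_left (by linarith only [hf q, hf r])]
      linarith only [sq_nonneg (f q - f r)]
    calc Real.sqrt (f q * f r) * rker (cofac q r) (cofac r q)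
        ≤ (f q / 2 + f r / 2) * rker (cofac q r) (cofac r q) :=
          mul_le_mul_of_nonneg_right h2 (rker_nonneg _ _)
      _ = _ := by ring
  refine h1.trans ?_
  simp only [sum_add_distrib]
  have h2 : ∑ q ∈ Icc 1 N, ∑ r ∈ Icc 1 N, f q / 2 * rker (cofac q r) (cofac r q) ≤
      C / 2 * ∑ q ∈ Icc 1 N, f q := by
    rw [mul_sum]
    refine sum_le_sum fun q hq => ?_
    rw [← mul_sum]
    have := hrow q hq
    have h3 : 0 ≤ f q / 2 := by linarith only [hf q]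
    calc f q / 2 * ∑ r ∈ Icc 1 N, rker (cofac q r) (cofac r q) ≤ f q / 2 * C :=
          mul_le_mul_of_nonneg_left this h3
      _ = C / 2 * f q := by ring
  have h3 : ∑ q ∈ Icc 1 N, ∑ r ∈ Icc 1 N, f r / 2 * rker (cofac q r) (cofac r q) =
      ∑ q ∈ Icc 1 N, ∑ r ∈ Icc 1 N, f q / 2 * rker (cofac q r) (cofac r q) := by
    rw [sum_comm]
    refine sum_congr rfl fun q _ => sum_congr rfl fun r _ => ?_
    rw [rker_comm]
  rw [h3]
  linarith only [h2]

theorem resid_key_one {u v x x' M : ℝ} (hu : 1 ≤ u) (hv : 1 ≤ v) (hx : 0 < x) (hx' : 0 < x')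
    (hM1 : v * x ≤ M) (hM2 : u * x' ≤ M) (hM3 : 1 / 2 ≤ M) :
    (x * x') ^ 4 * (1 * (u * v) ^ 2) ≤ 4 * M ^ 8 := by
  have hM0 : 0 < M := by linarith only [hM3]
  have huv0 : 0 < u * v := by positivity
  have huv1 : 1 ≤ u * v := by nlinarith only [hu, hv]
  have hprod : (u * v) * (x * x') ≤ M ^ 2 := by
    calc (u * v) * (x * x') = (v * x) * (u * x') := by ring
      _ ≤ M * M := mul_le_mul hM1 hM2 (by positivity) hM0.le
      _ = M ^ 2 := by ring
  have h1 : (u * v) ^ 2 ≤ (u * v) ^ 4 := pow_le_pow_right₀ huv1 (by norm_num)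
  calc (x * x') ^ 4 * (1 * (u * v) ^ 2) ≤ (x * x') ^ 4 * (1 * (u * v) ^ 4) := by
        gcongr
    _ = ((u * v) * (x * x')) ^ 4 := by ring
    _ ≤ (M ^ 2) ^ 4 := by gcongr
    _ = M ^ 8 := by ring
    _ ≤ 4 * M ^ 8 := by
        have : 0 ≤ M ^ 8 := by positivity
        linarith only [this]

theorem resid_key_x {u v x x' M : ℝ} (hu : 1 ≤ u) (hv : 1 ≤ v) (hx : 0 < x) (hx' : 0 < x')
    (hM1 : v * x ≤ M) (hM2 : u * x' ≤ M) (hM3 : 1 / 2 ≤ M) (hx1 : x ≤ 1) :
    (x * x') ^ 4 * (1 / x * (u * v) ^ 2) ≤ 4 * M ^ 8 := by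
  have hM0 : 0 < M := by linarith only [hM3]
  have h2 : 1 ≤ 4 * M ^ 2 := by nlinarith only [hM3]
  have h4 : (x * x') ^ 4 * (1 / x * (u * v) ^ 2) =
      x * (x ^ 2 * x' ^ 4 * u ^ 2 * v ^ 2) := by
    field_simp
  have h5 : u ^ 2 ≤ u ^ 4 := pow_le_pow_right₀ hu (by norm_num)
  rw [h4]
  calc x * (x ^ 2 * x' ^ 4 * u ^ 2 * v ^ 2)
      ≤ 1 * (x ^ 2 * x' ^ 4 * u ^ 4 * v ^ 2) := by gcongr
    _ = (v * x) ^ 2 * (u * x') ^ 4 := by ring
    _ ≤ M ^ 2 * M ^ 4 := by gcongr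
    _ = 1 * M ^ 6 := by ring
    _ ≤ (4 * M ^ 2) * M ^ 6 := by gcongr
    _ = 4 * M ^ 8 := by ring

theorem resid_key {u v x x' M Vm : ℝ} (hu : 1 ≤ u) (hv : 1 ≤ v) (hx : 0 < x) (hx' : 0 < x')
    (hM1 : v * x ≤ M) (hM2 : u * x' ≤ M) (hM3 : 1 / 2 ≤ M) (hVm1 : 1 ≤ Vm)
    (hcase : Vm = 1 ∨ Vm = 1 / x ∨ Vm = 1 / x') :
    (x * x') ^ 4 / M ^ 8 ≤ 4 / (Vm * (u * v) ^ 2) := by
  have hM0 : 0 < M := by linarith only [hM3]
  rw [div_le_div_iff₀ (by positivity) (by positivity)]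
  rcases hcase with h | h | h
  · rw [h]
    exact resid_key_one hu hv hx hx' hM1 hM2 hM3
  · have hx1 : x ≤ 1 := by
      rw [h, le_div_iff₀ hx] at hVm1
      linarith only [hVm1]
    rw [h]
    exact resid_key_x hu hv hx hx' hM1 hM2 hM3 hx1
  · have hx1 : x' ≤ 1 := by
      rw [h, le_div_iff₀ hx'] at hVm1
      linarith only [hVm1]
    rw [h, mul_comm x x', mul_comm u v]
    exact resid_key_x hv hu hx' hx hM2 hM1 hM3 hx1

/-- the size bound for exact pairs -/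
theorem resid_bound {B u v : ℕ} {x x' V V' M : ℝ} (hB : 0 < B) (hu : 0 < u) (hv : 0 < v)
    (hmax : (B : ℝ) ≤ max (u : ℝ) v) (hx : 0 < x) (hx' : 0 < x') (hV : V = max 1 (1 / x))
    (hV' : V' = max 1 (1 / x')) (hM1 : (v : ℝ) * x ≤ M) (hM2 : (u : ℝ) * x' ≤ M) (hM3 : 1 / 2 ≤ M)
    (hgu : (gpf u : ℝ) ≤ 2 + 2 * Real.log (2 * B * V))
    (hgv : (gpf v : ℝ) ≤ 2 + 2 * Real.log (2 * B * V')) :
    Real.sqrt (x * x') / M ≤ 8 * (Real.exp (-(gpf (u * v) : ℝ) / 16) *
        ((u : ℝ) * (v : ℝ)) ^ (-(1 / 8) : ℝ)) := by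
  have hBR : (1 : ℝ) ≤ B := by exact_mod_cast hB
  have huR : (1 : ℝ) ≤ u := by exact_mod_cast hu
  have hvR : (1 : ℝ) ≤ v := by exact_mod_cast hv
  have hM0 : 0 < M := by linarith only [hM3]
  set Vm : ℝ := max V V' with hVm
  have hVm1 : 1 ≤ Vm := by
    rw [hVm, hV]
    exact (le_max_left _ _).trans (le_max_left _ _)
  have huv0 : 0 < (u : ℝ) * v := by positivity
  have huv1 : 1 ≤ (u : ℝ) * v := by nlinarith only [huR, hvR]
  have hBuv : (B : ℝ) ≤ u * v := by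
    refine hmax.trans (max_le ?_ ?_)
    · nlinarith only [hvR]
    · nlinarith only [huR]
  set g : ℝ := (gpf (u * v) : ℝ) with hg
  have hV1 : 1 ≤ V := by rw [hV]; exact le_max_left _ _
  have hV1' : 1 ≤ V' := by rw [hV']; exact le_max_left _ _
  have hgle : g ≤ 2 + 2 * Real.log (2 * B * Vm) := by
    rw [hg, gpf_mul hu.ne' hv.ne']
    push_cast
    refine max_le ?_ ?_
    · refine hgu.trans ?_
      have : Real.log (2 * B * V) ≤ Real.log (2 * B * Vm) :=
        Real.log_le_log (by positivity) (by gcongr; exact le_max_left _ _)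
      linarith only [this]
    · refine hgv.trans ?_
      have : Real.log (2 * B * V') ≤ Real.log (2 * B * Vm) :=
        Real.log_le_log (by positivity) (by gcongr; exact le_max_right _ _)
      linarith only [this]
  -- eighth power of the right hand side
  set R : ℝ := 8 * (Real.exp (-g / 16) * ((u : ℝ) * (v : ℝ)) ^ (-(1 / 8) : ℝ)) with hR
  have hR0 : 0 ≤ R := by positivity
  have hR8 : R ^ 8 = 8 ^ 8 * (Real.exp (-g / 2) * ((u : ℝ) * v)⁻¹) := by
    rw [hR, mul_pow, mul_pow, ← Real.exp_nat_mul, ← Real.rpow_natCast (((u : ℝ) * v) ^ _),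
      ← Real.rpow_mul huv0.le]
    congr 2
    · congr 1
      push_cast
      ring
    · rw [show (-(1 / 8) : ℝ) * ((8 : ℕ) : ℝ) = -1 by norm_num, Real.rpow_neg_one]
  have hexp : Real.exp (-1) * (2 * B * Vm)⁻¹ ≤ Real.exp (-g / 2) := by
    have h1 : Real.exp (-1) * (2 * B * Vm)⁻¹ = Real.exp (-1 - Real.log (2 * B * Vm)) := by
      rw [Real.exp_sub, Real.exp_log (by positivity), div_eq_mul_inv]
    rw [h1]
    apply Real.exp_le_exp.2
    linarith only [hgle]
  have hR8' : 4 / (Vm * ((u : ℝ) * v) ^ 2) ≤ R ^ 8 := by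
    have he : (1 / 3 : ℝ) ≤ Real.exp (-1) := by
      rw [Real.exp_neg, one_div]
      apply inv_anti₀ (Real.exp_pos 1)
      have := Real.exp_one_lt_d9
      linarith only [this]
    rw [hR8]
    have h1 : (2 * (u * v) * Vm)⁻¹ ≤ (2 * B * Vm)⁻¹ := by
      apply inv_anti₀ (by positivity)
      gcongr
    calc 4 / (Vm * ((u : ℝ) * v) ^ 2)
        ≤ 8 ^ 8 * ((1 / 3) * (2 * (u * v) * Vm)⁻¹ * ((u : ℝ) * v)⁻¹) := by
          rw [div_eq_mul_inv]
          have h2 : (2 * ((u : ℝ) * v) * Vm)⁻¹ * ((u : ℝ) * v)⁻¹ =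
              1 / 2 * (Vm * ((u : ℝ) * v) ^ 2)⁻¹ := by
            rw [← mul_inv, one_div, ← mul_inv]
            congr 1
            ring
          rw [mul_assoc (1 / 3 : ℝ), h2]
          have h3 : 0 ≤ (Vm * ((u : ℝ) * v) ^ 2)⁻¹ := by positivity
          linarith only [h3]
      _ ≤ 8 ^ 8 * (Real.exp (-g / 2) * ((u : ℝ) * v)⁻¹) := by
          have h2 : (1 / 3) * (2 * (u * v) * Vm)⁻¹ ≤ Real.exp (-g / 2) := by
            refine le_trans ?_ hexp
            exact mul_le_mul he h1 (by positivity) (Real.exp_pos _).le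
          have h3 : 0 ≤ ((u : ℝ) * v)⁻¹ := by positivity
          exact mul_le_mul_of_nonneg_left (mul_le_mul_of_nonneg_right h2 h3) (by positivity)
  -- eighth power of the left hand side
  have hL8 : (Real.sqrt (x * x') / M) ^ 8 = (x * x') ^ 4 / M ^ 8 := by
    rw [div_pow]
    congr 1
    calc Real.sqrt (x * x') ^ 8 = (Real.sqrt (x * x') ^ 2) ^ 4 := by ring
      _ = (x * x') ^ 4 := by rw [Real.sq_sqrt (by positivity)]
  have hkey : (x * x') ^ 4 / M ^ 8 ≤ 4 / (Vm * ((u : ℝ) * v) ^ 2) := by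
    refine resid_key huR hvR hx hx' hM1 hM2 hM3 hVm1 ?_
    rw [hVm, hV, hV']
    rcases max_choice (max 1 (1 / x)) (max 1 (1 / x')) with h | h
    · rw [h]
      rcases max_choice 1 (1 / x) with h1 | h1
      · left; exact h1
      · right; left; exact h1
    · rw [h]
      rcases max_choice 1 (1 / x') with h1 | h1
      · left; exact h1
      · right; right; exact h1
  have h8 : (Real.sqrt (x * x') / M) ^ 8 ≤ R ^ 8 := by
    rw [hL8]
    exact hkey.trans hR8'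
  exact (pow_le_pow_iff_left₀ (by positivity) hR0 (by norm_num)).1 h8

end Vale.P028
end

section

/-!
# The near theorem
-/

namespace Vale.P028

open Finset

theorem nb_distInt_eq (t : ℝ) : distInt t = ‖(t : UnitAddCircle)‖ := by
  rw [UnitAddCircle.norm_eq, distInt]

theorem nb_distInt_neg (t : ℝ) : distInt (-t) = distInt t := by
  rw [nb_distInt_eq, nb_distInt_eq, AddCircle.coe_neg, norm_neg]

theorem nb_distInt_sub_le (a b : ℝ) : distInt (a - b) ≤ distInt a + distInt b := by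
  rw [nb_distInt_eq, nb_distInt_eq, nb_distInt_eq, AddCircle.coe_sub]
  exact norm_sub_le _ _

/-- If all elements of `B` are at least `R` and `R`-separated then `(|B| + 1) R ≤ b` for any `b`
that is at least `R` beyond all the elements. -/
theorem sep_card {R : ℝ} (B : Finset ℕ) (h1 : ∀ n ∈ B, R ≤ n)
    (h2 : ∀ m ∈ B, ∀ n ∈ B, m < n → R ≤ (n : ℝ) - m) (b : ℝ) (hb : R ≤ b)
    (hbB : ∀ n ∈ B, (n : ℝ) + R ≤ b) : ((B.card : ℝ) + 1) * R ≤ b := by
  induction B using Finset.induction_on_max generalizing b with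
  | empty => simpa only [card_empty, CharP.cast_eq_zero, zero_add, one_mul] using hb
  | insert a B ha ih =>
    have haB : a ∉ B := fun h => lt_irrefl _ (ha a h)
    have h3 := ih (fun n hn => h1 n (Finset.mem_insert_of_mem hn))
      (fun m hm n hn => h2 m (Finset.mem_insert_of_mem hm) n (Finset.mem_insert_of_mem hn))
      (a : ℝ) (h1 a (Finset.mem_insert_self a B)) (fun n hn => by
        have := h2 n (Finset.mem_insert_of_mem hn) a (Finset.mem_insert_self a B) (ha n hn)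
        linarith only [this])
    have h4 := hbB a (Finset.mem_insert_self a B)
    rw [Finset.card_insert_of_notMem haB]
    push_cast
    linarith

theorem sep_sum_inv {R : ℝ} (hR : 0 < R) (B : Finset ℕ) (h1 : ∀ n ∈ B, R ≤ n)
    (h2 : ∀ m ∈ B, ∀ n ∈ B, m < n → R ≤ (n : ℝ) - m) :
    ∑ n ∈ B, 1 / (n : ℝ) ≤ (1 / R) * ∑ k ∈ range B.card, 1 / ((k : ℝ) + 1) := by
  induction B using Finset.induction_on_max with
  | empty => simp only [one_div, sum_empty, card_empty, range_zero, mul_zero, Std.le_refl]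
  | insert a B ha ih =>
    have haB : a ∉ B := fun h => lt_irrefl _ (ha a h)
    have h3 := sep_card B (fun n hn => h1 n (Finset.mem_insert_of_mem hn))
      (fun m hm n hn => h2 m (Finset.mem_insert_of_mem hm) n (Finset.mem_insert_of_mem hn))
      (a : ℝ) (h1 a (Finset.mem_insert_self a B)) (fun n hn => by
        have := h2 n (Finset.mem_insert_of_mem hn) a (Finset.mem_insert_self a B) (ha n hn)
        linarith only [this])
    have h4 := ih (fun n hn => h1 n (Finset.mem_insert_of_mem hn))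
      (fun m hm n hn => h2 m (Finset.mem_insert_of_mem hm) n (Finset.mem_insert_of_mem hn))
    rw [Finset.sum_insert haB, Finset.card_insert_of_notMem haB, Finset.sum_range_succ, mul_add]
    have h5 : 1 / (a : ℝ) ≤ 1 / R * (1 / ((B.card : ℝ) + 1)) := by
      rw [one_div_mul_one_div]
      refine one_div_le_one_div_of_le (by (clear * - hR; positivity)) ?_
      rw [mul_comm]
      exact h3
    linarith

theorem sum_inv_le_log (V : ℕ) : ∑ k ∈ range V, 1 / ((k : ℝ) + 1) ≤ 1 + Real.log V := by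
  have h := harmonic_le_one_add_log V
  unfold harmonic at h
  push_cast at h
  simpa only [one_div, ge_iff_le] using h

theorem sum_inv_Icc_le_log (V : ℕ) : ∑ k ∈ Icc 1 V, 1 / (k : ℝ) ≤ 1 + Real.log V := by
  have h := sum_inv_le_log V
  have e : ∑ k ∈ Icc 1 V, 1 / (k : ℝ) = ∑ k ∈ range V, 1 / ((k : ℝ) + 1) := by
    induction V with
    | zero => simp only [Order.lt_one_iff, Icc_eq_empty_of_lt, one_div, sum_empty, range_zero]
    | succ n ih =>
      rw [Finset.sum_Icc_succ_top (by omega), Finset.sum_range_succ, ih (sum_inv_le_log n)]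
      push_cast
      rfl
  rw [e]
  exact h

end Vale.P028
end

section

/-!
# The near theorem for all `γ`
-/

namespace Vale.P028

open Finset

/-- Passage from a bound for the sum over one variable to the double sum. -/
theorem pair_sum_le {γ s G : ℝ} (V : ℕ)
    (hGle : ∑ n ∈ Icc 1 V, (if distInt ((n : ℝ) * γ) < 2 * s then 1 / (n : ℝ) else 0) ≤ G) :
    ∑ u ∈ Icc 1 V, ∑ v ∈ Icc 1 V,
        (if u ≠ v ∧ distInt (((u : ℝ) - v) * γ) < 2 * s then 1 / ((u : ℝ) * v) else 0) ≤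
      2 * (1 + Real.log V) * G := by
  have hlog : 0 ≤ Real.log V := Real.log_natCast_nonneg V
  set g : ℕ → ℝ := fun n => if distInt (n * γ) < 2 * s then 1 / (n : ℝ) else 0 with hg
  have hg0 : ∀ n, 0 ≤ g n := by
    intro n
    simp only [hg]
    split_ifs
    · positivity
    · exact le_rfl
  have hG0 : 0 ≤ G := (Finset.sum_nonneg fun n _ => hg0 n).trans hGle
  -- shifting
  have hshift : ∀ u : ℕ, ∑ v ∈ Icc 1 V, (if u < v then g (v - u) else 0) ≤ G := by
    intro u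
    refine le_trans ?_ hGle
    rw [← Finset.sum_filter]
    have hinj : Set.InjOn (fun v : ℕ => v - u) ((Icc 1 V).filter (fun v => u < v)) := by
      intro a ha b hb hab
      simp only [Finset.coe_filter, Set.mem_ofPred_eq] at ha hb
      simp only at hab
      omega
    rw [← Finset.sum_image (f := g) hinj]
    refine Finset.sum_le_sum_of_subset_of_nonneg ?_ (fun x _ _ => hg0 x)
    intro x hx
    simp only [Finset.mem_image, Finset.mem_filter, Finset.mem_Icc] at hx ⊢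
    obtain ⟨a, ha, rfl⟩ := hx
    omega
  have hterm : ∀ u ∈ Icc 1 V, ∀ v ∈ Icc 1 V,
      (if u ≠ v ∧ distInt (((u : ℝ) - v) * γ) < 2 * s then 1 / ((u : ℝ) * v) else 0) ≤
      1 / (u : ℝ) * (if u < v then g (v - u) else 0) +
        1 / (v : ℝ) * (if v < u then g (u - v) else 0) := by
    intro u hu v hv
    have hu0 : (0 : ℝ) < u := by exact_mod_cast (Finset.mem_Icc.1 hu).1
    have hv0 : (0 : ℝ) < v := by exact_mod_cast (Finset.mem_Icc.1 hv).1
    by_cases hc : u ≠ v ∧ distInt (((u : ℝ) - v) * γ) < 2 * s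
    · rw [if_pos hc]
      rcases lt_or_gt_of_ne hc.1 with h | h
      · rw [if_pos h, if_neg (by omega), mul_zero, add_zero]
        have h1 : distInt (((v - u : ℕ) : ℝ) * γ) < 2 * s := by
          rw [Nat.cast_sub h.le, ← nb_distInt_neg]
          have e : -(((v : ℝ) - u) * γ) = ((u : ℝ) - v) * γ := by ring
          rw [e]
          exact hc.2
        simp only [hg]
        rw [if_pos h1, one_div_mul_one_div]
        refine one_div_le_one_div_of_le ?_ ?_
        · have : (0 : ℝ) < ((v - u : ℕ) : ℝ) := by exact_mod_cast Nat.sub_pos_of_lt h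
          positivity
        · refine mul_le_mul_of_nonneg_left ?_ hu0.le
          exact_mod_cast Nat.sub_le v u
      · rw [if_neg (by omega), if_pos h, mul_zero, zero_add]
        have h1 : distInt (((u - v : ℕ) : ℝ) * γ) < 2 * s := by
          rw [Nat.cast_sub h.le]
          exact hc.2
        simp only [hg]
        rw [if_pos h1, one_div_mul_one_div, mul_comm (u : ℝ)]
        refine one_div_le_one_div_of_le ?_ ?_
        · have : (0 : ℝ) < ((u - v : ℕ) : ℝ) := by exact_mod_cast Nat.sub_pos_of_lt h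
          positivity
        · refine mul_le_mul_of_nonneg_left ?_ hv0.le
          exact_mod_cast Nat.sub_le u v
    · rw [if_neg hc]
      refine add_nonneg (mul_nonneg (by positivity) ?_) (mul_nonneg (by positivity) ?_)
      · split_ifs
        · exact hg0 _
        · exact le_rfl
      · split_ifs
        · exact hg0 _
        · exact le_rfl
  have hA : ∑ u ∈ Icc 1 V, ∑ v ∈ Icc 1 V, 1 / (u : ℝ) * (if u < v then g (v - u) else 0)
      ≤ (1 + Real.log V) * G := by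
    calc ∑ u ∈ Icc 1 V, ∑ v ∈ Icc 1 V, 1 / (u : ℝ) * (if u < v then g (v - u) else 0)
        = ∑ u ∈ Icc 1 V, 1 / (u : ℝ) * ∑ v ∈ Icc 1 V, (if u < v then g (v - u) else 0) := by
          refine Finset.sum_congr rfl fun u _ => ?_
          rw [Finset.mul_sum]
      _ ≤ ∑ u ∈ Icc 1 V, 1 / (u : ℝ) * G :=
          Finset.sum_le_sum fun u _ => mul_le_mul_of_nonneg_left (hshift u) (by positivity)
      _ = (∑ u ∈ Icc 1 V, 1 / (u : ℝ)) * G := by rw [Finset.sum_mul]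
      _ ≤ _ := mul_le_mul_of_nonneg_right (sum_inv_Icc_le_log V) hG0
  have hB : ∑ u ∈ Icc 1 V, ∑ v ∈ Icc 1 V, 1 / (v : ℝ) * (if v < u then g (u - v) else 0)
      ≤ (1 + Real.log V) * G := by
    rw [Finset.sum_comm]
    exact hA
  calc ∑ u ∈ Icc 1 V, ∑ v ∈ Icc 1 V,
        (if u ≠ v ∧ distInt (((u : ℝ) - v) * γ) < 2 * s then 1 / ((u : ℝ) * v) else 0)
      ≤ ∑ u ∈ Icc 1 V, ∑ v ∈ Icc 1 V, (1 / (u : ℝ) * (if u < v then g (v - u) else 0) +
        1 / (v : ℝ) * (if v < u then g (u - v) else 0)) :=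
        Finset.sum_le_sum fun u hu => Finset.sum_le_sum fun v hv => hterm u hu v hv
    _ ≤ (1 + Real.log V) * G + (1 + Real.log V) * G := by
        simp only [Finset.sum_add_distrib]
        exact add_le_add hA hB
    _ = _ := by ring

/-- Separation at a good scale. -/
theorem good_sep {γ s : ℝ} (hs : 0 < s) (hgood : ∀ B : ℕ, ¬ BadAt γ s B) {n : ℕ} (hn : 0 < n)
    (h : distInt (n * γ) < 4 * s) : s ^ (-(1 / 4) : ℝ) ≤ n := by
  classical
  have hex : ∃ h : ℕ, 0 < h ∧ distInt (h * γ) ≤ 4 * s := ⟨n, hn, h.le⟩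
  set B := Nat.find hex with hB
  have hB1 := Nat.find_spec hex
  rw [← hB] at hB1
  have hfirst : First γ s B := by
    refine ⟨hB1.1, hB1.2, ?_⟩
    intro m hm hmB
    have := Nat.find_min hex hmB
    push Not at this
    exact this hm
  have hnb := hgood B
  have h1 : ¬ ((B : ℝ) ^ 4 * s ≤ 1) := fun h2 => hnb ⟨hfirst, h2⟩
  push Not at h1
  have hBn : B ≤ n := Nat.find_min' hex ⟨hn, h.le⟩
  have hBn' : (B : ℝ) ≤ n := by exact_mod_cast hBn
  have h2 : s⁻¹ ≤ (B : ℝ) ^ 4 := by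
    rw [inv_le_iff_one_le_mul₀ hs]
    exact h1.le
  calc s ^ (-(1 / 4) : ℝ) = (s⁻¹) ^ (1 / 4 : ℝ) := by
        rw [Real.rpow_neg hs.le, Real.inv_rpow hs.le]
    _ ≤ ((B : ℝ) ^ 4) ^ (1 / 4 : ℝ) := Real.rpow_le_rpow (by positivity) h2 (by norm_num)
    _ = B := by
        rw [← Real.rpow_natCast, ← Real.rpow_mul (Nat.cast_nonneg _)]
        norm_num
    _ ≤ n := hBn'

/-- Sum over the hits at a good scale. -/
theorem good_inv_sum {γ s : ℝ} (hs : 0 < s) (hgood : ∀ B : ℕ, ¬ BadAt γ s B) (V : ℕ) :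
    ∑ n ∈ Icc 1 V, (if distInt ((n : ℝ) * γ) < 2 * s then 1 / (n : ℝ) else 0) ≤
      s ^ (1 / 4 : ℝ) * (1 + Real.log V) := by
  classical
  rw [← Finset.sum_filter]
  set B := (Icc 1 V).filter (fun n : ℕ => distInt ((n : ℝ) * γ) < 2 * s) with hB
  have hR : 0 < s ^ (-(1 / 4) : ℝ) := Real.rpow_pos_of_pos hs _
  have h1 : ∀ n ∈ B, s ^ (-(1 / 4) : ℝ) ≤ n := by
    intro n hn
    rw [hB, Finset.mem_filter, Finset.mem_Icc] at hn
    exact good_sep hs hgood (by omega) (by linarith only [hn.2, hs])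
  have h2 : ∀ m ∈ B, ∀ n ∈ B, m < n → s ^ (-(1 / 4) : ℝ) ≤ (n : ℝ) - m := by
    intro m hm n hn hmn
    rw [hB, Finset.mem_filter, Finset.mem_Icc] at hn hm
    have h3 := good_sep (n := n - m) hs hgood (by omega) (by
      rw [Nat.cast_sub hmn.le, sub_mul]
      refine (nb_distInt_sub_le _ _).trans_lt ?_
      linarith only [hn.2, hm.2])
    rwa [Nat.cast_sub hmn.le] at h3
  refine (sep_sum_inv hR B h1 h2).trans ?_
  have h4 : 1 / s ^ (-(1 / 4) : ℝ) = s ^ (1 / 4 : ℝ) := by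
    rw [Real.rpow_neg hs.le, one_div, inv_inv]
  rw [h4]
  refine mul_le_mul_of_nonneg_left ?_ (Real.rpow_nonneg hs.le _)
  refine le_trans ?_ (sum_inv_le_log V)
  refine Finset.sum_le_sum_of_subset_of_nonneg ?_ (fun k _ _ => by positivity)
  refine Finset.range_mono ?_
  have := Finset.card_filter_le (Icc 1 V) (fun n : ℕ => distInt ((n : ℝ) * γ) < 2 * s)
  simpa using this

/-- Structure of the hits at a bad scale. -/
theorem bad_dvd {γ s : ℝ} {B h : ℕ} (hs : 0 < s) (hs2 : s ≤ 1 / 1000) (hB : BadAt γ s B)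
    (hβh : 4 * distInt (B * γ) * h ≤ 1) (hh : distInt (h * γ) < 4 * s) :
    B ∣ h ∧ (h : ℝ) * distInt (B * γ) < 4 * s * B := by
  have hg := hB.gcd_eq_one hs hs2
  have hm := hB.mul_le hs hs2
  have hB0 : 0 < B := hB.1.1
  have hBR : (0 : ℝ) < B := by exact_mod_cast hB0
  set A := round ((B : ℝ) * γ) with hA
  set m := round ((h : ℝ) * γ) with hmdef
  have hβ : distInt (B * γ) = |(B : ℝ) * γ - A| := rfl
  have hhd : distInt (h * γ) = |(h : ℝ) * γ - m| := rfl
  have hh0 : (0 : ℝ) ≤ h := Nat.cast_nonneg _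
  have key : ((h * A - B * m : ℤ) : ℝ) = B * ((h : ℝ) * γ - m) - h * ((B : ℝ) * γ - A) := by
    push_cast
    ring
  have habs : |((h * A - B * m : ℤ) : ℝ)| < 1 := by
    rw [key]
    calc |(B : ℝ) * ((h : ℝ) * γ - m) - h * ((B : ℝ) * γ - A)|
        ≤ |(B : ℝ) * ((h : ℝ) * γ - m)| + |(h : ℝ) * ((B : ℝ) * γ - A)| := abs_sub _ _
      _ = B * distInt (h * γ) + h * distInt (B * γ) := by
          rw [abs_mul, abs_mul, abs_of_pos hBR, abs_of_nonneg hh0, hβ, hhd]
      _ < B * (4 * s) + 1 / 4 := by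
          have h1 := mul_lt_mul_of_pos_left hh hBR
          linarith only [h1, hβh]
      _ ≤ 1 := by linarith only [hm]
  have hzero : (h * A - B * m : ℤ) = 0 := by
    rw [← Int.cast_abs] at habs
    have h1 : |(h * A - B * m : ℤ)| < 1 := by exact_mod_cast habs
    exact Int.abs_lt_one_iff.1 h1
  constructor
  · have h2 : (B : ℤ) ∣ A * h := ⟨m, by linarith only [hzero]⟩
    have h3 : (B : ℤ) ∣ h :=
      (Int.isCoprime_iff_gcd_eq_one.mpr hg).symm.dvd_of_dvd_mul_left h2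
    exact_mod_cast h3
  · rw [hzero] at key
    have h4 : (h : ℝ) * ((B : ℝ) * γ - A) = B * ((h : ℝ) * γ - m) := by
      push_cast at key
      linarith only [key]
    have h5 : (h : ℝ) * distInt (B * γ) = B * distInt (h * γ) := by
      have := congrArg abs h4
      rwa [abs_mul, abs_mul, abs_of_pos hBR, abs_of_nonneg hh0] at this
    rw [h5]
    have h1 := mul_lt_mul_of_pos_left hh hBR
    linarith only [h1]

/-- Number of hits in a block at a bad scale. -/
theorem bad_card {γ s : ℝ} {B : ℕ} (hs : 0 < s) (hs2 : s ≤ 1 / 1000) (hB : BadAt γ s B)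
    (hβ : 0 < distInt (B * γ)) {L : ℕ} (hL : 4 * distInt (B * γ) * L ≤ 1) (v : ℕ) (a : ℕ)
    (S : Finset ℕ) (hS1 : ∀ u ∈ S, a ≤ u ∧ u < a + L)
    (hS2 : ∀ u ∈ S, distInt (((u : ℝ) - v) * γ) < 2 * s) :
    (S.card : ℝ) ≤ 4 * s / distInt (B * γ) + 1 := by
  classical
  have hB0 : 0 < B := hB.1.1
  have hBR : (0 : ℝ) < B := by exact_mod_cast hB0
  rcases S.eq_empty_or_nonempty with h | h
  · rw [h]
    simp only [Finset.card_empty, Nat.cast_zero]
    positivity
  set m := S.min' h with hm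
  have hmS : m ∈ S := S.min'_mem h
  have hdiff : ∀ u ∈ S, m ≤ u := fun u hu => S.min'_le u hu
  have hdv : ∀ u ∈ S, B ∣ u - m ∧ ((u - m : ℕ) : ℝ) * distInt (B * γ) < 4 * s * B := by
    intro u hu
    have h1 := hdiff u hu
    refine bad_dvd hs hs2 hB ?_ ?_
    · have h2 := hS1 u hu
      have h3 := hS1 m hmS
      have h4 : ((u - m : ℕ) : ℝ) ≤ L := by
        have : u - m ≤ L := by omega
        exact_mod_cast this
      exact (mul_le_mul_of_nonneg_left h4 (by positivity)).trans hL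
    · rw [Nat.cast_sub h1]
      have e : ((u : ℝ) - m) * γ = ((u : ℝ) - v) * γ - ((m : ℝ) - v) * γ := by ring
      rw [e]
      refine (nb_distInt_sub_le _ _).trans_lt ?_
      linarith only [hS2 u hu, hS2 m hmS]
  have hinj : Set.InjOn (fun u => (u - m) / B) S := by
    intro u hu w hw huw
    simp only at huw
    obtain ⟨k, hk⟩ := (hdv u hu).1
    obtain ⟨l, hl⟩ := (hdv w hw).1
    rw [hk, hl, Nat.mul_div_cancel_left _ hB0, Nat.mul_div_cancel_left _ hB0] at huw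
    have h1 := hdiff u hu
    have h2 := hdiff w hw
    rw [huw] at hk
    omega
  have hcard : S.card = (S.image (fun u => (u - m) / B)).card := (Finset.card_image_of_injOn hinj).symm
  have hsub : S.image (fun u => (u - m) / B) ⊆ range ⌈4 * s / distInt (B * γ)⌉₊ := by
    intro k hk
    obtain ⟨u, hu, rfl⟩ := Finset.mem_image.1 hk
    obtain ⟨⟨k, hk'⟩, h2⟩ := hdv u hu
    rw [hk', Nat.mul_div_cancel_left _ hB0, Finset.mem_range, Nat.lt_ceil, lt_div_iff₀ hβ]
    rw [hk'] at h2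
    push_cast at h2
    have h3 : (B : ℝ) * ((k : ℝ) * distInt (B * γ)) < B * (4 * s) := by linarith only [h2]
    exact lt_of_mul_lt_mul_left h3 hBR.le
  have h1 := Finset.card_le_card hsub
  rw [Finset.card_range, ← hcard] at h1
  have h2 : (⌈4 * s / distInt (B * γ)⌉₊ : ℝ) < 4 * s / distInt (B * γ) + 1 :=
    Nat.ceil_lt_add_one (by positivity)
  have h3 : (S.card : ℝ) ≤ ⌈4 * s / distInt (B * γ)⌉₊ := by exact_mod_cast h1
  linarith only [h2, h3]

/-- Sum over the far hits at a bad scale. -/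
theorem bad_inv_sum {γ s : ℝ} {B : ℕ} (hs : 0 < s) (hs2 : s ≤ 1 / 1000) (hB : BadAt γ s B)
    (v V : ℕ) :
    ∑ u ∈ Icc 1 V, (if distInt (((u : ℝ) - v) * γ) < 2 * s ∧ 1 ≤ 4 * distInt (B * γ) * (u : ℝ)
      then 1 / (u : ℝ) else 0) ≤ 64 * s * (1 + Real.log V) := by
  classical
  have hlog : 0 ≤ Real.log V := Real.log_natCast_nonneg V
  set β := distInt (B * γ) with hβd
  have hβ0 : 0 ≤ β := abs_nonneg _
  rcases hβ0.eq_or_lt with h | hβ
  · rw [← h]
    have : ∀ u ∈ Icc 1 V, (if distInt (((u : ℝ) - v) * γ) < 2 * s ∧ 1 ≤ 4 * 0 * (u : ℝ)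
        then 1 / (u : ℝ) else 0) = 0 := by
      intro u _
      rw [if_neg]
      rintro ⟨_, h2⟩
      norm_num at h2
    rw [Finset.sum_eq_zero this]
    positivity
  have hβs : β ≤ 4 * s := hB.1.2.1
  rw [← Finset.sum_filter]
  set T := (Icc 1 V).filter (fun u : ℕ => distInt (((u : ℝ) - v) * γ) < 2 * s ∧
    1 ≤ 4 * β * (u : ℝ)) with hT
  set L := ⌊1 / (4 * β)⌋₊ with hL
  have hx : (2 : ℝ) ≤ 1 / (4 * β) := by
    rw [le_div_iff₀ (by positivity)]
    linarith only [hβs, hs2]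
  have hL1 : (L : ℝ) ≤ 1 / (4 * β) := Nat.floor_le (by positivity)
  have hL2 : 1 / (4 * β) < L + 1 := Nat.lt_floor_add_one _
  have hL3 : 1 / (8 * β) ≤ L := by
    have e : 1 / (8 * β) = 1 / (4 * β) / 2 := by
      field_simp
      ring
    rw [e]
    linarith only [hx, hL2]
  have hLpos : (0 : ℝ) < L := lt_of_lt_of_le (by positivity) hL3
  have hL0 : 0 < L := by exact_mod_cast hLpos
  have hL4 : 4 * β * L ≤ 1 := by
    rw [le_div_iff₀ (by positivity)] at hL1
    linarith only [hL1]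
  have hmaps : ∀ u ∈ T, u / L ∈ Icc 1 V := by
    intro u hu
    rw [hT, Finset.mem_filter, Finset.mem_Icc] at hu
    rw [Finset.mem_Icc]
    constructor
    · rw [Nat.le_div_iff_mul_le hL0, one_mul]
      have h1 : (L : ℝ) ≤ u := by
        refine hL1.trans ?_
        rw [div_le_iff₀ (by positivity)]
        linarith only [hu.2.2]
      exact_mod_cast h1
    · exact (Nat.div_le_self u L).trans hu.1.2
  rw [← Finset.sum_fiberwise_of_maps_to hmaps]
  have hblock : ∀ j ∈ Icc 1 V, ∑ u ∈ T.filter (fun u => u / L = j), 1 / (u : ℝ) ≤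
      64 * s * (1 / (j : ℝ)) := by
    intro j hj
    have hj1 : 1 ≤ j := (Finset.mem_Icc.1 hj).1
    have hjR : (0 : ℝ) < j := by exact_mod_cast hj1
    have hmem : ∀ u ∈ T.filter (fun u => u / L = j), j * L ≤ u ∧ u < j * L + L := by
      intro u hu
      have h1 := (Finset.mem_filter.1 hu).2
      have h2 := Nat.div_add_mod u L
      have h3 := Nat.mod_lt u hL0
      rw [h1, mul_comm] at h2
      omega
    have hcard := bad_card hs hs2 hB hβ (L := L) hL4 v (j * L)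
      (T.filter (fun u => u / L = j)) hmem (fun u hu => by
        have h1 := (Finset.mem_filter.1 hu).1
        rw [hT, Finset.mem_filter] at h1
        exact h1.2.1)
    have hcard2 : ((T.filter (fun u => u / L = j)).card : ℝ) ≤ 8 * s / β := by
      have h1 : 1 ≤ 4 * s / β := by
        rw [le_div_iff₀ hβ]
        linarith only [hβs]
      have h2 : 8 * s / β = 4 * s / β + 4 * s / β := by ring
      rw [h2]
      rw [← hβd] at hcard
      linarith only [hcard, h1]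
    calc ∑ u ∈ T.filter (fun u => u / L = j), 1 / (u : ℝ)
        ≤ ∑ u ∈ T.filter (fun u => u / L = j), 1 / ((j : ℝ) * L) := by
          refine Finset.sum_le_sum fun u hu => ?_
          refine one_div_le_one_div_of_le (by positivity) ?_
          exact_mod_cast (hmem u hu).1
      _ = ((T.filter (fun u => u / L = j)).card : ℝ) * (1 / ((j : ℝ) * L)) := by
          rw [Finset.sum_const, nsmul_eq_mul]
      _ ≤ 8 * s / β * (1 / ((j : ℝ) * (1 / (8 * β)))) := by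
          refine mul_le_mul hcard2 ?_ (by positivity) (by positivity)
          refine one_div_le_one_div_of_le (by positivity) ?_
          exact mul_le_mul_of_nonneg_left hL3 hjR.le
      _ = 64 * s * (1 / (j : ℝ)) := by
          field_simp
          ring
  calc ∑ j ∈ Icc 1 V, ∑ u ∈ T.filter (fun u => u / L = j), 1 / (u : ℝ)
      ≤ ∑ j ∈ Icc 1 V, 64 * s * (1 / (j : ℝ)) := Finset.sum_le_sum hblock
    _ = 64 * s * ∑ j ∈ Icc 1 V, 1 / (j : ℝ) := by rw [Finset.mul_sum]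
    _ ≤ _ := mul_le_mul_of_nonneg_left (sum_inv_Icc_le_log V) (by positivity)

/-- The far pair sum. -/
theorem far_sum {γ s : ℝ} (hs : 0 < s) (hs2 : s ≤ 1 / 1000) (V : ℕ)
    (Ω : ℕ → ℕ → Prop) [DecidableRel Ω] (hΩ : ∀ u v : ℕ,
      Ω u v ↔ (u ≠ v ∧ distInt (((u : ℝ) - v) * γ) < 2 * s) ∧ Far γ s u v) :
    ∑ u ∈ Icc 1 V, ∑ v ∈ Icc 1 V, (if Ω u v then 1 / ((u : ℝ) * v) else 0) ≤
      128 * (1 + Real.log V) ^ 2 * s ^ (1 / 4 : ℝ) := by
  classical
  have hlog : 0 ≤ Real.log V := Real.log_natCast_nonneg V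
  have hs4 : 0 ≤ s ^ (1 / 4 : ℝ) := Real.rpow_nonneg hs.le _
  by_cases hgood : ∀ B : ℕ, ¬ BadAt γ s B
  · have h1 := pair_sum_le (γ := γ) (s := s) V (good_inv_sum hs hgood V)
    refine le_trans (Finset.sum_le_sum fun u _ => Finset.sum_le_sum fun v _ => ?_)
      (h1.trans ?_)
    · by_cases h2 : Ω u v
      · rw [if_pos h2, if_pos ((hΩ u v).1 h2).1]
      · rw [if_neg h2]
        split_ifs
        · positivity
        · exact le_rfl
    · have h3 : 0 ≤ (1 + Real.log V) ^ 2 * s ^ (1 / 4 : ℝ) := by positivity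
      linarith only [h3]
  · push Not at hgood
    obtain ⟨B, hB⟩ := hgood
    have hss : s ≤ s ^ (1 / 4 : ℝ) := by
      calc s = s ^ (1 : ℝ) := (Real.rpow_one s).symm
        _ ≤ s ^ (1 / 4 : ℝ) :=
          Real.rpow_le_rpow_of_exponent_ge hs (by linarith only [hs2]) (by norm_num)
    have hA : ∑ v ∈ Icc 1 V, ∑ u ∈ Icc 1 V, 1 / (v : ℝ) *
        (if distInt (((u : ℝ) - v) * γ) < 2 * s ∧ 1 ≤ 4 * distInt (B * γ) * (u : ℝ)
          then 1 / (u : ℝ) else 0) ≤ (1 + Real.log V) * (64 * s * (1 + Real.log V)) := by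
      calc ∑ v ∈ Icc 1 V, ∑ u ∈ Icc 1 V, 1 / (v : ℝ) *
          (if distInt (((u : ℝ) - v) * γ) < 2 * s ∧ 1 ≤ 4 * distInt (B * γ) * (u : ℝ)
            then 1 / (u : ℝ) else 0)
          = ∑ v ∈ Icc 1 V, 1 / (v : ℝ) * ∑ u ∈ Icc 1 V,
          (if distInt (((u : ℝ) - v) * γ) < 2 * s ∧ 1 ≤ 4 * distInt (B * γ) * (u : ℝ)
            then 1 / (u : ℝ) else 0) := by
            refine Finset.sum_congr rfl fun v _ => ?_
            rw [Finset.mul_sum]
        _ ≤ ∑ v ∈ Icc 1 V, 1 / (v : ℝ) * (64 * s * (1 + Real.log V)) :=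
            Finset.sum_le_sum fun v _ =>
              mul_le_mul_of_nonneg_left (bad_inv_sum hs hs2 hB v V) (by positivity)
        _ = (∑ v ∈ Icc 1 V, 1 / (v : ℝ)) * (64 * s * (1 + Real.log V)) := by
            rw [Finset.sum_mul]
        _ ≤ _ := mul_le_mul_of_nonneg_right (sum_inv_Icc_le_log V) (by positivity)
    have hterm : ∀ u ∈ Icc 1 V, ∀ v ∈ Icc 1 V, (if Ω u v then 1 / ((u : ℝ) * v) else 0) ≤
        1 / (v : ℝ) * (if distInt (((u : ℝ) - v) * γ) < 2 * s ∧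
          1 ≤ 4 * distInt (B * γ) * (u : ℝ) then 1 / (u : ℝ) else 0) +
        1 / (u : ℝ) * (if distInt (((v : ℝ) - u) * γ) < 2 * s ∧
          1 ≤ 4 * distInt (B * γ) * (v : ℝ) then 1 / (v : ℝ) else 0) := by
      intro u _ v _
      have h0 : 0 ≤ 1 / (v : ℝ) * (if distInt (((u : ℝ) - v) * γ) < 2 * s ∧
          1 ≤ 4 * distInt (B * γ) * (u : ℝ) then 1 / (u : ℝ) else 0) := by
        refine mul_nonneg (by positivity) ?_
        split_ifs
        · positivity
        · exact le_rfl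
      have h0' : 0 ≤ 1 / (u : ℝ) * (if distInt (((v : ℝ) - u) * γ) < 2 * s ∧
          1 ≤ 4 * distInt (B * γ) * (v : ℝ) then 1 / (v : ℝ) else 0) := by
        refine mul_nonneg (by positivity) ?_
        split_ifs
        · positivity
        · exact le_rfl
      by_cases h2 : Ω u v
      · rw [if_pos h2]
        obtain ⟨⟨_, h3⟩, h4⟩ := (hΩ u v).1 h2
        have h5 := h4 B hB
        rcases le_total (u : ℝ) (v : ℝ) with h | h
        · rw [max_eq_right h] at h5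
          have h6 : distInt (((v : ℝ) - u) * γ) < 2 * s := by
            rw [← nb_distInt_neg]
            have e : -(((v : ℝ) - u) * γ) = ((u : ℝ) - v) * γ := by ring
            rw [e]
            exact h3
          rw [if_pos (⟨h6, h5⟩ : distInt (((v : ℝ) - u) * γ) < 2 * s ∧
            1 ≤ 4 * distInt (B * γ) * (v : ℝ)), one_div_mul_one_div]
          linarith only [h0]
        · rw [max_eq_left h] at h5
          rw [if_pos (⟨h3, h5⟩ : distInt (((u : ℝ) - v) * γ) < 2 * s ∧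
            1 ≤ 4 * distInt (B * γ) * (u : ℝ)), one_div_mul_one_div, mul_comm (v : ℝ)]
          linarith only [h0']
      · rw [if_neg h2]
        linarith only [h0, h0']
    calc ∑ u ∈ Icc 1 V, ∑ v ∈ Icc 1 V, (if Ω u v then 1 / ((u : ℝ) * v) else 0)
        ≤ ∑ u ∈ Icc 1 V, ∑ v ∈ Icc 1 V, (1 / (v : ℝ) *
          (if distInt (((u : ℝ) - v) * γ) < 2 * s ∧
            1 ≤ 4 * distInt (B * γ) * (u : ℝ) then 1 / (u : ℝ) else 0) +
          1 / (u : ℝ) * (if distInt (((v : ℝ) - u) * γ) < 2 * s ∧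
            1 ≤ 4 * distInt (B * γ) * (v : ℝ) then 1 / (v : ℝ) else 0)) :=
          Finset.sum_le_sum fun u hu => Finset.sum_le_sum fun v hv => hterm u hu v hv
      _ ≤ (1 + Real.log V) * (64 * s * (1 + Real.log V)) +
          (1 + Real.log V) * (64 * s * (1 + Real.log V)) := by
          simp only [Finset.sum_add_distrib]
          refine add_le_add ?_ hA
          rw [Finset.sum_comm]
          exact hA
      _ = 128 * (1 + Real.log V) ^ 2 * s := by ring
      _ ≤ _ := mul_le_mul_of_nonneg_left hss (by positivity)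

open Classical in
/-- Passage from the pair sum to the tensor sum, far version. -/
theorem far_step {γ s θ : ℝ} (hθ : 0 < θ) (hθ1 : θ < 1) (hs : 0 < s) (V N : ℕ)
    (ψ f : ℕ → ℝ) (hf : ∀ q, 0 ≤ f q ∧ f q ≤ ψ q)
    (Ω : ℕ → ℕ → Prop) (hΩ : ∀ u v : ℕ,
      Ω u v ↔ (u ≠ v ∧ distInt (((u : ℝ) - v) * γ) < 2 * s) ∧ Far γ s u v) :
    psum (fun q r => Rel γ ψ s q r ∧ Far γ s (cofac q r) (cofac r q) ∧
        cofac q r ≤ V ∧ cofac r q ≤ V) N f f ≤
      s ^ (2 * (1 - θ)) * ∑ q ∈ Icc 1 N, ∑ r ∈ Icc 1 N,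
        (if Ω (cofac q r) (cofac r q) ∧ cofac q r ≤ V ∧ cofac r q ≤ V then
          (f q * f r) ^ θ * ((cofac q r : ℝ) * (cofac r q : ℝ)) ^ (-(1 - θ)) else 0) := by
  unfold psum
  rw [Finset.mul_sum]
  refine Finset.sum_le_sum fun q hq => ?_
  rw [Finset.mul_sum]
  refine Finset.sum_le_sum fun r hr => ?_
  have hq0 : 0 < q := (Finset.mem_Icc.1 hq).1
  have hr0 : 0 < r := (Finset.mem_Icc.1 hr).1
  have hu0 : (0 : ℝ) < cofac q r := by exact_mod_cast cofac_pos r hq0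
  have hv0 : (0 : ℝ) < cofac r q := by exact_mod_cast cofac_pos q hr0
  have hff : 0 ≤ f q * f r := mul_nonneg (hf q).1 (hf r).1
  by_cases hc : Rel γ ψ s q r ∧ Far γ s (cofac q r) (cofac r q) ∧
      cofac q r ≤ V ∧ cofac r q ≤ V
  · obtain ⟨⟨h1, h2, h3, h4⟩, h45, h5, h6⟩ := hc
    rw [if_pos ⟨⟨h1, h2, h3, h4⟩, h45, h5, h6⟩, if_pos ⟨(hΩ _ _).2 ⟨⟨h1, h4⟩, h45⟩, h5, h6⟩]
    have h7 : f q * f r = (f q * f r) ^ θ * (f q * f r) ^ (1 - θ) := by
      rw [← Real.rpow_add_of_nonneg hff hθ.le (by linarith only [hθ1])]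
      rw [show θ + (1 - θ) = 1 by ring, Real.rpow_one]
    have h8 : (f q * f r) ^ (1 - θ) ≤
        s ^ (2 * (1 - θ)) * ((cofac q r : ℝ) * (cofac r q : ℝ)) ^ (-(1 - θ)) := by
      have h9 : f q * f r ≤ s ^ 2 / ((cofac q r : ℝ) * (cofac r q : ℝ)) := by
        rw [le_div_iff₀ (by positivity)]
        have ha : (cofac r q : ℝ) * f q ≤ s := (mul_le_mul_of_nonneg_left (hf q).2 hv0.le).trans h2
        have hb : (cofac q r : ℝ) * f r ≤ s := (mul_le_mul_of_nonneg_left (hf r).2 hu0.le).trans h3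
        have hc := mul_le_mul ha hb (mul_nonneg hu0.le (hf r).1) hs.le
        calc f q * f r * ((cofac q r : ℝ) * (cofac r q : ℝ))
            = (cofac r q : ℝ) * f q * ((cofac q r : ℝ) * f r) := by ring
          _ ≤ s * s := hc
          _ = s ^ 2 := by ring
      refine (Real.rpow_le_rpow hff h9 (by linarith only [hθ1])).trans (le_of_eq ?_)
      rw [Real.div_rpow (by positivity) (by positivity), Real.rpow_neg (by positivity),
        div_eq_mul_inv, ← Real.rpow_natCast, ← Real.rpow_mul hs.le]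
      norm_num
    calc f q * f r = (f q * f r) ^ θ * (f q * f r) ^ (1 - θ) := h7
      _ ≤ (f q * f r) ^ θ *
          (s ^ (2 * (1 - θ)) * ((cofac q r : ℝ) * (cofac r q : ℝ)) ^ (-(1 - θ))) :=
          mul_le_mul_of_nonneg_left h8 (Real.rpow_nonneg hff _)
      _ = _ := by ring
  · rw [if_neg hc]
    refine mul_nonneg (Real.rpow_nonneg hs.le _) ?_
    split_ifs
    · exact mul_nonneg (Real.rpow_nonneg hff _) (Real.rpow_nonneg (by positivity) _)
    · exact le_rfl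

open Classical in
/-- The near theorem for every real `γ`. -/
theorem nearG : ∃ C > 0, ∃ k ≥ (0 : ℝ), ∀ (γ s : ℝ), 0 < s → s ≤ 1 / 1000 →
    ∀ (V N : ℕ) (ψ f : ℕ → ℝ), 1 ≤ V → (∀ q, 0 ≤ f q ∧ f q ≤ ψ q) →
      psum (fun q r => Rel γ ψ s q r ∧ Far γ s (cofac q r) (cofac r q) ∧
          cofac q r ≤ V ∧ cofac r q ≤ V) N f f ≤
        C * (1 + Real.log V) ^ k * s ^ (33 / 32 : ℝ) * (∑ q ∈ Icc 1 N, f q) ^ (33 / 32 : ℝ) := by
  have hθ : (1 / 2 : ℝ) < 33 / 64 := by norm_num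
  have hθ1 : (33 / 64 : ℝ) < 1 := by norm_num
  have hμ : (0 : ℝ) < 1 / 4 := by norm_num
  have hμ1 : (1 / 4 : ℝ) < 1 - 33 / 64 := by norm_num
  obtain ⟨A, hA, hSP⟩ := SPn_all hθ hθ1 hμ hμ1
  obtain ⟨C₁, hC₁, k, hk, hprod⟩ := prod_one_add_div_prime_le A hA
  refine ⟨C₁ * 128 ^ (1 / 4 : ℝ), by positivity, (k : ℝ) + 1 / 2, by positivity, ?_⟩
  intro γ s hs hs2 V N ψ f hV1 hf
  obtain ⟨Ω, hΩ⟩ : ∃ Ω : ℕ → ℕ → Prop, ∀ u v : ℕ,
      Ω u v ↔ (u ≠ v ∧ distInt (((u : ℝ) - v) * γ) < 2 * s) ∧ Far γ s u v :=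
    ⟨_, fun _ _ => Iff.rfl⟩
  refine (far_step (θ := 33 / 64) (by norm_num) hθ1 hs V N ψ f hf Ω hΩ).trans ?_
  have htens := tensor hθ hθ1 hμ hμ1 (fun p => 1 + A / p)
    (fun p _ => by
      have : 0 ≤ A / (p : ℝ) := by positivity
      linarith only [this]) hSP
    Ω V N f f
    (fun q => (hf q).1) (fun q => (hf q).1)
  have hL0 : 0 ≤ Real.log V := Real.log_natCast_nonneg V
  set L : ℝ := 1 + Real.log V with hL
  have hLpos : 0 < L := by linarith only [hL0]
  have hP : ∏ p ∈ (Icc 1 V).filter Nat.Prime, (1 + A / (p : ℝ)) ≤ C₁ * L ^ (k : ℝ) := hprod V hV1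
  have hP0 : 0 ≤ ∏ p ∈ (Icc 1 V).filter Nat.Prime, (1 + A / (p : ℝ)) :=
    Finset.prod_nonneg fun p _ => by positivity
  set T : ℝ := ∑ u ∈ Icc 1 V, ∑ v ∈ Icc 1 V,
        if Nat.Coprime u v ∧ Ω u v then 1 / ((u : ℝ) * v) else 0 with hT
  have hT0 : 0 ≤ T := by
    rw [hT]
    refine Finset.sum_nonneg fun u _ => Finset.sum_nonneg fun v _ => ?_
    split_ifs
    · (clear * -; positivity)
    · exact le_rfl
  have hTle : T ≤ 128 * L ^ 2 * s ^ (1 / 4 : ℝ) := by
    refine le_trans ?_ (far_sum hs hs2 V Ω hΩ)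
    rw [hT]
    refine Finset.sum_le_sum fun u _ => Finset.sum_le_sum fun v _ => ?_
    by_cases h2 : Ω u v
    · rw [if_pos h2]
      split_ifs
      · exact le_rfl
      · (clear * -; positivity)
    · rw [if_neg h2, if_neg (fun h3 => h2 h3.2)]
  have hS0 : 0 ≤ ∑ q ∈ Icc 1 N, f q := Finset.sum_nonneg fun q _ => (hf q).1
  have hSS : ((∑ q ∈ Icc 1 N, f q) * ∑ q ∈ Icc 1 N, f q) ^ (33 / 64 : ℝ) =
      (∑ q ∈ Icc 1 N, f q) ^ (33 / 32 : ℝ) := by
    rw [Real.mul_rpow hS0 hS0, ← Real.rpow_add_of_nonneg hS0 (by norm_num) (by norm_num)]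
    norm_num
  rw [hSS] at htens
  have hS1 : 0 ≤ (∑ q ∈ Icc 1 N, f q) ^ (33 / 32 : ℝ) := Real.rpow_nonneg hS0 _
  have hTμ : T ^ (1 / 4 : ℝ) ≤ 128 ^ (1 / 4 : ℝ) * L ^ (1 / 2 : ℝ) * s ^ (1 / 16 : ℝ) := by
    refine (Real.rpow_le_rpow hT0 hTle hμ.le).trans (le_of_eq ?_)
    rw [Real.mul_rpow (by positivity) (by positivity), Real.mul_rpow (by positivity) (by positivity),
      ← Real.rpow_mul hs.le, ← Real.rpow_natCast L 2, ← Real.rpow_mul hLpos.le]
    norm_num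
  calc s ^ (2 * (1 - 33 / 64 : ℝ)) * ∑ q ∈ Icc 1 N, ∑ r ∈ Icc 1 N,
        (if Ω (cofac q r) (cofac r q) ∧ cofac q r ≤ V ∧ cofac r q ≤ V then
          (f q * f r) ^ (33 / 64 : ℝ) *
            ((cofac q r : ℝ) * (cofac r q : ℝ)) ^ (-(1 - 33 / 64 : ℝ)) else 0)
      ≤ s ^ (2 * (1 - 33 / 64 : ℝ)) * ((∏ p ∈ (Icc 1 V).filter Nat.Prime, (1 + A / (p : ℝ))) *
          (∑ q ∈ Icc 1 N, f q) ^ (33 / 32 : ℝ) * T ^ (1 / 4 : ℝ)) :=
        mul_le_mul_of_nonneg_left htens (Real.rpow_nonneg hs.le _)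
    _ ≤ s ^ (2 * (1 - 33 / 64 : ℝ)) * ((C₁ * L ^ (k : ℝ)) *
          (∑ q ∈ Icc 1 N, f q) ^ (33 / 32 : ℝ) *
          (128 ^ (1 / 4 : ℝ) * L ^ (1 / 2 : ℝ) * s ^ (1 / 16 : ℝ))) := by
        refine mul_le_mul_of_nonneg_left ?_ (Real.rpow_nonneg hs.le _)
        refine mul_le_mul ?_ hTμ (Real.rpow_nonneg hT0 _) (by (clear * - hC₁ hS0; positivity))
        exact mul_le_mul_of_nonneg_right hP hS1
    _ = _ := by
        have e1 : s ^ (33 / 32 : ℝ) = s ^ (2 * (1 - 33 / 64 : ℝ)) * s ^ (1 / 16 : ℝ) := by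
          rw [← Real.rpow_add hs]
          norm_num
        rw [e1, Real.rpow_add hLpos]
        ring

end Vale.P028
end

section

/-!
# Diophantine lower bound for non-Liouville numbers and counting of Bohr sets
-/

namespace Vale.P028

open Finset

end Vale.P028
end

section

/-!
# Full measure from sifted sets with bounded second moment
-/

namespace Vale.P028

open MeasureTheory Filter Set

open Classical in
/-- full measure from sifted sets with bounded second moment (general weights and sets) -/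
theorem full_of_moment (γ : ℝ) (ψ : ℕ → ℝ) (C c : ℝ) (_hC : 0 ≤ C) (hc : 0 < c)
    (h : ∀ N : ℕ, ∃ (S : Finset ℕ) (w : ℕ → ℝ) (P : ℕ → ℤ → Prop),
      (∀ q ∈ S, N ≤ q ∧ 0 < ψ q ∧ ψ q ≤ 1 / 2) ∧ (∀ q ∈ S, 0 ≤ w q) ∧
      (0 < ∑ q ∈ S, (q.totient : ℝ) / q * ψ q) ∧
      (∀ q ∈ S, ∀ m n : ℤ, (q : ℝ) / (N + 1) ≤ (n : ℝ) - m →
        c * ((q.totient : ℝ) / q) * ((n : ℝ) - m) ≤
          w q * (((Finset.Ioc m n).filter (P q)).card : ℝ)) ∧
      ∑ q ∈ S, ∑ r ∈ S, w q * w r *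
        volume.real (GS γ q (ψ q) (P q) ∩ GS γ r (ψ r) (P r) ∩ Set.Ioc 0 1) ≤
        C * (∑ q ∈ S, (q.totient : ℝ) / q * ψ q) ^ 2) :
    volume (W γ ψ)ᶜ = 0 := by
  apply volume_compl_W_of_unit_Ioc
  choose S w P hS hw hpos hcount hsec using fun N => h (N + 1)
  set G : ℕ → ℕ → Set ℝ := fun j q => GS γ q (ψ q) (P j q) with hG
  set A : ℕ → Set ℝ := fun q => if 0 < q then {x | distInt (q * x - γ) < ψ q} else ∅ with hA
  set M : ℕ → ℝ := fun j => ∑ q ∈ S j, (q.totient : ℝ) / q * ψ q with hM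
  have hM0 : ∀ j, 0 < M j := hpos
  set F : ℕ → ℝ → ℝ := fun j x =>
    (M j)⁻¹ * ∑ q ∈ S j, w j q * (G j q).indicator (fun _ => (1 : ℝ)) x with hF
  have hGm : ∀ j q, MeasurableSet (G j q) := fun j q => (isOpen_GS _ _ _ _).measurableSet
  have hindm : ∀ j q, Measurable ((G j q).indicator (fun _ => (1 : ℝ))) := fun j q =>
    measurable_const.indicator (hGm j q)
  have hFm : ∀ j, Measurable (F j) := by
    intro j
    apply Measurable.const_mul
    apply Finset.measurable_fun_sum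
    intro q _
    exact (hindm j q).const_mul _
  have hind0 : ∀ j q x, 0 ≤ (G j q).indicator (fun _ => (1 : ℝ)) x := fun j q x =>
    Set.indicator_nonneg (fun _ _ => zero_le_one) _
  have hind1 : ∀ j q x, (G j q).indicator (fun _ => (1 : ℝ)) x ≤ 1 := by
    intro j q x
    by_cases hx : x ∈ G j q
    · simp [hx]
    · simp [hx]
  have hAm : ∀ q, MeasurableSet (A q) := by
    intro q
    by_cases hq : 0 < q
    · have e : A q = GS γ q (ψ q) (fun _ => True) := by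
        simp only [hA, hq, if_true]
        ext x
        simp only [GS, mem_ofPred_eq, true_and]
        constructor
        · intro h1; exact ⟨round ((q : ℝ) * x - γ), h1⟩
        · rintro ⟨al, h1⟩; exact lt_of_le_of_lt (round_le _ al) h1
      rw [e]; exact (isOpen_GS _ _ _ _).measurableSet
    · simp only [hA, hq, if_false]; exact MeasurableSet.empty
  have hintG : ∀ (E E' : Set ℝ), MeasurableSet E → MeasurableSet E' → volume E' ≠ ⊤ →
      ∫ x in E', E.indicator (fun _ => (1 : ℝ)) x = volume.real (E ∩ E') := by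
    intro E E' hE hE' hfin
    rw [integral_indicator hE, setIntegral_const, smul_eq_mul, mul_one,
      measureReal_restrict_apply hE]
  have hintI : ∀ (E E' : Set ℝ), MeasurableSet E → volume E' ≠ ⊤ →
      Integrable (fun x => E.indicator (fun _ => (1 : ℝ)) x) (volume.restrict E') := by
    intro E E' hE hfin
    have : IsFiniteMeasure (volume.restrict E') := ⟨by
      rw [Measure.restrict_apply_univ]; exact hfin.lt_top⟩
    exact (integrable_const (1 : ℝ)).indicator hE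
  have main := ae_infinite_of_lower_Ioc A F hAm hFm (fun j => (M j)⁻¹ * ∑ q ∈ S j, w j q) (by
      intro j x
      apply mul_le_mul_of_nonneg_left _ (inv_nonneg.mpr (hM0 j).le)
      apply Finset.sum_le_sum
      intro q hq
      calc w j q * (G j q).indicator (fun _ => (1 : ℝ)) x ≤ w j q * 1 :=
            mul_le_mul_of_nonneg_left (hind1 j q x) (hw j q hq)
        _ = w j q := mul_one _) (by
      intro j x
      exact mul_nonneg (inv_nonneg.mpr (hM0 j).le) (Finset.sum_nonneg fun q hq =>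
        mul_nonneg (hw j q hq) (hind0 j q x))) (by
      intro j x hx
      have : ∑ q ∈ S j, w j q * (G j q).indicator (fun _ => (1 : ℝ)) x ≠ 0 := by
        intro h0
        apply hx
        simp only [hF]
        rw [h0, mul_zero]
      obtain ⟨q, hq, hq2⟩ := Finset.exists_ne_zero_of_sum_ne_zero this
      have hqN := (hS j q hq).1
      have hq0 : 0 < q := by omega
      refine ⟨q, by omega, ?_⟩
      simp only [hA, hq0, if_true]
      by_contra hxA
      apply hq2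
      rw [Set.indicator_of_notMem (fun hx' => hxA (GS_subset _ _ _ _ hx')), mul_zero])
    (C := C) (c := c) hc (by
      intro j
      have e : ∀ x, (F j x) ^ 2 = ((M j)⁻¹) ^ 2 * ∑ q ∈ S j, ∑ r ∈ S j, w j q * w j r *
          ((G j q ∩ G j r).indicator (fun _ => (1 : ℝ)) x) := by
        intro x
        simp only [hF]
        rw [mul_pow, sq (∑ q ∈ S j, _), Finset.sum_mul_sum]
        congr 1
        apply Finset.sum_congr rfl
        intro q _
        apply Finset.sum_congr rfl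
        intro r _
        by_cases h1 : x ∈ G j q <;> by_cases h2 : x ∈ G j r <;> simp [h1, h2]
      have hint : ∀ q r, Integrable (fun x => (G j q ∩ G j r).indicator (fun _ => (1 : ℝ)) x)
          (volume.restrict (Ioc (0 : ℝ) 1)) := fun q r =>
        hintI _ _ ((hGm j q).inter (hGm j r)) (by simp)
      simp only [e]
      rw [integral_const_mul, integral_finsetSum _ (fun q _ =>
        integrable_finsetSum _ (fun r _ => (hint q r).const_mul _))]
      have e2 : ∀ q ∈ S j, ∫ x in Ioc (0 : ℝ) 1, ∑ r ∈ S j, w j q * w j r *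
          ((G j q ∩ G j r).indicator (fun _ => (1 : ℝ)) x)
          = ∑ r ∈ S j, w j q * w j r * volume.real (G j q ∩ G j r ∩ Ioc (0 : ℝ) 1) := by
        intro q _
        rw [integral_finsetSum _ (fun r _ => (hint q r).const_mul _)]
        apply Finset.sum_congr rfl
        intro r _
        rw [integral_const_mul, hintG _ _ ((hGm j q).inter (hGm j r)) measurableSet_Ioc (by simp)]
      rw [Finset.sum_congr rfl e2]
      have hsumT := hsec j
      have hMj := hM0 j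
      calc ((M j)⁻¹) ^ 2 * ∑ q ∈ S j, ∑ r ∈ S j, w j q * w j r *
            volume.real (G j q ∩ G j r ∩ Ioc (0 : ℝ) 1)
          ≤ ((M j)⁻¹) ^ 2 * (C * (M j) ^ 2) :=
            mul_le_mul_of_nonneg_left hsumT (by (clear * - hMj; positivity))
        _ = C := by
            have : M j ≠ 0 := hMj.ne'
            field_simp) (by
      intro u v hu huv hv
      obtain ⟨j₀, hj₀⟩ := exists_nat_gt (4 / (v - u))
      filter_upwards [eventually_ge_atTop j₀] with j hj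
      have hvu : 0 < v - u := by linarith only [huv]
      have hjR : (j₀ : ℝ) ≤ j := by exact_mod_cast hj
      have hj4 : 4 / (v - u) < j := lt_of_lt_of_le hj₀ hjR
      have hj4' : 4 < j * (v - u) := by rwa [div_lt_iff₀ hvu] at hj4
      have hfin : volume (Ioc u v) ≠ ⊤ := by rw [Real.volume_Ioc]; exact ENNReal.ofReal_ne_top
      have e1 : ∫ x in Ioc u v, F j x
          = (M j)⁻¹ * ∑ q ∈ S j, w j q * volume.real (G j q ∩ Ioc u v) := by
        simp only [hF]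
        rw [integral_const_mul, integral_finsetSum _ (fun q _ =>
          (hintI _ _ (hGm j q) hfin).const_mul _)]
        congr 1
        apply Finset.sum_congr rfl
        intro q _
        rw [integral_const_mul, hintG _ _ (hGm j q) measurableSet_Ioc hfin]
      rw [e1]
      have hMj := hM0 j
      rw [inv_mul_eq_div, le_div_iff₀ hMj]
      simp only [hM]
      rw [Finset.mul_sum]
      apply Finset.sum_le_sum
      intro q hq
      obtain ⟨h1, h2, h2'⟩ := hS j q hq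
      have hq0 : 0 < q := by omega
      have hq0' : (0 : ℝ) < q := by exact_mod_cast hq0
      have hqj : (j : ℝ) ≤ q := by
        have : j ≤ q := by omega
        exact_mod_cast this
      set m : ℤ := ⌈(q : ℝ) * u - γ + ψ q⌉ - 1 with hm
      set n : ℤ := ⌊(q : ℝ) * v - γ - ψ q⌋ with hn
      have hm1 : (q : ℝ) * u - γ + ψ q ≤ m + 1 := by
        rw [hm]; push_cast
        have := Int.le_ceil ((q : ℝ) * u - γ + ψ q)
        linarith only [this]
      have hm2 : (m : ℝ) < (q : ℝ) * u - γ + ψ q := by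
        rw [hm]; push_cast
        have := Int.ceil_lt_add_one ((q : ℝ) * u - γ + ψ q)
        linarith only [this]
      have hn1 : (n : ℝ) ≤ (q : ℝ) * v - γ - ψ q := Int.floor_le _
      have hn2 : (q : ℝ) * v - γ - ψ q < n + 1 := Int.lt_floor_add_one _
      have hq4 : 4 < q * (v - u) := by linarith only [mul_nonneg (le_of_lt (sub_pos.2 huv)) (sub_nonneg.2 hqj), hj4']
      have hnm : q * (v - u) / 2 ≤ (n : ℝ) - m := by linarith only [hq4, hn2, hm2, h2']
      have h5 := GS_lower γ hq0 h2 h2' (P j q) u v m n hm1 hn1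
      have h6 := hcount j q hq m n (by
        refine le_trans ?_ hnm
        push_cast
        rw [div_le_iff₀ (by positivity)]
        have : (2 : ℝ) ≤ (v - u) * (j + 1 + 1) := by nlinarith only [hj4']
        nlinarith only [hj4', hq4])
      have h7 : 0 ≤ 2 * ψ q / q := by positivity
      calc c * (v - u) * ((q.totient : ℝ) / q * ψ q)
          = (c * ((q.totient : ℝ) / q) * (q * (v - u) / 2)) * (2 * ψ q / q) := by field_simp
        _ ≤ (c * ((q.totient : ℝ) / q) * ((n : ℝ) - m)) * (2 * ψ q / q) := by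
            apply mul_le_mul_of_nonneg_right _ h7
            exact mul_le_mul_of_nonneg_left hnm (by positivity)
        _ ≤ (w j q * (((Finset.Ioc m n).filter (P j q)).card : ℝ)) * (2 * ψ q / q) :=
            mul_le_mul_of_nonneg_right h6 h7
        _ = w j q * ((((Finset.Ioc m n).filter (P j q)).card : ℝ) * (2 * ψ q / q)) := by ring
        _ ≤ w j q * volume.real (G j q ∩ Ioc u v) :=
            mul_le_mul_of_nonneg_left h5 (hw j q hq))
  filter_upwards [main] with x hx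
  apply hx.mono
  intro q hq
  simp only [mem_ofPred_eq, hA] at hq ⊢
  by_cases hq0 : 0 < q
  · rw [if_pos hq0] at hq
    exact ⟨hq0, hq⟩
  · rw [if_neg hq0] at hq
    exact absurd hq (Set.notMem_empty _)


end Vale.P028
end

section

/-!
# The killing lemma for the full sieve
-/

namespace Vale.P028

open Finset MeasureTheory

/-- the killing lemma (full sieve) -/
theorem kill_full {γ s ρ₁ ρ₂ : ℝ} (hs : 0 < s) (hs2 : s ≤ 1 / 1000) {q r B : ℕ}
    (hq : 0 < q) (hr : 0 < r) (hqr : q ≠ r)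
    (hD1 : (cofac r q : ℝ) * ρ₁ ≤ s) (hD2 : (cofac q r : ℝ) * ρ₂ ≤ s) (hB : BadAt γ s B)
    (hnear : 4 * distInt (B * γ) * max (cofac q r : ℝ) (cofac r q : ℝ) < 1) :
    GB γ ρ₁ q B (Anum γ B) ∩ GB γ ρ₂ r B (Anum γ B) = ∅ := by
  rw [Set.eq_empty_iff_forall_notMem]
  rintro x ⟨⟨al, hal, hx1⟩, ⟨be, hbe, hx2⟩⟩
  have hmul := hB.mul_le hs hs2
  have hB0 : 0 < B := hB.1.1
  have hg : 0 < Nat.gcd q r := Nat.gcd_pos_of_pos_left _ hq
  have ha : 0 < cofac q r := Nat.div_pos (Nat.gcd_le_left _ hq) hg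
  have hb : 0 < cofac r q := by
    unfold cofac
    rw [Nat.gcd_comm]
    exact Nat.div_pos (Nat.gcd_le_right _ hr) hg
  have haR : (0 : ℝ) < cofac q r := by exact_mod_cast ha
  have hbR : (0 : ℝ) < cofac r q := by exact_mod_cast hb
  have e4 : q * cofac r q = r * cofac q r := by
    unfold cofac
    rw [Nat.gcd_comm r q, ← Nat.mul_div_assoc _ (Nat.gcd_dvd_right q r),
      ← Nat.mul_div_assoc _ (Nat.gcd_dvd_left q r), Nat.mul_comm]
  have e3 : (q : ℝ) * cofac r q = r * cofac q r := by exact_mod_cast e4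
  have hcop : Nat.Coprime (cofac q r) (cofac r q) := by
    unfold cofac
    rw [Nat.gcd_comm r q]
    exact Nat.coprime_div_gcd_div_gcd hg
  have haq : cofac q r ∣ q := Nat.div_dvd_of_dvd (Nat.gcd_dvd_left q r)
  have hbr : cofac r q ∣ r := Nat.div_dvd_of_dvd (Nat.gcd_dvd_left r q)
  have hab : ¬ (cofac q r = 1 ∧ cofac r q = 1) := by
    rintro ⟨h1, h2⟩
    rw [h1, h2, mul_one, mul_one] at e4
    exact hqr e4
  set a := cofac q r with hadef
  set b := cofac r q with hbdef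
  have hclose : |((al : ℝ) + γ) * b - ((be : ℝ) + γ) * a| < 2 * s := by
    have e5 : ((al : ℝ) + γ) * b - ((be : ℝ) + γ) * a
        = (a : ℝ) * ((r : ℝ) * x - γ - be) - (b : ℝ) * ((q : ℝ) * x - γ - al) := by
      linear_combination x * e3
    rw [e5]
    calc |(a : ℝ) * ((r : ℝ) * x - γ - be) - (b : ℝ) * ((q : ℝ) * x - γ - al)|
        ≤ |(a : ℝ) * ((r : ℝ) * x - γ - be)| + |(b : ℝ) * ((q : ℝ) * x - γ - al)| := abs_sub _ _
      _ = (a : ℝ) * |(r : ℝ) * x - γ - be| + (b : ℝ) * |(q : ℝ) * x - γ - al| := by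
          rw [abs_mul, abs_mul, abs_of_pos haR, abs_of_pos hbR]
      _ < (a : ℝ) * ρ₂ + (b : ℝ) * ρ₁ := by gcongr
      _ ≤ s + s := add_le_add hD2 hD1
      _ = 2 * s := by ring
  have hmaxab : |(b : ℝ) - a| < max (a : ℝ) (b : ℝ) := by
    rw [abs_lt]
    constructor
    · have := le_max_left (a : ℝ) (b : ℝ)
      linarith only [this, hbR]
    · have := le_max_right (a : ℝ) (b : ℝ)
      linarith only [this, haR]
  have hβ0 : 0 ≤ distInt (B * γ) := abs_nonneg _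
  obtain ⟨hd1, hd2⟩ := kill_dvd (γ := γ) (s := s) (β := distInt (B * γ))
    (A := Anum γ B) (B := B) le_rfl hcop (by
      have h1 : distInt (B * γ) * |(b : ℝ) - a| ≤ distInt (B * γ) * max (a : ℝ) (b : ℝ) :=
        mul_le_mul_of_nonneg_left hmaxab.le hβ0
      linarith only [h1, hmul, hnear]) hB0 hclose
  apply hab
  constructor
  · have h6 : (a : ℤ) ∣ ((Int.gcd (al * B + Anum γ B) q : ℕ) : ℤ) :=
      Int.dvd_coe_gcd hd1 (by exact_mod_cast haq)
    rw [hal] at h6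
    have h7 : a ∣ 1 := by exact_mod_cast h6
    exact Nat.dvd_one.1 h7
  · have h6 : (b : ℤ) ∣ ((Int.gcd (be * B + Anum γ B) r : ℕ) : ℤ) :=
      Int.dvd_coe_gcd hd2 (by exact_mod_cast hbr)
    rw [hbe] at h6
    have h7 : b ∣ 1 := by exact_mod_cast h6
    exact Nat.dvd_one.1 h7

end Vale.P028
end

section

/-!
# Limsup lemma with lower bounds, measure of the sifted sets
-/

namespace Vale.P028

open Finset MeasureTheory Filter

end Vale.P028
end
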