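import Mathlib
import Vale.Agent.P028.Bd3.B1

set_option linter.all false

section

set_option linter.all false

/-!
# Counting lemma for the core estimate (all real `γ`)
-/

namespace Vale.P028

open Finset

/-- separated sets -/
theorem kc_sep_card (S : Finset ℕ) (M : ℕ) (G : ℝ) (hG : 0 < G) (hS : ∀ m ∈ S, m ≤ M)
    (hsep : ∀ m ∈ S, ∀ n ∈ S, m < n → G ≤ (n : ℝ) - m) : (S.card : ℝ) ≤ M / G + 1 := by
  have h1 : S.card ≤ (range (⌊(M : ℝ) / G⌋₊ + 1)).card := by
    refine card_le_card_of_injOn (fun m : ℕ => ⌊(m : ℝ) / G⌋₊) ?_ ?_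
    · intro m hm
      rw [coe_range, Set.mem_Iio]
      have h2 : (m : ℝ) ≤ M := by exact_mod_cast hS m hm
      exact Nat.lt_succ_of_le (Nat.floor_mono (div_le_div_of_nonneg_right h2 hG.le))
    · have key : ∀ m ∈ S, ∀ n ∈ S, m < n → ⌊(m : ℝ) / G⌋₊ < ⌊(n : ℝ) / G⌋₊ := by
        intro m hm n hn hmn
        have h3 := hsep m hm n hn hmn
        have h4 : (m : ℝ) / G + 1 ≤ n / G := by
          rw [← sub_nonneg]
          have : (n : ℝ) / G - (m / G + 1) = (n - m - G) / G := by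
            field_simp
            ring
          rw [this]
          exact div_nonneg (by linarith only [h3]) hG.le
        have h5 : ⌊(m : ℝ) / G⌋₊ + 1 ≤ ⌊(n : ℝ) / G⌋₊ := by
          rw [← Nat.floor_add_one (by positivity)]
          exact Nat.floor_mono h4
        omega
      intro m hm n hn hmn
      simp only at hmn
      rcases lt_trichotomy m n with h | h | h
      · have := key m hm n hn h
        omega
      · exact h
      · have := key n hn m hm h
        omega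
  rw [card_range] at h1
  have h2 : (S.card : ℝ) ≤ ((⌊(M : ℝ) / G⌋₊ + 1 : ℕ) : ℝ) := by exact_mod_cast h1
  push_cast at h2
  have h3 : (⌊(M : ℝ) / G⌋₊ : ℝ) ≤ M / G := Nat.floor_le (by positivity)
  linarith only [h2, h3]

/-- Number of hits in a block at a bad scale (real shift). -/
theorem kc_block_card {γ s : ℝ} {B : ℕ} (hs : 0 < s) (hs2 : s ≤ 1 / 1000) (hB : BadAt γ s B)
    (hβ : 0 < distInt (B * γ)) {L : ℕ} (hL : 4 * distInt (B * γ) * L ≤ 1) (δ : ℝ) (a : ℕ)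
    (S : Finset ℕ) (hS1 : ∀ u ∈ S, a ≤ u ∧ u < a + L)
    (hS2 : ∀ u ∈ S, distInt ((u : ℝ) * γ - δ) < 2 * s) :
    (S.card : ℝ) ≤ 4 * s / distInt (B * γ) + 1 := by
  classical
  have hB0 : 0 < B := hB.1.1
  have hBR : (0 : ℝ) < B := by exact_mod_cast hB0
  rcases S.eq_empty_or_nonempty with h | h
  · rw [h]
    simp only [Finset.card_empty, Nat.cast_zero]
    positivity
  set m := S.min' h with hm
  have hmS : m ∈ S := S.min'_mem h
  have hdiff : ∀ u ∈ S, m ≤ u := fun u hu => S.min'_le u hu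
  have hdv : ∀ u ∈ S, B ∣ u - m ∧ ((u - m : ℕ) : ℝ) * distInt (B * γ) < 4 * s * B := by
    intro u hu
    have h1 := hdiff u hu
    refine bad_dvd hs hs2 hB ?_ ?_
    · have h2 := hS1 u hu
      have h3 := hS1 m hmS
      have h4 : ((u - m : ℕ) : ℝ) ≤ L := by
        have : u - m ≤ L := by omega
        exact_mod_cast this
      exact (mul_le_mul_of_nonneg_left h4 (by positivity)).trans hL
    · rw [Nat.cast_sub h1]
      have e : ((u : ℝ) - m) * γ = ((u : ℝ) * γ - δ) - ((m : ℝ) * γ - δ) := by ring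
      rw [e]
      refine (nb_distInt_sub_le _ _).trans_lt ?_
      linarith only [hS2 u hu, hS2 m hmS]
  have hinj : Set.InjOn (fun u => (u - m) / B) S := by
    intro u hu w hw huw
    simp only at huw
    obtain ⟨k, hk⟩ := (hdv u hu).1
    obtain ⟨l, hl⟩ := (hdv w hw).1
    rw [hk, hl, Nat.mul_div_cancel_left _ hB0, Nat.mul_div_cancel_left _ hB0] at huw
    have h1 := hdiff u hu
    have h2 := hdiff w hw
    rw [huw] at hk
    omega
  have hcard : S.card = (S.image (fun u => (u - m) / B)).card := (Finset.card_image_of_injOn hinj).symm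
  have hsub : S.image (fun u => (u - m) / B) ⊆ range ⌈4 * s / distInt (B * γ)⌉₊ := by
    intro k hk
    obtain ⟨u, hu, rfl⟩ := Finset.mem_image.1 hk
    obtain ⟨⟨k, hk'⟩, h2⟩ := hdv u hu
    rw [hk', Nat.mul_div_cancel_left _ hB0, Finset.mem_range, Nat.lt_ceil, lt_div_iff₀ hβ]
    rw [hk'] at h2
    push_cast at h2
    have h3 : (B : ℝ) * ((k : ℝ) * distInt (B * γ)) < B * (4 * s) := by linarith only [h2]
    exact lt_of_mul_lt_mul_left h3 hBR.le
  have h1 := Finset.card_le_card hsub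
  rw [Finset.card_range, ← hcard] at h1
  have h2 : (⌈4 * s / distInt (B * γ)⌉₊ : ℝ) < 4 * s / distInt (B * γ) + 1 :=
    Nat.ceil_lt_add_one (by positivity)
  have h3 : (S.card : ℝ) ≤ ⌈4 * s / distInt (B * γ)⌉₊ := by exact_mod_cast h1
  linarith only [h2, h3]

/-- Number of hits at a bad scale. -/
theorem kc_bad_count {γ s : ℝ} {B : ℕ} (hs : 0 < s) (hs2 : s ≤ 1 / 1000) (hB : BadAt γ s B)
    (hβ : 0 < distInt (B * γ)) (δ : ℝ) (M : ℕ) (S : Finset ℕ) (hS1 : ∀ u ∈ S, u ≤ M)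
    (hS2 : ∀ u ∈ S, distInt ((u : ℝ) * γ - δ) < 2 * s) :
    (S.card : ℝ) ≤ 64 * s * M + 4 * s / distInt (B * γ) + 1 := by
  classical
  set β := distInt (B * γ) with hβd
  have hβ4 : β ≤ 4 * s := hB.1.2.1
  set L : ℕ := ⌊1 / (4 * β)⌋₊ with hL
  have hx : 1 ≤ 1 / (4 * β) := by
    rw [le_div_iff₀ (by positivity)]
    linarith only [hs2, hβ4]
  have hL0 : 0 < L := Nat.floor_pos.2 hx
  have hLR : (0 : ℝ) < L := by exact_mod_cast hL0
  have hL1 : (L : ℝ) ≤ 1 / (4 * β) := Nat.floor_le (by positivity)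
  have hL2 : 4 * β * L ≤ 1 := by
    rw [le_div_iff₀ (by positivity)] at hL1
    linarith only [hL1]
  have hL3 : 1 / (8 * β) ≤ L := by
    have h1 : 1 / (4 * β) < L + 1 := Nat.lt_floor_add_one _
    have h2 : 1 / (8 * β) = 1 / (4 * β) / 2 := by
      field_simp
      norm_num
    have h3 : (1 : ℝ) ≤ L := by exact_mod_cast hL0
    rw [h2]
    linarith only [h1, h3]
  have h1 : S.card = ∑ i ∈ range (M / L + 1), (S.filter (fun u => u / L = i)).card := by
    refine card_eq_sum_card_fiberwise ?_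
    intro u hu
    have h2 := hS1 u hu
    rw [coe_range, Set.mem_Iio]
    exact Nat.lt_succ_of_le (Nat.div_le_div_right h2)
  have h2 : ∀ i ∈ range (M / L + 1), ((S.filter (fun u => u / L = i)).card : ℝ) ≤
      4 * s / β + 1 := by
    intro i _
    refine kc_block_card hs hs2 hB hβ (L := L) hL2 δ (i * L) _ ?_ ?_
    · intro u hu
      rw [mem_filter] at hu
      have h3 := hu.2
      have h4 : i * L ≤ u := by
        rw [← h3]
        exact Nat.div_mul_le_self u L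
      have h5 : u < i * L + L := by
        have h6 := Nat.lt_div_mul_add hL0 (a := u)
        rw [h3] at h6
        exact h6
      exact ⟨h4, h5⟩
    · intro u hu
      exact hS2 u (mem_filter.1 hu).1
  have h3 : (S.card : ℝ) ≤ ((M / L + 1 : ℕ) : ℝ) * (4 * s / β + 1) := by
    rw [h1]
    push_cast
    calc ∑ i ∈ range (M / L + 1), ((S.filter (fun u => u / L = i)).card : ℝ)
        ≤ ∑ _i ∈ range (M / L + 1), (4 * s / β + 1) := sum_le_sum h2
      _ = _ := by
          rw [sum_const, card_range, nsmul_eq_mul]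
          push_cast
          ring
  have h4 : ((M / L : ℕ) : ℝ) ≤ 8 * β * M := by
    calc ((M / L : ℕ) : ℝ) ≤ (M : ℝ) / L := Nat.cast_div_le
      _ ≤ M / (1 / (8 * β)) := by
          apply div_le_div_of_nonneg_left (by positivity) (by positivity) hL3
      _ = 8 * β * M := by
          field_simp
  push_cast at h3
  have h5 : 0 ≤ 4 * s / β + 1 := by positivity
  calc (S.card : ℝ) ≤ (((M / L : ℕ) : ℝ) + 1) * (4 * s / β + 1) := h3
    _ ≤ (8 * β * M + 1) * (4 * s / β + 1) := by gcongr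
    _ = 32 * s * M * (β / β) + 8 * β * M + 4 * s / β + 1 := by
        field_simp
        ring
    _ ≤ 64 * s * M + 4 * s / β + 1 := by
        rw [div_self hβ.ne']
        have h6 : 8 * β * M ≤ 32 * s * M := by
          have : 8 * β ≤ 32 * s := by linarith only [hβ4]
          gcongr
        linarith only [h6]

/-- The first denominator with a very good approximation. -/
def Pst (γ W : ℝ) (b : ℕ) : Prop := 0 < b ∧ (b : ℝ) ≤ W ∧ distInt (b * γ) * W ^ 2 < 1

/-- divisibility by the minimal denominator -/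
theorem kc_dvd_min {γ W : ℝ} (hW : 1 ≤ W) {Bs : ℕ} (hBs : Pst γ W Bs)
    (hmin : ∀ b < Bs, ¬ Pst γ W b) {b : ℕ} {x : ℤ} (hb : 0 < b)
    (h : |((b * round ((Bs : ℝ) * γ) - Bs * x : ℤ) : ℝ)| < 1) : Bs ∣ b := by
  have h0 : (b * round ((Bs : ℝ) * γ) - Bs * x : ℤ) = 0 := by
    rw [← Int.cast_abs] at h
    have h1 : |(b * round ((Bs : ℝ) * γ) - Bs * x : ℤ)| < 1 := by exact_mod_cast h
    exact Int.abs_lt_one_iff.1 h1
  set A := round ((Bs : ℝ) * γ) with hA
  set g := Nat.gcd b Bs with hg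
  have hg0 : 0 < g := Nat.gcd_pos_of_pos_left _ hb
  obtain ⟨b', hb'⟩ : g ∣ b := Nat.gcd_dvd_left b Bs
  obtain ⟨c, hc⟩ : g ∣ Bs := Nat.gcd_dvd_right b Bs
  have hcop : Nat.Coprime b' c := by
    have h1 := Nat.coprime_div_gcd_div_gcd (m := b) (n := Bs) hg0
    rw [← hg] at h1
    have e1 : b / g = b' := by
      conv_lhs => rw [hb']
      exact Nat.mul_div_cancel_left _ hg0
    have e2 : Bs / g = c := by
      conv_lhs => rw [hc]
      exact Nat.mul_div_cancel_left _ hg0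
    rwa [e1, e2] at h1
  have hc0 : 0 < c := by
    rcases Nat.eq_zero_or_pos c with rfl | h
    · rw [mul_zero] at hc
      have := hBs.1
      omega
    · exact h
  have h2 : (b' : ℤ) * A = c * x := by
    have h3 : (g : ℤ) * (b' * A) = g * (c * x) := by
      have h4 : (b : ℤ) * A = Bs * x := by linarith only [h0]
      have h5 : (b : ℤ) = g * b' := by exact_mod_cast hb'
      have h6 : (Bs : ℤ) = g * c := by exact_mod_cast hc
      rw [h5, h6] at h4
      linarith only [h4]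
    have hg' : (g : ℤ) ≠ 0 := by exact_mod_cast hg0.ne'
    exact mul_left_cancel₀ hg' h3
  obtain ⟨t, ht⟩ : (c : ℤ) ∣ A := by
    have h3 : (c : ℤ) ∣ b' * A := ⟨x, h2⟩
    have h4 : IsCoprime (c : ℤ) (b' : ℤ) := by
      rw [Nat.isCoprime_iff_coprime]
      exact hcop.symm
    exact h4.dvd_of_dvd_mul_left h3
  -- `P g`
  have hP : Pst γ W g := by
    have hgB : g ≤ Bs := Nat.le_of_dvd hBs.1 (Nat.gcd_dvd_right b Bs)
    refine ⟨hg0, ?_, ?_⟩
    · have : (g : ℝ) ≤ Bs := by exact_mod_cast hgB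
      exact this.trans hBs.2.1
    · have hd : distInt (g * γ) ≤ distInt (Bs * γ) := by
        have h3 : distInt (g * γ) ≤ |(g : ℝ) * γ - t| := distInt_le_abs_sub' _ _
        have h4 : |(Bs : ℝ) * γ - A| = c * |(g : ℝ) * γ - t| := by
          have e : (Bs : ℝ) * γ - A = c * ((g : ℝ) * γ - t) := by
            have h5 : (Bs : ℝ) = g * c := by exact_mod_cast hc
            have h6 : (A : ℝ) = c * t := by exact_mod_cast ht
            rw [h5, h6]
            ring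
          rw [e, abs_mul, abs_of_nonneg (by positivity)]
        have h5 : |(g : ℝ) * γ - t| ≤ |(Bs : ℝ) * γ - A| := by
          rw [h4]
          have h6 : (1 : ℝ) ≤ c := by exact_mod_cast hc0
          exact le_mul_of_one_le_left (abs_nonneg _) h6
        exact h3.trans h5
      calc distInt (g * γ) * W ^ 2 ≤ distInt (Bs * γ) * W ^ 2 := by gcongr
        _ < 1 := hBs.2.2
  by_contra hne
  have hlt : g < Bs := by
    have hgB : g ≤ Bs := Nat.le_of_dvd hBs.1 (Nat.gcd_dvd_right b Bs)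
    refine lt_of_le_of_ne hgB fun h3 => hne ?_
    rw [← h3]
    exact Nat.gcd_dvd_left b Bs
  exact hmin g hlt hP

theorem kc_det_lt {γ : ℝ} {b Bs : ℕ} {ε : ℝ} (h : (b : ℝ) * distInt (Bs * γ) + Bs * distInt (b * γ) < ε) :
    |((b * round ((Bs : ℝ) * γ) - Bs * round ((b : ℝ) * γ) : ℤ) : ℝ)| < ε := by
  have e : ((b * round ((Bs : ℝ) * γ) - Bs * round ((b : ℝ) * γ) : ℤ) : ℝ) =
      Bs * ((b : ℝ) * γ - round ((b : ℝ) * γ)) - b * ((Bs : ℝ) * γ - round ((Bs : ℝ) * γ)) := by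
    push_cast
    ring
  rw [e]
  calc |(Bs : ℝ) * ((b : ℝ) * γ - round ((b : ℝ) * γ)) -
        b * ((Bs : ℝ) * γ - round ((Bs : ℝ) * γ))|
      ≤ |(Bs : ℝ) * ((b : ℝ) * γ - round ((b : ℝ) * γ))| +
        |(b : ℝ) * ((Bs : ℝ) * γ - round ((Bs : ℝ) * γ))| := abs_sub _ _
    _ = Bs * distInt (b * γ) + b * distInt (Bs * γ) := by
        rw [abs_mul, abs_mul, abs_of_nonneg (Nat.cast_nonneg Bs : (0 : ℝ) ≤ (Bs : ℝ)),
          abs_of_nonneg (Nat.cast_nonneg b : (0 : ℝ) ≤ (b : ℝ))]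
        rfl
    _ < ε := by linarith only [h]

theorem kc_distInt_mul {x : ℝ} {k : ℕ} (h : (k : ℝ) * distInt x ≤ 1 / 2) :
    distInt (k * x) = k * distInt x := by
  have hk0 : (0 : ℝ) ≤ k := Nat.cast_nonneg _
  set z : ℤ := k * round x with hz
  have h1 : |(k : ℝ) * x - (z : ℝ)| = k * distInt x := by
    have e : (k : ℝ) * x - (z : ℝ) = k * (x - round x) := by
      rw [hz]
      push_cast
      ring
    rw [e, abs_mul, abs_of_nonneg hk0]
    rfl
  apply le_antisymm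
  · rw [← h1]
    exact distInt_le_abs_sub' _ _
  · by_cases h2 : round ((k : ℝ) * x) = z
    · rw [← h1, ← h2]
      exact le_rfl
    · have h3 : (1 : ℝ) ≤ |((round ((k : ℝ) * x) - z : ℤ) : ℝ)| := by
        rw [← Int.cast_abs]
        exact_mod_cast Int.one_le_abs (sub_ne_zero.2 h2)
      have h4 : |((round ((k : ℝ) * x) - z : ℤ) : ℝ)| ≤
          |(k : ℝ) * x - round ((k : ℝ) * x)| + |(k : ℝ) * x - z| := by
        have e : ((round ((k : ℝ) * x) - z : ℤ) : ℝ) =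
            ((k : ℝ) * x - z) - ((k : ℝ) * x - round ((k : ℝ) * x)) := by
          push_cast
          ring
        rw [e]
        refine (abs_sub _ _).trans ?_
        linarith only []
      have h5 : distInt (k * x) = |(k : ℝ) * x - round ((k : ℝ) * x)| := rfl
      rw [h5]
      linarith only [h, h1, h3, h4]

/-- main counting lemma (`s = t ^ 16`, `W ^ 4 ≤ a M`). -/
theorem kc_dens {γ s t Z W : ℝ} (ht : 0 < t) (hst : t ^ 16 = s) (hs1 : s ≤ 1 / 1000)
    (hZ : 1 ≤ Z) (hW : (Z / s) ^ 4 ≤ W) (a M : ℕ) (δ : ℝ) (ha : 0 < a) (haZ : (a : ℝ) ≤ Z)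
    (haM : W ^ 4 ≤ a * M)
    (hfar : ∀ B : ℕ, BadAt γ s B → 1 ≤ 4 * distInt (B * γ) * (a * M))
    (hnb : ∀ Bs : ℕ, Pst γ W Bs → (∀ b < Bs, ¬ Pst γ W b) → 1 < t ^ 4 * Bs →
      ((Nat.gcd a Bs : ℕ) : ℝ) < t * Bs) :
    (((Icc 1 M).filter (fun m : ℕ => distInt ((a : ℝ) * m * γ - δ) < 2 * s)).card : ℝ) ≤
      70 * t * M := by
  classical
  have hs : 0 < s := by rw [← hst]; positivity
  have ht1 : t < 1 := by
    by_contra hne
    push Not at hne
    have h1 : 1 ≤ t ^ 16 := one_le_pow₀ hne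
    linarith only [hst, hs1, h1]
  have haR : (0 : ℝ) < a := by exact_mod_cast ha
  have hZs : 1000 ≤ Z / s := by
    rw [le_div_iff₀ hs]
    linarith only [hs1, hZ]
  have hZs0 : 0 < Z / s := by linarith only [hZs]
  have hWZ : Z / s ≤ W := (le_self_pow₀ (by linarith only [hZs]) (by norm_num)).trans hW
  have hW1000 : 1000 ≤ W := hZs.trans hWZ
  have hW1 : 1 ≤ W := by linarith only [hZs, hWZ]
  have hW0 : 0 < W := by linarith only [hZs, hWZ]
  have hZW : Z ≤ W := by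
    refine le_trans ?_ hWZ
    rw [le_div_iff₀ hs]
    nlinarith only [hs1, hZ]
  set γ' : ℝ := a * γ with hγ'
  set S := (Icc 1 M).filter (fun m : ℕ => distInt ((a : ℝ) * m * γ - δ) < 2 * s) with hS
  have hS1 : ∀ u ∈ S, u ≤ M := by
    intro u hu
    rw [hS, mem_filter, mem_Icc] at hu
    exact hu.1.2
  have hS2 : ∀ u ∈ S, distInt ((u : ℝ) * γ' - δ) < 2 * s := by
    intro u hu
    rw [hS, mem_filter] at hu
    have e : (u : ℝ) * γ' - δ = (a : ℝ) * u * γ - δ := by rw [hγ']; ring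
    rw [e]
    exact hu.2
  have hS3 : ∀ u ∈ S, ∀ v ∈ S, u < v → distInt (((v - u : ℕ) : ℝ) * γ') < 4 * s := by
    intro u hu v hv huv
    rw [Nat.cast_sub huv.le]
    have e : ((v : ℝ) - u) * γ' = ((v : ℝ) * γ' - δ) - ((u : ℝ) * γ' - δ) := by ring
    rw [e]
    refine (nb_distInt_sub_le _ _).trans_lt ?_
    linarith only [hS2 u hu, hS2 v hv]
  -- `1 ≤ t M`
  have hM1 : 1 ≤ t * M := by
    have h1 : W ^ 4 ≤ Z * M := haM.trans (by gcongr)
    have h2 : Z * W ≤ W ^ 4 := by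
      have h3 : W * W ≤ W ^ 4 := by
        calc W * W = W ^ 2 := by ring
          _ ≤ W ^ 4 := pow_le_pow_right₀ hW1 (by norm_num)
      nlinarith only [hZs, hWZ, hZW, h3]
    have h3 : W ≤ M := by
      have h4 : Z * W ≤ Z * M := h2.trans h1
      exact le_of_mul_le_mul_left h4 (by linarith only [hZ])
    have h4 : 1 / t ≤ 1 / s := by
      apply one_div_le_one_div_of_le hs
      rw [← hst]
      calc t ^ 16 ≤ t ^ 1 := pow_le_pow_of_le_one ht.le ht1.le (by norm_num)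
        _ = t := pow_one t
    have h5 : 1 / s ≤ Z / s := by gcongr
    have h6 : 1 / t ≤ M := by linarith only [hWZ, h3, h4, h5]
    rw [div_le_iff₀ ht] at h6
    linarith only [h6]
  -- separated case
  have hsepcase : (∀ u ∈ S, ∀ v ∈ S, u < v → 1 / t ≤ (v : ℝ) - u) →
      (S.card : ℝ) ≤ 70 * t * M := by
    intro h
    have h1 := kc_sep_card S M (1 / t) (by positivity) hS1 h
    have h2 : (M : ℝ) / (1 / t) = t * M := by field_simp
    rw [h2] at h1
    linarith only [hM1, h1]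
  by_cases hgood : ∀ B : ℕ, ¬ BadAt γ' s B
  · apply hsepcase
    intro u hu v hv huv
    have h1 := good_sep (n := v - u) hs hgood (by omega) (hS3 u hu v hv huv)
    rw [Nat.cast_sub huv.le] at h1
    refine le_trans ?_ h1
    have h2 : s ^ (-(1 / 4) : ℝ) = 1 / t ^ 4 := by
      rw [← hst, ← Real.rpow_natCast t 16, ← Real.rpow_mul ht.le,
        show ((16 : ℕ) : ℝ) * (-(1 / 4)) = -((4 : ℕ) : ℝ) by norm_num,
        Real.rpow_neg ht.le, Real.rpow_natCast, one_div]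
    rw [h2]
    apply one_div_le_one_div_of_le (by positivity)
    calc t ^ 4 ≤ t ^ 1 := pow_le_pow_of_le_one ht.le ht1.le (by norm_num)
      _ = t := pow_one t
  · push Not at hgood
    obtain ⟨h, hbad⟩ := hgood
    have hh0 : 0 < h := hbad.1.1
    have hhR : (0 : ℝ) < h := by exact_mod_cast hh0
    set β := distInt (h * γ') with hβ
    have hβ0 : 0 ≤ β := abs_nonneg _
    have hβ4 : β ≤ 4 * s := hbad.1.2.1
    by_cases hht : 1 / t ≤ h
    · apply hsepcase
      intro u hu v hv huv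
      have h0 : ((v - u : ℕ) : ℝ) = (v : ℝ) - u := Nat.cast_sub huv.le
      rw [← h0]
      by_cases h2 : 4 * β * ((v - u : ℕ) : ℝ) ≤ 1
      · have h3 := (bad_dvd hs hs1 hbad h2 (hS3 u hu v hv huv)).1
        have h4 : h ≤ v - u := Nat.le_of_dvd (by omega) h3
        have h5 : (h : ℝ) ≤ ((v - u : ℕ) : ℝ) := by exact_mod_cast h4
        linarith only [hht, h5]
      · push Not at h2
        have h3 : 1 < 16 * s * ((v - u : ℕ) : ℝ) := by
          have h4 : 4 * β * ((v - u : ℕ) : ℝ) ≤ 4 * (4 * s) * ((v - u : ℕ) : ℝ) := by gcongr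
          linarith only [h2, h4]
        have h5 : 16 * s ≤ t := by
          have h6 : t ^ 15 ≤ 1 / 16 := by
            by_contra hne
            push Not at hne
            have h7 : (1 / 16 : ℝ) ^ 16 < (t ^ 15) ^ 16 := pow_lt_pow_left₀ hne (by norm_num)
              (by norm_num)
            have h8 : (t ^ 15) ^ 16 = (t ^ 16) ^ 15 := by ring
            rw [h8, hst] at h7
            have h9 : s ^ 15 ≤ (1 / 1000 : ℝ) ^ 15 := pow_le_pow_left₀ hs.le hs1 15
            norm_num at h7 h9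
            linarith only [h7, h9]
          calc 16 * s = 16 * (t ^ 15 * t) := by rw [← hst]; ring
            _ ≤ 16 * (1 / 16 * t) := by gcongr
            _ = t := by ring
        rw [div_le_iff₀ ht]
        have h6 : 16 * s * ((v - u : ℕ) : ℝ) ≤ t * ((v - u : ℕ) : ℝ) := by gcongr
        linarith only [h3, h6]
    · push Not at hht
      by_cases hMβ : t ^ 14 ≤ M * β
      · have hβpos : 0 < β := by
          rcases hβ0.eq_or_lt with h1 | h1
          · rw [← h1, mul_zero] at hMβ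
            have : 0 < t ^ 14 := by positivity
            linarith only [hMβ, this]
          · exact h1
        have h1 := kc_bad_count hs hs1 hbad hβpos δ M S hS1 hS2
        rw [← hβ] at h1
        have hM0 : (0 : ℝ) ≤ M := Nat.cast_nonneg _
        have h2 : 4 * s / β ≤ 4 * t ^ 2 * M := by
          rw [div_le_iff₀ hβpos]
          calc 4 * s = 4 * t ^ 2 * t ^ 14 := by rw [← hst]; ring
            _ ≤ 4 * t ^ 2 * (M * β) := by gcongr
            _ = 4 * t ^ 2 * M * β := by ring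
        have h3 : s ≤ t := by
          rw [← hst]
          calc t ^ 16 ≤ t ^ 1 := pow_le_pow_of_le_one ht.le ht1.le (by norm_num)
            _ = t := pow_one t
        have h4 : t ^ 2 ≤ t := by
          calc t ^ 2 ≤ t ^ 1 := pow_le_pow_of_le_one ht.le ht1.le (by norm_num)
            _ = t := pow_one t
        have h5 : 64 * s * M ≤ 64 * t * M := by gcongr
        have h6 : 4 * t ^ 2 * M ≤ 4 * t * M := by gcongr
        linarith only [hM1, h1, h2, h5, h6]
      · exfalso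
        push Not at hMβ
        -- `b = a h`
        set b : ℕ := a * h with hb
        have hb0 : 0 < b := Nat.mul_pos ha hh0
        have hbR : (b : ℝ) = a * h := by rw [hb]; push_cast; ring
        have hbβ : distInt (b * γ) = β := by
          rw [hβ, hγ', hbR]
          congr 1
          ring
        have hbW : (b : ℝ) ≤ Z / s := by
          rw [hbR, le_div_iff₀ hs]
          have h1 : (h : ℝ) * s ≤ 1 := by
            have h2 : (h : ℝ) * t ≤ 1 := by
              rw [lt_div_iff₀ ht] at hht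
              exact hht.le
            have h3 : s ≤ t := by
              rw [← hst]
              calc t ^ 16 ≤ t ^ 1 := pow_le_pow_of_le_one ht.le ht1.le (by norm_num)
                _ = t := pow_one t
            calc (h : ℝ) * s ≤ h * t := by gcongr
              _ ≤ 1 := h2
          calc (a : ℝ) * h * s = a * (h * s) := by ring
            _ ≤ Z * 1 := by gcongr
            _ = Z := mul_one Z
        have hβW : β * W ^ 3 < 1 := by
          -- `W ^ 4 ≤ a M`, `M β < t ^ 14 ≤ 1`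
          have h1 : β * W ^ 4 < Z := by
            calc β * W ^ 4 ≤ β * (a * M) := by gcongr
              _ = a * (M * β) := by ring
              _ < a * t ^ 14 := by gcongr
              _ ≤ Z * 1 := by
                  have : t ^ 14 ≤ 1 := pow_le_one₀ ht.le ht1.le
                  gcongr
              _ = Z := mul_one Z
          have h2 : β * W ^ 4 = (β * W ^ 3) * W := by ring
          rw [h2] at h1
          by_contra hne
          push Not at hne
          have h3 : 1 * W ≤ (β * W ^ 3) * W := by gcongr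
          linarith only [hZW, h1, h3]
        have hPb : Pst γ W b := by
          refine ⟨hb0, hbW.trans hWZ, ?_⟩
          rw [hbβ]
          refine lt_of_le_of_lt ?_ hβW
          gcongr
          norm_num
        have hex : ∃ b, Pst γ W b := ⟨b, hPb⟩
        set Bs := Nat.find hex with hBs
        have hPs : Pst γ W Bs := Nat.find_spec hex
        have hmin : ∀ b < Bs, ¬ Pst γ W b := fun b hb => Nat.find_min hex hb
        have hBs0 : 0 < Bs := hPs.1
        have hBsR : (0 : ℝ) < Bs := by exact_mod_cast hBs0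
        set βs := distInt (Bs * γ) with hβs
        have hβs0 : 0 ≤ βs := abs_nonneg _
        have hβsW : βs * W ^ 2 < 1 := hPs.2.2
        -- `Bs ∣ b`
        have hdvd : Bs ∣ b := by
          refine kc_dvd_min hW1 hPs hmin hb0 (kc_det_lt ?_)
          rw [hbβ, ← hβs]
          have h1 : (b : ℝ) * βs ≤ W * βs := by
            have : (b : ℝ) ≤ W := hbW.trans hWZ
            gcongr
          have h2 : (Bs : ℝ) * β ≤ W * β := by
            have : (Bs : ℝ) ≤ W := hPs.2.1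
            gcongr
          have h3 : W * βs < 1 / 2 := by
            have h4 : (W * βs) * W < 1 := by
              calc (W * βs) * W = βs * W ^ 2 := by ring
                _ < 1 := hβsW
            have h5 : (W * βs) * 2 ≤ (W * βs) * W := by
              have : 0 ≤ W * βs := by positivity
              gcongr
              linarith only [hZs, hWZ]
            linarith only [hβsW, h5]
          have h4 : W * β < 1 / 2 := by
            have h5 : (W * β) * W ^ 2 < 1 := by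
              calc (W * β) * W ^ 2 = β * W ^ 3 := by ring
                _ < 1 := hβW
            have h6 : (W * β) * 2 ≤ (W * β) * W ^ 2 := by
              have h7 : 0 ≤ W * β := by positivity
              have h8 : 2 ≤ W ^ 2 := by nlinarith only [hZs, hWZ]
              gcongr
            linarith only [hβW, h6]
          linarith only [h1, h2, h3, h4]
        -- `Bs ≤ gcd(a,Bs) h`
        have hgh : (Bs : ℝ) * t < (Nat.gcd a Bs : ℕ) := by
          set g := Nat.gcd a Bs with hg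
          have hg0 : 0 < g := Nat.gcd_pos_of_pos_left _ ha
          have h1 : Bs / g ∣ h := by
            have h2 : Bs ∣ h * a := by rw [mul_comm]; exact hdvd
            have h3 := Nat.Coprime.dvd_of_dvd_mul_right
              (k := Bs / g) (m := h) (n := a / g) ?_ ?_
            · exact h3
            · have := Nat.coprime_div_gcd_div_gcd (m := a) (n := Bs) hg0
              rw [← hg] at this
              exact this.symm
            · have h4 : g * (Bs / g) = Bs := Nat.mul_div_cancel' (Nat.gcd_dvd_right a Bs)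
              have h5 : g * (a / g) = a := Nat.mul_div_cancel' (Nat.gcd_dvd_left a Bs)
              have h6 : g * (Bs / g) ∣ g * (h * (a / g)) := by
                rw [h4, show g * (h * (a / g)) = h * (g * (a / g)) by ring, h5]
                exact h2
              exact Nat.dvd_of_mul_dvd_mul_left hg0 h6
          have h2 : Bs / g ≤ h := Nat.le_of_dvd hh0 h1
          have h3 : Bs ≤ g * h := by
            calc Bs = g * (Bs / g) := (Nat.mul_div_cancel' (Nat.gcd_dvd_right a Bs)).symm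
              _ ≤ g * h := Nat.mul_le_mul_left _ h2
          have h4 : (Bs : ℝ) ≤ g * h := by exact_mod_cast h3
          have hgR : (0 : ℝ) < g := by exact_mod_cast hg0
          rw [lt_div_iff₀ ht] at hht
          calc (Bs : ℝ) * t ≤ (g * h) * t := by gcongr
            _ = g * (h * t) := by ring
            _ < g * 1 := by gcongr
            _ = g := mul_one _
        by_cases hcase : 1 < t ^ 4 * Bs
        · have := hnb Bs hPs hmin hcase
          linarith only [hgh, this]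
        · push Not at hcase
          -- `BadAt γ s Bs`
          have hBs4 : (Bs : ℝ) ^ 4 * s ≤ 1 := by
            calc (Bs : ℝ) ^ 4 * s = (t ^ 4 * Bs) ^ 4 := by rw [← hst]; ring
              _ ≤ 1 := pow_le_one₀ (by positivity) hcase
          have hsW : 1 ≤ s * W ^ 2 := by
            have h1 : 1 ≤ s * (Z / s) := by
              rw [mul_div_cancel₀ _ hs.ne']
              exact hZ
            have h2 : Z / s ≤ W ^ 2 := by
              calc Z / s ≤ W := hWZ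
                _ ≤ W ^ 2 := le_self_pow₀ hW1 (by norm_num)
            calc (1 : ℝ) ≤ s * (Z / s) := h1
              _ ≤ s * W ^ 2 := by gcongr
          have hβss : βs ≤ s := by
            by_contra hne
            push Not at hne
            have : s * W ^ 2 ≤ βs * W ^ 2 := by gcongr
            linarith only [hβsW, hsW, this]
          have hBadAt : BadAt γ s Bs := by
            refine ⟨⟨hBs0, ?_, ?_⟩, hBs4⟩
            · rw [← hβs]
              linarith only [hs, hβss]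
            · intro k hk hkB
              by_contra hne
              push Not at hne
              have hkR : (0 : ℝ) < k := by exact_mod_cast hk
              have hkBR : (k : ℝ) ≤ Bs := by exact_mod_cast hkB.le
              have h1 : Bs ∣ k := by
                refine kc_dvd_min hW1 hPs hmin hk (kc_det_lt ?_)
                rw [← hβs]
                have h2 : (k : ℝ) * βs ≤ Bs * s := by gcongr
                have h3 : (Bs : ℝ) * distInt (k * γ) ≤ Bs * (4 * s) := by gcongr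
                have h4 : (Bs : ℝ) * s ≤ 1 / 16 := by
                  by_contra hne'
                  push Not at hne'
                  have h5 : (1 / 16 : ℝ) ^ 4 < (Bs * s) ^ 4 :=
                    pow_lt_pow_left₀ hne' (by norm_num) (by norm_num)
                  have h6 : ((Bs : ℝ) * s) ^ 4 = ((Bs : ℝ) ^ 4 * s) * s ^ 3 := by ring
                  have h7 : ((Bs : ℝ) ^ 4 * s) * s ^ 3 ≤ 1 * (1 / 1000) ^ 3 := by
                    gcongr
                  rw [h6] at h5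
                  norm_num at h5 h7
                  linarith only [h5, h7]
                linarith only [h2, h3, h4]
              have h2 := Nat.le_of_dvd hk h1
              omega
          have hfar' := hfar Bs hBadAt
          rw [← hβs] at hfar'
          -- `‖b γ‖ = (b / Bs) ‖Bs γ‖`
          obtain ⟨k, hk⟩ := hdvd
          have hkR : (b : ℝ) = Bs * k := by exact_mod_cast hk
          have hkW : (k : ℝ) ≤ W := by
            have h1 : (k : ℝ) ≤ b := by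
              rw [hkR]
              have : (1 : ℝ) ≤ Bs := by exact_mod_cast hBs0
              exact le_mul_of_one_le_left (Nat.cast_nonneg _) this
            exact h1.trans (hbW.trans hWZ)
          have hkβ : (k : ℝ) * βs ≤ 1 / 2 := by
            have h4 : (W * βs) * W < 1 := by
              calc (W * βs) * W = βs * W ^ 2 := by ring
                _ < 1 := hβsW
            have h5 : (W * βs) * 2 ≤ (W * βs) * W := by
              have : 0 ≤ W * βs := by positivity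
              gcongr
              linarith only [hZs, hWZ]
            have h6 : (k : ℝ) * βs ≤ W * βs := by gcongr
            linarith only [hβsW, h5, h6]
          have hβeq : β = k * βs := by
            rw [← hbβ, hβs, ← kc_distInt_mul (by rw [← hβs]; exact hkβ), hkR]
            congr 1
            ring
          -- contradiction
          have h1 : βs * a * M * h = Bs * (M * β) := by
            rw [hβeq]
            have h2 : (a : ℝ) * h = Bs * k := by rw [← hbR, hkR]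
            calc βs * a * M * h = βs * M * (a * h) := by ring
              _ = βs * M * (Bs * k) := by rw [h2]
              _ = _ := by ring
          have h2 : (1 : ℝ) ≤ h := by exact_mod_cast hh0
          have h3 : βs * a * M ≤ Bs * (M * β) := by
            rw [← h1]
            exact le_mul_of_one_le_right (by (clear * - hβs0 ha; positivity)) h2
          have h4 : (Bs : ℝ) * (M * β) ≤ Bs * t ^ 14 := by gcongr
          have h5 : (Bs : ℝ) * t ^ 14 = (t ^ 4 * Bs) * t ^ 10 := by ring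
          have h6 : (t ^ 4 * (Bs : ℝ)) * t ^ 10 ≤ 1 * t ^ 10 := by gcongr
          have h7 : t ^ 10 < 1 / 4 := by
            by_contra hne
            push Not at hne
            have h8 : (1 / 4 : ℝ) ^ 16 ≤ (t ^ 10) ^ 16 := pow_le_pow_left₀ (by norm_num) hne 16
            have h9 : (t ^ 10) ^ 16 = (t ^ 16) ^ 10 := by ring
            rw [h9, hst] at h8
            have h10 : s ^ 10 ≤ (1 / 1000 : ℝ) ^ 10 := pow_le_pow_left₀ hs.le hs1 10
            norm_num at h8 h10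
            linarith only [h8, h10]
          have h8 : 4 * βs * (a * M) = 4 * (βs * a * M) := by ring
          rw [h8] at hfar'
          linarith only [hfar', h3, h4, h6, h7]

end Vale.P028
end

section
attribute [-instance] ProperSMul.toContinuousSMul IsTopologicalTorsor.toContinuousSMul IdemSemiring.toCanonicallyOrderedAdd IdemSemiring.toMulLeftMono IdemSemiring.toMulRightMono AddQuantale.instAddLeftMono AddQuantale.instAddRightMono Quantale.instMulLeftMono Quantale.instMulRightMono FiniteDimensional.rclike_to_real IsScalarTower.complexToReal FiniteDimensional.complexToReal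

set_option linter.all false

/-!
# Counting allowed centres in intervals; lower bound for `φ(q)/q`
-/

namespace Vale.P028

open Finset

/-! ## Legendre's formula with the trivial error term -/

/-- counting a residue class in an interval -/
theorem lc_class (d : ℕ) (hd : 0 < d) (c m n : ℤ) (hmn : m ≤ n) :
    |(((Ioc m n).filter (fun al : ℤ => (d : ℤ) ∣ al - c)).card : ℝ) - ((n : ℝ) - m) / d| ≤ 1 := by
  have hd' : (0 : ℤ) < d := by exact_mod_cast hd
  have h1 : (Ioc m n).filter (fun al : ℤ => (d : ℤ) ∣ al - c) =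
      (Ioc m n).filter (fun al : ℤ => al ≡ c [ZMOD (d : ℤ)]) := by
    refine filter_congr fun al _ => ?_
    rw [Int.modEq_comm, Int.modEq_iff_dvd]
  have h2 := Int.Ioc_filter_modEq_card (a := m) (b := n) (v := c) (r := (d : ℤ)) hd'
  have hdq : (0 : ℚ) < (d : ℤ) := by exact_mod_cast hd
  have h3 : ⌊((m : ℚ) - c) / ((d : ℤ) : ℚ)⌋ ≤ ⌊((n : ℚ) - c) / ((d : ℤ) : ℚ)⌋ := by
    apply Int.floor_le_floor
    apply div_le_div_of_nonneg_right _ hdq.le
    have : (m : ℚ) ≤ n := by exact_mod_cast hmn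
    linarith only [this]
  rw [max_eq_left (by
    have := h3
    push_cast at this ⊢
    linarith only [this])] at h2
  rw [h1]
  have h4 : ((((Ioc m n).filter (fun al : ℤ => al ≡ c [ZMOD (d : ℤ)])).card : ℤ) : ℝ) =
      ((⌊((n : ℚ) - c) / ((d : ℤ) : ℚ)⌋ - ⌊((m : ℚ) - c) / ((d : ℤ) : ℚ)⌋ : ℤ) : ℝ) := by
    rw [h2]
  have h5 : ((((Ioc m n).filter (fun al : ℤ => al ≡ c [ZMOD (d : ℤ)])).card : ℤ) : ℝ) =
      (((Ioc m n).filter (fun al : ℤ => al ≡ c [ZMOD (d : ℤ)])).card : ℝ) := by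
    push_cast
    rfl
  rw [← h5, h4]
  have a1 := Int.floor_le (((n : ℚ) - c) / ((d : ℤ) : ℚ))
  have a2 := Int.lt_floor_add_one (((n : ℚ) - c) / ((d : ℤ) : ℚ))
  have a3 := Int.floor_le (((m : ℚ) - c) / ((d : ℤ) : ℚ))
  have a4 := Int.lt_floor_add_one (((m : ℚ) - c) / ((d : ℤ) : ℚ))
  have b1 : ((⌊((n : ℚ) - c) / ((d : ℤ) : ℚ)⌋ : ℤ) : ℝ) ≤ ((n : ℝ) - c) / d := by
    exact_mod_cast (by exact_mod_cast a1 :
      ((⌊((n : ℚ) - c) / ((d : ℤ) : ℚ)⌋ : ℤ) : ℚ) ≤ ((n : ℚ) - c) / d)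
  have b2 : ((n : ℝ) - c) / d < ((⌊((n : ℚ) - c) / ((d : ℤ) : ℚ)⌋ : ℤ) : ℝ) + 1 := by
    exact_mod_cast (by exact_mod_cast a2 :
      ((n : ℚ) - c) / d < ((⌊((n : ℚ) - c) / ((d : ℤ) : ℚ)⌋ : ℤ) : ℚ) + 1)
  have b3 : ((⌊((m : ℚ) - c) / ((d : ℤ) : ℚ)⌋ : ℤ) : ℝ) ≤ ((m : ℝ) - c) / d := by
    exact_mod_cast (by exact_mod_cast a3 :
      ((⌊((m : ℚ) - c) / ((d : ℤ) : ℚ)⌋ : ℤ) : ℚ) ≤ ((m : ℚ) - c) / d)
  have b4 : ((m : ℝ) - c) / d < ((⌊((m : ℚ) - c) / ((d : ℤ) : ℚ)⌋ : ℤ) : ℝ) + 1 := by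
    exact_mod_cast (by exact_mod_cast a4 :
      ((m : ℚ) - c) / d < ((⌊((m : ℚ) - c) / ((d : ℤ) : ℚ)⌋ : ℤ) : ℚ) + 1)
  have b5 : ((n : ℝ) - m) / d = ((n : ℝ) - c) / d - ((m : ℝ) - c) / d := by ring
  rw [b5, abs_le, Int.cast_sub]
  constructor <;> linarith only [b1, b4, b2, b3]

/-- a root of `al B + A` modulo `p` -/
theorem lc_root {p B : ℕ} (hp : p.Prime) (hB : ¬ p ∣ B) (A : ℤ) :
    ∃ c : ℤ, ∀ al : ℤ, (p : ℤ) ∣ al * (B : ℤ) + A ↔ (p : ℤ) ∣ al - c := by
  have hcop : Nat.Coprime B p := (Nat.Prime.coprime_iff_not_dvd hp).2 hB |>.symm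
  obtain ⟨y, hy⟩ := Int.mod_coprime hcop
  have hy' : (p : ℤ) ∣ (B : ℤ) * y - 1 := by
    rw [← Int.modEq_iff_dvd]
    exact hy.symm
  refine ⟨-A * y, fun al => ?_⟩
  have hpB : ¬ (p : ℤ) ∣ (B : ℤ) := by
    rw [Int.natCast_dvd_natCast]
    exact hB
  have hpp : Prime (p : ℤ) := Nat.prime_iff_prime_int.1 hp
  constructor
  · intro h
    have h1 : (p : ℤ) ∣ (B : ℤ) * (al - -A * y) := by
      have : (B : ℤ) * (al - -A * y) = (al * B + A) + A * (B * y - 1) := by ring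
      rw [this]
      exact dvd_add h (Dvd.dvd.mul_left hy' A)
    rcases hpp.dvd_or_dvd h1 with h2 | h2
    · exact absurd h2 hpB
    · exact h2
  · intro h
    have : al * (B : ℤ) + A = (B : ℤ) * (al - -A * y) - A * (B * y - 1) := by ring
    rw [this]
    exact dvd_sub (Dvd.dvd.mul_left h _) (Dvd.dvd.mul_left hy' A)

/-- CRT for two classes -/
theorem lc_crt {d p : ℕ} (hcop : Nat.Coprime d p) (c c' : ℤ) :
    ∃ e : ℤ, ∀ al : ℤ, ((d : ℤ) ∣ al - c ∧ (p : ℤ) ∣ al - c') ↔ ((d * p : ℕ) : ℤ) ∣ al - e := by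
  obtain ⟨y, hy⟩ := Int.mod_coprime hcop
  have hy' : (p : ℤ) ∣ (d : ℤ) * y - 1 := by
    rw [← Int.modEq_iff_dvd]
    exact hy.symm
  refine ⟨c + d * (y * (c' - c)), fun al => ?_⟩
  have e1 : (d : ℤ) ∣ (c + d * (y * (c' - c))) - c := ⟨y * (c' - c), by ring⟩
  have e2 : (p : ℤ) ∣ (c + d * (y * (c' - c))) - c' := by
    have : (c + d * (y * (c' - c))) - c' = (c' - c) * (d * y - 1) := by ring
    rw [this]
    exact Dvd.dvd.mul_left hy' _
  constructor
  · rintro ⟨h1, h2⟩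
    push_cast
    apply IsCoprime.mul_dvd
    · exact Nat.isCoprime_iff_coprime.2 hcop
    · have : al - (c + d * (y * (c' - c))) = (al - c) - ((c + d * (y * (c' - c))) - c) := by ring
      rw [this]
      exact dvd_sub h1 e1
    · have : al - (c + d * (y * (c' - c))) = (al - c') - ((c + d * (y * (c' - c))) - c') := by ring
      rw [this]
      exact dvd_sub h2 e2
  · intro h
    push_cast at h
    constructor
    · have h1 : (d : ℤ) ∣ al - (c + d * (y * (c' - c))) := (Dvd.intro _ rfl).trans h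
      have : al - c = (al - (c + d * (y * (c' - c)))) + ((c + d * (y * (c' - c))) - c) := by ring
      rw [this]
      exact dvd_add h1 e1
    · have h1 : (p : ℤ) ∣ al - (c + d * (y * (c' - c))) := (Dvd.intro_left _ rfl).trans h
      have : al - c' = (al - (c + d * (y * (c' - c)))) + ((c + d * (y * (c' - c))) - c') := by ring
      rw [this]
      exact dvd_add h1 e2

theorem lc_gen (B : ℕ) (A m n : ℤ) (hmn : m ≤ n) (Ps : Finset ℕ) :
    (∀ p ∈ Ps, p.Prime ∧ ¬ p ∣ B) → ∀ (d : ℕ) (c : ℤ), 0 < d → (∀ p ∈ Ps, Nat.Coprime d p) →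
    |(((Ioc m n).filter (fun al : ℤ => (∀ p ∈ Ps, ¬ (p : ℤ) ∣ al * (B : ℤ) + A) ∧
      (d : ℤ) ∣ al - c)).card : ℝ) - ((n : ℝ) - m) / d * pr Ps| ≤ 2 ^ Ps.card := by
  classical
  induction Ps using Finset.induction_on with
  | empty =>
    intro _ d c hd _
    have := lc_class d hd c m n hmn
    simpa only [notMem_empty, IsEmpty.forall_iff, implies_true, true_and, pr, one_div, prod_empty, mul_one,     card_empty, pow_zero, ge_iff_le] using this
  | insert p Ps hp ih =>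
    intro h d c hd hcop
    have hpp := h p (mem_insert_self _ _)
    obtain ⟨c', hc'⟩ := lc_root hpp.1 hpp.2 A
    obtain ⟨e, he⟩ := lc_crt (hcop p (mem_insert_self _ _)) c c'
    have i1 := ih (fun p' hp' => h p' (mem_insert_of_mem hp')) d c hd
      (fun p' hp' => hcop p' (mem_insert_of_mem hp'))
    have i2 := ih (fun p' hp' => h p' (mem_insert_of_mem hp')) (d * p) e
      (Nat.mul_pos hd hpp.1.pos) (fun p' hp' => by
        refine Nat.Coprime.mul_left (hcop p' (mem_insert_of_mem hp')) ?_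
        rw [Nat.coprime_primes hpp.1 (h p' (mem_insert_of_mem hp')).1]
        rintro rfl
        exact hp hp')
    have hsplit : ((Ioc m n).filter (fun al : ℤ => (∀ p' ∈ Ps, ¬ (p' : ℤ) ∣ al * (B : ℤ) + A) ∧
        (d : ℤ) ∣ al - c)).card =
        ((Ioc m n).filter (fun al : ℤ => (∀ p' ∈ insert p Ps, ¬ (p' : ℤ) ∣ al * (B : ℤ) + A) ∧
          (d : ℤ) ∣ al - c)).card +
        ((Ioc m n).filter (fun al : ℤ => (∀ p' ∈ Ps, ¬ (p' : ℤ) ∣ al * (B : ℤ) + A) ∧
          ((d * p : ℕ) : ℤ) ∣ al - e)).card := by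
      rw [← card_union_of_disjoint]
      · congr 1
        ext al
        simp only [mem_filter, mem_union, mem_insert, forall_eq_or_imp]
        constructor
        · rintro ⟨h1, h2, h3⟩
          by_cases h4 : (p : ℤ) ∣ al * (B : ℤ) + A
          · right
            exact ⟨h1, h2, (he al).1 ⟨h3, (hc' al).1 h4⟩⟩
          · left
            exact ⟨h1, ⟨h4, h2⟩, h3⟩
        · rintro (⟨h1, ⟨h4, h2⟩, h3⟩ | ⟨h1, h2, h3⟩)
          · exact ⟨h1, h2, h3⟩
          · exact ⟨h1, h2, ((he al).2 h3).1⟩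
      · rw [disjoint_left]
        intro al h1 h2
        rw [mem_filter] at h1 h2
        exact h1.2.1 p (mem_insert_self _ _) ((hc' al).2 ((he al).2 h2.2.2).2)
    have hpr : pr (insert p Ps) = (1 - 1 / (p : ℝ)) * pr Ps := by
      unfold pr
      rw [prod_insert hp]
    have hp0 : (p : ℝ) ≠ 0 := by exact_mod_cast hpp.1.ne_zero
    have hd0 : (d : ℝ) ≠ 0 := by exact_mod_cast hd.ne'
    rw [card_insert_of_notMem hp, pow_succ, hpr]
    rw [hsplit] at i1
    push_cast at i1 i2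
    have e3 : ((n : ℝ) - m) / d * ((1 - 1 / (p : ℝ)) * pr Ps) =
        ((n : ℝ) - m) / d * pr Ps - ((n : ℝ) - m) / (d * p) * pr Ps := by
      (clear * - hp0 hd0; field_simp)
    rw [e3]
    rw [abs_le] at i1 i2 ⊢
    constructor <;> linarith only [i1.1, i2.2, i1.2, i2.1]

theorem legendre_count (Ps : Finset ℕ) (B : ℕ) (A : ℤ) (h : ∀ p ∈ Ps, p.Prime ∧ ¬ p ∣ B)
    (m n : ℤ) (hmn : m ≤ n) :
    |(((Ioc m n).filter (fun al : ℤ => ∀ p ∈ Ps, ¬ (p : ℤ) ∣ al * (B : ℤ) + A)).card : ℝ) -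
      ((n : ℝ) - m) * pr Ps| ≤ 2 ^ Ps.card := by
  have := lc_gen B A m n hmn Ps h 1 0 one_pos (fun p _ => Nat.coprime_one_left p)
  simpa only [ge_iff_le, Nat.cast_one, sub_zero, isUnit_one, IsUnit.dvd, and_true, div_one] using this

/-! ## Lower bound -/

theorem lc_card_bound (Ps : Finset ℕ) (h : ∀ p ∈ Ps, p.Prime) :
    (16 : ℕ) ^ Ps.card ≤ 16 ^ 16 * ∏ p ∈ Ps, p := by
  classical
  rw [← prod_const, ← prod_filter_mul_prod_filter_not Ps (fun p => p < 16) (fun _ => 16),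
    ← prod_filter_mul_prod_filter_not Ps (fun p => p < 16) (fun p => p), ← mul_assoc]
  refine Nat.mul_le_mul ?_ ?_
  · have h1 : ∏ _p ∈ Ps.filter (fun p => p < 16), 16 ≤ 16 ^ 16 := by
      rw [prod_const]
      refine Nat.pow_le_pow_right (by norm_num) ?_
      calc (Ps.filter (fun p => p < 16)).card ≤ (range 16).card := by
            refine card_le_card fun p hp => ?_
            rw [mem_range]
            exact (mem_filter.1 hp).2
        _ = 16 := card_range _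
    have h2 : 1 ≤ ∏ p ∈ Ps.filter (fun p => p < 16), p :=
      Nat.one_le_iff_ne_zero.2 (prod_ne_zero_iff.2 fun p hp => (h p (mem_filter.1 hp).1).ne_zero)
    calc ∏ _p ∈ Ps.filter (fun p => p < 16), 16 ≤ 16 ^ 16 * 1 := by simpa only [prod_const, Nat.reducePow, mul_one] using h1
      _ ≤ _ := Nat.mul_le_mul_left _ h2
  · refine prod_le_prod' fun p hp => ?_
    exact not_lt.1 (mem_filter.1 hp).2

theorem lc_pr_ge (Ps : Finset ℕ) (h : ∀ p ∈ Ps, p.Prime) :
    (1 / 2 : ℝ) ^ Ps.card ≤ pr Ps := by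
  unfold pr
  rw [← prod_const]
  refine prod_le_prod (fun _ _ => by norm_num) fun p hp => ?_
  have h2 : (2 : ℝ) ≤ p := by exact_mod_cast (h p hp).two_le
  have h3 : 1 / (p : ℝ) ≤ 1 / 2 := one_div_le_one_div_of_le (by norm_num) h2
  linarith only [h3]

theorem lower_count (η : ℝ) (hη : 0 < η) : ∃ Q₀ : ℕ, ∀ (q B : ℕ) (A : ℤ) (Ps : Finset ℕ),
    Q₀ ≤ q → (∀ p ∈ Ps, p.Prime ∧ p ∣ q ∧ ¬ p ∣ B) → ∀ m n : ℤ, η * q ≤ (n : ℝ) - m →
      1 / 2 * ((n : ℝ) - m) * pr Ps ≤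
        (((Ioc m n).filter (fun al : ℤ => ∀ p ∈ Ps, ¬ (p : ℤ) ∣ al * (B : ℤ) + A)).card : ℝ) := by
  refine ⟨⌈4 * 16 ^ 16 / η ^ 2⌉₊ + 1, ?_⟩
  intro q B A Ps hq hPs m n hmn
  have hq0 : 0 < q := by omega
  have hqR : (0 : ℝ) < q := by exact_mod_cast hq0
  have hηq : 0 < η * q := by (clear * - hη hq0; positivity)
  have hmn' : m ≤ n := by
    have : (m : ℝ) ≤ n := by linarith only [hmn, hηq]
    exact_mod_cast this
  have h1 := legendre_count Ps B A (fun p hp => ⟨(hPs p hp).1, (hPs p hp).2.2⟩) m n hmn'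
  have hq2 : 4 * 16 ^ 16 ≤ η ^ 2 * q := by
    have h2 : 4 * 16 ^ 16 / η ^ 2 ≤ (q : ℝ) := by
      refine (Nat.le_ceil _).trans ?_
      exact_mod_cast (by omega : ⌈4 * 16 ^ 16 / η ^ 2⌉₊ ≤ q)
    rw [div_le_iff₀ (by positivity)] at h2
    linarith only [h2]
  set k := Ps.card with hk
  have h16 : (16 : ℝ) ^ k ≤ 16 ^ 16 * q := by
    have h2 := lc_card_bound Ps fun p hp => (hPs p hp).1
    have h3 : ∏ p ∈ Ps, p ≤ q := Nat.le_of_dvd hq0
      (Finset.prod_primes_dvd q (fun p hp => (hPs p hp).1.prime) (fun p hp => (hPs p hp).2.1))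
    have h4 : (16 : ℕ) ^ k ≤ 16 ^ 16 * q := h2.trans (Nat.mul_le_mul_left _ h3)
    exact_mod_cast h4
  have h4k : 2 * (4 : ℝ) ^ k ≤ η * q := by
    have h5 : (2 * (4 : ℝ) ^ k) ^ 2 ≤ (η * q) ^ 2 := by
      calc (2 * (4 : ℝ) ^ k) ^ 2 = 4 * 16 ^ k := by
            rw [mul_pow, ← pow_mul, mul_comm k 2, pow_mul]
            norm_num
        _ ≤ 4 * (16 ^ 16 * q) := by linarith only [h16]
        _ = (4 * 16 ^ 16) * q := by ring
        _ ≤ (η ^ 2 * q) * q := by (clear * - hq2 hq0; gcongr)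
        _ = (η * q) ^ 2 := by ring
    exact (pow_le_pow_iff_left₀ (by positivity) (by positivity) (by norm_num)).1 h5
  have hpr := lc_pr_ge Ps fun p hp => (hPs p hp).1
  have h6 : (2 : ℝ) ^ k ≤ 1 / 2 * ((n : ℝ) - m) * pr Ps := by
    calc (2 : ℝ) ^ k = 1 / 2 * (2 * (4 : ℝ) ^ k) * (1 / 2) ^ k := by
          rw [one_div, inv_pow]
          rw [show (4 : ℝ) = 2 * 2 by norm_num, mul_pow]
          field_simp
      _ ≤ 1 / 2 * (η * q) * (1 / 2) ^ k := by (clear * - h4k; gcongr)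
      _ ≤ 1 / 2 * ((n : ℝ) - m) * pr Ps := by
          refine mul_le_mul ?_ hpr (by positivity) ?_
          · linarith only [hmn]
          · linarith only [hmn, hηq]
  rw [abs_le] at h1
  linarith only [h6, h1.1]

/-! ## The totient -/

theorem lc_inv_le_exp {p : ℕ} (hp : p.Prime) :
    (1 - 1 / (p : ℝ))⁻¹ ≤ Real.exp (1 / (p : ℝ) + 2 * (1 / (p : ℝ) ^ 2)) := by
  have h2 : (2 : ℝ) ≤ p := by exact_mod_cast hp.two_le
  have h3 : 1 / (p : ℝ) ≤ 1 / 2 := one_div_le_one_div_of_le (by norm_num) h2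
  set x : ℝ := 1 / (p : ℝ) with hx
  have hx0 : 0 < x := by positivity
  have hx2 : 1 / (p : ℝ) ^ 2 = x ^ 2 := by rw [hx, one_div_pow]
  rw [hx2]
  have h4 : (1 - x)⁻¹ ≤ 1 + (x + 2 * x ^ 2) := by
    rw [inv_le_iff_one_le_mul₀ (by linarith only [h3])]
    linarith only [mul_nonneg (sq_nonneg (x : ℝ)) (sub_nonneg.2 h3)]
  have h5 := Real.add_one_le_exp (x + 2 * x ^ 2)
  linarith only [h4, h5]

/-- `n/φ(n) ≤ C (1 + log log n)`. -/
theorem lc_prod_primeFactors_le : ∃ C > 0, ∀ (n : ℕ) (X : ℝ), 0 < n → 1 ≤ X →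
    (n : ℝ) ≤ Real.exp X →
    ∏ p ∈ n.primeFactors, (1 - 1 / (p : ℝ))⁻¹ ≤ C * (1 + Real.log X) := by
  classical
  obtain ⟨C, hC0, hC⟩ := Vale.Agent.P013.sum_inv_prime_le
  have hsq : Summable (fun k : ℕ => 1 / (k : ℝ) ^ 2) :=
    Real.summable_one_div_nat_pow.2 (by norm_num)
  set Z : ℝ := ∑' k : ℕ, 1 / (k : ℝ) ^ 2 with hZ
  refine ⟨Real.exp (C + 2 + 2 * Z) * 4, by positivity, ?_⟩
  intro n X hn hX hnX
  set z : ℕ := ⌈X⌉₊ + 2 with hz
  have hz2 : 2 ≤ z := by omega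
  have hzX : X + 2 ≤ z := by
    have := Nat.le_ceil X
    rw [hz]
    push_cast
    linarith only [this]
  have hzX' : (z : ℝ) ≤ 4 * X := by
    have := Nat.ceil_lt_add_one (by linarith only [hX] : 0 ≤ X)
    rw [hz]
    push_cast
    linarith only [hX, this]
  have hlogn : Real.log n ≤ X := by
    have h1 : (0 : ℝ) < n := by exact_mod_cast hn
    have h2 := Real.log_le_log h1 hnX
    rwa [Real.log_exp] at h2
  have h1 : ∑ p ∈ n.primeFactors, 1 / (p : ℝ) ≤ Real.log (Real.log z) + C + 2 := by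
    rw [← sum_filter_add_sum_filter_not n.primeFactors (fun p : ℕ => X + 1 < (p : ℝ))]
    have h2 := bs_sum_large hn (y := X + 1) (by linarith only [hX])
    have h3 : 2 * Real.log n / (X + 1) ≤ 2 := by
      rw [div_le_iff₀ (by linarith only [hX])]
      linarith only [hlogn]
    have h4 : ∑ p ∈ n.primeFactors.filter (fun p : ℕ => ¬ X + 1 < (p : ℝ)), 1 / (p : ℝ) ≤
        ∑ p ∈ (range z).filter Nat.Prime, 1 / (p : ℝ) := by
      refine sum_le_sum_of_subset_of_nonneg ?_ fun p _ _ => by (clear * -; positivity)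
      intro p hp
      rw [mem_filter, not_lt] at hp
      rw [mem_filter, mem_range]
      refine ⟨?_, Nat.prime_of_mem_primeFactors hp.1⟩
      have : (p : ℝ) < z := by linarith only [hzX, hp.2]
      exact_mod_cast this
    have h5 := hC z hz2
    linarith only [h2, h3, h4, h5]
  have hprod : ∏ p ∈ n.primeFactors, (1 - 1 / (p : ℝ))⁻¹ ≤
      Real.exp (∑ p ∈ n.primeFactors, (1 / (p : ℝ) + 2 * (1 / (p : ℝ) ^ 2))) := by
    rw [Real.exp_sum]
    refine prod_le_prod ?_ ?_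
    · intro p hp
      exact inv_nonneg.2 (bt_one_sub_inv (Nat.prime_of_mem_primeFactors hp)).1.le
    · intro p hp
      exact lc_inv_le_exp (Nat.prime_of_mem_primeFactors hp)
  have hZle : ∑ p ∈ n.primeFactors, 1 / (p : ℝ) ^ 2 ≤ Z :=
    hsq.sum_le_tsum _ (fun k _ => by (clear * -; positivity))
  refine hprod.trans ?_
  rw [sum_add_distrib, ← mul_sum]
  have hlz : 0 < Real.log z := Real.log_pos (by exact_mod_cast (by omega : 1 < z))
  have h2 : Real.log z ≤ 4 * (1 + Real.log X) := by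
    have h3 : Real.log z ≤ Real.log (4 * X) := Real.log_le_log (by (clear * - hX; positivity)) hzX'
    rw [Real.log_mul (by norm_num) (by linarith only [hX])] at h3
    have h4 : Real.log 4 ≤ 4 := by
      have := Real.log_le_sub_one_of_pos (by norm_num : (0 : ℝ) < 4)
      linarith only [this]
    have h5 : 0 ≤ Real.log X := Real.log_nonneg hX
    linarith only [h3, h4, h5]
  calc Real.exp (∑ p ∈ n.primeFactors, 1 / (p : ℝ) + 2 * ∑ p ∈ n.primeFactors, 1 / (p : ℝ) ^ 2)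
      ≤ Real.exp ((C + 2 + 2 * Z) + Real.log (Real.log z)) := by
        apply Real.exp_le_exp.2
        linarith only [h1, hZle]
    _ = Real.exp (C + 2 + 2 * Z) * Real.log z := by rw [Real.exp_add, Real.exp_log hlz]
    _ ≤ Real.exp (C + 2 + 2 * Z) * (4 * (1 + Real.log X)) := by (clear * - h2; gcongr)
    _ = _ := by ring

theorem totient_lower : ∃ c > 0, ∃ X₀ : ℝ, ∀ X : ℝ, X₀ ≤ X → ∀ q : ℕ, 0 < q → (q : ℝ) ≤ X ^ 9 →
    c / Real.log (Real.log X) ≤ (q.totient : ℝ) / q := by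
  obtain ⟨C, hC, h⟩ := lc_prod_primeFactors_le
  refine ⟨1 / (C * 5), by positivity, Real.exp (Real.exp 1), ?_⟩
  intro X hX q hq hqX
  have hX0 : 0 < X := lt_of_lt_of_le (Real.exp_pos _) hX
  have hlX : Real.exp 1 ≤ Real.log X := by
    rw [Real.le_log_iff_exp_le hX0]
    exact hX
  have hlX0 : 0 < Real.log X := lt_of_lt_of_le (Real.exp_pos _) hlX
  have hllX : 1 ≤ Real.log (Real.log X) := by
    rw [Real.le_log_iff_exp_le hlX0]
    exact hlX
  have he1 : (1 : ℝ) ≤ Real.exp 1 := Real.one_le_exp (by norm_num)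
  have h1 := h q (9 * Real.log X) hq (by linarith only [hlX, he1]) (by
    refine hqX.trans (le_of_eq ?_)
    rw [show (9 : ℝ) * Real.log X = ((9 : ℕ) : ℝ) * Real.log X by norm_num, Real.exp_nat_mul,
      Real.exp_log hX0])
  rw [Real.log_mul (by norm_num) hlX0.ne'] at h1
  have h9 : Real.log 9 ≤ 3 := by
    rw [Real.log_le_iff_le_exp (by norm_num)]
    have := Real.exp_one_gt_d9
    calc (9 : ℝ) ≤ (2.7) ^ 3 := by (clear * -; norm_num)
      _ ≤ (Real.exp 1) ^ 3 := by gcongr; linarith only [this]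
      _ = Real.exp 3 := by rw [← Real.exp_nat_mul]; norm_num
  have h2 : ∏ p ∈ q.primeFactors, (1 - 1 / (p : ℝ))⁻¹ ≤ (C * 5) * Real.log (Real.log X) := by
    calc ∏ p ∈ q.primeFactors, (1 - 1 / (p : ℝ))⁻¹ ≤
        C * (1 + (Real.log 9 + Real.log (Real.log X))) := h1
      _ ≤ C * (5 * Real.log (Real.log X)) := by
          refine mul_le_mul_of_nonneg_left ?_ hC.le
          linarith only [hllX, h9]
      _ = _ := by ring
  rw [bt_totient_div_eq hq]
  rw [prod_inv_distrib] at h2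
  have hP : 0 < ∏ p ∈ q.primeFactors, (1 - 1 / (p : ℝ)) :=
    prod_pos fun p hp => (bt_one_sub_inv (Nat.prime_of_mem_primeFactors hp)).1
  rw [inv_le_iff_one_le_mul₀ hP] at h2
  rw [div_div, div_le_iff₀ (by positivity)]
  linarith only [h2]

end Vale.P028
end

section

set_option linter.all false

/-!
# Local lower bound for the full sift
-/

namespace Vale.P028

open Finset

/-- (helper26) local lower bound. -/
theorem coprime_lower : ∃ c > (0 : ℝ), ∃ Q₀ : ℕ, ∀ q : ℕ, Q₀ ≤ q → ∀ (B : ℕ) (A : ℤ), 0 < B →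
    IsCoprime (B : ℤ) A → ∀ (t : ℤ) (n : ℕ), (q : ℝ) ^ (9 / 10 : ℝ) ≤ n →
    c * n * ∏ p ∈ q.primeFactors.filter (fun p => ¬ p ∣ B), (1 - 1 / (p : ℝ)) ≤
      (((Finset.Ico t (t + n)).filter (fun al => Int.gcd (al * B + A) q = 1)).card : ℝ) := by
  classical
  -- `2 * 4^16 * q^(1/2) ≤ q^(9/10)` for large `q`
  obtain ⟨Q₀, hQ₀⟩ : ∃ Q₀ : ℕ, ∀ q : ℕ, Q₀ ≤ q → 2 * 4 ^ 16 * (q : ℝ) ^ (1 / 2 : ℝ) ≤
      (q : ℝ) ^ (9 / 10 : ℝ) := by
    have h1 : Filter.Tendsto (fun n : ℕ => (n : ℝ) ^ (2 / 5 : ℝ)) Filter.atTop Filter.atTop :=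
      (tendsto_rpow_atTop (by norm_num)).comp tendsto_natCast_atTop_atTop
    obtain ⟨Q, hQ⟩ := Filter.eventually_atTop.1 (h1.eventually_ge_atTop (2 * 4 ^ 16 : ℝ))
    refine ⟨max Q 1, fun q hq => ?_⟩
    have hq0 : (0 : ℝ) < q := by
      have : 1 ≤ q := le_trans (le_max_right _ _) hq
      exact_mod_cast this
    calc 2 * 4 ^ 16 * (q : ℝ) ^ (1 / 2 : ℝ) ≤ (q : ℝ) ^ (2 / 5 : ℝ) * (q : ℝ) ^ (1 / 2 : ℝ) := by
          gcongr
          exact hQ q (le_trans (le_max_left _ _) hq)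
      _ = (q : ℝ) ^ (9 / 10 : ℝ) := by
          rw [← Real.rpow_add hq0]
          norm_num
  refine ⟨1 / 2, by norm_num, max Q₀ 1, ?_⟩
  intro q hq B A hB hBA t n hn
  have hq1 : 1 ≤ q := le_trans (le_max_right _ _) hq
  have hq0 : 0 < q := hq1
  have hqR : (0 : ℝ) < q := by exact_mod_cast hq0
  set Ps := q.primeFactors.filter (fun p => ¬ p ∣ B) with hPs
  have hP : ∀ p ∈ Ps, p.Prime ∧ p ∣ q ∧ ¬ p ∣ B := by
    intro p hp
    rw [hPs, mem_filter] at hp
    exact ⟨Nat.prime_of_mem_primeFactors hp.1, Nat.dvd_of_mem_primeFactors hp.1, hp.2⟩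
  have h1 := legendre_count Ps B A (fun p hp => ⟨(hP p hp).1, (hP p hp).2.2⟩) (t - 1) (t - 1 + n)
    (by linarith only [])
  have hset : (Ioc (t - 1) (t - 1 + n)).filter (fun al : ℤ => ∀ p ∈ Ps, ¬ (p : ℤ) ∣ al * (B : ℤ) + A)
      ⊆ (Ico t (t + n)).filter (fun al : ℤ => Int.gcd (al * B + A) q = 1) := by
    intro al hal
    rw [mem_filter, mem_Ioc] at hal
    rw [mem_filter, mem_Ico]
    refine ⟨⟨by linarith only [hal], by linarith only [hal]⟩, ?_⟩
    by_contra hne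
    obtain ⟨p, hp, hpd⟩ := Nat.exists_prime_and_dvd hne
    have hp1 : (p : ℤ) ∣ al * B + A :=
      (Int.natCast_dvd_natCast.2 hpd).trans (Int.gcd_dvd_left (al * (B : ℤ) + A) (q : ℤ))
    have hp2 : (p : ℤ) ∣ (q : ℤ) :=
      (Int.natCast_dvd_natCast.2 hpd).trans (Int.gcd_dvd_right (al * (B : ℤ) + A) (q : ℤ))
    have hp2' : p ∣ q := Int.natCast_dvd_natCast.1 hp2
    by_cases hpB : p ∣ B
    · have h3 : (p : ℤ) ∣ (B : ℤ) := Int.natCast_dvd_natCast.2 hpB
      have h4 : (p : ℤ) ∣ A := by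
        have := dvd_sub hp1 (Dvd.dvd.mul_left h3 al)
        simpa only [add_sub_cancel_left] using this
      have h5 : IsUnit (p : ℤ) := hBA.isUnit_of_dvd' h3 h4
      rw [Int.isUnit_iff] at h5
      have := hp.two_le
      omega
    · exact hal.2 p (by
        rw [hPs, mem_filter, Nat.mem_primeFactors]
        exact ⟨⟨hp, hp2', hq0.ne'⟩, hpB⟩) hp1
  have hcard : (((Ioc (t - 1) (t - 1 + n)).filter
      (fun al : ℤ => ∀ p ∈ Ps, ¬ (p : ℤ) ∣ al * (B : ℤ) + A)).card : ℝ) ≤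
      (((Ico t (t + n)).filter (fun al : ℤ => Int.gcd (al * B + A) q = 1)).card : ℝ) := by
    exact_mod_cast card_le_card hset
  set k := Ps.card with hk
  have h16 : (16 : ℝ) ^ k ≤ 16 ^ 16 * q := by
    have h2 := lc_card_bound Ps fun p hp => (hP p hp).1
    have h3 : ∏ p ∈ Ps, p ≤ q := Nat.le_of_dvd hq0
      (Finset.prod_primes_dvd q (fun p hp => (hP p hp).1.prime) (fun p hp => (hP p hp).2.1))
    have h4 : (16 : ℕ) ^ k ≤ 16 ^ 16 * q := h2.trans (Nat.mul_le_mul_left _ h3)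
    exact_mod_cast h4
  have h4k : 2 * (4 : ℝ) ^ k ≤ n := by
    refine le_trans ?_ hn
    refine le_trans ?_ (hQ₀ q (le_trans (le_max_left _ _) hq))
    have h5 : (4 : ℝ) ^ k ≤ 4 ^ 16 * (q : ℝ) ^ (1 / 2 : ℝ) := by
      have h6 : ((4 : ℝ) ^ k) ^ 2 ≤ (4 ^ 16 * (q : ℝ) ^ (1 / 2 : ℝ)) ^ 2 := by
        have e1 : ((4 : ℝ) ^ k) ^ 2 = 16 ^ k := by
          rw [← pow_mul, mul_comm k 2, pow_mul]
          norm_num
        have e2 : (4 ^ 16 * (q : ℝ) ^ (1 / 2 : ℝ)) ^ 2 = 16 ^ 16 * q := by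
          rw [mul_pow, ← Real.rpow_natCast ((q : ℝ) ^ (1 / 2 : ℝ)), ← Real.rpow_mul hqR.le]
          norm_num
        rw [e1, e2]
        exact h16
      exact (pow_le_pow_iff_left₀ (by positivity) (by positivity) (by norm_num)).1 h6
    calc 2 * (4 : ℝ) ^ k ≤ 2 * (4 ^ 16 * (q : ℝ) ^ (1 / 2 : ℝ)) := by linarith only [h5]
      _ = _ := by ring
  have hpr := lc_pr_ge Ps fun p hp => (hP p hp).1
  have h6 : (2 : ℝ) ^ k ≤ 1 / 2 * (n : ℝ) * pr Ps := by
    calc (2 : ℝ) ^ k = 1 / 2 * (2 * (4 : ℝ) ^ k) * (1 / 2) ^ k := by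
          rw [one_div, inv_pow]
          rw [show (4 : ℝ) = 2 * 2 by norm_num, mul_pow]
          field_simp
      _ ≤ 1 / 2 * (n : ℝ) * (1 / 2) ^ k := by (clear * - h4k; gcongr)
      _ ≤ 1 / 2 * (n : ℝ) * pr Ps := by
          refine mul_le_mul_of_nonneg_left hpr (by (clear * -; positivity))
  rw [abs_le] at h1
  have h7 := h1.1
  push_cast at h7
  have h8 : ∏ p ∈ Ps, (1 - 1 / (p : ℝ)) = pr Ps := rfl
  rw [h8]
  have h9 : ((t : ℝ) - 1 + n - (t - 1)) * pr Ps = n * pr Ps := by ring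
  rw [h9] at h7
  linarith only [h7, h6, hcard]

end Vale.P028
end

section

/-!
# Definitions for Theorem N (no loss when the arcs of the support are separated)

`θ = 501/1000` throughout.  A window is given by `γ`, a level `s` and a size `V`.
-/

namespace Vale.P028

open Finset MeasureTheory

/-- precision of the window -/
noncomputable def tb (s V : ℝ) : ℝ := s ^ (27 / 32 : ℝ) / V

/-- pairs of cofactors of the window -/
def NWin (γ s V : ℝ) (u v : ℕ) : Prop :=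
  V ≤ max (u : ℝ) v ∧ max (u : ℝ) v ≤ V * s ^ (-(3 / 16) : ℝ) ∧
    s ^ (1 / 32 : ℝ) * max (u : ℝ) v ≤ min (u : ℝ) v ∧
    distInt (((u : ℝ) - v) * γ) < 2 * s ∧ Far γ s u v

/-- `a` is bad: a small multiple of `a γ` is very close to an integer. -/
def NBad (γ s V : ℝ) (a : ℕ) : Prop :=
  ∃ h : ℕ, 0 < h ∧ (h : ℝ) ≤ s ^ (-(1 / 16) : ℝ) ∧ distInt ((h : ℝ) * a * γ) < a * tb s V

/-- denominators of the fractions within `tb` of `γ` -/
def NB (γ s V : ℝ) (B : ℕ) : Prop :=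
  0 < B ∧ Int.gcd (round ((B : ℝ) * γ)) B = 1 ∧ distInt ((B : ℝ) * γ) < B * tb s V

/-- special cofactors -/
def NStar (γ s V : ℝ) (u : ℕ) : Prop :=
  ∃ B h : ℕ, s ^ (-(1 / 4) : ℝ) < B ∧ (B : ℝ) ≤ V ^ (1 / 3 : ℝ) ∧ NB γ s V B ∧ 0 < h ∧
    (h : ℝ) ≤ s ^ (-(1 / 16) : ℝ) ∧ B ∣ h * u

/-- the allowed pairs -/
def NOm (γ s V : ℝ) (u v : ℕ) : Prop :=
  NWin γ s V u v ∧ ¬ NStar γ s V u ∧ ¬ NStar γ s V v

/-- dead states -/
def NDead (γ s V : ℝ) (a b : ℕ) : Prop :=
  ∀ m n : ℕ, 0 < m → 0 < n → ¬ NOm γ s V (a * m) (b * n)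

/-- final states -/
def NFin (γ s V : ℝ) (a b : ℕ) : Prop :=
  (∃ m n : ℕ, 0 < m ∧ 0 < n ∧ (m : ℝ) ≤ s ^ (-(1 / 64) : ℝ) ∧ (n : ℝ) ≤ s ^ (-(1 / 64) : ℝ) ∧
    NOm γ s V (a * m) (b * n)) ∨ NBad γ s V a ∨ NBad γ s V b

open Classical in
/-- the density of a state -/
noncomputable def nsig (γ s V : ℝ) (a b : ℕ) : ℝ :=
  if NDead γ s V a b then 0 else if NFin γ s V a b then 1 else s ^ (1 / 150 : ℝ)

/-- the large primes are the primes `> nw s V` -/
noncomputable def nw (s V : ℝ) : ℝ := Real.exp (Real.log V / Real.log (1 / s))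

/-- the hypotheses on a window -/
def NHyp (s₀ s V : ℝ) : Prop :=
  0 < s ∧ s ≤ s₀ ∧ 0 < V ∧ 100 * Real.log (1 / s) ^ 2 ≤ Real.log V

/-- Single prime inequality with general growth `W`. -/
def SPw (θ : ℝ) (W : ℕ → ℝ) (x c : ℝ) : Prop :=
  ∀ (N : ℕ) (φ χ : ℕ → ℝ), (∀ i, 0 ≤ φ i) → (∀ i, 0 ≤ χ i) →
    (∑ i ∈ range (N + 1), ∑ j ∈ range (N + 1), W (ad i j) * (φ i * χ j) ^ θ
      ≤ c * ((∑ i ∈ range (N + 1), φ i) * ∑ j ∈ range (N + 1), χ j) ^ θ) ∨
    ∃ k ≤ N, (if k = 0 then (1 : ℝ) else (1 - x) ^ (2 * (1 - θ))) *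
        ((∑ i ∈ Icc k N, φ i) * ∑ j ∈ Icc k N, χ j) ^ θ
      + ∑ i ∈ range (N + 1), ∑ j ∈ range (N + 1),
          (if min i j = k then 0 else W (ad i j) * (φ i * χ j) ^ θ)
      ≤ c * ((∑ i ∈ range (N + 1), φ i) * ∑ j ∈ range (N + 1), χ j) ^ θ

/-- the sizes of a pair -/
def Szs (ψ : ℕ → ℝ) (s : ℝ) (q r : ℕ) : Prop :=
  (cofac r q : ℝ) * ψ q ≤ s ∧ (cofac q r : ℝ) * ψ r ≤ s

/-- the arcs `ψ q / q`, `ψ r / r` are separated -/
def ArcSep (c₀ : ℝ) (ψ : ℕ → ℝ) (q r : ℕ) : Prop :=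
  c₀ * ((r : ℝ) / q) ^ (1 / 4 : ℝ) ≤ max (ψ q / q / (ψ r / r)) (ψ r / r / (ψ q / q))

/-! ### different denominators -/

/-- largest prime factor of `v` that does not divide `B` (`0` if there is none) -/
noncomputable def gpB (B v : ℕ) : ℕ := (v.primeFactors.filter (fun p => ¬ p ∣ B)).sup id

open Classical in
/-- kernel of the pairs with different denominators `B < B'` -/
noncomputable def KD (B B' u v : ℕ) : ℝ :=
  if B < B' ∧ B' / Nat.gcd B B' ∣ u ∧
      (∀ p ∈ u.primeFactors, p ∣ B' ∨ (p : ℝ) ≤ 20 * Real.log B' + 4) then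
    GG B * GG B' * (((u : ℝ) * v) ^ (-(1 / 4) : ℝ) *
      (min 1 ((B' : ℝ) ^ (5 / 2 : ℝ) * Real.exp (-((gpB B v : ℝ) - 2) / 4))) ^ (1 / 2 : ℝ))
  else 0

end Vale.P028
end

section

/-!
# Simple facts on windows
-/

namespace Vale.P028

open Finset MeasureTheory

theorem distInt_neg' (x : ℝ) : distInt (-x) = distInt x := by
  unfold distInt
  apply le_antisymm
  · have h := round_le (-x) (-(round x))
    have e : |-x - ((-(round x) : ℤ) : ℝ)| = |x - round x| := by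
      push_cast
      rw [← abs_neg]
      congr 1
      ring
    rw [e] at h
    exact h
  · have h := round_le x (-(round (-x)))
    have e : |x - ((-(round (-x)) : ℤ) : ℝ)| = |-x - round (-x)| := by
      push_cast
      rw [← abs_neg]
      congr 1
      ring
    rw [e] at h
    exact h

theorem NWin_comm {γ s V : ℝ} {u v : ℕ} (h : NWin γ s V u v) : NWin γ s V v u := by
  obtain ⟨h1, h2, h3, h4, h5⟩ := h
  refine ⟨by rw [max_comm]; exact h1, by rw [max_comm]; exact h2,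
    by rw [max_comm, min_comm]; exact h3, ?_, ?_⟩
  · have e : ((v : ℝ) - u) * γ = -(((u : ℝ) - v) * γ) := by ring
    rw [e, distInt_neg']
    exact h4
  · intro B hB
    rw [max_comm]
    exact h5 B hB

theorem NOm_comm {γ s V : ℝ} {u v : ℕ} (h : NOm γ s V u v) : NOm γ s V v u :=
  ⟨NWin_comm h.1, h.2.2, h.2.1⟩

theorem NDead_comm {γ s V : ℝ} {a b : ℕ} (h : NDead γ s V a b) : NDead γ s V b a :=
  fun m n hm hn h' => h n m hn hm (NOm_comm h')

theorem NFin_comm {γ s V : ℝ} {a b : ℕ} (h : NFin γ s V a b) : NFin γ s V b a := by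
  rcases h with ⟨m, n, hm, hn, h1, h2, h3⟩ | h | h
  · exact Or.inl ⟨n, m, hn, hm, h2, h1, NOm_comm h3⟩
  · exact Or.inr (Or.inr h)
  · exact Or.inr (Or.inl h)

theorem nsig_nonneg {γ s V : ℝ} (hs : 0 < s) (a b : ℕ) : 0 ≤ nsig γ s V a b := by
  classical
  unfold nsig
  split_ifs
  · exact le_rfl
  · exact zero_le_one
  · positivity

theorem nsig_le_one {γ s V : ℝ} (hs : 0 < s) (hs1 : s ≤ 1) (a b : ℕ) : nsig γ s V a b ≤ 1 := by
  classical
  unfold nsig
  split_ifs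
  · exact zero_le_one
  · exact le_rfl
  · exact Real.rpow_le_one hs.le hs1 (by norm_num)

theorem nsig_dead {γ s V : ℝ} {a b : ℕ} (h : NDead γ s V a b) : nsig γ s V a b = 0 := by
  classical
  unfold nsig
  rw [if_pos h]

theorem nsig_fin {γ s V : ℝ} {a b : ℕ} (h : ¬ NDead γ s V a b) (h' : NFin γ s V a b) :
    nsig γ s V a b = 1 := by
  classical
  unfold nsig
  rw [if_neg h, if_pos h']

theorem nsig_mid {γ s V : ℝ} {a b : ℕ} (h : ¬ NDead γ s V a b) (h' : ¬ NFin γ s V a b) :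
    nsig γ s V a b = s ^ (1 / 150 : ℝ) := by
  classical
  unfold nsig
  rw [if_neg h, if_neg h']

theorem NDead_mul_left {γ s V : ℝ} {a b c : ℕ} (hc : 0 < c) (h : NDead γ s V a b) :
    NDead γ s V (a * c) b := by
  intro m n hm hn h'
  rw [mul_assoc] at h'
  exact h (c * m) n (Nat.mul_pos hc hm) hn h'

theorem NDead_mul_right {γ s V : ℝ} {a b c : ℕ} (hc : 0 < c) (h : NDead γ s V a b) :
    NDead γ s V a (b * c) := by
  intro m n hm hn h'
  rw [mul_assoc] at h'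
  exact h m (c * n) hm (Nat.mul_pos hc hn) h'

/-- states with a large multiplier are dead -/
theorem NDead_of_large {γ s V : ℝ} {a b : ℕ} (ha : V * s ^ (-(3 / 16) : ℝ) < a) :
    NDead γ s V a b := by
  intro m n hm _ h
  have h1 := h.1.2.1
  have hm1 : (1 : ℝ) ≤ m := by exact_mod_cast hm
  have h2 : (a : ℝ) ≤ ((a * m : ℕ) : ℝ) := by
    push_cast
    have h0 : (0 : ℝ) ≤ a := by positivity
    linarith only [mul_nonneg (sub_nonneg.2 hm1) (sub_nonneg.2 h0)]
  have h3 := le_max_left (((a * m : ℕ) : ℕ) : ℝ) (((b * n : ℕ) : ℕ) : ℝ)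
  linarith only [h1, h2, h3, ha]

theorem NHyp.mono {s₀ s₁ s V : ℝ} (h : NHyp s₀ s V) (h' : s₀ ≤ s₁) : NHyp s₁ s V :=
  ⟨h.1, h.2.1.trans h', h.2.2⟩

theorem LBound_mono {Ω : ℕ → ℕ → Prop} {θ : ℝ} {K K' : ℕ → ℕ → ℝ} {P : Finset ℕ} {x : ℕ → ℝ}
    (h : LBound Ω θ K P x 1) (hK : ∀ a b : ℕ, 0 < a → 0 < b → K a b ≤ K' a b) :
    LBound Ω θ K' P x 1 := by
  intro a b ha hb ψ₁ ψ₂ f g s₁ s₂ N hs₁ hs₂ hψ₁ hψ₂ hf hg
  refine (h a b ha hb ψ₁ ψ₂ f g s₁ s₂ N hs₁ hs₂ hψ₁ hψ₂ hf hg).trans ?_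
  have h1 : 0 ≤ ((∑ q ∈ Icc 1 N, f q) * ∑ r ∈ Icc 1 N, g r) ^ θ :=
    Real.rpow_nonneg (mul_nonneg (sum_nonneg fun q _ => (hf q).1)
      (sum_nonneg fun r _ => (hg r).1)) _
  have h2 : 0 ≤ (s₁ * s₂) ^ (1 - θ) := Real.rpow_nonneg (mul_nonneg hs₁.le hs₂.le) _
  have h3 := hK a b ha hb
  gcongr

end Vale.P028
end

section

/-!
# One prime step of the induction of Theorem N (section N2)
-/

namespace Vale.P028

open Finset

theorem n2_exact_cell {Ω : ℕ → ℕ → Prop} {θ : ℝ} {K : ℕ → ℕ → ℝ} {P : Finset ℕ} (hP : ∀ p ∈ P, p.Prime)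
    {x : ℕ → ℝ} {M : ℝ} (hM : 0 ≤ M) (ih : LBound Ω θ K P x M) {p : ℕ} (hp : p.Prime)
    (hpP : p ∉ P) (hxp : 0 ≤ x p ∧ x p < 1) (hx : ∀ p ∈ P, x p < 1) 
    {a b : ℕ} (ha : 0 < a) (hb : 0 < b) {W : ℕ → ℝ}
    (hgrow1 : ∀ l, K (a * p ^ l) b ≤ W l * K a b)
    (hgrow2 : ∀ l, K a (b * p ^ l) ≤ W l * K a b) {ψ₁ ψ₂ f h : ℕ → ℝ} {s₁ s₂ : ℝ} {N : ℕ} (hs₁ : 0 < s₁)
    (hs₂ : 0 < s₂) (hψ₁ : ∀ q, 0 ≤ ψ₁ q) (hψ₂ : ∀ q, 0 ≤ ψ₂ q)
    (hf : ∀ q, 0 ≤ f q ∧ f q ≤ ψ₁ q * wt x (insert p P) q)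
    (hh : ∀ r, 0 ≤ h r ∧ h r ≤ ψ₂ r * wt x (insert p P) r) (i j : ℕ) :
    psum (fun q r => Edge Ω (insert p P) a b ψ₁ ψ₂ s₁ s₂ q r ∧ q.factorization p = i ∧
        r.factorization p = j) N f h ≤
      M * (s₁ * s₂) ^ (1 - θ) * K a b * (W (ad i j) *
        ((∑ q ∈ Icc 1 N, if q.factorization p = i then f q else 0) *
          ∑ r ∈ Icc 1 N, if r.factorization p = j then h r else 0) ^ θ) := by
  have hw : ∀ k q, wt x (insert p P) (p ^ k * q) ≤ wt x P q := by
    intro k q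
    rw [wt_insert hpP, wt_mul_pow hP hp hpP]
    have h0 := wt_nonneg hx q
    split_ifs
    · nlinarith only [hxp, h0]
    · rw [one_mul]
  have hsum : ∀ (g : ℕ → ℝ) (i : ℕ), ∑ q ∈ Icc 1 N, (if q.factorization p = i then g q else 0)
      = ∑ q ∈ Icc 1 N, (if ¬ p ∣ q ∧ p ^ i * q ≤ N then g (p ^ i * q) else 0) := by
    intro g i
    rw [sum_reindex p i N hp.pos]
    · refine sum_congr rfl fun q hq => ?_
      have hq0 : 0 < q := (mem_Icc.mp hq).1
      rw [fac_mul hp i hq0]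
      have e := fac_eq_zero hp hq0
      by_cases h1 : p ∣ q
      · have : q.factorization p ≠ 0 := fun h2 => (e.mp h2) h1
        simp only [Nat.add_eq_left, this, ↓reduceIte, ite_self, h1, not_true_eq_false, false_and]
      · have : q.factorization p = 0 := e.mpr h1
        simp only [this, add_zero, ↓reduceIte, h1, not_false_eq_true, true_and]
    · intro q hq
      rw [if_neg]
      intro h1
      exact hq (pow_dvd_of_le h1.ge)
  rw [hsum f i, hsum h j]
  set f' : ℕ → ℝ := fun q => if ¬ p ∣ q ∧ p ^ i * q ≤ N then f (p ^ i * q) else 0 with hf'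
  set h' : ℕ → ℝ := fun r => if ¬ p ∣ r ∧ p ^ j * r ≤ N then h (p ^ j * r) else 0 with hh'
  have hf'0 : ∀ q, 0 ≤ f' q ∧ f' q ≤ ψ₁ (p ^ i * q) * wt x P q := by
    intro q
    simp only [hf']
    split_ifs with h1
    · exact ⟨(hf _).1, (hf _).2.trans (mul_le_mul_of_nonneg_left (hw i q) (hψ₁ _))⟩
    · exact ⟨le_refl _, mul_nonneg (hψ₁ _) (wt_nonneg hx q)⟩
  have hh'0 : ∀ r, 0 ≤ h' r ∧ h' r ≤ ψ₂ (p ^ j * r) * wt x P r := by
    intro r
    simp only [hh']
    split_ifs with h1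
    · exact ⟨(hh _).1, (hh _).2.trans (mul_le_mul_of_nonneg_left (hw j r) (hψ₂ _))⟩
    · exact ⟨le_refl _, mul_nonneg (hψ₂ _) (wt_nonneg hx r)⟩
  have key := ih (a * p ^ (i - j)) (b * p ^ (j - i)) (Nat.mul_pos ha (pow_pos hp.pos _))
    (Nat.mul_pos hb (pow_pos hp.pos _)) (fun q => ψ₁ (p ^ i * q)) (fun r => ψ₂ (p ^ j * r))
    f' h' s₁ s₂ N hs₁ hs₂ (fun q => hψ₁ _) (fun r => hψ₂ _) hf'0 hh'0
  have h1 : psum (fun q r => Edge Ω (insert p P) a b ψ₁ ψ₂ s₁ s₂ q r ∧ q.factorization p = i ∧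
        r.factorization p = j) N f h ≤ Lam Ω P (a * p ^ (i - j)) (b * p ^ (j - i))
          (fun q => ψ₁ (p ^ i * q)) (fun r => ψ₂ (p ^ j * r)) s₁ s₂ N f' h' := by
    rw [psum_reindex p i j N hp.pos]
    · refine psum_le_psum (fun q => (hf'0 q).1) (fun r => (hh'0 r).1) ?_
      intro q r hq hr ⟨h2, h3, h4⟩
      rw [fac_mul hp i hq] at h3
      rw [fac_mul hp j hr] at h4
      have h5 : ¬ p ∣ q := (fac_eq_zero hp hq).mp (by omega)
      have h6 : ¬ p ∣ r := (fac_eq_zero hp hr).mp (by (clear * - h4; omega))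
      refine ⟨?_, Or.inl (edge_exact hp h5 h6 h2)⟩
      simp only [hf', hh', h5, h6, not_false_eq_true, true_and]
      exact le_refl _
    · intro q r _ _ ⟨_, h3, h4⟩
      exact ⟨pow_dvd_of_le h3.ge, pow_dvd_of_le h4.ge⟩
  have h2 : K (a * p ^ (i - j)) (b * p ^ (j - i)) ≤ W (ad i j) * K a b := by
    unfold ad
    rcases le_total i j with hij | hij
    · rw [Nat.sub_eq_zero_of_le hij, pow_zero, mul_one, Nat.zero_add]
      exact hgrow2 _
    · rw [Nat.sub_eq_zero_of_le hij, pow_zero, mul_one, Nat.add_zero]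
      exact hgrow1 _
  have hS : 0 ≤ ((∑ q ∈ Icc 1 N, f' q) * ∑ r ∈ Icc 1 N, h' r) ^ θ :=
    Real.rpow_nonneg (mul_nonneg (sum_nonneg fun q _ => (hf'0 q).1)
      (sum_nonneg fun r _ => (hh'0 r).1)) _
  have hA : 0 ≤ M * (s₁ * s₂) ^ (1 - θ) :=
    mul_nonneg hM (Real.rpow_nonneg (mul_nonneg hs₁.le hs₂.le) _)
  calc _ ≤ _ := h1
    _ ≤ _ := key
    _ ≤ M * (s₁ * s₂) ^ (1 - θ) * (W (ad i j) * K a b) *
        ((∑ q ∈ Icc 1 N, f' q) * ∑ r ∈ Icc 1 N, h' r) ^ θ :=
      mul_le_mul_of_nonneg_right (mul_le_mul_of_nonneg_left h2 hA) hS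
    _ = _ := by ring

/-- One prime step with state dependent growth. -/
theorem lb_step {Ω : ℕ → ℕ → Prop} {θ : ℝ} (hθ : 1 / 2 < θ) (hθ1 : θ < 1) {K K' : ℕ → ℕ → ℝ}
    {P : Finset ℕ} {x : ℕ → ℝ} {p : ℕ} (hP : ∀ p' ∈ P, p'.Prime) (hp : p.Prime) (hpP : p ∉ P)
    (hx : ∀ p' ∈ insert p P, 0 ≤ x p' ∧ x p' < 1) (hK : ∀ a b, 0 ≤ K a b)
    (ih : LBound Ω θ K P x 1)
    (hstep : ∀ a b : ℕ, 0 < a → 0 < b → ∃ (W : ℕ → ℝ) (c : ℝ), W 0 = 1 ∧ (∀ l, 0 ≤ W l) ∧ 0 ≤ c ∧
      (∀ l, K (a * p ^ l) b ≤ W l * K a b) ∧ (∀ l, K a (b * p ^ l) ≤ W l * K a b) ∧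
      SPw θ W (x p) c ∧ c * K a b ≤ K' a b) :
    LBound Ω θ K' (insert p P) x 1 := by
  have _ := hθ
  have _ := hθ1
  have hself : p ∈ insert p P := mem_insert_self p P
  have hxP : ∀ p' ∈ P, x p' < 1 := fun p' h => (hx p' (mem_insert_of_mem h)).2
  intro a b ha hb ψ₁ ψ₂ f h s₁ s₂ N hs₁ hs₂ hψ₁ hψ₂ hf hh
  obtain ⟨W, c, _, _, _, hg1, hg2, hSP, hc⟩ := hstep a b ha hb
  have hcell := fun i j => n2_exact_cell hP zero_le_one ih
    hp hpP (hx p hself) hxP ha hb hg1 hg2 hs₁ hs₂ hψ₁ hψ₂ hf hh (N := N) i j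
  have hL := fun k => L_cell hP ih
    hp hpP (hx p hself) hxP ha hb hs₁ hs₂ hψ₁ hψ₂ hf hh (N := N) k
  set φ : ℕ → ℝ := fun i => ∑ q ∈ Icc 1 N, if q.factorization p = i then f q else 0 with hφ
  set χ : ℕ → ℝ := fun j => ∑ r ∈ Icc 1 N, if r.factorization p = j then h r else 0 with hχ
  have hφ0 : ∀ i, 0 ≤ φ i := by
    intro i
    refine sum_nonneg fun q _ => ?_
    split_ifs
    · exact (hf q).1
    · exact le_refl _
  have hχ0 : ∀ i, 0 ≤ χ i := by
    intro i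
    refine sum_nonneg fun q _ => ?_
    split_ifs
    · exact (hh q).1
    · exact le_refl _
  have hφs : ∀ k, ∑ i ∈ Icc k N, φ i = ∑ q ∈ Icc 1 N, if k ≤ q.factorization p then f q else 0 :=
    fun k => sum_cells N p f k
  have hχs : ∀ k, ∑ i ∈ Icc k N, χ i = ∑ q ∈ Icc 1 N, if k ≤ q.factorization p then h q else 0 :=
    fun k => sum_cells N p h k
  have hφt : ∑ i ∈ range (N + 1), φ i = ∑ q ∈ Icc 1 N, f q := by
    rw [Nat.range_succ_eq_Icc_zero, hφs 0]
    simp only [zero_le, ↓reduceIte]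
  have hχt : ∑ i ∈ range (N + 1), χ i = ∑ q ∈ Icc 1 N, h q := by
    rw [Nat.range_succ_eq_Icc_zero, hχs 0]
    simp only [zero_le, ↓reduceIte]
  have hs0 : 0 ≤ (s₁ * s₂) ^ (1 - θ) := Real.rpow_nonneg (mul_nonneg hs₁.le hs₂.le) _
  have hA : 0 ≤ 1 * (s₁ * s₂) ^ (1 - θ) * K a b :=
    mul_nonneg (mul_nonneg zero_le_one hs0) (hK a b)
  have hF : 0 ≤ ((∑ q ∈ Icc 1 N, f q) * ∑ r ∈ Icc 1 N, h r) ^ θ :=
    Real.rpow_nonneg (mul_nonneg (sum_nonneg fun q _ => (hf q).1)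
      (sum_nonneg fun r _ => (hh r).1)) _
  have goal : ∀ T : ℝ, Lam Ω (insert p P) a b ψ₁ ψ₂ s₁ s₂ N f h ≤
      (1 * (s₁ * s₂) ^ (1 - θ) * K a b) * T →
      T ≤ c * ((∑ i ∈ range (N + 1), φ i) * ∑ j ∈ range (N + 1), χ j) ^ θ →
      Lam Ω (insert p P) a b ψ₁ ψ₂ s₁ s₂ N f h ≤
        1 * (s₁ * s₂) ^ (1 - θ) * K' a b *
        ((∑ q ∈ Icc 1 N, f q) * ∑ r ∈ Icc 1 N, h r) ^ θ := by
    intro T h1 h2
    rw [hφt, hχt] at h2
    calc _ ≤ _ := h1
      _ ≤ (1 * (s₁ * s₂) ^ (1 - θ) * K a b) *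
          (c * ((∑ q ∈ Icc 1 N, f q) * ∑ r ∈ Icc 1 N, h r) ^ θ) :=
        mul_le_mul_of_nonneg_left h2 hA
      _ = (s₁ * s₂) ^ (1 - θ) * ((∑ q ∈ Icc 1 N, f q) * ∑ r ∈ Icc 1 N, h r) ^ θ *
          (c * K a b) := by ring
      _ ≤ (s₁ * s₂) ^ (1 - θ) * ((∑ q ∈ Icc 1 N, f q) * ∑ r ∈ Icc 1 N, h r) ^ θ *
          K' a b := mul_le_mul_of_nonneg_left hc (mul_nonneg hs0 hF)
      _ = _ := by ring
  rcases hSP N φ χ hφ0 hχ0 with hs | ⟨k, hk, hs⟩
  · refine goal _ ?_ hs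
    unfold Lam
    rw [psum_eq_cells _ N p, mul_sum]
    refine sum_le_sum fun i _ => ?_
    rw [mul_sum]
    exact sum_le_sum fun j _ => hcell i j
  · refine goal _ ?_ hs
    unfold Lam
    rw [psum_eq_L _ N p k, mul_add]
    refine add_le_add ?_ ?_
    · rw [hφs, hχs]
      exact hL k
    · rw [mul_sum]
      refine sum_le_sum fun i _ => ?_
      rw [mul_sum]
      refine sum_le_sum fun j _ => ?_
      split_ifs
      · rw [mul_zero]
      · exact hcell i j

end Vale.P028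
end

section

/-!
# Single prime inequality with general growth (Theorem N, section N1)
-/

namespace Vale.P028

open Finset

/-- hypotheses on the growth `W` -/
structure N1Hyp (θ B : ℝ) (W ω : ℕ → ℝ) : Prop where
  w_zero : W 0 = 1
  w_nonneg : ∀ l, 0 ≤ W l
  o_nonneg : ∀ l, 0 ≤ ω l
  w_le : ∀ l, 1 ≤ l → W l ≤ (ω l) ^ (1 - θ)
  o_sum : ∀ n, ∑ l ∈ Icc 1 n, ω l ≤ B
  w_sum : ∀ n, ∑ l ∈ Icc 1 n, W l ≤ 2 * B ^ (1 - θ)

theorem n1_sum_lt {f : ℕ → ℝ} {M : ℝ} (hM : ∀ n, ∑ l ∈ Icc 1 n, f l ≤ M) (k : ℕ) :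
    ∑ j ∈ range k, f (ad k j) ≤ M := by
  refine le_trans (le_of_eq ?_) (hM k)
  refine Finset.sum_nbij' (fun j => k - j) (fun l => k - l) ?_ ?_ ?_ ?_ ?_
  · intro j hj
    have := Finset.mem_range.1 hj
    exact Finset.mem_Icc.2 ⟨by omega, by omega⟩
  · intro l hl
    have := Finset.mem_Icc.1 hl
    exact Finset.mem_range.2 (by omega)
  · intro j hj
    have := Finset.mem_range.1 hj
    omega
  · intro l hl
    have := Finset.mem_Icc.1 hl
    omega
  · intro j hj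
    have := Finset.mem_range.1 hj
    congr 1
    unfold ad
    omega

theorem n1_sum_off {f : ℕ → ℝ} {M : ℝ} (hf : ∀ l, 0 ≤ f l)
    (hM : ∀ n, ∑ l ∈ Icc 1 n, f l ≤ M) (i : ℕ) (J : Finset ℕ) (hJ : ∀ j ∈ J, j ≠ i) :
    ∑ j ∈ J, f (ad i j) ≤ 2 * M := by
  rw [← Finset.sum_filter_add_sum_filter_not J (fun j => j < i)]
  have h1 : ∑ j ∈ J.filter (fun j => j < i), f (ad i j) ≤ M := by
    refine le_trans (Finset.sum_le_sum_of_subset_of_nonneg ?_ fun j _ _ => hf _) (n1_sum_lt hM i)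
    intro j hj
    exact Finset.mem_range.2 (Finset.mem_filter.1 hj).2
  have h2 : ∑ j ∈ J.filter (fun j => ¬ j < i), f (ad i j) ≤ M := by
    have e : ∑ j ∈ J.filter (fun j => ¬ j < i), f (ad i j)
        = ∑ l ∈ (J.filter (fun j => ¬ j < i)).image (fun j => j - i), f l := by
      rw [Finset.sum_image]
      · refine Finset.sum_congr rfl fun j hj => ?_
        have := (Finset.mem_filter.1 hj).2
        congr 1
        unfold ad
        omega
      · intro a ha b hb hab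
        have h3 := (Finset.mem_filter.1 (Finset.mem_coe.1 ha)).2
        have h4 := (Finset.mem_filter.1 (Finset.mem_coe.1 hb)).2
        simp only at hab
        omega
    rw [e]
    refine le_trans (Finset.sum_le_sum_of_subset_of_nonneg ?_ fun j _ _ => hf _)
      (hM (J.sup id))
    intro l hl
    obtain ⟨j, hj, rfl⟩ := Finset.mem_image.1 hl
    obtain ⟨hj1, hj2⟩ := Finset.mem_filter.1 hj
    have h3 := hJ j hj1
    have h4 : j ≤ J.sup id := Finset.le_sup (f := id) hj1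
    exact Finset.mem_Icc.2 ⟨by omega, by omega⟩
  linarith only [h1, h2]

/-- Row sums of the whole kernel. -/
theorem n1_sum_all {θ B : ℝ} {W ω : ℕ → ℝ} (h : N1Hyp θ B W ω) (hb2 : B ^ (1 - θ) ≤ 1 / 2)
    (i : ℕ) (J : Finset ℕ) : ∑ j ∈ J, W (ad i j) ≤ 3 := by
  by_cases hi : i ∈ J
  · rw [← Finset.add_sum_erase J _ hi, ad_self', h.w_zero]
    have := n1_sum_off h.w_nonneg h.w_sum i (J.erase i) (fun j hj => Finset.ne_of_mem_erase hj)
    linarith only [this, hb2]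
  · have := n1_sum_off h.w_nonneg h.w_sum i J (fun j hj h => hi (h ▸ hj))
    linarith only [this, hb2]

/-- Two sequences, normalised version with an arbitrary bound for the row sums. -/
theorem n1_bilin_norm {θ K : ℝ} (hθ : 1 / 2 ≤ θ) (I J : Finset ℕ)
    (w : ℕ → ℕ → ℝ) (hw : ∀ i j, 0 ≤ w i j) (φ χ : ℕ → ℝ) (hφ : ∀ i, 0 ≤ φ i)
    (hχ : ∀ i, 0 ≤ χ i) (hφ1 : ∑ i ∈ I, φ i ≤ 1) (hχ1 : ∑ j ∈ J, χ j ≤ 1)
    (h1 : ∀ i ∈ I, ∑ j ∈ J, w i j ≤ K) (h2 : ∀ j ∈ J, ∑ i ∈ I, w i j ≤ K) (hK : 0 ≤ K) :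
    ∑ i ∈ I, ∑ j ∈ J, w i j * (φ i * χ j) ^ θ ≤ K := by
  have hterm : ∀ i ∈ I, ∀ j ∈ J, w i j * (φ i * χ j) ^ θ ≤
      φ i / 2 * w i j + χ j / 2 * w i j := by
    intro i hi j hj
    have hφi : φ i ≤ 1 := (Finset.single_le_sum (fun i _ => hφ i) hi).trans hφ1
    have hχj : χ j ≤ 1 := (Finset.single_le_sum (fun i _ => hχ i) hj).trans hχ1
    have e1 : (φ i) ^ (2 * θ) ≤ φ i := by
      rcases (hφ i).eq_or_lt with h | h
      · rw [← h, Real.zero_rpow (by linarith only [hθ])]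
      · calc (φ i) ^ (2 * θ) ≤ (φ i) ^ (1 : ℝ) :=
            Real.rpow_le_rpow_of_exponent_ge h hφi (by linarith only [hθ])
          _ = φ i := Real.rpow_one _
    have e2 : (χ j) ^ (2 * θ) ≤ χ j := by
      rcases (hχ j).eq_or_lt with h | h
      · rw [← h, Real.zero_rpow (by linarith only [hθ])]
      · calc (χ j) ^ (2 * θ) ≤ (χ j) ^ (1 : ℝ) :=
            Real.rpow_le_rpow_of_exponent_ge h hχj (by linarith only [hθ])
          _ = χ j := Real.rpow_one _
    have e3 : (φ i * χ j) ^ θ ≤ (φ i) ^ (2 * θ) / 2 + (χ j) ^ (2 * θ) / 2 := by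
      rw [Real.mul_rpow (hφ i) (hχ j)]
      have a1 : (φ i) ^ (2 * θ) = ((φ i) ^ θ) ^ 2 := by
        rw [← Real.rpow_natCast, ← Real.rpow_mul (hφ i)]
        norm_num
        ring_nf
      have a2 : (χ j) ^ (2 * θ) = ((χ j) ^ θ) ^ 2 := by
        rw [← Real.rpow_natCast, ← Real.rpow_mul (hχ j)]
        norm_num
        ring_nf
      rw [a1, a2]
      linarith only [sq_nonneg ((φ i) ^ θ - (χ j) ^ θ)]
    have e5 : (φ i * χ j) ^ θ ≤ φ i / 2 + χ j / 2 := by linarith only [e1, e2, e3]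
    have := mul_le_mul_of_nonneg_left e5 (hw i j)
    linarith only [this]
  calc ∑ i ∈ I, ∑ j ∈ J, w i j * (φ i * χ j) ^ θ
      ≤ ∑ i ∈ I, ∑ j ∈ J, (φ i / 2 * w i j + χ j / 2 * w i j) :=
        Finset.sum_le_sum fun i hi => Finset.sum_le_sum fun j hj => hterm i hi j hj
    _ = ∑ i ∈ I, φ i / 2 * ∑ j ∈ J, w i j + ∑ j ∈ J, χ j / 2 * ∑ i ∈ I, w i j := by
        simp only [Finset.sum_add_distrib]
        congr 1
        · refine Finset.sum_congr rfl fun i _ => ?_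
          rw [Finset.mul_sum]
        · rw [Finset.sum_comm]
          refine Finset.sum_congr rfl fun j _ => ?_
          rw [Finset.mul_sum]
    _ ≤ ∑ i ∈ I, φ i / 2 * K + ∑ j ∈ J, χ j / 2 * K := by
        refine add_le_add (Finset.sum_le_sum fun i hi => ?_) (Finset.sum_le_sum fun j hj => ?_)
        · exact mul_le_mul_of_nonneg_left (h1 i hi) (by have := hφ i; linarith only [this])
        · exact mul_le_mul_of_nonneg_left (h2 j hj) (by have := hχ j; linarith only [this])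
    _ = (∑ i ∈ I, φ i) / 2 * K + (∑ j ∈ J, χ j) / 2 * K := by
        rw [← Finset.sum_mul, ← Finset.sum_mul, Finset.sum_div, Finset.sum_div]
    _ ≤ 1 / 2 * K + 1 / 2 * K := by
        refine add_le_add ?_ ?_
        · exact mul_le_mul_of_nonneg_right (by linarith only [hφ1]) hK
        · exact mul_le_mul_of_nonneg_right (by linarith only [hχ1]) hK
    _ = K := by ring

/-- General version for all pairs. -/
theorem n1_bilin_all {θ K : ℝ} (hθ : 1 / 2 ≤ θ) (I J : Finset ℕ)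
    (w : ℕ → ℕ → ℝ) (hw : ∀ i j, 0 ≤ w i j) (hK : 0 ≤ K)
    (h1 : ∀ i, ∑ j ∈ J, w i j ≤ K) (h2 : ∀ j, ∑ i ∈ I, w i j ≤ K)
    (φ χ : ℕ → ℝ) (hφ : ∀ i, 0 ≤ φ i) (hχ : ∀ i, 0 ≤ χ i) :
    ∑ i ∈ I, ∑ j ∈ J, w i j * (φ i * χ j) ^ θ ≤
      K * ((∑ i ∈ I, φ i) * ∑ j ∈ J, χ j) ^ θ := by
  have hθ0 : θ ≠ 0 := by linarith only [hθ]
  rcases (Finset.sum_nonneg fun i (_ : i ∈ I) => hφ i).eq_or_lt with h | h
  · have h0 : ∀ i ∈ I, φ i = 0 := (Finset.sum_eq_zero_iff_of_nonneg (fun i _ => hφ i)).1 h.symm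
    rw [← h, zero_mul, Real.zero_rpow hθ0, mul_zero]
    refine le_of_eq (Finset.sum_eq_zero fun i hi => Finset.sum_eq_zero fun j _ => ?_)
    rw [h0 i hi, zero_mul, Real.zero_rpow hθ0, mul_zero]
  rcases (Finset.sum_nonneg fun i (_ : i ∈ J) => hχ i).eq_or_lt with h' | h'
  · have h0 : ∀ i ∈ J, χ i = 0 := (Finset.sum_eq_zero_iff_of_nonneg (fun i _ => hχ i)).1 h'.symm
    rw [← h', mul_zero, Real.zero_rpow hθ0, mul_zero]
    refine le_of_eq (Finset.sum_eq_zero fun i _ => Finset.sum_eq_zero fun j hj => ?_)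
    rw [h0 j hj, mul_zero, Real.zero_rpow hθ0, mul_zero]
  set Φ := ∑ i ∈ I, φ i with hΦ
  set X := ∑ j ∈ J, χ j with hX
  have hmain := n1_bilin_norm hθ I J w hw (fun i => φ i / Φ) (fun j => χ j / X)
    (fun i => div_nonneg (hφ i) h.le) (fun j => div_nonneg (hχ j) h'.le)
    (by rw [← Finset.sum_div, div_self h.ne']) (by rw [← Finset.sum_div, div_self h'.ne'])
    (K := K) (fun i _ => h1 i) (fun j _ => h2 j) hK
  have hpos : 0 < Φ * X := mul_pos h h'
  have hscale : ∀ i j, w i j * (φ i * χ j) ^ θ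
      = (Φ * X) ^ θ * (w i j * (φ i / Φ * (χ j / X)) ^ θ) := by
    intro i j
    have e : φ i * χ j = (Φ * X) * (φ i / Φ * (χ j / X)) := by
      (clear * - h h'; field_simp)
    rw [e, Real.mul_rpow hpos.le (mul_nonneg (div_nonneg (hφ i) h.le) (div_nonneg (hχ j) h'.le))]
    have e2 : Φ * X * (φ i / Φ * (χ j / X)) / (Φ * X) = φ i / Φ * (χ j / X) := by
      (clear * - h' h; field_simp)
    ring
  calc ∑ i ∈ I, ∑ j ∈ J, w i j * (φ i * χ j) ^ θ
      = ∑ i ∈ I, ∑ j ∈ J, (Φ * X) ^ θ * (w i j * (φ i / Φ * (χ j / X)) ^ θ) := by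
        refine Finset.sum_congr rfl fun i _ => Finset.sum_congr rfl fun j _ => hscale i j
    _ = (Φ * X) ^ θ * ∑ i ∈ I, ∑ j ∈ J, w i j * (φ i / Φ * (χ j / X)) ^ θ := by
        simp only [Finset.mul_sum]
    _ ≤ (Φ * X) ^ θ * K :=
        mul_le_mul_of_nonneg_left hmain (Real.rpow_nonneg hpos.le _)
    _ = _ := mul_comm _ _

/-- All pairs, for the kernel `W |i-j|`. -/
theorem n1_bilin_ad {θ B : ℝ} {W ω : ℕ → ℝ} (h : N1Hyp θ B W ω) (hθ : 1 / 2 ≤ θ)
    (hb2 : B ^ (1 - θ) ≤ 1 / 2) (I J : Finset ℕ)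
    (φ χ : ℕ → ℝ) (hφ : ∀ i, 0 ≤ φ i) (hχ : ∀ i, 0 ≤ χ i) :
    ∑ i ∈ I, ∑ j ∈ J, W (ad i j) * (φ i * χ j) ^ θ ≤
      3 * ((∑ i ∈ I, φ i) * ∑ j ∈ J, χ j) ^ θ := by
  refine n1_bilin_all hθ I J (fun i j => W (ad i j)) (fun i j => h.w_nonneg _) (by norm_num)
    (fun i => n1_sum_all h hb2 i J) (fun j => ?_) φ χ hφ hχ
  have := n1_sum_all h hb2 j I
  simpa only [ad_comm', ge_iff_le] using this

/-- Hoelder inequality for one row. -/
theorem n1_holder_row {θ B : ℝ} {W ω : ℕ → ℝ} (h : N1Hyp θ B W ω) (hθ : 0 < θ) (hθ1 : θ < 1)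
    (k : ℕ) (J : Finset ℕ) (hJ : ∀ j ∈ J, j ≠ k) (χ : ℕ → ℝ) (hχ : ∀ i, 0 ≤ χ i) :
    ∑ j ∈ J, W (ad k j) * (χ j) ^ θ ≤
      (∑ j ∈ J, χ j) ^ θ * (∑ j ∈ J, ω (ad k j)) ^ (1 - θ) := by
  have hpq : (1 / θ).HolderConjugate (1 / (1 - θ)) :=
    Real.holderConjugate_one_div hθ (by linarith) (by ring)
  have h3 := Real.inner_le_Lp_mul_Lq_of_nonneg (s := J) (f := fun j => (χ j) ^ θ)
    (g := fun j => (ω (ad k j)) ^ (1 - θ)) hpq (fun j _ => Real.rpow_nonneg (hχ j) _)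
    (fun j _ => Real.rpow_nonneg (h.o_nonneg _) _)
  have e1 : ∀ j, ((χ j) ^ θ) ^ (1 / θ) = χ j := by
    intro j
    rw [← Real.rpow_mul (hχ j), mul_one_div_cancel hθ.ne', Real.rpow_one]
  have e2 : ∀ j, ((ω (ad k j)) ^ (1 - θ)) ^ (1 / (1 - θ)) = ω (ad k j) := by
    intro j
    have h4 : (1 - θ) ≠ 0 := by linarith only [hθ1]
    rw [← Real.rpow_mul (h.o_nonneg _), mul_one_div_cancel h4, Real.rpow_one]
  simp only [e1, e2, one_div_one_div] at h3
  refine le_trans (Finset.sum_le_sum fun j hj => ?_) h3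
  have h5 : 1 ≤ ad k j := by
    have := hJ j hj
    unfold ad
    omega
  have h6 := mul_le_mul_of_nonneg_right (h.w_le _ h5) (Real.rpow_nonneg (hχ j) θ)
  linarith only [h6]

/-- Main estimate of the exact sum around the index `k`. -/
theorem n1_exact_le {θ B : ℝ} {W ω : ℕ → ℝ} (h : N1Hyp θ B W ω)
    (hθ : 1 / 2 < θ) (hθ1 : θ < 1) (hB : 0 < B)
    (hb2 : B ^ (1 - θ) ≤ 1 / 2) (N : ℕ) (φ χ : ℕ → ℝ) (hφ : ∀ i, 0 ≤ φ i) (hχ : ∀ i, 0 ≤ χ i)
    (hφ1 : ∑ i ∈ range (N + 1), φ i = 1) (hχ1 : ∑ i ∈ range (N + 1), χ i = 1) {k : ℕ}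
    (hk : k ∈ range (N + 1)) :
    ∑ i ∈ range (N + 1), ∑ j ∈ range (N + 1), W (ad i j) * (φ i * χ j) ^ θ ≤
      (φ k) ^ θ * (χ k) ^ θ + 2 * B ^ (1 - θ) * ((1 - φ k) ^ θ + (1 - χ k) ^ θ) +
        3 * ((1 - φ k) * (1 - χ k)) ^ θ := by
  set r := range (N + 1) with hr
  set b := B ^ (1 - θ) with hb
  have hb0 : 0 < b := Real.rpow_pos_of_pos hB _
  have hξ : ∑ i ∈ r.erase k, φ i = 1 - φ k := by
    rw [← hφ1, ← Finset.add_sum_erase r _ hk]; ring
  have hζ : ∑ i ∈ r.erase k, χ i = 1 - χ k := by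
    rw [← hχ1, ← Finset.add_sum_erase r _ hk]; ring
  have hφk : φ k ≤ 1 := by
    rw [← hφ1]; exact Finset.single_le_sum (fun i _ => hφ i) hk
  have hχk : χ k ≤ 1 := by
    rw [← hχ1]; exact Finset.single_le_sum (fun i _ => hχ i) hk
  have hKB : (∑ j ∈ r.erase k, ω (ad k j)) ^ (1 - θ) ≤ 2 * b := by
    have h1 := n1_sum_off h.o_nonneg h.o_sum k (r.erase k)
      (fun j hj => Finset.ne_of_mem_erase hj)
    have h0 : 0 ≤ ∑ j ∈ r.erase k, ω (ad k j) := Finset.sum_nonneg fun j _ => h.o_nonneg _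
    calc (∑ j ∈ r.erase k, ω (ad k j)) ^ (1 - θ) ≤ (2 * B) ^ (1 - θ) :=
          Real.rpow_le_rpow h0 h1 (by linarith only [hθ1])
      _ = 2 ^ (1 - θ) * b := by rw [Real.mul_rpow (by norm_num) hB.le]
      _ ≤ 2 * b := by
          refine mul_le_mul_of_nonneg_right ?_ hb0.le
          calc (2 : ℝ) ^ (1 - θ) ≤ (2 : ℝ) ^ (1 : ℝ) :=
                Real.rpow_le_rpow_of_exponent_le (by norm_num) (by linarith only [hθ])
            _ = 2 := Real.rpow_one _
  rw [split_cross hk]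
  have t1 : W (ad k k) * (φ k * χ k) ^ θ = (φ k) ^ θ * (χ k) ^ θ := by
    rw [ad_self', h.w_zero, one_mul, Real.mul_rpow (hφ k) (hχ k)]
  have t2 : ∑ j ∈ r.erase k, W (ad k j) * (φ k * χ j) ^ θ ≤ 2 * b * (1 - χ k) ^ θ := by
    calc ∑ j ∈ r.erase k, W (ad k j) * (φ k * χ j) ^ θ
        ≤ ∑ j ∈ r.erase k, W (ad k j) * (χ j) ^ θ := by
          refine Finset.sum_le_sum fun j _ => mul_le_mul_of_nonneg_left ?_ (h.w_nonneg _)
          exact Real.rpow_le_rpow (mul_nonneg (hφ k) (hχ j))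
            (mul_le_of_le_one_left (hχ j) hφk) (by linarith only [hθ])
      _ ≤ (∑ j ∈ r.erase k, χ j) ^ θ * (∑ j ∈ r.erase k, ω (ad k j)) ^ (1 - θ) :=
          n1_holder_row h (by linarith only [hθ]) hθ1 k _
            (fun j hj => Finset.ne_of_mem_erase hj) χ hχ
      _ ≤ (1 - χ k) ^ θ * (2 * b) := by
          rw [hζ]
          exact mul_le_mul_of_nonneg_left hKB (Real.rpow_nonneg (by linarith only [hχk]) _)
      _ = _ := by ring
  have t3 : ∑ i ∈ r.erase k, W (ad i k) * (φ i * χ k) ^ θ ≤ 2 * b * (1 - φ k) ^ θ := by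
    calc ∑ i ∈ r.erase k, W (ad i k) * (φ i * χ k) ^ θ
        ≤ ∑ i ∈ r.erase k, W (ad k i) * (φ i) ^ θ := by
          refine Finset.sum_le_sum fun i _ => ?_
          rw [ad_comm' i k]
          refine mul_le_mul_of_nonneg_left ?_ (h.w_nonneg _)
          exact Real.rpow_le_rpow (mul_nonneg (hφ i) (hχ k))
            (mul_le_of_le_one_right (hφ i) hχk) (by linarith only [hθ])
      _ ≤ (∑ j ∈ r.erase k, φ j) ^ θ * (∑ j ∈ r.erase k, ω (ad k j)) ^ (1 - θ) :=
          n1_holder_row h (by linarith only [hθ]) hθ1 k _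
            (fun j hj => Finset.ne_of_mem_erase hj) φ hφ
      _ ≤ (1 - φ k) ^ θ * (2 * b) := by
          rw [hξ]
          exact mul_le_mul_of_nonneg_left hKB (Real.rpow_nonneg (by linarith only [hφk]) _)
      _ = _ := by ring
  have t4 : ∑ i ∈ r.erase k, ∑ j ∈ r.erase k, W (ad i j) * (φ i * χ j) ^ θ ≤
      3 * ((1 - φ k) * (1 - χ k)) ^ θ := by
    have h7 := n1_bilin_ad h hθ.le hb2 (r.erase k) (r.erase k) φ χ hφ hχ
    rwa [hξ, hζ] at h7
  rw [t1]
  linarith only [t2, t3, t4]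

/-- Estimate of the cells outside the `L`-shaped cell `k`. -/
theorem n1_lcell_le {θ B : ℝ} {W ω : ℕ → ℝ} (h : N1Hyp θ B W ω)
    (hθ : 1 / 2 < θ) (hθ1 : θ < 1) (hB : 0 < B)
    (hb2 : B ^ (1 - θ) ≤ 1 / 2) (N : ℕ) (φ χ : ℕ → ℝ) (hφ : ∀ i, 0 ≤ φ i) (hχ : ∀ i, 0 ≤ χ i)
    (hφ1 : ∑ i ∈ range (N + 1), φ i = 1) (hχ1 : ∑ i ∈ range (N + 1), χ i = 1) {k : ℕ}
    (hk : k ∈ range (N + 1)) :
    ∑ i ∈ range (N + 1), ∑ j ∈ range (N + 1),
      (if min i j = k then 0 else W (ad i j) * (φ i * χ j) ^ θ) ≤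
      (1 + 2 * B) * B ^ (1 - θ) * ((∑ i ∈ range k, φ i) ^ θ + (∑ i ∈ range k, χ i) ^ θ) +
        3 * ((1 - φ k) * (1 - χ k)) ^ θ := by
  set r := range (N + 1) with hr
  set b := B ^ (1 - θ) with hb
  have hb0 : 0 < b := Real.rpow_pos_of_pos hB _
  have hξ : ∑ i ∈ r.erase k, φ i = 1 - φ k := by
    rw [← hφ1, ← Finset.add_sum_erase r _ hk]; ring
  have hζ : ∑ i ∈ r.erase k, χ i = 1 - χ k := by
    rw [← hχ1, ← Finset.add_sum_erase r _ hk]; ring
  have hφk : φ k ≤ 1 := by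
    rw [← hφ1]; exact Finset.single_le_sum (fun i _ => hφ i) hk
  have hχk : χ k ≤ 1 := by
    rw [← hχ1]; exact Finset.single_le_sum (fun i _ => hχ i) hk
  have hkN : k < N + 1 := Finset.mem_range.1 hk
  have hKB : (∑ j ∈ range k, ω (ad k j)) ^ (1 - θ) ≤ (1 + 2 * B) * b := by
    have h1 := n1_sum_lt h.o_sum k
    have h0 : 0 ≤ ∑ j ∈ range k, ω (ad k j) := Finset.sum_nonneg fun j _ => h.o_nonneg _
    calc (∑ j ∈ range k, ω (ad k j)) ^ (1 - θ) ≤ B ^ (1 - θ) :=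
          Real.rpow_le_rpow h0 h1 (by linarith only [hθ1])
      _ = 1 * b := by rw [one_mul]
      _ ≤ (1 + 2 * B) * b := mul_le_mul_of_nonneg_right (by linarith only [hB]) hb0.le
  have hT0 : ∀ i j, 0 ≤ W (ad i j) * (φ i * χ j) ^ θ := fun i j =>
    mul_nonneg (h.w_nonneg _) (Real.rpow_nonneg (mul_nonneg (hφ i) (hχ j)) _)
  have hne : ∀ j ∈ range k, j ≠ k := fun j hj => (Finset.mem_range.1 hj).ne
  rw [split_cross hk (fun i j => if min i j = k then 0 else W (ad i j) * (φ i * χ j) ^ θ)]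
  have t1 : (if min k k = k then (0 : ℝ) else W (ad k k) * (φ k * χ k) ^ θ) = 0 := by simp
  have t2 : ∑ j ∈ r.erase k, (if min k j = k then (0 : ℝ) else W (ad k j) * (φ k * χ j) ^ θ) ≤
      (1 + 2 * B) * b * (∑ i ∈ range k, χ i) ^ θ := by
    calc ∑ j ∈ r.erase k, (if min k j = k then (0 : ℝ) else W (ad k j) * (φ k * χ j) ^ θ)
        ≤ ∑ j ∈ range k, W (ad k j) * (χ j) ^ θ := by
          have e : ∑ j ∈ r.erase k, (if min k j = k then (0 : ℝ) else
              W (ad k j) * (φ k * χ j) ^ θ)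
              = ∑ j ∈ (r.erase k).filter (fun j => j < k), W (ad k j) * (φ k * χ j) ^ θ := by
            rw [Finset.sum_filter]
            refine Finset.sum_congr rfl fun j hj => ?_
            have hjk : j ≠ k := Finset.ne_of_mem_erase hj
            by_cases hlt : j < k
            · rw [if_neg (by (clear * - hlt; omega)), if_pos hlt]
            · rw [if_pos (by omega), if_neg hlt]
          rw [e]
          have hsub : (r.erase k).filter (fun j => j < k) ⊆ range k := by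
            intro j hj
            exact Finset.mem_range.2 (Finset.mem_filter.1 hj).2
          refine (Finset.sum_le_sum_of_subset_of_nonneg hsub
            (fun j _ _ => hT0 k j)).trans ?_
          refine Finset.sum_le_sum fun j _ => mul_le_mul_of_nonneg_left ?_ (h.w_nonneg _)
          exact Real.rpow_le_rpow (mul_nonneg (hφ k) (hχ j))
            (mul_le_of_le_one_left (hχ j) hφk) (by linarith only [hθ])
      _ ≤ (∑ j ∈ range k, χ j) ^ θ * (∑ j ∈ range k, ω (ad k j)) ^ (1 - θ) :=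
          n1_holder_row h (by linarith only [hθ]) hθ1 k _ hne χ hχ
      _ ≤ (∑ j ∈ range k, χ j) ^ θ * ((1 + 2 * B) * b) :=
          mul_le_mul_of_nonneg_left hKB
            (Real.rpow_nonneg (Finset.sum_nonneg fun i _ => hχ i) _)
      _ = _ := by ring
  have t3 : ∑ i ∈ r.erase k, (if min i k = k then (0 : ℝ) else W (ad i k) * (φ i * χ k) ^ θ) ≤
      (1 + 2 * B) * b * (∑ i ∈ range k, φ i) ^ θ := by
    calc ∑ i ∈ r.erase k, (if min i k = k then (0 : ℝ) else W (ad i k) * (φ i * χ k) ^ θ)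
        ≤ ∑ i ∈ range k, W (ad k i) * (φ i) ^ θ := by
          have e : ∑ i ∈ r.erase k, (if min i k = k then (0 : ℝ) else
              W (ad i k) * (φ i * χ k) ^ θ)
              = ∑ i ∈ (r.erase k).filter (fun i => i < k), W (ad i k) * (φ i * χ k) ^ θ := by
            rw [Finset.sum_filter]
            refine Finset.sum_congr rfl fun i hi => ?_
            have hik : i ≠ k := Finset.ne_of_mem_erase hi
            by_cases hlt : i < k
            · rw [if_neg (by (clear * - hlt; omega)), if_pos hlt]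
            · rw [if_pos (by omega), if_neg hlt]
          rw [e]
          have hsub : (r.erase k).filter (fun i => i < k) ⊆ range k := by
            intro i hi
            exact Finset.mem_range.2 (Finset.mem_filter.1 hi).2
          refine (Finset.sum_le_sum_of_subset_of_nonneg hsub
            (fun i _ _ => hT0 i k)).trans ?_
          refine Finset.sum_le_sum fun i _ => ?_
          rw [ad_comm' i k]
          refine mul_le_mul_of_nonneg_left ?_ (h.w_nonneg _)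
          exact Real.rpow_le_rpow (mul_nonneg (hφ i) (hχ k))
            (mul_le_of_le_one_right (hφ i) hχk) (by linarith only [hθ])
      _ ≤ (∑ j ∈ range k, φ j) ^ θ * (∑ j ∈ range k, ω (ad k j)) ^ (1 - θ) :=
          n1_holder_row h (by linarith only [hθ]) hθ1 k _ hne φ hφ
      _ ≤ (∑ j ∈ range k, φ j) ^ θ * ((1 + 2 * B) * b) :=
          mul_le_mul_of_nonneg_left hKB
            (Real.rpow_nonneg (Finset.sum_nonneg fun i _ => hφ i) _)
      _ = _ := by ring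
  have t4 : ∑ i ∈ r.erase k, ∑ j ∈ r.erase k,
      (if min i j = k then (0 : ℝ) else W (ad i j) * (φ i * χ j) ^ θ) ≤
      3 * ((1 - φ k) * (1 - χ k)) ^ θ := by
    have h7 := n1_bilin_ad h hθ.le hb2 (r.erase k) (r.erase k) φ χ hφ hχ
    rw [hξ, hζ] at h7
    refine le_trans (Finset.sum_le_sum fun i _ => Finset.sum_le_sum fun j _ => ?_) h7
    split_ifs
    · exact hT0 i j
    · exact le_rfl
  rw [t1]
  linarith only [t2, t3, t4]

/-- If the exact sum exceeds one then there is a common index carrying almost all the mass. -/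
theorem n1_exists_peak {θ B : ℝ} {W ω : ℕ → ℝ} (h : N1Hyp θ B W ω)
    (hθ : 1 / 2 < θ) (hθ1 : θ < 1) (hb0 : 0 ≤ B ^ (1 - θ)) (hb2 : B ^ (1 - θ) ≤ 1 / 4)
    (N : ℕ) (φ χ : ℕ → ℝ) (hφ : ∀ i, 0 ≤ φ i) (hχ : ∀ i, 0 ≤ χ i)
    (hφ1 : ∑ i ∈ range (N + 1), φ i = 1) (hχ1 : ∑ i ∈ range (N + 1), χ i = 1)
    (hS : 1 < ∑ i ∈ range (N + 1), ∑ j ∈ range (N + 1), W (ad i j) * (φ i * χ j) ^ θ) :
    ∃ k ∈ range (N + 1), 1 - φ k ≤ 1 / (θ - 1 / 2) * (4 * B ^ (1 - θ)) ∧
      1 - χ k ≤ 1 / (θ - 1 / 2) * (4 * B ^ (1 - θ)) := by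
  set r := range (N + 1) with hr
  set b := B ^ (1 - θ) with hb
  have hne : r.Nonempty := ⟨0, by simp only [hr, mem_range, lt_add_iff_pos_left,
    Order.lt_add_one_iff, zero_le]⟩
  obtain ⟨k, hk, hmax⟩ := Finset.exists_max_image r (fun i => φ i * χ i) hne
  refine ⟨k, hk, ?_⟩
  have hφk : φ k ≤ 1 := by
    rw [← hφ1]; exact Finset.single_le_sum (fun i _ => hφ i) hk
  have hχk : χ k ≤ 1 := by
    rw [← hχ1]; exact Finset.single_le_sum (fun i _ => hχ i) hk
  have hm0 : 0 ≤ φ k * χ k := mul_nonneg (hφ k) (hχ k)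
  -- splitting into diagonal and off-diagonal part
  have hsplit : ∑ i ∈ r, ∑ j ∈ r, W (ad i j) * (φ i * χ j) ^ θ
      = ∑ i ∈ r, (φ i * χ i) ^ θ +
        ∑ i ∈ r, ∑ j ∈ r, (if i ≠ j then W (ad i j) else 0) * (φ i * χ j) ^ θ := by
    rw [← Finset.sum_add_distrib]
    refine Finset.sum_congr rfl fun i hi => ?_
    rw [← Finset.add_sum_erase r _ hi, ← Finset.add_sum_erase r (fun j => (if i ≠ j then
      W (ad i j) else 0) * (φ i * χ j) ^ θ) hi]
    simp only [ad_self', h.w_zero, one_mul, ne_eq, not_true_eq_false, if_false, zero_mul,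
      zero_add]
    congr 1
    refine Finset.sum_congr rfl fun j hj => ?_
    rw [if_pos (Finset.ne_of_mem_erase hj).symm]
  have hoff : ∑ i ∈ r, ∑ j ∈ r, (if i ≠ j then W (ad i j) else 0) * (φ i * χ j) ^ θ ≤ 4 * b := by
    refine n1_bilin_norm hθ.le r r (fun i j => if i ≠ j then W (ad i j) else 0) ?_ φ χ hφ hχ
      hφ1.le hχ1.le ?_ ?_ (by linarith only [hb0])
    · intro i j
      split_ifs
      · exact h.w_nonneg _
      · exact le_rfl
    · intro i _
      rw [← Finset.sum_filter]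
      have := n1_sum_off h.w_nonneg h.w_sum i (r.filter (fun j => i ≠ j))
        (fun j hj => (Finset.mem_filter.1 hj).2.symm)
      linarith only [this]
    · intro j _
      rw [← Finset.sum_filter]
      have := n1_sum_off h.w_nonneg h.w_sum j (r.filter (fun i => i ≠ j))
        (fun i hi => (Finset.mem_filter.1 hi).2)
      have e : ∑ i ∈ r.filter (fun i => i ≠ j), W (ad i j)
          = ∑ i ∈ r.filter (fun i => i ≠ j), W (ad j i) :=
        Finset.sum_congr rfl fun i _ => by rw [ad_comm']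
      rw [e]
      linarith only [this]
  have hdiag : ∑ i ∈ r, (φ i * χ i) ^ θ ≤ (φ k * χ k) ^ (θ - 1 / 2) := by
    calc ∑ i ∈ r, (φ i * χ i) ^ θ
        ≤ ∑ i ∈ r, (φ k * χ k) ^ (θ - 1 / 2) * ((φ i + χ i) / 2) := by
          refine Finset.sum_le_sum fun i hi => ?_
          have h0 : 0 ≤ φ i * χ i := mul_nonneg (hφ i) (hχ i)
          have e : (φ i * χ i) ^ θ = (φ i * χ i) ^ (θ - 1 / 2) * (φ i * χ i) ^ (1 / 2 : ℝ) := by
            rw [← Real.rpow_add_of_nonneg h0 (by linarith only [hθ]) (by norm_num)]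
            congr 1
            ring
          rw [e]
          refine mul_le_mul (Real.rpow_le_rpow h0 (hmax i hi) (by linarith only [hθ])) ?_
            (Real.rpow_nonneg h0 _) (Real.rpow_nonneg hm0 _)
          rw [← Real.sqrt_eq_rpow]
          refine Real.sqrt_le_iff.2 ⟨by
            have h8 := hφ i
            have h9 := hχ i
            linarith only [h8, h9], ?_⟩
          linarith only [sq_nonneg (φ i - χ i)]
      _ = (φ k * χ k) ^ (θ - 1 / 2) := by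
          rw [← Finset.mul_sum, ← Finset.sum_div, Finset.sum_add_distrib, hφ1, hχ1]
          norm_num
  have hbig : 1 - 4 * b ≤ (φ k * χ k) ^ (θ - 1 / 2) := by
    rw [hsplit] at hS
    linarith only [hS, hoff, hdiag]
  have hr1 : 1 ≤ 1 / (θ - 1 / 2) := by
    rw [le_div_iff₀ (by linarith only [hθ])]
    linarith only [hθ1]
  have hm : 1 - 1 / (θ - 1 / 2) * (4 * b) ≤ φ k * χ k := by
    have h1 := one_add_mul_self_le_rpow_one_add (s := -(4 * b)) (by linarith only [hb2]) hr1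
    have h2 : (1 - 4 * b) ^ (1 / (θ - 1 / 2)) ≤ φ k * χ k := by
      calc (1 - 4 * b) ^ (1 / (θ - 1 / 2))
          ≤ ((φ k * χ k) ^ (θ - 1 / 2)) ^ (1 / (θ - 1 / 2)) :=
            Real.rpow_le_rpow (by linarith only [hb2]) hbig (by linarith only [hr1])
        _ = φ k * χ k := by
            rw [← Real.rpow_mul hm0, mul_one_div_cancel (by linarith only [hθ]), Real.rpow_one]
    have e : (1 : ℝ) + -(4 * b) = 1 - 4 * b := by ring
    rw [e] at h1
    linarith only [h1, h2]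
  constructor
  · have : φ k * χ k ≤ φ k := mul_le_of_le_one_right (hφ k) hχk
    linarith only [hm, this]
  · have : φ k * χ k ≤ χ k := mul_le_of_le_one_left (hχ k) hφk
    linarith only [hm, this]

/-- Normalised form of `SPw_small`. -/
theorem n1_norm_small {θ : ℝ} (hθ : 1 / 2 < θ) (hθ1 : θ < 1) :
    ∃ B₀ > 0, ∃ C ≥ 0, B₀ < 1 ∧ ∀ (W ω : ℕ → ℝ) (B x : ℝ), 0 < B → B ≤ B₀ → 0 ≤ x → x ≤ B →
      N1Hyp θ B W ω → ∀ (N : ℕ) (φ χ : ℕ → ℝ), (∀ i, 0 ≤ φ i) → (∀ i, 0 ≤ χ i) →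
      ∑ i ∈ range (N + 1), φ i = 1 → ∑ i ∈ range (N + 1), χ i = 1 →
      (∑ i ∈ range (N + 1), ∑ j ∈ range (N + 1), W (ad i j) * (φ i * χ j) ^ θ ≤ 1) ∨
      ∃ k ≤ N, (if k = 0 then (1 : ℝ) else (1 - x) ^ (2 * (1 - θ))) *
          ((∑ i ∈ Icc k N, φ i) * ∑ j ∈ Icc k N, χ j) ^ θ
        + ∑ i ∈ range (N + 1), ∑ j ∈ range (N + 1),
            (if min i j = k then 0 else W (ad i j) * (φ i * χ j) ^ θ)
        ≤ 1 + 2 * (1 - θ) * (B - x) + C * B ^ (2 * θ) := by
  have hlam : 0 < 1 - θ := by linarith only [hθ1]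
  set C₁ : ℝ := (16 / (3 * θ)) ^ (1 / (1 - θ)) with hC₁
  have h16 : 1 ≤ 16 / (3 * θ) := by
    rw [le_div_iff₀ (by linarith only [hθ])]
    linarith only [hθ1]
  have hC1 : 1 ≤ C₁ := Real.one_le_rpow h16 (by positivity)
  have hCθ : C₁ ^ (1 - θ) = 16 / (3 * θ) := by
    rw [hC₁, ← Real.rpow_mul (by linarith only [h16]), one_div_mul_cancel hlam.ne', Real.rpow_one]
  set T₀ : ℝ := min 1 ((θ / 8) ^ (1 / (2 * θ - 1))) with hT₀
  have h2θ : 0 < 2 * θ - 1 := by linarith only [hθ]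
  have hT0 : 0 < T₀ := lt_min one_pos (Real.rpow_pos_of_pos (by linarith only [hθ]) _)
  have hT1 : T₀ ≤ 1 := min_le_left _ _
  have hTθ : T₀ ^ (2 * θ - 1) ≤ θ / 8 := by
    calc T₀ ^ (2 * θ - 1) ≤ ((θ / 8) ^ (1 / (2 * θ - 1))) ^ (2 * θ - 1) :=
          Real.rpow_le_rpow hT0.le (min_le_right _ _) h2θ.le
      _ = θ / 8 := by
          rw [← Real.rpow_mul (by linarith only [hθ]), one_div_mul_cancel h2θ.ne', Real.rpow_one]
  set ρ : ℝ := 1 / (θ - 1 / 2) with hρ
  have hρ0 : 0 < ρ := by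
    rw [hρ]
    have : 0 < θ - 1 / 2 := by linarith only [hθ]
    positivity
  set β : ℝ := min (1 / 4) (T₀ / (4 * ρ)) with hβ
  have hβ0 : 0 < β := lt_min (by norm_num) (by positivity)
  have hβ4 : β ≤ 1 / 4 := min_le_left _ _
  have hβT : ρ * (4 * β) ≤ T₀ := by
    have h : β ≤ T₀ / (4 * ρ) := min_le_right _ _
    rw [le_div_iff₀ (by positivity)] at h
    linarith only [h]
  have hβ1 : β ^ (1 / (1 - θ)) ≤ 1 / 2 := by
    calc β ^ (1 / (1 - θ)) ≤ β ^ (1 : ℝ) := by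
          refine Real.rpow_le_rpow_of_exponent_ge hβ0 (by linarith only [hβ4]) ?_
          rw [le_div_iff₀ hlam]
          linarith only [hθ]
      _ ≤ 1 / 2 := by
          rw [Real.rpow_one]
          linarith only [hβ4]
  refine ⟨β ^ (1 / (1 - θ)), Real.rpow_pos_of_pos hβ0 _, 14 * C₁ ^ 2, by positivity,
    by linarith only [hβ1], ?_⟩
  intro W ω B x hB hBB hx hxB hW N φ χ hφ hχ hφ1 hχ1
  have hB2 : B ≤ 1 / 2 := hBB.trans hβ1
  have hbβ : B ^ (1 - θ) ≤ β := by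
    calc B ^ (1 - θ) ≤ (β ^ (1 / (1 - θ))) ^ (1 - θ) := Real.rpow_le_rpow hB.le hBB hlam.le
      _ = β := by rw [← Real.rpow_mul hβ0.le, one_div_mul_cancel hlam.ne', Real.rpow_one]
  have hb0 : 0 < B ^ (1 - θ) := Real.rpow_pos_of_pos hB _
  by_cases hS : ∑ i ∈ range (N + 1), ∑ j ∈ range (N + 1),
      W (ad i j) * (φ i * χ j) ^ θ ≤ 1
  · exact Or.inl hS
  push Not at hS
  obtain ⟨k, hk, hk1, hk2⟩ := n1_exists_peak hW hθ hθ1 hb0.le (hbβ.trans hβ4) N φ χ hφ hχ hφ1 hχ1 hS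
  have hφk : φ k ≤ 1 := by
    rw [← hφ1]; exact Finset.single_le_sum (fun i _ => hφ i) hk
  have hχk : χ k ≤ 1 := by
    rw [← hχ1]; exact Finset.single_le_sum (fun i _ => hχ i) hk
  have hξT : 1 - φ k ≤ T₀ := by
    refine hk1.trans (le_trans ?_ hβT)
    exact mul_le_mul_of_nonneg_left (by linarith only [hbβ]) hρ0.le
  have hζT : 1 - χ k ≤ T₀ := by
    refine hk2.trans (le_trans ?_ hβT)
    exact mul_le_mul_of_nonneg_left (by linarith only [hbβ]) hρ0.le
  by_cases hmax : C₁ * B ≤ max (1 - φ k) (1 - χ k)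
  · exfalso
    have h1 := n1_exact_le hW hθ hθ1 hB (by linarith only [hβ4, hbβ]) N φ χ hφ hχ hφ1 hχ1 hk
    have h2 := num_far (ξ := 1 - φ k) (ζ := 1 - χ k) hθ hθ1 hB rfl (by linarith only [hC1]) hCθ hT1 hTθ
      (by linarith only [hφk]) hξT (by linarith only [hχk]) hζT hmax
    have e1 : 1 - (1 - φ k) = φ k := by ring
    have e2 : 1 - (1 - χ k) = χ k := by ring
    rw [e1, e2] at h2
    linarith only [hS, h1, h2]
  push Not at hmax
  have hm1 : 1 - φ k ≤ C₁ * B := (le_max_left _ _).trans hmax.le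
  have hm2 : 1 - χ k ≤ C₁ * B := (le_max_right _ _).trans hmax.le
  right
  have hkN : k ≤ N := by
    have := Finset.mem_range.1 hk
    (clear * - this; omega)
  refine ⟨k, hkN, ?_⟩
  have hL := n1_lcell_le hW hθ hθ1 hB (by linarith only [hβ4, hbβ]) N φ χ hφ hχ hφ1 hχ1 hk
  have hnb : ∀ ψ : ℕ → ℝ, (∀ i, 0 ≤ ψ i) → ∑ i ∈ range (N + 1), ψ i = 1 →
      ∑ i ∈ Icc k N, ψ i = 1 - ∑ i ∈ range k, ψ i ∧ ∑ i ∈ range k, ψ i ≤ 1 - ψ k := by
    intro ψ hψ hψ1
    have h1 : ∑ i ∈ range k, ψ i + ∑ i ∈ Icc k N, ψ i = 1 := by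
      rw [← hψ1, ← Finset.sum_union]
      · refine Finset.sum_congr ?_ fun _ _ => rfl
        ext i
        simp only [mem_union, mem_range, mem_Icc]
        omega
      · rw [Finset.disjoint_left]
        intro i hi hi'
        rw [Finset.mem_range] at hi
        rw [Finset.mem_Icc] at hi'
        omega
    have h2 : ψ k ≤ ∑ i ∈ Icc k N, ψ i :=
      Finset.single_le_sum (fun i _ => hψ i) (Finset.mem_Icc.2 ⟨le_rfl, hkN⟩)
    constructor <;> linarith only [h1, h2]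
  obtain ⟨p1, p2⟩ := hnb φ hφ hφ1
  obtain ⟨p3, p4⟩ := hnb χ hχ hχ1
  have q1 : 0 ≤ ∑ i ∈ range k, φ i := Finset.sum_nonneg fun i _ => hφ i
  have q2 : 0 ≤ ∑ i ∈ range k, χ i := Finset.sum_nonneg fun i _ => hχ i
  have hn := num_near (x := x) (ξ := 1 - φ k) (ζ := 1 - χ k) (ξ' := ∑ i ∈ range k, φ i)
    (ζ' := ∑ i ∈ range k, χ i) hθ hθ1 hB hB2 rfl hC1 hx hxB (by linarith only [hφk]) (by linarith only [hχk]) hm1 hm2
    q1 q2 p2 p4 (by have := hφ k; linarith only [hT1, hξT]) (by have := hχ k; linarith only [hT1, hζT])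
  rw [p1, p3]
  by_cases hk0 : k = 0
  · rw [if_pos hk0]
    subst hk0
    simp only [Finset.range_zero, Finset.sum_empty, sub_zero, mul_one, Real.one_rpow] at hL ⊢
    have hn' := num_near (x := x) (ξ := 1 - φ 0) (ζ := 1 - χ 0) (ξ' := 0) (ζ' := 0) hθ hθ1 hB hB2
      rfl hC1 hx hxB (by linarith only [hφk]) (by linarith only [hχk]) hm1 hm2
      le_rfl le_rfl (by linarith only [hφk]) (by linarith only [hχk]) (by have := hφ 0; linarith only [hT1, hξT])
      (by have := hχ 0; linarith only [hT1, hζT])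
    have h0 : (0 : ℝ) ^ θ = 0 := Real.zero_rpow (by linarith only [hθ])
    rw [h0] at hL
    have b8 : 3 * ((1 - φ 0) * (1 - χ 0)) ^ θ ≤ 14 * C₁ ^ 2 * B ^ (2 * θ) := by
      have hC0 : 0 ≤ C₁ * B := by positivity
      have h3 : ((1 - φ 0) * (1 - χ 0)) ^ θ ≤ C₁ ^ 2 * B ^ (2 * θ) := by
        calc ((1 - φ 0) * (1 - χ 0)) ^ θ ≤ ((C₁ * B) * (C₁ * B)) ^ θ :=
              Real.rpow_le_rpow (mul_nonneg (by linarith only [hφk]) (by linarith only [hχk]))
                (mul_le_mul hm1 hm2 (by linarith only [hχk]) hC0) (by linarith only [hθ])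
          _ = (C₁ * B) ^ (2 * θ) := by
              rw [Real.mul_rpow hC0 hC0, ← Real.rpow_add (by (clear * - hθ hB; positivity))]
              congr 1
              ring
          _ = C₁ ^ (2 * θ) * B ^ (2 * θ) := Real.mul_rpow (by linarith only [hC1]) hB.le
          _ ≤ C₁ ^ 2 * B ^ (2 * θ) := by
              refine mul_le_mul_of_nonneg_right ?_ (Real.rpow_nonneg hB.le _)
              rw [← Real.rpow_natCast]
              exact Real.rpow_le_rpow_of_exponent_le hC1 (by push_cast; linarith only [hθ1])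
      have h4 : 0 ≤ C₁ ^ 2 * B ^ (2 * θ) := by positivity
      linarith only [h3, h4]
    have h5 : 0 ≤ 2 * (1 - θ) * (B - x) := mul_nonneg (by linarith only [hθ1]) (by linarith only [hxB])
    linarith only [hL, b8, h5]
  · rw [if_neg hk0]
    linarith only [hL, hn]

theorem SPw_small {θ : ℝ} (hθ : 1 / 2 < θ) (hθ1 : θ < 1) :
    ∃ B₀ > 0, ∃ C ≥ 0, B₀ < 1 ∧ ∀ (W ω : ℕ → ℝ) (B x : ℝ), 0 < B → B ≤ B₀ → 0 ≤ x → x ≤ B →
      W 0 = 1 → (∀ l, 0 ≤ W l) → (∀ l, 0 ≤ ω l) → (∀ l, 1 ≤ l → W l ≤ (ω l) ^ (1 - θ)) →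
      (∀ n, ∑ l ∈ Icc 1 n, ω l ≤ B) → (∀ n, ∑ l ∈ Icc 1 n, W l ≤ 2 * B ^ (1 - θ)) →
      SPw θ W x (1 + 2 * (1 - θ) * (B - x) + C * B ^ (2 * θ)) := by
  obtain ⟨B₀, hB₀, C, hC, hB₀1, hmain⟩ := n1_norm_small hθ hθ1
  refine ⟨B₀, hB₀, C, hC, hB₀1, ?_⟩
  intro W ω B x hB hBB hx hxB hw0 hwn hon hwo hos hws N φ χ hφ hχ
  have hW : N1Hyp θ B W ω := ⟨hw0, hwn, hon, hwo, hos, hws⟩
  have hθ0 : θ ≠ 0 := by (clear * - hθ hθ1; linarith)
  set c : ℝ := 1 + 2 * (1 - θ) * (B - x) + C * B ^ (2 * θ) with hc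
  have hc1 : 1 ≤ c := by
    have h1 : 0 ≤ 2 * (1 - θ) * (B - x) := mul_nonneg (by linarith only [hθ1]) (by linarith only [hxB])
    have h2 : 0 ≤ C * B ^ (2 * θ) := mul_nonneg hC (Real.rpow_nonneg hB.le _)
    linarith only [h1, h2]
  set Φ := ∑ i ∈ range (N + 1), φ i with hΦ
  set X := ∑ i ∈ range (N + 1), χ i with hX
  have hΦ0 : 0 ≤ Φ := Finset.sum_nonneg fun i _ => hφ i
  have hX0 : 0 ≤ X := Finset.sum_nonneg fun i _ => hχ i
  rcases hΦ0.eq_or_lt with h | h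
  · left
    have h0 : ∀ i ∈ range (N + 1), φ i = 0 :=
      (Finset.sum_eq_zero_iff_of_nonneg (fun i _ => hφ i)).1 h.symm
    rw [← h, zero_mul, Real.zero_rpow hθ0, mul_zero]
    refine le_of_eq (Finset.sum_eq_zero fun i hi => Finset.sum_eq_zero fun j _ => ?_)
    rw [h0 i hi, zero_mul, Real.zero_rpow hθ0, mul_zero]
  rcases hX0.eq_or_lt with h' | h'
  · left
    have h0 : ∀ i ∈ range (N + 1), χ i = 0 :=
      (Finset.sum_eq_zero_iff_of_nonneg (fun i _ => hχ i)).1 h'.symm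
    rw [← h', mul_zero, Real.zero_rpow hθ0, mul_zero]
    refine le_of_eq (Finset.sum_eq_zero fun i _ => Finset.sum_eq_zero fun j hj => ?_)
    rw [h0 j hj, mul_zero, Real.zero_rpow hθ0, mul_zero]
  have hpos : 0 < Φ * X := mul_pos h h'
  have hP : 0 ≤ (Φ * X) ^ θ := Real.rpow_nonneg hpos.le _
  have hscale : ∀ i j, (φ i * χ j) ^ θ = (Φ * X) ^ θ * (φ i / Φ * (χ j / X)) ^ θ := by
    intro i j
    rw [← Real.mul_rpow hpos.le (mul_nonneg (div_nonneg (hφ i) h.le) (div_nonneg (hχ j) h'.le))]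
    congr 1
    (clear * - h h'; field_simp)
  rcases hmain W ω B x hB hBB hx hxB hW N (fun i => φ i / Φ) (fun j => χ j / X)
    (fun i => div_nonneg (hφ i) h.le) (fun j => div_nonneg (hχ j) h'.le)
    (by rw [← Finset.sum_div]; exact div_self h.ne')
    (by rw [← Finset.sum_div]; exact div_self h'.ne') with hA | ⟨k, hkN, hA⟩
  · left
    calc ∑ i ∈ range (N + 1), ∑ j ∈ range (N + 1), W (ad i j) * (φ i * χ j) ^ θ
        = (Φ * X) ^ θ * ∑ i ∈ range (N + 1), ∑ j ∈ range (N + 1),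
          W (ad i j) * (φ i / Φ * (χ j / X)) ^ θ := by
          rw [Finset.mul_sum]
          refine Finset.sum_congr rfl fun i _ => ?_
          rw [Finset.mul_sum]
          refine Finset.sum_congr rfl fun j _ => ?_
          rw [hscale i j]
          ring
      _ ≤ (Φ * X) ^ θ * 1 := mul_le_mul_of_nonneg_left hA hP
      _ ≤ (Φ * X) ^ θ * c := mul_le_mul_of_nonneg_left hc1 hP
      _ = _ := mul_comm _ _
  · right
    refine ⟨k, hkN, ?_⟩
    have e1 : ((∑ i ∈ Icc k N, φ i) * ∑ j ∈ Icc k N, χ j) ^ θ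
        = (Φ * X) ^ θ * ((∑ i ∈ Icc k N, φ i / Φ) * ∑ j ∈ Icc k N, χ j / X) ^ θ := by
      rw [← Real.mul_rpow hpos.le (mul_nonneg
        (Finset.sum_nonneg fun i _ => div_nonneg (hφ i) h.le)
        (Finset.sum_nonneg fun i _ => div_nonneg (hχ i) h'.le)),
        ← Finset.sum_div, ← Finset.sum_div]
      congr 1
      (clear * - h h'; field_simp)
    have e2 : ∑ i ∈ range (N + 1), ∑ j ∈ range (N + 1),
        (if min i j = k then 0 else W (ad i j) * (φ i * χ j) ^ θ)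
        = (Φ * X) ^ θ * ∑ i ∈ range (N + 1), ∑ j ∈ range (N + 1),
          (if min i j = k then 0 else W (ad i j) * (φ i / Φ * (χ j / X)) ^ θ) := by
      rw [Finset.mul_sum]
      refine Finset.sum_congr rfl fun i _ => ?_
      rw [Finset.mul_sum]
      refine Finset.sum_congr rfl fun j _ => ?_
      split_ifs
      · rw [mul_zero]
      · rw [hscale i j]
        ring
    rw [e1, e2]
    calc _ = (Φ * X) ^ θ * ((if k = 0 then (1 : ℝ) else (1 - x) ^ (2 * (1 - θ))) *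
          ((∑ i ∈ Icc k N, φ i / Φ) * ∑ j ∈ Icc k N, χ j / X) ^ θ
        + ∑ i ∈ range (N + 1), ∑ j ∈ range (N + 1),
            (if min i j = k then 0 else
              W (ad i j) * (φ i / Φ * (χ j / X)) ^ θ)) := by ring
      _ ≤ (Φ * X) ^ θ * c := mul_le_mul_of_nonneg_left hA hP
      _ = _ := mul_comm _ _

end Vale.P028
end

section

/-!
# Density of the good multipliers in a row (N5)
-/

namespace Vale.P028

open Finset

/-- counting lemma, separated case -/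
theorem nrow_sep' {α β s : ℝ} {J : ℕ} (hJ : ∀ j : ℕ, 0 < j → j ≤ J → 4 * s ≤ distInt ((j : ℝ) * α))
    (M : ℕ) (S : Finset ℕ) (hS1 : ∀ m ∈ S, m ≤ M)
    (hS2 : ∀ m ∈ S, distInt ((m : ℝ) * α - β) < 2 * s) :
    (S.card : ℝ) ≤ M / (J + 1) + 1 := by
  refine kc_sep_card S M ((J : ℝ) + 1) (by positivity) hS1 ?_
  intro m hm n hn hmn
  by_contra hlt
  rw [not_le] at hlt
  have h1 : n - m ≤ J := by
    have h2 : ((n - m : ℕ) : ℝ) < J + 1 := by
      rw [Nat.cast_sub hmn.le]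
      exact hlt
    have h3 : n - m < J + 1 := by exact_mod_cast h2
    omega
  have h4 := hJ (n - m) (by omega) h1
  rw [Nat.cast_sub hmn.le] at h4
  have e : ((n : ℝ) - m) * α = ((n : ℝ) * α - β) - ((m : ℝ) * α - β) := by ring
  rw [e] at h4
  have h5 := nb_distInt_sub_le ((n : ℝ) * α - β) ((m : ℝ) * α - β)
  linarith only [h4, h5, hS2 m hm, hS2 n hn]

open Classical in
/-- counting lemma, separated case -/
theorem nrow_sep {α β s : ℝ} {J : ℕ} (hJ : ∀ j : ℕ, 0 < j → j ≤ J → 4 * s ≤ distInt ((j : ℝ) * α))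
    (M : ℕ) :
    (((Icc 1 M).filter (fun m : ℕ => distInt ((m : ℝ) * α - β) < 2 * s)).card : ℝ) ≤
      M / (J + 1) + 1 :=
  nrow_sep' hJ M _ (fun m hm => (mem_Icc.1 (mem_filter.1 hm).1).2)
    (fun m hm => (mem_filter.1 hm).2)

/-- hits in one class modulo `h`, in one block -/
theorem n5_fiber {α β s : ℝ} {h L c i : ℕ} (hh : 0 < h) (hs : 0 < s)
    (hD : 0 < distInt ((h : ℝ) * α)) (hL : (L : ℝ) * distInt ((h : ℝ) * α) ≤ 1 / 2)
    (S : Finset ℕ) (hS1 : ∀ m ∈ S, m % h = c) (hS3 : ∀ m ∈ S, m / h / L = i) (hL0 : 0 < L)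
    (hS2 : ∀ m ∈ S, distInt ((m : ℝ) * α - β) < 2 * s) :
    (S.card : ℝ) ≤ 4 * s / distInt ((h : ℝ) * α) + 1 := by
  set D := distInt ((h : ℝ) * α) with hDd
  rcases S.eq_empty_or_nonempty with hS | hS
  · rw [hS]
    simp only [Finset.card_empty, Nat.cast_zero]
    positivity
  set m0 := S.min' hS with hm0
  have hm0S : m0 ∈ S := S.min'_mem hS
  have hle : ∀ u ∈ S, m0 ≤ u := fun u hu => S.min'_le u hu
  have hdm : ∀ u ∈ S, u = h * (u / h) + c := by
    intro u hu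
    have h1 := Nat.div_add_mod u h
    rw [hS1 u hu] at h1
    exact h1.symm
  have hle' : ∀ u ∈ S, m0 / h ≤ u / h := fun u hu => Nat.div_le_div_right (hle u hu)
  have key : ∀ u ∈ S, ((u / h - m0 / h : ℕ) : ℝ) * D < 4 * s := by
    intro u hu
    have h1 : u / h - m0 / h ≤ L := by
      have h2 := hS3 u hu
      have h3 := hS3 m0 hm0S
      have h4 : i * L ≤ m0 / h := by
        rw [← h3]
        exact Nat.div_mul_le_self _ _
      have h5 : u / h < i * L + L := by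
        have h6 := Nat.lt_div_mul_add hL0 (a := u / h)
        rw [h2] at h6
        exact h6
      omega
    have h2 : ((u / h - m0 / h : ℕ) : ℝ) * D ≤ 1 / 2 := by
      have h3 : ((u / h - m0 / h : ℕ) : ℝ) ≤ L := by exact_mod_cast h1
      exact (mul_le_mul_of_nonneg_right h3 hD.le).trans hL
    have h3 := kc_distInt_mul (x := (h : ℝ) * α) h2
    rw [← h3]
    have e : ((u / h - m0 / h : ℕ) : ℝ) * ((h : ℝ) * α) =
        ((u : ℝ) * α - β) - ((m0 : ℝ) * α - β) := by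
      rw [Nat.cast_sub (hle' u hu)]
      have h4 : (u : ℝ) = h * ((u / h : ℕ) : ℝ) + c := by exact_mod_cast hdm u hu
      have h5 : (m0 : ℝ) = h * ((m0 / h : ℕ) : ℝ) + c := by exact_mod_cast hdm m0 hm0S
      conv_rhs => rw [h4, h5]
      ring
    rw [e]
    have h5 := nb_distInt_sub_le ((u : ℝ) * α - β) ((m0 : ℝ) * α - β)
    linarith only [h5, hS2 u hu, hS2 m0 hm0S]
  have hcard : S.card ≤ (range ⌈4 * s / D⌉₊).card := by
    refine card_le_card_of_injOn (fun u => u / h - m0 / h) ?_ ?_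
    · intro u hu
      rw [coe_range, Set.mem_Iio, Nat.lt_ceil, lt_div_iff₀ hD]
      exact key u hu
    · intro u hu w hw huw
      simp only at huw
      have h1 := hle' u hu
      have h2 := hle' w hw
      have h3 : u / h = w / h := by omega
      have h4 := hdm u hu
      have h5 := hdm w hw
      rw [h3] at h4
      rw [h4]
      exact h5.symm
  rw [card_range] at hcard
  have h2 : (⌈4 * s / D⌉₊ : ℝ) < 4 * s / D + 1 := Nat.ceil_lt_add_one (by positivity)
  have h3 : (S.card : ℝ) ≤ ⌈4 * s / D⌉₊ := by exact_mod_cast hcard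
  linarith only [h2, h3]

/-- counting lemma at a multiple `h` with `0 < distInt (h α) ≤ 4 s` -/
theorem nrow_bad' {α β s : ℝ} {h : ℕ} (hh : 0 < h) (hD : 0 < distInt ((h : ℝ) * α))
    (hD4 : distInt ((h : ℝ) * α) ≤ 4 * s) (M : ℕ) (S : Finset ℕ) (hS1 : ∀ m ∈ S, m ≤ M)
    (hS2 : ∀ m ∈ S, distInt ((m : ℝ) * α - β) < 2 * s) :
    (S.card : ℝ) ≤ 32 * s * M + 8 * h * s / distInt ((h : ℝ) * α) := by
  classical
  set D := distInt ((h : ℝ) * α) with hDd
  have hs : 0 < s := by linarith only [hD, hD4]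
  have hD2 : D ≤ 1 / 2 := abs_sub_round _
  set L : ℕ := ⌊1 / (2 * D)⌋₊ with hL
  have hx : 1 ≤ 1 / (2 * D) := by
    rw [le_div_iff₀ (by (clear * - hD; positivity))]
    linarith only [hD2]
  have hL0 : 0 < L := Nat.floor_pos.2 hx
  have hLR : (0 : ℝ) < L := by exact_mod_cast hL0
  have hL1 : (L : ℝ) ≤ 1 / (2 * D) := Nat.floor_le (by positivity)
  have hL2 : (L : ℝ) * D ≤ 1 / 2 := by
    rw [le_div_iff₀ (by positivity)] at hL1
    linarith only [hL1]
  have hL3 : 1 / (4 * D) ≤ L := by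
    have h1 : 1 / (2 * D) < L + 1 := Nat.lt_floor_add_one _
    have h2 : 1 / (4 * D) = 1 / (2 * D) / 2 := by
      field_simp
      norm_num
    have h3 : (1 : ℝ) ≤ L := by exact_mod_cast hL0
    rw [h2]
    linarith only [h1, h3]
  have h1 : S.card = ∑ x ∈ range h ×ˢ range (M / h / L + 1),
      (S.filter (fun u => (u % h, u / h / L) = x)).card := by
    refine card_eq_sum_card_fiberwise ?_
    intro u hu
    have h2 := hS1 u hu
    rw [coe_product, Set.mem_prod, coe_range, coe_range, Set.mem_Iio, Set.mem_Iio]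
    exact ⟨Nat.mod_lt _ hh,
      Nat.lt_succ_of_le (Nat.div_le_div_right (Nat.div_le_div_right h2))⟩
  have h2 : ∀ x ∈ range h ×ˢ range (M / h / L + 1),
      ((S.filter (fun u => (u % h, u / h / L) = x)).card : ℝ) ≤ 4 * s / D + 1 := by
    intro x _
    refine n5_fiber (c := x.1) (i := x.2) (β := β) hh hs hD hL2 _ ?_ ?_ hL0 ?_
    · intro m hm
      rw [← (mem_filter.1 hm).2]
    · intro m hm
      rw [← (mem_filter.1 hm).2]
    · intro m hm
      exact hS2 m (mem_filter.1 hm).1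
  have h3 : (S.card : ℝ) ≤ (h : ℝ) * ((M / h / L + 1 : ℕ) : ℝ) * (4 * s / D + 1) := by
    rw [h1]
    push_cast
    calc ∑ x ∈ range h ×ˢ range (M / h / L + 1),
          ((S.filter (fun u => (u % h, u / h / L) = x)).card : ℝ)
        ≤ ∑ _x ∈ range h ×ˢ range (M / h / L + 1), (4 * s / D + 1) := sum_le_sum h2
      _ = _ := by
          rw [sum_const, card_product, card_range, card_range, nsmul_eq_mul]
          push_cast
          ring
  have hhR : (0 : ℝ) < h := by exact_mod_cast hh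
  have h4 : ((M / h / L : ℕ) : ℝ) ≤ 4 * D * M / h := by
    calc ((M / h / L : ℕ) : ℝ) ≤ ((M / h : ℕ) : ℝ) / L := Nat.cast_div_le
      _ ≤ ((M : ℝ) / h) / L := by
          have : ((M / h : ℕ) : ℝ) ≤ (M : ℝ) / h := Nat.cast_div_le
          gcongr
      _ ≤ ((M : ℝ) / h) / (1 / (4 * D)) := by
          apply div_le_div_of_nonneg_left (by positivity) (by positivity) hL3
      _ = 4 * D * M / h := by
          field_simp
  have h5 : 4 * s / D + 1 ≤ 8 * s / D := by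
    have h6 : 1 ≤ 4 * s / D := by
      rw [le_div_iff₀ hD]
      linarith only [hD4]
    have e : 8 * s / D = 4 * s / D + 4 * s / D := by ring
    rw [e]
    linarith only [h6]
  have h6 : (h : ℝ) * ((M / h / L + 1 : ℕ) : ℝ) ≤ 4 * D * M + h := by
    push_cast
    calc (h : ℝ) * (((M / h / L : ℕ) : ℝ) + 1) ≤ h * (4 * D * M / h + 1) := by gcongr
      _ = 4 * D * M + h := by field_simp
  calc (S.card : ℝ) ≤ (h : ℝ) * ((M / h / L + 1 : ℕ) : ℝ) * (4 * s / D + 1) := h3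
    _ ≤ (4 * D * M + h) * (8 * s / D) := by gcongr
    _ = 32 * s * M + 8 * h * s / D := by
        field_simp
        ring

open Classical in
/-- counting lemma at a multiple `h` with `0 < distInt (h α) ≤ 4 s` -/
theorem nrow_bad {α β s : ℝ} {h : ℕ} (hh : 0 < h) (hD : 0 < distInt ((h : ℝ) * α))
    (hD4 : distInt ((h : ℝ) * α) ≤ 4 * s) (M : ℕ) :
    (((Icc 1 M).filter (fun m : ℕ => distInt ((m : ℝ) * α - β) < 2 * s)).card : ℝ) ≤
      32 * s * M + 8 * h * s / distInt ((h : ℝ) * α) :=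
  nrow_bad' hh hD hD4 M _ (fun m hm => (mem_Icc.1 (mem_filter.1 hm).1).2)
    (fun m hm => (mem_filter.1 hm).2)

/-- powers of `s = t ^ 9600` -/
theorem n5_root {s : ℝ} (hs : 0 < s) (hs1 : s ≤ (1 / 2 : ℝ) ^ 9600) :
    ∃ t : ℝ, 0 < t ∧ t ≤ 1 / 2 ∧ t ^ 9600 = s ∧ s ^ (1 / 150 : ℝ) = t ^ 64 ∧
      s ^ (7 / 8 : ℝ) = t ^ 8400 ∧ s ^ (-(1 / 64) : ℝ) = (t ^ 150)⁻¹ ∧
      s ^ (-(1 / 128) : ℝ) = (t ^ 75)⁻¹ ∧ s ^ (-(1 / 16) : ℝ) = (t ^ 600)⁻¹ := by
  refine ⟨s ^ (1 / 9600 : ℝ), by positivity, ?_, ?_, ?_, ?_, ?_, ?_, ?_⟩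
  · have h1 : s ^ (1 / 9600 : ℝ) ≤ ((1 / 2 : ℝ) ^ 9600) ^ (1 / 9600 : ℝ) :=
      Real.rpow_le_rpow hs.le hs1 (by norm_num)
    have h2 : ((1 / 2 : ℝ) ^ 9600) ^ (1 / 9600 : ℝ) = 1 / 2 := by
      rw [← Real.rpow_natCast, ← Real.rpow_mul (by norm_num)]
      norm_num
    rwa [h2] at h1
  · rw [← Real.rpow_natCast, ← Real.rpow_mul hs.le]
    norm_num
  · rw [← Real.rpow_natCast, ← Real.rpow_mul hs.le]
    norm_num
  · rw [← Real.rpow_natCast, ← Real.rpow_mul hs.le]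
    norm_num
  · rw [← Real.rpow_natCast, ← Real.rpow_mul hs.le, ← Real.rpow_neg hs.le]
    norm_num
  · rw [← Real.rpow_natCast, ← Real.rpow_mul hs.le, ← Real.rpow_neg hs.le]
    norm_num
  · rw [← Real.rpow_natCast, ← Real.rpow_mul hs.le, ← Real.rpow_neg hs.le]
    norm_num

open Classical in
theorem row_density : ∃ s₀ > 0, ∀ γ s V β : ℝ, NHyp s₀ s V → ∀ a q₀ : ℕ, 0 < a →
    ¬ NBad γ s V a → s ^ (-(1 / 64) : ℝ) < q₀ → s ^ (7 / 8 : ℝ) ≤ q₀ * a * tb s V →
    (((Icc 1 q₀).filter (fun m : ℕ => distInt ((a : ℝ) * m * γ - β) < 2 * s)).card : ℝ) ≤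
      s ^ (1 / 150 : ℝ) * q₀ := by
  refine ⟨(1 / 2 : ℝ) ^ 9600, by positivity, ?_⟩
  intro γ s V β hN a q₀ ha hbad hq hqa
  obtain ⟨hs, hs1, hV, -⟩ := hN
  obtain ⟨t, ht, ht2, hts, e150, e78, e64, e128, e16⟩ := n5_root hs hs1
  rw [e64] at hq
  rw [e78] at hqa
  rw [e150]
  have hq0 : (0 : ℝ) < q₀ := lt_trans (by positivity) hq
  have haR : (0 : ℝ) < a := by exact_mod_cast ha
  have htb : 0 < tb s V := by
    unfold tb
    positivity
  have ht1 : t ≤ 1 := by linarith only [ht2]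
  -- powers of `t`
  have hp : ∀ k : ℕ, t ^ k ≤ (1 / 2) ^ k := fun k => pow_le_pow_left₀ ht.le ht2 k
  have ecard : ((Icc 1 q₀).filter (fun m : ℕ => distInt ((a : ℝ) * m * γ - β) < 2 * s)) =
      ((Icc 1 q₀).filter (fun m : ℕ => distInt ((m : ℝ) * (a * γ) - β) < 2 * s)) := by
    refine filter_congr fun m _ => ?_
    have : (a : ℝ) * m * γ - β = (m : ℝ) * (a * γ) - β := by ring
    rw [this]
  rw [ecard]
  set J : ℕ := ⌊(t ^ 75)⁻¹⌋₊ with hJ
  have hJ1 : (J : ℝ) ≤ (t ^ 75)⁻¹ := Nat.floor_le (by positivity)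
  have hJ2 : (t ^ 75)⁻¹ < (J : ℝ) + 1 := Nat.lt_floor_add_one _
  by_cases hc : ∀ j : ℕ, 0 < j → j ≤ J → 4 * s ≤ distInt ((j : ℝ) * (a * γ))
  · refine (nrow_sep hc q₀).trans ?_
    have h1 : (q₀ : ℝ) / (J + 1) ≤ q₀ * t ^ 75 := by
      rw [div_le_iff₀ (by positivity)]
      have h2 : 1 ≤ t ^ 75 * ((J : ℝ) + 1) := by
        have h3 : t ^ 75 * (t ^ 75)⁻¹ = 1 := mul_inv_cancel₀ (by positivity)
        have h4 : t ^ 75 * (t ^ 75)⁻¹ ≤ t ^ 75 * ((J : ℝ) + 1) := by gcongr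
        rwa [h3] at h4
      nlinarith only [h2, hq0]
    have h2 : 1 ≤ q₀ * t ^ 75 := by
      have h3 : (t ^ 150)⁻¹ * t ^ 150 = 1 := inv_mul_cancel₀ (by positivity)
      have h4 : (t ^ 150)⁻¹ * t ^ 150 ≤ q₀ * t ^ 150 := by gcongr
      have h5 : q₀ * t ^ 150 ≤ q₀ * t ^ 75 := by
        have : t ^ 150 ≤ t ^ 75 := pow_le_pow_of_le_one ht.le ht1 (by norm_num)
        gcongr
      linarith only [h3, h4, h5]
    have h3 : t ^ 75 ≤ t ^ 64 * (1 / 2) := by
      have e : t ^ 75 = t ^ 64 * t ^ 11 := by rw [← pow_add]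
      rw [e]
      have h4 : t ^ 11 ≤ 1 / 2 := (hp 11).trans (by norm_num)
      gcongr
    have h4 : q₀ * t ^ 75 ≤ q₀ * (t ^ 64 * (1 / 2)) := by gcongr
    linarith only [h1, h2, h4]
  · push Not at hc
    obtain ⟨h, hh, hhJ, hD4⟩ := hc
    have hhR : (0 : ℝ) < h := by exact_mod_cast hh
    have hhJ' : (h : ℝ) ≤ (t ^ 75)⁻¹ := le_trans (by exact_mod_cast hhJ) hJ1
    have hDtb : a * tb s V ≤ distInt ((h : ℝ) * (a * γ)) := by
      by_contra hlt
      rw [not_le] at hlt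
      apply hbad
      refine ⟨h, hh, ?_, ?_⟩
      · rw [e16]
        refine hhJ'.trans ?_
        have : t ^ 600 ≤ t ^ 75 := pow_le_pow_of_le_one ht.le ht1 (by norm_num)
        gcongr
      · rw [mul_assoc]
        exact hlt
    have hD : 0 < distInt ((h : ℝ) * (a * γ)) := lt_of_lt_of_le (by positivity) hDtb
    refine (nrow_bad hh hD hD4.le q₀).trans ?_
    -- `8 h s / D ≤ 8 t^1125 q₀`
    have h1 : 8 * h * s / distInt ((h : ℝ) * (a * γ)) ≤ 8 * t ^ 1125 * q₀ := by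
      rw [div_le_iff₀ hD]
      have h2 : t ^ 8400 ≤ q₀ * distInt ((h : ℝ) * (a * γ)) := by
        calc t ^ 8400 ≤ q₀ * a * tb s V := hqa
          _ = q₀ * (a * tb s V) := by ring
          _ ≤ _ := by gcongr
      calc 8 * h * s ≤ 8 * (t ^ 75)⁻¹ * s := by gcongr
        _ = 8 * t ^ 1125 * t ^ 8400 := by
            have e : s = t ^ 1125 * t ^ 8400 * t ^ 75 := by
              rw [← hts, ← pow_add, ← pow_add]
            rw [e]
            field_simp
        _ ≤ 8 * t ^ 1125 * (q₀ * distInt ((h : ℝ) * (a * γ))) := by gcongr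
        _ = _ := by ring
    have h2 : 32 * s ≤ t ^ 64 * (1 / 2) := by
      have e : s = t ^ 64 * t ^ 9536 := by rw [← hts, ← pow_add]
      have h3 : t ^ 9536 ≤ t ^ 6 := pow_le_pow_of_le_one ht.le ht1 (by norm_num)
      have h4 : t ^ 6 ≤ 1 / 64 := (hp 6).trans (by norm_num)
      have h5 : (0 : ℝ) < t ^ 64 := by positivity
      rw [e]
      linarith only [mul_nonneg (sub_nonneg.2 h4) (le_of_lt (sub_pos.2 h5)), mul_nonneg (sub_nonneg.2 h3) (le_of_lt (sub_pos.2 h5))]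
    have h3 : 8 * t ^ 1125 ≤ t ^ 64 * (1 / 2) := by
      have e : t ^ 1125 = t ^ 64 * t ^ 1061 := by rw [← pow_add]
      have h3 : t ^ 1061 ≤ t ^ 4 := pow_le_pow_of_le_one ht.le ht1 (by norm_num)
      have h4 : t ^ 4 ≤ 1 / 16 := (hp 4).trans (by norm_num)
      have h5 : (0 : ℝ) < t ^ 64 := by positivity
      rw [e]
      nlinarith only [h3, h4, h5]
    have h4 : 32 * s * q₀ ≤ t ^ 64 * (1 / 2) * q₀ := by gcongr
    have h5 : 8 * t ^ 1125 * q₀ ≤ t ^ 64 * (1 / 2) * q₀ := by gcongr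
    linarith only [h5, h4, h1]

end Vale.P028
end

section

/-!
# Base case of Theorem N
-/

namespace Vale.P028

open Finset

open Classical in
theorem n6_card_le (q₀ : ℕ) (p : ℕ → Prop) :
    (((Icc 1 q₀).filter p).card : ℝ) ≤ q₀ := by
  have h1 : ((Icc 1 q₀).filter p).card ≤ q₀ := by
    refine (card_filter_le _ _).trans ?_
    simp
  exact_mod_cast h1

/-- the size of the row in a window pair -/
theorem n6_size {γ s V : ℝ} (hs : 0 < s) (hV : 0 < V) {a q₀ v : ℕ}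
    (h : NWin γ s V (a * q₀) v) : s ^ (7 / 8 : ℝ) ≤ q₀ * a * tb s V := by
  obtain ⟨h1, _, h3, _, _⟩ := h
  have h4 : s ^ (1 / 32 : ℝ) * V ≤ (q₀ : ℝ) * a := by
    have h5 : s ^ (1 / 32 : ℝ) * V ≤ s ^ (1 / 32 : ℝ) * max (((a * q₀ : ℕ) : ℝ)) (v : ℝ) :=
      mul_le_mul_of_nonneg_left h1 (Real.rpow_nonneg hs.le _)
    have h6 : min (((a * q₀ : ℕ) : ℝ)) (v : ℝ) ≤ ((a * q₀ : ℕ) : ℝ) := min_le_left _ _
    have h7 : ((a * q₀ : ℕ) : ℝ) = (q₀ : ℝ) * a := by push_cast; ring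
    linarith only [h3, h5, h6, h7]
  unfold tb
  calc s ^ (7 / 8 : ℝ) = s ^ (1 / 32 : ℝ) * V * (s ^ (27 / 32 : ℝ) / V) := by
        have e : s ^ (7 / 8 : ℝ) = s ^ (1 / 32 : ℝ) * s ^ (27 / 32 : ℝ) := by
          rw [← Real.rpow_add hs]
          norm_num
        rw [e]
        field_simp
    _ ≤ q₀ * a * (s ^ (27 / 32 : ℝ) / V) :=
        mul_le_mul_of_nonneg_right h4 (div_nonneg (Real.rpow_nonneg hs.le _) hV.le)

open Classical in
/-- the density in a row -/
theorem n6_row {γ s V : ℝ} (hs : 0 < s) (hV : 0 < V)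
    (hrow : ∀ β : ℝ, ∀ a q₀ : ℕ, 0 < a →
      ¬ NBad γ s V a → s ^ (-(1 / 64) : ℝ) < q₀ → s ^ (7 / 8 : ℝ) ≤ q₀ * a * tb s V →
      (((Icc 1 q₀).filter (fun m : ℕ => distInt ((a : ℝ) * m * γ - β) < 2 * s)).card : ℝ) ≤
        s ^ (1 / 150 : ℝ) * q₀)
    {a q₀ v : ℕ} (ha : 0 < a) (hbad : ¬ NBad γ s V a) (hq : s ^ (-(1 / 64) : ℝ) < q₀)
    (h : NOm γ s V (a * q₀) v) :
    (((Icc 1 q₀).filter (fun m : ℕ => NOm γ s V (a * m) v)).card : ℝ) ≤
      s ^ (1 / 150 : ℝ) * q₀ := by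
  refine le_trans ?_ (hrow (v * γ) a q₀ ha hbad hq (n6_size hs hV h.1))
  have h1 : ((Icc 1 q₀).filter (fun m : ℕ => NOm γ s V (a * m) v)) ⊆
      ((Icc 1 q₀).filter (fun m : ℕ => distInt ((a : ℝ) * m * γ - v * γ) < 2 * s)) := by
    intro m hm
    rw [mem_filter] at hm ⊢
    refine ⟨hm.1, ?_⟩
    have h2 := hm.2.1.2.2.2.1
    have e : (a : ℝ) * m * γ - v * γ = (((a * m : ℕ) : ℝ) - v) * γ := by
      push_cast
      ring
    rw [e]
    exact h2
  exact_mod_cast card_le_card h1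

theorem n6_base {γ s V : ℝ} (hs : 0 < s) (hV : 0 < V)
    (hrow : ∀ β : ℝ, ∀ a q₀ : ℕ, 0 < a →
      ¬ NBad γ s V a → s ^ (-(1 / 64) : ℝ) < q₀ → s ^ (7 / 8 : ℝ) ≤ q₀ * a * tb s V →
      (((Icc 1 q₀).filter (fun m : ℕ => distInt ((a : ℝ) * m * γ - β) < 2 * s)).card : ℝ) ≤
        s ^ (1 / 150 : ℝ) * q₀) (x : ℕ → ℝ) :
    LBound (NOm γ s V) (501 / 1000) (fun a b => (16 / ((a : ℝ) * b)) ^ (499 / 1000 : ℝ) *
      (nsig γ s V a b) ^ (499 / 1000 : ℝ)) ∅ x 1 := by
  classical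
  intro a b ha hb ψ₁ ψ₂ f g s₁ s₂ N hs₁ hs₂ hψ₁ hψ₂ hf hg
  have ha' : (0 : ℝ) < a := by exact_mod_cast ha
  have hb' : (0 : ℝ) < b := by exact_mod_cast hb
  have hδ := nsig_nonneg (γ := γ) (V := V) hs a b
  have hf' : ∀ q, 0 ≤ f q ∧ f q ≤ ψ₁ q := by
    intro q
    have := hf q
    simpa [wt] using this
  have hg' : ∀ q, 0 ≤ g q ∧ g q ≤ ψ₂ q := by
    intro q
    have := hg q
    simpa [wt] using this
  have hdens : ∀ q₀ r₀ : ℕ, 0 < q₀ → 0 < r₀ → NOm γ s V (a * q₀) (b * r₀) →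
      (((Icc 1 q₀).filter (fun m => NOm γ s V (a * m) (b * r₀))).card : ℝ) *
        (((Icc 1 r₀).filter (fun n => NOm γ s V (a * q₀) (b * n))).card : ℝ) ≤
        nsig γ s V a b * q₀ * r₀ := by
    intro q₀ r₀ hq₀ hr₀ hΩ
    have hq₀' : (0 : ℝ) < q₀ := by exact_mod_cast hq₀
    have hr₀' : (0 : ℝ) < r₀ := by exact_mod_cast hr₀
    have h1 := n6_card_le q₀ (fun m => NOm γ s V (a * m) (b * r₀))
    have h2 := n6_card_le r₀ (fun n => NOm γ s V (a * q₀) (b * n))
    have hdead : ¬ NDead γ s V a b := fun h => h q₀ r₀ hq₀ hr₀ hΩ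
    by_cases hfin : NFin γ s V a b
    · rw [nsig_fin hdead hfin, one_mul]
      exact mul_le_mul h1 h2 (Nat.cast_nonneg _) hq₀'.le
    · rw [nsig_mid hdead hfin]
      have hS : 0 ≤ s ^ (1 / 150 : ℝ) := Real.rpow_nonneg hs.le _
      have hbada : ¬ NBad γ s V a := fun h => hfin (Or.inr (Or.inl h))
      have hbadb : ¬ NBad γ s V b := fun h => hfin (Or.inr (Or.inr h))
      have hcase : s ^ (-(1 / 64) : ℝ) < q₀ ∨ s ^ (-(1 / 64) : ℝ) < r₀ := by
        by_contra hne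
        push Not at hne
        exact hfin (Or.inl ⟨q₀, r₀, hq₀, hr₀, hne.1, hne.2, hΩ⟩)
      rcases hcase with hc | hc
      · have h3 := n6_row hs hV hrow ha hbada hc hΩ
        exact mul_le_mul h3 h2 (Nat.cast_nonneg _) (mul_nonneg hS hq₀'.le)
      · have h3 := n6_row hs hV hrow hb hbadb hc (NOm_comm hΩ)
        have h4 : (((Icc 1 r₀).filter (fun n => NOm γ s V (a * q₀) (b * n))).card : ℝ) ≤
            s ^ (1 / 150 : ℝ) * r₀ := by
          refine le_trans (le_of_eq ?_) h3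
          congr 2
          ext n
          simp only [mem_filter]
          exact ⟨fun h => ⟨h.1, NOm_comm h.2⟩, fun h => ⟨h.1, NOm_comm h.2⟩⟩
        calc _ ≤ (q₀ : ℝ) * (s ^ (1 / 150 : ℝ) * r₀) :=
              mul_le_mul h1 h4 (Nat.cast_nonneg _) hq₀'.le
          _ = _ := by ring
  have h1 := base_trick (NOm γ s V) (θ := 501 / 1000) (by norm_num) (by norm_num)
    (nsig γ s V a b) hδ a b ha hb hdens ψ₁ ψ₂ f g s₁ s₂ N hs₁ hs₂ hf' hg'
  refine h1.trans (le_of_eq ?_)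
  have e : (1 : ℝ) - 501 / 1000 = 499 / 1000 := by norm_num
  rw [e, one_mul]
  congr 1
  beta_reduce
  rw [← Real.mul_rpow (by positivity) hδ, ← Real.mul_rpow (by positivity) (by positivity)]
  congr 1
  field_simp

open Classical in
/-- `base_N` from the density of a row -/
theorem base_N_of (hrow : ∃ s₀ > 0, ∀ γ s V β : ℝ, NHyp s₀ s V → ∀ a q₀ : ℕ, 0 < a →
    ¬ NBad γ s V a → s ^ (-(1 / 64) : ℝ) < q₀ → s ^ (7 / 8 : ℝ) ≤ q₀ * a * tb s V →
    (((Icc 1 q₀).filter (fun m : ℕ => distInt ((a : ℝ) * m * γ - β) < 2 * s)).card : ℝ) ≤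
      s ^ (1 / 150 : ℝ) * q₀) :
    ∃ s₀ > 0, ∀ γ s V : ℝ, NHyp s₀ s V → ∀ x : ℕ → ℝ,
    LBound (NOm γ s V) (501 / 1000) (fun a b => (16 / ((a : ℝ) * b)) ^ (499 / 1000 : ℝ) *
      (nsig γ s V a b) ^ (499 / 1000 : ℝ)) ∅ x 1 := by
  obtain ⟨s₀, hs₀, h⟩ := hrow
  refine ⟨s₀, hs₀, fun γ s V hN x => ?_⟩
  exact n6_base hN.1 hN.2.2.1 (fun β a q₀ ha hb h1 h2 => h γ s V β hN a q₀ ha hb h1 h2) x

/-- the base case of Theorem N -/
theorem base_N : ∃ s₀ > 0, ∀ γ s V : ℝ, NHyp s₀ s V → ∀ x : ℕ → ℝ,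
    LBound (NOm γ s V) (501 / 1000) (fun a b => (16 / ((a : ℝ) * b)) ^ (499 / 1000 : ℝ) *
      (nsig γ s V a b) ^ (499 / 1000 : ℝ)) ∅ x 1 :=
  base_N_of row_density

end Vale.P028
end

section

/-!
# Theorem N, section N7: transitions of the states
-/

namespace Vale.P028

open Finset MeasureTheory

/-! ### powers of `s` -/

theorem n7_exists_t {s : ℝ} (hs : 0 < s) (hs0 : s ≤ (1 / 400000 : ℝ) ^ 640) :
    ∃ t : ℝ, 0 < t ∧ t ≤ 1 / 400000 ∧ s = t ^ 640 := by
  refine ⟨s ^ (1 / 640 : ℝ), Real.rpow_pos_of_pos hs _, ?_, ?_⟩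
  · have h1 : ((1 / 400000 : ℝ) ^ 640) ^ (1 / 640 : ℝ) = 1 / 400000 := by
      rw [← Real.rpow_natCast, ← Real.rpow_mul (by norm_num)]
      norm_num
    rw [← h1]
    exact Real.rpow_le_rpow hs.le hs0 (by norm_num)
  · rw [← Real.rpow_natCast, ← Real.rpow_mul hs.le]
    norm_num

theorem n7_rpow {t : ℝ} (ht : 0 < t) {e : ℝ} (k : ℕ) (h : (640 : ℝ) * e = k) :
    (t ^ 640) ^ e = t ^ k := by
  rw [← Real.rpow_natCast t 640, ← Real.rpow_mul ht.le,
    show ((640 : ℕ) : ℝ) * e = (k : ℝ) by rw [← h]; norm_num, Real.rpow_natCast]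

theorem n7_rpow_neg {t : ℝ} (ht : 0 < t) {e : ℝ} (k : ℕ) (h : (640 : ℝ) * e = -k) :
    (t ^ 640) ^ e = (t ^ k)⁻¹ := by
  rw [← Real.rpow_natCast t 640, ← Real.rpow_mul ht.le,
    show ((640 : ℕ) : ℝ) * e = -(k : ℝ) by rw [← h]; norm_num, Real.rpow_neg ht.le,
    Real.rpow_natCast]

/-- powers of `t` -/
theorem n7_pow_le {t : ℝ} (ht : 0 < t) (ht1 : t ≤ 1 / 400000) {m n : ℕ} (h : m ≤ n) :
    t ^ n ≤ t ^ m :=
  pow_le_pow_of_le_one ht.le (by linarith only [ht1]) h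

/-- the large primes are large -/
theorem n7_nw {s V t : ℝ} (ht : 0 < t) (ht1 : t ≤ 1 / 400000) (hst : s = t ^ 640)
    (hV : 100 * Real.log (1 / s) ^ 2 ≤ Real.log V) : (t ^ 1280)⁻¹ ≤ nw s V := by
  have hs0 : 0 < s := by rw [hst]; positivity
  have hs1 : s ≤ 1 / 400000 := by
    rw [hst]
    calc t ^ 640 ≤ t ^ 1 := n7_pow_le ht ht1 (by norm_num)
      _ ≤ 1 / 400000 := by rw [pow_one]; exact ht1
  have hL : 0 < Real.log (1 / s) := by
    apply Real.log_pos
    rw [lt_div_iff₀ hs0]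
    linarith only [hs1]
  have h1 : 100 * Real.log (1 / s) ≤ Real.log V / Real.log (1 / s) := by
    rw [le_div_iff₀ hL]
    calc 100 * Real.log (1 / s) * Real.log (1 / s) = 100 * Real.log (1 / s) ^ 2 := by ring
      _ ≤ _ := hV
  unfold nw
  have h2 : (t ^ 1280)⁻¹ = Real.exp (2 * Real.log (1 / s)) := by
    rw [two_mul, Real.exp_add, Real.exp_log (by positivity), hst]
    rw [one_div, ← mul_inv, ← pow_add]
  rw [h2]
  apply Real.exp_le_exp.2
  linarith only [h1, hL]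

/-- hits of a progression -/
theorem n7_count {s t : ℝ} (ht : 0 < t) (ht1 : t ≤ 1 / 400000) (hst : s = t ^ 640) {α β D0 : ℝ}
    {M : ℕ} {S : Finset ℕ} (hD0 : 0 < D0)
    (hα : ∀ h : ℕ, 0 < h → (h : ℝ) * t ^ 30 ≤ 1 → D0 ≤ distInt ((h : ℝ) * α))
    (hS : ∀ p ∈ S, p ≤ M) (hS2 : ∀ p ∈ S, distInt ((p : ℝ) * α - β) < 2 * s) :
    (S.card : ℝ) ≤ t ^ 30 * M + 64 * s * M + 4 * s / D0 + 1 := by
  classical
  have hs0 : 0 < s := by rw [hst]; positivity
  have hs1 : s ≤ 1 / 1000 := by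
    rw [hst]
    calc t ^ 640 ≤ t ^ 1 := n7_pow_le ht ht1 (by norm_num)
      _ ≤ 1 / 1000 := by rw [pow_one]; linarith only [ht1]
  by_cases hex : ∃ h : ℕ, 0 < h ∧ (h : ℝ) * t ^ 30 ≤ 1 ∧ distInt ((h : ℝ) * α) ≤ 4 * s
  · obtain ⟨h1, h10, h1t, h1d⟩ := hex
    have hex2 : ∃ h : ℕ, 0 < h ∧ distInt ((h : ℝ) * α) ≤ 4 * s := ⟨h1, h10, h1d⟩
    obtain ⟨h0, hh0⟩ : ∃ h0, h0 = Nat.find hex2 := ⟨_, rfl⟩
    have hsp := Nat.find_spec hex2
    have hmin : ∀ k < h0, ¬ (0 < k ∧ distInt ((k : ℝ) * α) ≤ 4 * s) := fun k hk => by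
      rw [hh0] at hk
      exact Nat.find_min hex2 hk
    rw [← hh0] at hsp
    have hle : h0 ≤ h1 := by rw [hh0]; exact Nat.find_min' hex2 ⟨h10, h1d⟩
    have hleR : (h0 : ℝ) * t ^ 30 ≤ 1 := by
      have : (h0 : ℝ) ≤ h1 := by exact_mod_cast hle
      calc (h0 : ℝ) * t ^ 30 ≤ h1 * t ^ 30 := by gcongr
        _ ≤ 1 := h1t
    have hbad : BadAt α s h0 := by
      refine ⟨⟨hsp.1, hsp.2, fun k hk hk2 => ?_⟩, ?_⟩
      · by_contra hne
        push Not at hne
        exact hmin k hk2 ⟨hk, hne⟩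
      · calc (h0 : ℝ) ^ 4 * s ≤ (h0 : ℝ) ^ 4 * t ^ 120 := by
              rw [hst]
              have := n7_pow_le ht ht1 (m := 120) (n := 640) (by norm_num)
              gcongr
          _ = ((h0 : ℝ) * t ^ 30) ^ 4 := by ring
          _ ≤ 1 := pow_le_one₀ (by positivity) hleR
    have hD := hα h0 hsp.1 hleR
    have h2 := kc_bad_count hs0 hs1 hbad (hD0.trans_le hD) β M S hS hS2
    have h3 : 4 * s / distInt ((h0 : ℝ) * α) ≤ 4 * s / D0 := by gcongr
    have h4 : 0 ≤ t ^ 30 * (M : ℝ) := by positivity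
    linarith only [h2, h3, h4]
  · push Not at hex
    have h1 := kc_sep_card S M (1 / t ^ 30) (by positivity) hS (fun m hm n hn hmn => by
      have h2 : distInt (((n - m : ℕ) : ℝ) * α) ≤ 4 * s := by
        rw [Nat.cast_sub hmn.le]
        have e : ((n : ℝ) - m) * α = ((n : ℝ) * α - β) - ((m : ℝ) * α - β) := by ring
        rw [e]
        refine (nb_distInt_sub_le _ _).trans ?_
        linarith only [hS2 m hm, hS2 n hn]
      have h3 : 1 < ((n - m : ℕ) : ℝ) * t ^ 30 := by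
        by_contra hne
        push Not at hne
        exact absurd h2 (not_le.2 (hex (n - m) (by omega) hne))
      rw [Nat.cast_sub hmn.le] at h3
      rw [div_le_iff₀ (by positivity)]
      exact h3.le)
    have h2 : (M : ℝ) / (1 / t ^ 30) = t ^ 30 * M := by
      field_simp
    rw [h2] at h1
    have h3 : 0 ≤ 64 * s * (M : ℝ) := by positivity
    have h4 : 0 ≤ 4 * s / D0 := by positivity
    linarith only [h1, h3, h4]

/-- one block, `trans_near` -/
theorem n7_block {γ s V t : ℝ} (ht : 0 < t) (ht1 : t ≤ 1 / 400000) (hst : s = t ^ 640)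
    (hV : 0 < V) {a b : ℕ} (ha : 0 < a) (hbad : ¬ NBad γ s V a) {X : ℕ}
    (hX : 1 ≤ (X : ℝ) * t ^ 640) (S : Finset ℕ) (hS : ∀ p ∈ S, X ≤ p ∧ p < 2 * X)
    (hS2 : ∀ p ∈ S, ∃ m n : ℕ, 0 < m ∧ 0 < n ∧ (m : ℝ) ≤ s ^ (-(1 / 64) : ℝ) ∧
      (n : ℝ) ≤ s ^ (-(1 / 64) : ℝ) ∧ NWin γ s V (a * p * m) (b * n)) :
    ∑ p ∈ S, 1 / (p : ℝ) ≤ 139 * t ^ 10 := by
  classical
  have hs0 : 0 < s := by rw [hst]; positivity
  have haR : (0 : ℝ) < a := by exact_mod_cast ha
  have hX0 : (0 : ℝ) < X := by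
    by_contra hne
    push Not at hne
    have : (X : ℝ) * t ^ 640 ≤ 0 := mul_nonpos_of_nonpos_of_nonneg hne (by positivity)
    linarith only [hX, this]
  have e64 : s ^ (-(1 / 64) : ℝ) = (t ^ 10)⁻¹ := by
    rw [hst]; exact n7_rpow_neg ht 10 (by norm_num)
  have e32 : s ^ (1 / 32 : ℝ) = t ^ 20 := by
    rw [hst]; exact n7_rpow ht 20 (by norm_num)
  have e16 : s ^ (-(1 / 16) : ℝ) = (t ^ 40)⁻¹ := by
    rw [hst]; exact n7_rpow_neg ht 40 (by norm_num)
  have etb : tb s V = t ^ 540 / V := by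
    unfold tb
    rw [hst, n7_rpow ht 540 (by norm_num)]
  obtain ⟨K, hK⟩ : ∃ K, K = ⌊(t ^ 10)⁻¹⌋₊ := ⟨_, rfl⟩
  have hKle : (K : ℝ) ≤ (t ^ 10)⁻¹ := by
    rw [hK]; exact Nat.floor_le (by positivity)
  have hone : ∀ m ∈ Icc 1 K, ∀ n ∈ Icc 1 K,
      ((S.filter (fun p => NWin γ s V (a * p * m) (b * n))).card : ℝ) ≤ 139 * X * t ^ 30 := by
    intro m hm n hn
    rw [mem_Icc] at hm hn
    rcases (S.filter (fun p => NWin γ s V (a * p * m) (b * n))).eq_empty_or_nonempty with h | h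
    · rw [h, card_empty, Nat.cast_zero]
      positivity
    obtain ⟨p₀, hp₀⟩ := h
    rw [mem_filter] at hp₀
    have hmR : (m : ℝ) ≤ (t ^ 10)⁻¹ := by
      have : (m : ℝ) ≤ K := by exact_mod_cast hm.2
      exact this.trans hKle
    have hm0 : (0 : ℝ) < m := by exact_mod_cast hm.1
    have hp2 : (p₀ : ℝ) ≤ 2 * X := by exact_mod_cast (hS p₀ hp₀.1).2.le
    have hVa : V * t ^ 30 ≤ 2 * (a * X) := by
      have h1 := hp₀.2.1
      have h2 := hp₀.2.2.2.1
      rw [e32] at h2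
      have h3 : t ^ 20 * V ≤ ((a * p₀ * m : ℕ) : ℝ) :=
        (mul_le_mul_of_nonneg_left h1 (by positivity)).trans (h2.trans (min_le_left _ _))
      have h4 : ((a * p₀ * m : ℕ) : ℝ) ≤ a * (2 * X) * (t ^ 10)⁻¹ := by
        push_cast
        gcongr
      calc V * t ^ 30 = (t ^ 20 * V) * t ^ 10 := by ring
        _ ≤ (a * (2 * X) * (t ^ 10)⁻¹) * t ^ 10 := by
            have := h3.trans h4
            gcongr
        _ = 2 * (a * X) := by
            field_simp
    have hcnt := n7_count (s := s) ht ht1 hst (α := (a : ℝ) * m * γ) (β := (b : ℝ) * n * γ)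
      (D0 := a * (t ^ 540 / V)) (M := 2 * X)
      (S := S.filter (fun p => NWin γ s V (a * p * m) (b * n))) (by positivity) ?_ ?_ ?_
    · refine hcnt.trans ?_
      have h1 : 4 * s / (a * (t ^ 540 / V)) ≤ 8 * X * t ^ 70 := by
        rw [div_le_iff₀ (by positivity)]
        calc 4 * s = 4 * (t ^ 30 * V) * (t ^ 610 / V) := by
              rw [hst]
              field_simp
          _ ≤ 4 * (2 * (a * X)) * (t ^ 610 / V) := by
              have : t ^ 30 * V ≤ 2 * (a * X) := by linarith only [hVa]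
              gcongr
          _ = 8 * X * t ^ 70 * (a * (t ^ 540 / V)) := by
              ring
      have h2 : t ^ 70 ≤ t ^ 30 := n7_pow_le ht ht1 (by norm_num)
      have h3 : t ^ 640 ≤ t ^ 30 := n7_pow_le ht ht1 (by norm_num)
      have h4 : (X : ℝ) * t ^ 640 ≤ X * t ^ 30 := by gcongr
      have h5 : 8 * (X : ℝ) * t ^ 70 ≤ 8 * X * t ^ 30 := by gcongr
      rw [hst] at h1 ⊢
      push_cast
      linarith only [hX, h5, h4, h1]
    · intro h hh0 hht
      have h1 : ¬ NBad γ s V a := hbad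
      unfold NBad at h1
      push Not at h1
      have h2 : (((h * m : ℕ) : ℝ)) ≤ s ^ (-(1 / 16) : ℝ) := by
        rw [e16]
        push_cast
        calc (h : ℝ) * m ≤ (t ^ 30)⁻¹ * (t ^ 10)⁻¹ := by
              have : (h : ℝ) ≤ (t ^ 30)⁻¹ := by
                rw [inv_eq_one_div, le_div_iff₀ (by positivity)]
                exact hht
              gcongr
          _ = (t ^ 40)⁻¹ := by rw [← mul_inv, ← pow_add]
      have h3 := h1 (h * m) (Nat.mul_pos hh0 hm.1) h2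
      rw [etb] at h3
      refine h3.trans (le_of_eq ?_)
      congr 1
      push_cast
      ring
    · intro p hp
      rw [mem_filter] at hp
      exact (hS p hp.1).2.le
    · intro p hp
      rw [mem_filter] at hp
      have h1 := hp.2.2.2.2.1
      refine lt_of_le_of_lt (le_of_eq ?_) h1
      congr 1
      push_cast
      ring
  have hsub : S ⊆ (Icc 1 K ×ˢ Icc 1 K).biUnion
      (fun z => S.filter (fun p => NWin γ s V (a * p * z.1) (b * z.2))) := by
    intro p hp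
    obtain ⟨m, n, hm, hn, hm2, hn2, hw⟩ := hS2 p hp
    rw [e64] at hm2 hn2
    rw [mem_biUnion]
    refine ⟨(m, n), mem_product.2 ⟨mem_Icc.2 ⟨hm, ?_⟩, mem_Icc.2 ⟨hn, ?_⟩⟩,
      mem_filter.2 ⟨hp, hw⟩⟩
    · rw [hK]; exact Nat.le_floor hm2
    · rw [hK]; exact Nat.le_floor hn2
  have hcard : (S.card : ℝ) ≤ 139 * X * t ^ 10 := by
    have h1 : S.card ≤ ∑ z ∈ Icc 1 K ×ˢ Icc 1 K,
        (S.filter (fun p => NWin γ s V (a * p * z.1) (b * z.2))).card :=
      (card_le_card hsub).trans card_biUnion_le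
    have h2 : (S.card : ℝ) ≤ ∑ z ∈ Icc 1 K ×ˢ Icc 1 K,
        ((S.filter (fun p => NWin γ s V (a * p * z.1) (b * z.2))).card : ℝ) := by
      exact_mod_cast h1
    refine h2.trans ?_
    calc ∑ z ∈ Icc 1 K ×ˢ Icc 1 K,
        ((S.filter (fun p => NWin γ s V (a * p * z.1) (b * z.2))).card : ℝ)
        ≤ ∑ _z ∈ Icc 1 K ×ˢ Icc 1 K, 139 * (X : ℝ) * t ^ 30 := by
          refine sum_le_sum fun z hz => ?_
          rw [mem_product] at hz
          exact hone z.1 hz.1 z.2 hz.2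
      _ = (K : ℝ) * K * (139 * X * t ^ 30) := by
          rw [sum_const, card_product, Nat.card_Icc, nsmul_eq_mul]
          push_cast
          simp
      _ ≤ (t ^ 10)⁻¹ * (t ^ 10)⁻¹ * (139 * X * t ^ 30) := by gcongr
      _ = 139 * X * t ^ 10 := by
          field_simp
  calc ∑ p ∈ S, 1 / (p : ℝ) ≤ ∑ _p ∈ S, 1 / (X : ℝ) := by
        refine sum_le_sum fun p hp => ?_
        have : (X : ℝ) ≤ p := by exact_mod_cast (hS p hp).1
        gcongr
    _ = S.card * (1 / (X : ℝ)) := by rw [sum_const, nsmul_eq_mul]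
    _ ≤ 139 * X * t ^ 10 * (1 / X) := by gcongr
    _ = 139 * t ^ 10 := by
        field_simp

/-- range of the logarithms -/
theorem n7_log_card {t : ℝ} (ht : 0 < t) (ht1 : t ≤ 1 / 400000) (S : Finset ℕ)
    (hS : ∀ p ∈ S, 0 < p) (hS2 : ∀ p ∈ S, ∀ q ∈ S, (q : ℝ) * t ^ 150 ≤ p) :
    ((S.image (fun p => Nat.log 2 p)).card : ℝ) ≤ 302 / t := by
  classical
  rcases S.eq_empty_or_nonempty with h | h
  · rw [h, image_empty, card_empty, Nat.cast_zero]
    positivity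
  have hne : (S.image (fun p => Nat.log 2 p)).Nonempty := h.image _
  obtain ⟨i, hi⟩ : ∃ i, i = (S.image (fun p => Nat.log 2 p)).min' hne := ⟨_, rfl⟩
  obtain ⟨j, hj⟩ : ∃ j, j = (S.image (fun p => Nat.log 2 p)).max' hne := ⟨_, rfl⟩
  have hiS := (S.image (fun p => Nat.log 2 p)).min'_mem hne
  have hjS := (S.image (fun p => Nat.log 2 p)).max'_mem hne
  rw [← hi, mem_image] at hiS
  rw [← hj, mem_image] at hjS
  obtain ⟨p, hp, hpi⟩ := hiS
  obtain ⟨q, hq, hqj⟩ := hjS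
  have hij : i ≤ j := by
    rw [hi, hj]
    exact Finset.min'_le_max' _ hne
  have hsub : S.image (fun p => Nat.log 2 p) ⊆ Icc i j := by
    intro k hk
    rw [mem_Icc, hi, hj]
    exact ⟨Finset.min'_le _ _ hk, Finset.le_max' _ _ hk⟩
  have hcard := card_le_card hsub
  rw [Nat.card_Icc] at hcard
  have h1 : (2 : ℝ) ^ j ≤ q := by
    rw [← hqj]
    exact_mod_cast Nat.pow_log_le_self 2 (hS q hq).ne'
  have h2 : (p : ℝ) < 2 ^ (i + 1) := by
    rw [← hpi]
    exact_mod_cast Nat.lt_pow_succ_log_self (by norm_num) p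
  have h3 := hS2 p hp q hq
  have h4 : (2 : ℝ) ^ (j - i) * t ^ 150 < 2 := by
    have h5 : (2 : ℝ) ^ j * t ^ 150 < 2 ^ (i + 1) := by
      calc (2 : ℝ) ^ j * t ^ 150 ≤ (q : ℝ) * t ^ 150 := by gcongr
        _ ≤ (p : ℝ) := h3
        _ < (2 : ℝ) ^ (i + 1) := h2
    have h6 : (2 : ℝ) ^ j = 2 ^ i * 2 ^ (j - i) := by
      rw [← pow_add]
      congr 1
      omega
    rw [h6, pow_succ, mul_assoc] at h5
    exact lt_of_mul_lt_mul_left h5 (by positivity)
  have h5 : ((j - i : ℕ) : ℝ) * Real.log 2 + 150 * Real.log t < Real.log 2 := by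
    have h6 := Real.log_lt_log (by positivity) h4
    rw [Real.log_mul (by positivity) (by positivity), Real.log_pow, Real.log_pow] at h6
    push_cast at h6 ⊢
    exact h6
  have h6 : -Real.log t ≤ 1 / t := by
    have h7 := Real.log_le_sub_one_of_pos (x := 1 / t) (by positivity)
    rw [one_div, Real.log_inv] at h7
    rw [one_div]
    linarith only [h7]
  have h7 : (1 / 2 : ℝ) < Real.log 2 := by
    have := Real.log_two_gt_d9
    linarith only [this]
  have h8 : ((j - i : ℕ) : ℝ) ≤ 1 + 300 / t := by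
    by_contra hne'
    push Not at hne'
    have h9 : (1 + 300 / t) * Real.log 2 < ((j - i : ℕ) : ℝ) * Real.log 2 := by gcongr
    have h10 : 300 / t * (1 / 2) ≤ 300 / t * Real.log 2 := by gcongr
    have h11 : 300 / t * (1 / 2) = 150 * (1 / t) := by ring
    linarith only [h11, h10, h9, h6, h5]
  have h9 : ((S.image (fun p => Nat.log 2 p)).card : ℝ) ≤ ((j - i : ℕ) : ℝ) + 1 := by
    have h10 : (S.image (fun p => Nat.log 2 p)).card ≤ (j - i) + 1 := by omega
    exact_mod_cast h10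
  have h10 : 2 ≤ 2 / t := by
    rw [le_div_iff₀ ht]
    linarith only [ht1]
  have h11 : 302 / t = 300 / t + 2 / t := by ring
  rw [h11]
  linarith only [h8, h9, h10]

/-- decomposition in dyadic blocks -/
theorem n7_dyadic (S : Finset ℕ) (f : ℕ → ℝ) :
    ∑ p ∈ S, f p = ∑ j ∈ S.image (fun p => Nat.log 2 p),
      ∑ p ∈ S.filter (fun p => Nat.log 2 p = j), f p := by
  classical
  exact (sum_fiberwise_of_maps_to (fun p hp => mem_image_of_mem _ hp) f).symm

open Classical in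
theorem trans_near : ∃ s₀ > 0, ∀ γ s V : ℝ, NHyp s₀ s V → ∀ a b : ℕ, 0 < a → 0 < b →
    ¬ NBad γ s V a → ∀ P : Finset ℕ, (∀ p ∈ P, p.Prime ∧ nw s V < p) →
    ∑ p ∈ P, (if ∃ m n : ℕ, 0 < m ∧ 0 < n ∧ (m : ℝ) ≤ s ^ (-(1 / 64) : ℝ) ∧
        (n : ℝ) ≤ s ^ (-(1 / 64) : ℝ) ∧ NWin γ s V (a * p * m) (b * n) then 1 / (p : ℝ) else 0) ≤
      s ^ (1 / 80 : ℝ) / 4 := by
  refine ⟨(1 / 400000 : ℝ) ^ 640, by positivity, fun γ s V hH a b ha _ hbad P hP => ?_⟩
  obtain ⟨hs, hs0, hV, hVL⟩ := hH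
  obtain ⟨t, ht, ht1, hst⟩ := n7_exists_t hs hs0
  have hnw := n7_nw ht ht1 hst hVL
  have haR : (0 : ℝ) < a := by exact_mod_cast ha
  have e64 : s ^ (-(1 / 64) : ℝ) = (t ^ 10)⁻¹ := by
    rw [hst]; exact n7_rpow_neg ht 10 (by norm_num)
  have e32 : s ^ (1 / 32 : ℝ) = t ^ 20 := by
    rw [hst]; exact n7_rpow ht 20 (by norm_num)
  have e316 : s ^ (-(3 / 16) : ℝ) = (t ^ 120)⁻¹ := by
    rw [hst]; exact n7_rpow_neg ht 120 (by norm_num)
  have e80 : s ^ (1 / 80 : ℝ) = t ^ 8 := by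
    rw [hst]; exact n7_rpow ht 8 (by norm_num)
  rw [← sum_filter, e80]
  obtain ⟨Q, hQ⟩ : ∃ Q, Q = P.filter (fun p => ∃ m n : ℕ, 0 < m ∧ 0 < n ∧
      (m : ℝ) ≤ s ^ (-(1 / 64) : ℝ) ∧ (n : ℝ) ≤ s ^ (-(1 / 64) : ℝ) ∧
      NWin γ s V (a * p * m) (b * n)) := ⟨_, rfl⟩
  rw [← hQ]
  have hQ1 : ∀ p ∈ Q, p.Prime ∧ nw s V < p := fun p hp => by
    rw [hQ, mem_filter] at hp
    exact hP p hp.1
  have hQ2 : ∀ p ∈ Q, ∃ m n : ℕ, 0 < m ∧ 0 < n ∧ (m : ℝ) ≤ s ^ (-(1 / 64) : ℝ) ∧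
      (n : ℝ) ≤ s ^ (-(1 / 64) : ℝ) ∧ NWin γ s V (a * p * m) (b * n) := fun p hp => by
    rw [hQ, mem_filter] at hp
    exact hp.2
  have hlow : ∀ p ∈ Q, V * t ^ 30 ≤ a * p := by
    intro p hp
    obtain ⟨m, n, hm, hn, hm2, hn2, hw⟩ := hQ2 p hp
    have h1 := hw.1
    have h2 := hw.2.2.1
    rw [e32] at h2
    rw [e64] at hm2
    have h3 : t ^ 20 * V ≤ ((a * p * m : ℕ) : ℝ) :=
      (mul_le_mul_of_nonneg_left h1 (by positivity)).trans (h2.trans (min_le_left _ _))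
    have h4 : ((a * p * m : ℕ) : ℝ) ≤ a * p * (t ^ 10)⁻¹ := by
      push_cast
      gcongr
    calc V * t ^ 30 = (t ^ 20 * V) * t ^ 10 := by ring
      _ ≤ (a * p * (t ^ 10)⁻¹) * t ^ 10 := by
          have := h3.trans h4
          gcongr
      _ = a * p := by
          field_simp
  have hup : ∀ p ∈ Q, (a * p : ℝ) * t ^ 120 ≤ V := by
    intro p hp
    obtain ⟨m, n, hm, hn, hm2, hn2, hw⟩ := hQ2 p hp
    have h2 := hw.2.1
    rw [e316] at h2
    have hm1 : (1 : ℝ) ≤ m := by exact_mod_cast hm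
    have h3 : (a * p : ℝ) ≤ V * (t ^ 120)⁻¹ := by
      calc (a * p : ℝ) ≤ a * p * m := le_mul_of_one_le_right (by positivity) hm1
        _ = ((a * p * m : ℕ) : ℝ) := by push_cast; ring
        _ ≤ max ((a * p * m : ℕ) : ℝ) ((b * n : ℕ) : ℝ) := le_max_left _ _
        _ ≤ _ := h2
    calc (a * p : ℝ) * t ^ 120 ≤ V * (t ^ 120)⁻¹ * t ^ 120 := by gcongr
      _ = V := by
          field_simp
  have hcard := n7_log_card ht ht1 Q (fun p hp => (hQ1 p hp).1.pos) (fun p hp q hq => by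
    have h1 := hlow p hp
    have h2 := hup q hq
    have h3 : a * ((q : ℝ) * t ^ 150) ≤ a * p := by
      calc a * ((q : ℝ) * t ^ 150) = (a * q : ℝ) * t ^ 120 * t ^ 30 := by ring
        _ ≤ V * t ^ 30 := by gcongr
        _ ≤ a * p := h1
    exact le_of_mul_le_mul_left h3 haR)
  rw [n7_dyadic]
  calc ∑ j ∈ Q.image (fun p => Nat.log 2 p), ∑ p ∈ Q.filter (fun p => Nat.log 2 p = j),
        1 / (p : ℝ)
      ≤ ∑ _j ∈ Q.image (fun p => Nat.log 2 p), 139 * t ^ 10 := by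
        refine sum_le_sum fun j hj => ?_
        obtain ⟨p₀, hp₀, hpj⟩ := mem_image.1 hj
        have hblock : ∀ p ∈ Q.filter (fun p => Nat.log 2 p = j), 2 ^ j ≤ p ∧ p < 2 * 2 ^ j := by
          intro p hp
          rw [mem_filter] at hp
          have hpp := (hQ1 p hp.1).1.pos
          rw [← hp.2]
          refine ⟨Nat.pow_log_le_self 2 hpp.ne', ?_⟩
          have := Nat.lt_pow_succ_log_self (b := 2) (by norm_num) p
          rw [pow_succ] at this
          omega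
        refine n7_block (b := b) ht ht1 hst hV ha hbad (X := 2 ^ j) ?_ _ hblock
          (fun p hp => hQ2 p (mem_filter.1 hp).1)
        have h1 := hblock p₀ (mem_filter.2 ⟨hp₀, hpj⟩)
        have h2 : (p₀ : ℝ) < 2 * 2 ^ j := by exact_mod_cast h1.2
        have h3 := (hQ1 p₀ hp₀).2
        have h4 : (t ^ 1280)⁻¹ < 2 * 2 ^ j := hnw.trans_lt (h3.trans h2)
        have h5 : (t ^ 1280)⁻¹ * t ^ 640 = (t ^ 640)⁻¹ := by
          field_simp
        have h6 : (t ^ 640)⁻¹ < 2 * 2 ^ j * t ^ 640 := by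
          rw [← h5]
          gcongr
        have h7 : (2 : ℝ) ≤ (t ^ 640)⁻¹ := by
          rw [inv_eq_one_div, le_div_iff₀ (by positivity)]
          have h8 : t ^ 640 ≤ t ^ 1 := n7_pow_le ht ht1 (by norm_num)
          rw [pow_one] at h8
          linarith only [h8, ht1]
        push_cast
        linarith only [h6, h7]
    _ = ((Q.image (fun p => Nat.log 2 p)).card : ℝ) * (139 * t ^ 10) := by
        rw [sum_const, nsmul_eq_mul]
    _ ≤ 302 / t * (139 * t ^ 10) := by gcongr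
    _ = 41978 * t * t ^ 8 := by
        field_simp
        ring
    _ ≤ t ^ 8 / 4 := by
        have h1 : 41978 * t ≤ 1 / 4 := by linarith only [ht1]
        calc 41978 * t * t ^ 8 ≤ 1 / 4 * t ^ 8 := by gcongr
          _ = t ^ 8 / 4 := by ring

/-! ### `trans_bad` -/

theorem n7_biUnion (I : Finset ℕ) (T : ℕ → Finset ℕ) (f : ℕ → ℝ) (hf : ∀ p, 0 ≤ f p) :
    ∑ p ∈ I.biUnion T, f p ≤ ∑ h ∈ I, ∑ p ∈ T h, f p := by
  classical
  induction I using Finset.induction_on with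
  | empty => simp
  | insert h I hh ih =>
    rw [biUnion_insert, sum_insert hh]
    have h1 := sum_union_inter (s₁ := T h) (s₂ := I.biUnion T) (f := f)
    have h2 : 0 ≤ ∑ p ∈ T h ∩ I.biUnion T, f p := sum_nonneg fun p _ => hf p
    linarith only [h1, h2, ih]

/-- separated reals in an interval -/
theorem n7_sep_card {S : Finset ℕ} {f : ℕ → ℝ} {x l G : ℝ} (hG : 0 < G)
    (h1 : ∀ p ∈ S, x ≤ f p ∧ f p ≤ x + l) (h2 : ∀ p ∈ S, ∀ q ∈ S, p ≠ q → G ≤ |f p - f q|) :
    S.Nonempty → (S.card : ℝ) ≤ l / G + 1 := by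
  intro hne
  have hl : 0 ≤ l := by
    obtain ⟨p, hp⟩ := hne
    have := h1 p hp
    linarith only [this.1, this.2]
  have h3 : S.card ≤ (range (⌊l / G⌋₊ + 1)).card := by
    refine card_le_card_of_injOn (fun p => ⌊(f p - x) / G⌋₊) ?_ ?_
    · intro p hp
      rw [coe_range, Set.mem_Iio]
      have h4 := (h1 p hp).2
      refine Nat.lt_succ_of_le (Nat.floor_mono (div_le_div_of_nonneg_right ?_ hG.le))
      linarith only [h4]
    · intro p hp q hq hpq
      by_contra hne2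
      have h4 := h2 p hp q hq hne2
      simp only at hpq
      have h5 : 0 ≤ (f p - x) / G := div_nonneg (by linarith only [(h1 p hp).1]) hG.le
      have h6 : 0 ≤ (f q - x) / G := div_nonneg (by linarith only [(h1 q hq).1]) hG.le
      have h7 := Nat.floor_le h5
      have h8 := Nat.lt_floor_add_one ((f p - x) / G)
      have h9 := Nat.floor_le h6
      have h10 := Nat.lt_floor_add_one ((f q - x) / G)
      rw [hpq] at h7 h8
      have h11 : |(f p - x) / G - (f q - x) / G| < 1 := by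
        rw [abs_lt]
        constructor <;> linarith only [h7, h8, h9, h10]
      have h12 : (f p - x) / G - (f q - x) / G = (f p - f q) / G := by ring
      rw [h12, abs_div, abs_of_pos hG, div_lt_one hG] at h11
      linarith only [h4, h11]
  rw [card_range] at h3
  have h4 : (S.card : ℝ) ≤ ((⌊l / G⌋₊ + 1 : ℕ) : ℝ) := by exact_mod_cast h3
  push_cast at h4
  have h5 : (⌊l / G⌋₊ : ℝ) ≤ l / G := Nat.floor_le (by positivity)
  linarith only [h4, h5]

/-- reduced fractions with different prime denominators -/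
theorem n7_sep {p q : ℕ} (hp : p.Prime) (hq : q.Prime) (hne : p ≠ q) {k l : ℤ}
    (hk : ¬ (p : ℤ) ∣ k) : 1 / ((p : ℝ) * q) ≤ |(k : ℝ) / p - l / q| := by
  have hp0 : (0 : ℝ) < p := by exact_mod_cast hp.pos
  have hq0 : (0 : ℝ) < q := by exact_mod_cast hq.pos
  have h1 : k * q - l * p ≠ 0 := by
    intro h
    have h2 : (p : ℤ) ∣ k * q := ⟨l, by linarith only [h]⟩
    rcases (Nat.prime_iff_prime_int.1 hp).dvd_or_dvd h2 with h3 | h3
    · exact hk h3
    · have h4 : p ∣ q := by exact_mod_cast h3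
      exact hne ((Nat.prime_dvd_prime_iff_eq hp hq).1 h4)
  have h2 : (1 : ℝ) ≤ |(k : ℝ) * q - l * p| := by
    have h3 : (1 : ℤ) ≤ |k * q - l * p| := Int.one_le_abs h1
    exact_mod_cast h3
  have h3 : (k : ℝ) / p - l / q = ((k : ℝ) * q - l * p) / (p * q) := by
    field_simp
  rw [h3, abs_div, abs_of_pos (mul_pos hp0 hq0)]
  gcongr

theorem n7_geom_up (J : Finset ℕ) (m : ℕ) (h : ∀ j ∈ J, j ≤ m) :
    ∑ j ∈ J, (2 : ℝ) ^ j ≤ 2 * 2 ^ m := by
  have h1 : J ⊆ range (m + 1) := fun j hj => mem_range.2 (Nat.lt_succ_of_le (h j hj))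
  have h2 : ∀ n : ℕ, ∑ j ∈ range n, (2 : ℝ) ^ j = 2 ^ n - 1 := by
    intro n
    induction n with
    | zero => simp
    | succ n ih => rw [sum_range_succ, ih, pow_succ]; ring
  calc ∑ j ∈ J, (2 : ℝ) ^ j ≤ ∑ j ∈ range (m + 1), (2 : ℝ) ^ j :=
        sum_le_sum_of_subset_of_nonneg h1 fun _ _ _ => by positivity
    _ = 2 ^ (m + 1) - 1 := h2 _
    _ ≤ 2 * 2 ^ m := by rw [pow_succ]; linarith only

theorem n7_geom_down (J : Finset ℕ) (m : ℕ) (h : ∀ j ∈ J, m ≤ j) :
    ∑ j ∈ J, (1 / 2 : ℝ) ^ j ≤ 2 * (1 / 2) ^ m := by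
  classical
  have h1 : ∀ j ∈ J, (1 / 2 : ℝ) ^ j = (1 / 2) ^ m * (1 / 2) ^ (j - m) := by
    intro j hj
    rw [← pow_add]
    congr 1
    have := h j hj
    omega
  have h2 : Set.InjOn (fun j => j - m) J := by
    intro i hi j hj hij
    have h3 := h i hi
    have h4 := h j hj
    simp only at hij
    omega
  have h3 : ∑ j ∈ J, (1 / 2 : ℝ) ^ (j - m) = ∑ i ∈ J.image (fun j => j - m), (1 / 2 : ℝ) ^ i :=
    (sum_image h2).symm
  have h4 : ∑ i ∈ J.image (fun j => j - m), (1 / 2 : ℝ) ^ i ≤ 2 := by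
    have h5 := summable_geometric_two.sum_le_tsum (J.image (fun j => j - m))
      (fun i _ => by positivity)
    rwa [tsum_geometric_two] at h5
  rw [sum_congr rfl h1, ← mul_sum, h3, mul_comm]
  gcongr

/-- one block, `trans_bad`: the set of primes of a dyadic block for a fixed multiplier. -/
theorem n7_block_bad {α η : ℝ} {X : ℕ} (hX : 0 < X) (hη : 0 ≤ η)
    (hbad : η ≤ distInt α) (S : Finset ℕ)
    (hS : ∀ p ∈ S, X ≤ p ∧ p < 2 * X) (hp : ∀ p ∈ S, p.Prime)
    (hS2 : ∀ p ∈ S, distInt ((p : ℝ) * α) < p * η) :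
    ∑ p ∈ S, 1 / (p : ℝ) ≤ 1 / (X : ℝ) + 8 * X * η := by
  have hX0 : (0 : ℝ) < X := by exact_mod_cast hX
  rcases S.eq_empty_or_nonempty with he | hne
  · rw [he, sum_empty]
    positivity
  have hp0 : ∀ p ∈ S, (0 : ℝ) < p := fun p hpS => by exact_mod_cast (hp p hpS).pos
  have hab : ∀ p ∈ S, |α - (round ((p : ℝ) * α) : ℝ) / p| < η := by
    intro p hpS
    have h1 := hS2 p hpS
    have h2 := hp0 p hpS
    unfold distInt at h1
    have h3 : (p : ℝ) * α - round ((p : ℝ) * α) = p * (α - (round ((p : ℝ) * α) : ℝ) / p) := by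
      field_simp
    rw [h3, abs_mul, abs_of_pos h2] at h1
    exact lt_of_mul_lt_mul_left h1 h2.le
  have hnd : ∀ p ∈ S, ¬ (p : ℤ) ∣ round ((p : ℝ) * α) := by
    intro p hpS hd
    obtain ⟨c, hc⟩ := hd
    have h1 := hab p hpS
    have h2 := hp0 p hpS
    rw [hc] at h1
    push_cast at h1
    rw [mul_div_cancel_left₀ _ h2.ne'] at h1
    have h3 := distInt_le_abs_sub' α c
    linarith only [h1, h3, hbad]
  have hcard := n7_sep_card (S := S) (f := fun p => (round ((p : ℝ) * α) : ℝ) / p) (x := α - η)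
    (l := 2 * η) (G := 1 / (4 * X ^ 2)) (by positivity) (fun p hpS => by
      have h1 := abs_lt.1 (hab p hpS)
      constructor <;> linarith only [h1.1, h1.2]) (fun p hpS q hqS hpq => by
      refine le_trans ?_ (n7_sep (hp p hpS) (hp q hqS) hpq (hnd p hpS))
      have h1 : (p : ℝ) ≤ 2 * X := by exact_mod_cast (hS p hpS).2.le
      have h2 : (q : ℝ) ≤ 2 * X := by exact_mod_cast (hS q hqS).2.le
      have h3 := hp0 p hpS
      have h4 := hp0 q hqS
      apply one_div_le_one_div_of_le (by positivity)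
      calc (p : ℝ) * q ≤ (2 * X) * (2 * X) := by gcongr
        _ = 4 * X ^ 2 := by ring) hne
  have hcard2 : (S.card : ℝ) ≤ 8 * X ^ 2 * η + 1 := by
    refine hcard.trans (le_of_eq ?_)
    field_simp
    ring
  calc ∑ p ∈ S, 1 / (p : ℝ) ≤ ∑ _p ∈ S, 1 / (X : ℝ) := by
        refine sum_le_sum fun p hpS => ?_
        have : (X : ℝ) ≤ p := by exact_mod_cast (hS p hpS).1
        gcongr
    _ = S.card * (1 / (X : ℝ)) := by rw [sum_const, nsmul_eq_mul]
    _ ≤ (8 * X ^ 2 * η + 1) * (1 / X) := by gcongr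
    _ = 1 / (X : ℝ) + 8 * X * η := by
        field_simp
        ring

/-- `trans_bad` for a fixed multiplier -/
theorem n7_bad_one {α η w Z : ℝ} (hη : 0 ≤ η) (hw : 1 ≤ w)
    (hbad : η ≤ distInt α) (S : Finset ℕ) (hp : ∀ p ∈ S, p.Prime ∧ w < p ∧ p * η ≤ Z)
    (hZ : 0 ≤ Z) (hS2 : ∀ p ∈ S, distInt ((p : ℝ) * α) < p * η) :
    ∑ p ∈ S, 1 / (p : ℝ) ≤ 4 / w + 16 * Z := by
  classical
  rcases S.eq_empty_or_nonempty with he | hne
  · rw [he, sum_empty]
    positivity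
  rw [n7_dyadic]
  have hblock : ∀ j, ∀ p ∈ S.filter (fun p => Nat.log 2 p = j), 2 ^ j ≤ p ∧ p < 2 * 2 ^ j := by
    intro j p hpj
    rw [mem_filter] at hpj
    have hpp := (hp p hpj.1).1.pos
    rw [← hpj.2]
    refine ⟨Nat.pow_log_le_self 2 hpp.ne', ?_⟩
    have := Nat.lt_pow_succ_log_self (b := 2) (by norm_num) p
    rw [pow_succ] at this
    omega
  obtain ⟨J, hJ⟩ : ∃ J, J = S.image (fun p => Nat.log 2 p) := ⟨_, rfl⟩
  have hJne : J.Nonempty := by rw [hJ]; exact hne.image _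
  have h1 : ∀ j ∈ J, ∑ p ∈ S.filter (fun p => Nat.log 2 p = j), 1 / (p : ℝ) ≤
      (1 / 2 : ℝ) ^ j + 8 * η * 2 ^ j := by
    intro j _
    have h2 := n7_block_bad (X := 2 ^ j) (α := α) (η := η) (by positivity) hη hbad
      (S.filter (fun p => Nat.log 2 p = j)) (hblock j)
      (fun p hpj => (hp p (mem_filter.1 hpj).1).1)
      (fun p hpj => hS2 p (mem_filter.1 hpj).1)
    refine h2.trans (le_of_eq ?_)
    push_cast
    rw [one_div_pow]
    ring
  rw [← hJ]
  obtain ⟨i, hi⟩ : ∃ i, i = J.min' hJne := ⟨_, rfl⟩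
  obtain ⟨k, hk⟩ : ∃ k, k = J.max' hJne := ⟨_, rfl⟩
  have hiJ : i ∈ J := by rw [hi]; exact J.min'_mem hJne
  have hkJ : k ∈ J := by rw [hk]; exact J.max'_mem hJne
  have h3 := n7_geom_down J i (fun j hj => by rw [hi]; exact J.min'_le j hj)
  have h4 := n7_geom_up J k (fun j hj => by rw [hk]; exact J.le_max' j hj)
  rw [hJ, mem_image] at hiJ hkJ
  obtain ⟨p, hpS, hpi⟩ := hiJ
  obtain ⟨q, hqS, hqk⟩ := hkJ
  have h5 : w < 2 * 2 ^ i := by
    have h6 := (hblock i p (mem_filter.2 ⟨hpS, hpi⟩)).2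
    have h7 : (p : ℝ) < 2 * 2 ^ i := by exact_mod_cast h6
    exact (hp p hpS).2.1.trans h7
  have h6 : (2 : ℝ) ^ k * η ≤ Z := by
    have h7 := (hblock k q (mem_filter.2 ⟨hqS, hqk⟩)).1
    have h8 : (2 : ℝ) ^ k ≤ q := by exact_mod_cast h7
    calc (2 : ℝ) ^ k * η ≤ q * η := by gcongr
      _ ≤ Z := (hp q hqS).2.2
  have h7 : (1 / 2 : ℝ) ^ i ≤ 2 / w := by
    rw [one_div_pow, div_le_div_iff₀ (by positivity) (by linarith only [hw])]
    linarith only [h5]
  calc ∑ j ∈ J, ∑ p ∈ S.filter (fun p => Nat.log 2 p = j), 1 / (p : ℝ)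
      ≤ ∑ j ∈ J, ((1 / 2 : ℝ) ^ j + 8 * η * 2 ^ j) := sum_le_sum h1
    _ = ∑ j ∈ J, (1 / 2 : ℝ) ^ j + 8 * η * ∑ j ∈ J, (2 : ℝ) ^ j := by
        rw [sum_add_distrib, mul_sum]
    _ ≤ 2 * (1 / 2) ^ i + 8 * η * (2 * 2 ^ k) := by gcongr
    _ ≤ 4 / w + 16 * Z := by
        have h8 : 4 / w = 2 * (2 / w) := by ring
        rw [h8]
        linarith only [h6, h7]

open Classical in
theorem trans_bad : ∃ s₀ > 0, ∀ γ s V : ℝ, NHyp s₀ s V → ∀ a : ℕ, 0 < a →
    ¬ NBad γ s V a → ∀ P : Finset ℕ, (∀ p ∈ P, p.Prime ∧ nw s V < p) →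
    ∑ p ∈ P, (if NBad γ s V (a * p) ∧ ((a * p : ℕ) : ℝ) ≤ V * s ^ (-(3 / 16) : ℝ)
      then 1 / (p : ℝ) else 0) ≤ s ^ (1 / 80 : ℝ) / 4 := by
  refine ⟨(1 / 400000 : ℝ) ^ 640, by positivity, fun γ s V hH a ha hbad P hP => ?_⟩
  obtain ⟨hs, hs0, hV, hVL⟩ := hH
  obtain ⟨t, ht, ht1, hst⟩ := n7_exists_t hs hs0
  have hnw := n7_nw ht ht1 hst hVL
  have haR : (0 : ℝ) < a := by exact_mod_cast ha
  have e16 : s ^ (-(1 / 16) : ℝ) = (t ^ 40)⁻¹ := by
    rw [hst]; exact n7_rpow_neg ht 40 (by norm_num)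
  have e316 : s ^ (-(3 / 16) : ℝ) = (t ^ 120)⁻¹ := by
    rw [hst]; exact n7_rpow_neg ht 120 (by norm_num)
  have e80 : s ^ (1 / 80 : ℝ) = t ^ 8 := by
    rw [hst]; exact n7_rpow ht 8 (by norm_num)
  have etb : tb s V = t ^ 540 / V := by
    unfold tb
    rw [hst, n7_rpow ht 540 (by norm_num)]
  rw [← sum_filter, e80]
  obtain ⟨Q, hQ⟩ : ∃ Q, Q = P.filter (fun p => NBad γ s V (a * p) ∧
      ((a * p : ℕ) : ℝ) ≤ V * s ^ (-(3 / 16) : ℝ)) := ⟨_, rfl⟩
  rw [← hQ]
  obtain ⟨K, hK⟩ : ∃ K, K = ⌊(t ^ 40)⁻¹⌋₊ := ⟨_, rfl⟩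
  have hKle : (K : ℝ) ≤ (t ^ 40)⁻¹ := by
    rw [hK]; exact Nat.floor_le (by positivity)
  have hw1 : 1 ≤ (t ^ 1280)⁻¹ := by
    rw [inv_eq_one_div, le_div_iff₀ (by positivity), one_mul]
    exact pow_le_one₀ ht.le (by linarith only [ht1])
  have hone : ∀ h ∈ Icc 1 K, ∑ p ∈ Q.filter (fun p => distInt ((h : ℝ) * ((a * p : ℕ) : ℝ) * γ) <
      ((a * p : ℕ) : ℝ) * tb s V), 1 / (p : ℝ) ≤ 20 * t ^ 420 := by
    intro h hh
    rw [mem_Icc] at hh
    have h1 := n7_bad_one (α := (h : ℝ) * a * γ) (η := a * tb s V) (w := (t ^ 1280)⁻¹)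
      (Z := t ^ 420) (by rw [etb]; positivity) hw1 ?_
      (Q.filter (fun p => distInt ((h : ℝ) * ((a * p : ℕ) : ℝ) * γ) <
        ((a * p : ℕ) : ℝ) * tb s V)) ?_ (by positivity) ?_
    · refine h1.trans ?_
      have h2 : 4 / (t ^ 1280)⁻¹ = 4 * t ^ 1280 := by rw [div_inv_eq_mul]
      have h3 : t ^ 1280 ≤ t ^ 420 := n7_pow_le ht ht1 (by norm_num)
      rw [h2]
      linarith only [h3]
    · have h2 : ¬ NBad γ s V a := hbad
      unfold NBad at h2
      push Not at h2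
      refine h2 h (by omega) ?_
      rw [e16]
      have : (h : ℝ) ≤ K := by exact_mod_cast hh.2
      exact this.trans hKle
    · intro p hp
      rw [mem_filter, hQ, mem_filter] at hp
      obtain ⟨⟨hpP, _, hp2⟩, hp3⟩ := hp
      refine ⟨(hP p hpP).1, hnw.trans_lt (hP p hpP).2, ?_⟩
      rw [e316] at hp2
      push_cast at hp2
      rw [etb]
      calc (p : ℝ) * (a * (t ^ 540 / V)) = (a * p) * (t ^ 540 / V) := by ring
        _ ≤ (V * (t ^ 120)⁻¹) * (t ^ 540 / V) := by gcongr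
        _ = t ^ 420 := by
            field_simp
    · intro p hp
      rw [mem_filter] at hp
      have h2 := hp.2
      push_cast at h2
      have e1 : (p : ℝ) * ((h : ℝ) * a * γ) = (h : ℝ) * (a * p) * γ := by ring
      have e2 : (p : ℝ) * (a * tb s V) = a * p * tb s V := by ring
      rw [e1, e2]
      exact h2
  have hsub : Q ⊆ (Icc 1 K).biUnion (fun h : ℕ =>
      Q.filter (fun p => distInt ((h : ℝ) * ((a * p : ℕ) : ℝ) * γ) <
        ((a * p : ℕ) : ℝ) * tb s V)) := by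
    intro p hp
    have h1 := hp
    rw [hQ, mem_filter] at h1
    obtain ⟨_, ⟨h, hh0, hh1, hh2⟩, _⟩ := h1
    rw [mem_biUnion]
    refine ⟨h, mem_Icc.2 ⟨hh0, ?_⟩, mem_filter.2 ⟨hp, hh2⟩⟩
    rw [hK]
    rw [e16] at hh1
    exact Nat.le_floor hh1
  calc ∑ p ∈ Q, 1 / (p : ℝ)
      ≤ ∑ p ∈ (Icc 1 K).biUnion (fun h : ℕ =>
          Q.filter (fun p => distInt ((h : ℝ) * ((a * p : ℕ) : ℝ) * γ) <
            ((a * p : ℕ) : ℝ) * tb s V)), 1 / (p : ℝ) :=
        sum_le_sum_of_subset_of_nonneg hsub fun _ _ _ => by positivity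
    _ ≤ ∑ h ∈ Icc 1 K, ∑ p ∈ Q.filter (fun p => distInt ((h : ℝ) * ((a * p : ℕ) : ℝ) * γ) <
          ((a * p : ℕ) : ℝ) * tb s V), 1 / (p : ℝ) :=
        n7_biUnion _ _ _ fun _ => by positivity
    _ ≤ ∑ _h ∈ Icc 1 K, 20 * t ^ 420 := sum_le_sum hone
    _ = K * (20 * t ^ 420) := by
        rw [sum_const, Nat.card_Icc, nsmul_eq_mul]
        simp
    _ ≤ (t ^ 40)⁻¹ * (20 * t ^ 420) := by gcongr
    _ = 20 * t ^ 372 * t ^ 8 := by
        field_simp
    _ ≤ t ^ 8 / 4 := by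
        have h1 : t ^ 372 ≤ t ^ 1 := n7_pow_le ht ht1 (by norm_num)
        have h2 : 20 * t ^ 372 ≤ 1 / 4 := by
          rw [pow_one] at h1
          linarith only [h1, ht1]
        calc 20 * t ^ 372 * t ^ 8 ≤ 1 / 4 * t ^ 8 := by gcongr
          _ = t ^ 8 / 4 := by ring

/-- one side of the sum over the transitions -/
theorem n7_half {γ s V : ℝ} {a b : ℕ} (hfin : ¬ NFin γ s V a b) {p : ℕ}
    (h : NFin γ s V (a * p) b ∧ ¬ NDead γ s V (a * p) b) :
    (∃ m n : ℕ, 0 < m ∧ 0 < n ∧ (m : ℝ) ≤ s ^ (-(1 / 64) : ℝ) ∧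
        (n : ℝ) ≤ s ^ (-(1 / 64) : ℝ) ∧ NWin γ s V (a * p * m) (b * n)) ∨
      (NBad γ s V (a * p) ∧ ((a * p : ℕ) : ℝ) ≤ V * s ^ (-(3 / 16) : ℝ)) := by
  obtain ⟨h1, h2⟩ := h
  rcases h1 with ⟨m, n, hm, hn, hm2, hn2, hom⟩ | h1 | h1
  · exact Or.inl ⟨m, n, hm, hn, hm2, hn2, hom.1⟩
  · right
    refine ⟨h1, ?_⟩
    unfold NDead at h2
    push Not at h2
    obtain ⟨m, n, hm, hn, hom⟩ := h2
    have h3 := hom.1.2.1
    have hm1 : (1 : ℝ) ≤ m := by exact_mod_cast hm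
    calc ((a * p : ℕ) : ℝ) ≤ ((a * p : ℕ) : ℝ) * m := le_mul_of_one_le_right (by positivity) hm1
      _ = ((a * p * m : ℕ) : ℝ) := by push_cast; ring
      _ ≤ max ((a * p * m : ℕ) : ℝ) ((b * n : ℕ) : ℝ) := le_max_left _ _
      _ ≤ _ := h3
  · exact absurd (Or.inr (Or.inr h1)) hfin

open Classical in
theorem trans_sum : ∃ s₀ > 0, ∀ γ s V : ℝ, NHyp s₀ s V → ∀ a b : ℕ, 0 < a → 0 < b →
    ¬ NFin γ s V a b → ∀ P : Finset ℕ, (∀ p ∈ P, p.Prime ∧ nw s V < p) →
    ∑ p ∈ P, (if (NFin γ s V (a * p) b ∧ ¬ NDead γ s V (a * p) b) ∨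
        (NFin γ s V a (b * p) ∧ ¬ NDead γ s V a (b * p)) then 1 / (p : ℝ) else 0) ≤
      s ^ (1 / 80 : ℝ) := by
  obtain ⟨s₁, hs₁, H1⟩ := trans_near
  obtain ⟨s₂, hs₂, H2⟩ := trans_bad
  refine ⟨min s₁ s₂, lt_min hs₁ hs₂, fun γ s V hH a b ha hb hfin P hP => ?_⟩
  have hH1 : NHyp s₁ s V := NHyp.mono hH (min_le_left _ _)
  have hH2 : NHyp s₂ s V := NHyp.mono hH (min_le_right _ _)
  have hna : ¬ NBad γ s V a := fun h => hfin (Or.inr (Or.inl h))
  have hnb : ¬ NBad γ s V b := fun h => hfin (Or.inr (Or.inr h))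
  have hfin' : ¬ NFin γ s V b a := fun h => hfin (NFin_comm h)
  have A1 := H1 γ s V hH1 a b ha hb hna P hP
  have A2 := H1 γ s V hH1 b a hb ha hnb P hP
  have A3 := H2 γ s V hH2 a ha hna P hP
  have A4 := H2 γ s V hH2 b hb hnb P hP
  have key : ∀ p ∈ P, (if (NFin γ s V (a * p) b ∧ ¬ NDead γ s V (a * p) b) ∨
        (NFin γ s V a (b * p) ∧ ¬ NDead γ s V a (b * p)) then 1 / (p : ℝ) else 0) ≤
      (if ∃ m n : ℕ, 0 < m ∧ 0 < n ∧ (m : ℝ) ≤ s ^ (-(1 / 64) : ℝ) ∧
        (n : ℝ) ≤ s ^ (-(1 / 64) : ℝ) ∧ NWin γ s V (a * p * m) (b * n) then 1 / (p : ℝ) else 0) +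
      (if ∃ m n : ℕ, 0 < m ∧ 0 < n ∧ (m : ℝ) ≤ s ^ (-(1 / 64) : ℝ) ∧
        (n : ℝ) ≤ s ^ (-(1 / 64) : ℝ) ∧ NWin γ s V (b * p * m) (a * n) then 1 / (p : ℝ) else 0) +
      (if NBad γ s V (a * p) ∧ ((a * p : ℕ) : ℝ) ≤ V * s ^ (-(3 / 16) : ℝ)
        then 1 / (p : ℝ) else 0) +
      (if NBad γ s V (b * p) ∧ ((b * p : ℕ) : ℝ) ≤ V * s ^ (-(3 / 16) : ℝ)
        then 1 / (p : ℝ) else 0) := by
    intro p hp
    have h0 : ∀ (c : Prop) [Decidable c], 0 ≤ (if c then 1 / (p : ℝ) else 0) := by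
      intro c _
      split_ifs
      · positivity
      · exact le_rfl
    by_cases h1 : NFin γ s V (a * p) b ∧ ¬ NDead γ s V (a * p) b
    · rw [if_pos (Or.inl h1)]
      rcases n7_half hfin h1 with h2 | h2
      · rw [if_pos h2]
        have := h0 (∃ m n : ℕ, 0 < m ∧ 0 < n ∧ (m : ℝ) ≤ s ^ (-(1 / 64) : ℝ) ∧
          (n : ℝ) ≤ s ^ (-(1 / 64) : ℝ) ∧ NWin γ s V (b * p * m) (a * n))
        have h4 := h0 (NBad γ s V (a * p) ∧ ((a * p : ℕ) : ℝ) ≤ V * s ^ (-(3 / 16) : ℝ))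
        have h5 := h0 (NBad γ s V (b * p) ∧ ((b * p : ℕ) : ℝ) ≤ V * s ^ (-(3 / 16) : ℝ))
        linarith only [h5, h4, this]
      · rw [if_pos h2]
        have := h0 (∃ m n : ℕ, 0 < m ∧ 0 < n ∧ (m : ℝ) ≤ s ^ (-(1 / 64) : ℝ) ∧
          (n : ℝ) ≤ s ^ (-(1 / 64) : ℝ) ∧ NWin γ s V (b * p * m) (a * n))
        have h4 := h0 (∃ m n : ℕ, 0 < m ∧ 0 < n ∧ (m : ℝ) ≤ s ^ (-(1 / 64) : ℝ) ∧
          (n : ℝ) ≤ s ^ (-(1 / 64) : ℝ) ∧ NWin γ s V (a * p * m) (b * n))
        have h5 := h0 (NBad γ s V (b * p) ∧ ((b * p : ℕ) : ℝ) ≤ V * s ^ (-(3 / 16) : ℝ))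
        linarith only [h5, h4, this]
    · by_cases h1' : NFin γ s V a (b * p) ∧ ¬ NDead γ s V a (b * p)
      · rw [if_pos (Or.inr h1')]
        have h1'' : NFin γ s V (b * p) a ∧ ¬ NDead γ s V (b * p) a :=
          ⟨NFin_comm h1'.1, fun h => h1'.2 (NDead_comm h)⟩
        rcases n7_half hfin' h1'' with h2 | h2
        · rw [if_pos h2]
          have := h0 (∃ m n : ℕ, 0 < m ∧ 0 < n ∧ (m : ℝ) ≤ s ^ (-(1 / 64) : ℝ) ∧
            (n : ℝ) ≤ s ^ (-(1 / 64) : ℝ) ∧ NWin γ s V (a * p * m) (b * n))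
          have h4 := h0 (NBad γ s V (a * p) ∧ ((a * p : ℕ) : ℝ) ≤ V * s ^ (-(3 / 16) : ℝ))
          have h5 := h0 (NBad γ s V (b * p) ∧ ((b * p : ℕ) : ℝ) ≤ V * s ^ (-(3 / 16) : ℝ))
          linarith only [h5, h4, this]
        · rw [if_pos h2]
          have := h0 (∃ m n : ℕ, 0 < m ∧ 0 < n ∧ (m : ℝ) ≤ s ^ (-(1 / 64) : ℝ) ∧
            (n : ℝ) ≤ s ^ (-(1 / 64) : ℝ) ∧ NWin γ s V (b * p * m) (a * n))
          have h4 := h0 (∃ m n : ℕ, 0 < m ∧ 0 < n ∧ (m : ℝ) ≤ s ^ (-(1 / 64) : ℝ) ∧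
            (n : ℝ) ≤ s ^ (-(1 / 64) : ℝ) ∧ NWin γ s V (a * p * m) (b * n))
          have h5 := h0 (NBad γ s V (a * p) ∧ ((a * p : ℕ) : ℝ) ≤ V * s ^ (-(3 / 16) : ℝ))
          linarith only [h5, h4, this]
      · rw [if_neg (not_or.2 ⟨h1, h1'⟩)]
        have := h0 (∃ m n : ℕ, 0 < m ∧ 0 < n ∧ (m : ℝ) ≤ s ^ (-(1 / 64) : ℝ) ∧
          (n : ℝ) ≤ s ^ (-(1 / 64) : ℝ) ∧ NWin γ s V (a * p * m) (b * n))
        have h3 := h0 (∃ m n : ℕ, 0 < m ∧ 0 < n ∧ (m : ℝ) ≤ s ^ (-(1 / 64) : ℝ) ∧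
          (n : ℝ) ≤ s ^ (-(1 / 64) : ℝ) ∧ NWin γ s V (b * p * m) (a * n))
        have h4 := h0 (NBad γ s V (a * p) ∧ ((a * p : ℕ) : ℝ) ≤ V * s ^ (-(3 / 16) : ℝ))
        have h5 := h0 (NBad γ s V (b * p) ∧ ((b * p : ℕ) : ℝ) ≤ V * s ^ (-(3 / 16) : ℝ))
        linarith only [h5, h4, h3, this]
  refine (sum_le_sum key).trans ?_
  rw [sum_add_distrib, sum_add_distrib, sum_add_distrib]
  linarith only [A1, A2, A3, A4]

end Vale.P028
end

section

/-!
# The inner induction (N8)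
-/

namespace Vale.P028

open Finset Filter Topology

theorem n8_small {Q : ℝ → Prop} (h : ∀ᶠ s in 𝓝[>] (0 : ℝ), Q s) :
    ∃ s₀ > 0, ∀ s : ℝ, 0 < s → s ≤ s₀ → Q s := by
  rw [eventually_nhdsWithin_iff, Metric.eventually_nhds_iff] at h
  obtain ⟨e, he, h⟩ := h
  refine ⟨e / 2, by positivity, fun s hs hs' => h ?_ hs⟩
  rw [Real.dist_eq, sub_zero, abs_of_pos hs]
  linarith only [hs', he]

theorem n8_tendsto_rpow {r : ℝ} (hr : 0 < r) :
    Tendsto (fun s : ℝ => s ^ r) (𝓝[>] (0 : ℝ)) (𝓝 0) := by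
  have h := (Real.continuousAt_rpow_const 0 r (Or.inr hr.le)).tendsto
  rw [Real.zero_rpow hr.ne'] at h
  exact h.mono_left nhdsWithin_le_nhds

theorem n8_ev_rpow {r A e : ℝ} (hr : 0 < r) (he : 0 < e) :
    ∀ᶠ s in 𝓝[>] (0 : ℝ), A * s ^ r ≤ e := by
  have h := (n8_tendsto_rpow hr).const_mul A
  rw [mul_zero] at h
  exact h.eventually_le_const he

theorem n8_ev_log {r A e : ℝ} (hr : 0 < r) (he : 0 < e) :
    ∀ᶠ s in 𝓝[>] (0 : ℝ), A * (s ^ r * Real.log (1 / s)) ≤ e := by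
  have h := (tendsto_log_mul_rpow_nhdsGT_zero hr).const_mul (-A)
  rw [mul_zero] at h
  filter_upwards [h.eventually_le_const he] with s hs
  rw [one_div, Real.log_inv]
  linarith only [hs]

/-- a growth sum -/
theorem n8_geom {r A D : ℝ} (hr0 : 0 ≤ r) (hr : r ≤ 1 / 2) (hA : 0 ≤ A) (hD : 0 ≤ D)
    {f : ℕ → ℝ} (h1 : f 1 ≤ A) (h2 : ∀ l, 2 ≤ l → f l ≤ D * r ^ l) (n : ℕ) :
    ∑ l ∈ Icc 1 n, f l ≤ A + 2 * D * r ^ 2 := by
  have key : ∀ n : ℕ, ∑ l ∈ Icc 1 (n + 1), f l ≤ A + 2 * D * r ^ 2 - 2 * D * r ^ (n + 2) := by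
    intro n
    induction n with
    | zero =>
      simp only [zero_add, Icc_self, sum_singleton]
      linarith only [h1]
    | succ n ih =>
      rw [Finset.sum_Icc_succ_top (by omega)]
      have h3 := h2 (n + 1 + 1) (by omega)
      have h4 : 0 ≤ D * r ^ (n + 2) * (1 - 2 * r) :=
        mul_nonneg (mul_nonneg hD (pow_nonneg hr0 _)) (by linarith only [hr])
      have h5 : D * r ^ (n + 2) * (1 - 2 * r) = D * r ^ (n + 2) - 2 * (D * r ^ (n + 1 + 2)) := by
        ring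
      have h6 : D * r ^ (n + 1 + 1) = D * r ^ (n + 2) := rfl
      linarith only [ih, h3, h4, h5, h6]
  rcases n with _ | n
  · simp only [Icc_eq_empty_of_lt zero_lt_one, sum_empty]
    positivity
  · have h3 := key n
    have h4 : 0 ≤ 2 * D * r ^ (n + 2) := by positivity
    linarith only [h3, h4]

theorem n8_pow_half {y : ℝ} (h0 : 0 ≤ y) (h : y ≤ 1 / 8) : y ^ (499 / 1000 : ℝ) ≤ 1 / 2 := by
  have h1 : y ^ (499 / 1000 : ℝ) ≤ (1 / 8 : ℝ) ^ (499 / 1000 : ℝ) :=
    Real.rpow_le_rpow h0 h (by norm_num)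
  have h2 : (1 / 8 : ℝ) ^ (499 / 1000 : ℝ) ≤ (1 / 8 : ℝ) ^ (1 / 3 : ℝ) :=
    Real.rpow_le_rpow_of_exponent_ge (by norm_num) (by norm_num) (by norm_num)
  have h3 : (1 / 8 : ℝ) ^ (1 / 3 : ℝ) = 1 / 2 := by
    rw [show (1 / 8 : ℝ) = (1 / 2) ^ (3 : ℝ) by norm_num, ← Real.rpow_mul (by norm_num)]
    norm_num
  linarith only [h1, h2, h3]

/-! ### Mertens between `x` and `y` -/

theorem n8_mertens : ∃ C > 0, ∀ (Qs : Finset ℕ) (x y : ℝ),
    (∀ p ∈ Qs, p.Prime ∧ x ≤ (p : ℝ) ∧ (p : ℝ) ≤ y) → 2 ≤ x → x ≤ y →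
    Real.log x * ∑ p ∈ Qs, 1 / (p : ℝ) ≤ Real.log y + C := by
  obtain ⟨C₁, hC₁, hM⟩ := Vale.Agent.P013.mertens_one
  have hl2 : 0 < Real.log 2 := Real.log_pos (by norm_num)
  refine ⟨Real.log 2 + 2 * C₁, by positivity, ?_⟩
  intro Qs x y hQ hx hxy
  have hlx : Real.log 2 ≤ Real.log x := Real.log_le_log (by norm_num) hx
  have hlx0 : 0 < Real.log x := hl2.trans_le hlx
  have hy0 : 0 < y := by linarith only [hx, hxy]
  set a := ⌈x⌉₊ with ha
  set b := ⌊y⌋₊ + 1 with hb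
  have hab : a ≤ b := by
    have h1 : ⌈x⌉₊ ≤ ⌈y⌉₊ := Nat.ceil_le_ceil hxy
    exact h1.trans (Nat.ceil_le_floor_add_one y)
  have ha1 : (x : ℝ) ≤ a := Nat.le_ceil x
  have ha2 : 1 ≤ a := by
    have : (0 : ℝ) < a := by linarith only [hx, ha1]
    exact_mod_cast this
  have hb1 : (b : ℝ) ≤ 2 * y := by
    have := Nat.floor_le hy0.le
    rw [hb]
    push_cast
    linarith only [hx, hxy, this]
  have hMa := (abs_le.1 (hM a ha2)).1
  have hMb := (abs_le.1 (hM b (ha2.trans hab))).2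
  have hsub : Qs ⊆ ((range b).filter Nat.Prime) \ ((range a).filter Nat.Prime) := by
    intro p hp
    obtain ⟨h1, h2, h3⟩ := hQ p hp
    have h4 : p < b := by
      rw [hb, Nat.lt_add_one_iff]
      exact Nat.le_floor h3
    have h5 : a ≤ p := by
      rw [ha]
      exact Nat.ceil_le.2 h2
    simp only [Finset.mem_sdiff, Finset.mem_filter, Finset.mem_range, not_and]
    exact ⟨⟨h4, h1⟩, fun h => absurd h (by omega)⟩
  have hsum : ∑ p ∈ Qs, Real.log p / p ≤ Real.log b - Real.log a + 2 * C₁ := by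
    calc ∑ p ∈ Qs, Real.log p / p
        ≤ ∑ p ∈ ((range b).filter Nat.Prime) \ ((range a).filter Nat.Prime),
            Real.log p / (p : ℝ) := by
          refine Finset.sum_le_sum_of_subset_of_nonneg hsub fun p _ _ => ?_
          exact div_nonneg (Real.log_natCast_nonneg p) (Nat.cast_nonneg p)
      _ = ∑ p ∈ (range b).filter Nat.Prime, Real.log p / (p : ℝ) -
            ∑ p ∈ (range a).filter Nat.Prime, Real.log p / (p : ℝ) := by
          rw [eq_sub_iff_add_eq]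
          refine Finset.sum_sdiff ?_
          exact Finset.filter_subset_filter _ (Finset.range_subset_range.2 hab)
      _ ≤ _ := by linarith only [hMa, hMb]
  have hlb : Real.log b ≤ Real.log 2 + Real.log y := by
    rw [← Real.log_mul (by norm_num) hy0.ne']
    exact Real.log_le_log (by exact_mod_cast (lt_of_lt_of_le (by omega : 0 < a) hab)) hb1
  have hla : 0 ≤ Real.log a := Real.log_nonneg (by exact_mod_cast ha2)
  have hfin : Real.log x * ∑ p ∈ Qs, 1 / (p : ℝ) ≤ ∑ p ∈ Qs, Real.log p / p := by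
    rw [Finset.mul_sum]
    refine Finset.sum_le_sum fun p hp => ?_
    obtain ⟨h1, h2, h3⟩ := hQ p hp
    rw [mul_one_div]
    exact div_le_div_of_nonneg_right (Real.log_le_log (by linarith only [hx]) h2) (Nat.cast_nonneg p)
  linarith only [hfin, hsum, hlb, hla]

/-! ### the kernel -/

open Classical in
/-- a transition at `p` -/
noncomputable def n8tau (γ s V : ℝ) (a b p : ℕ) : ℝ :=
  if ¬ NFin γ s V a b ∧ ((NFin γ s V (a * p) b ∧ ¬ NDead γ s V (a * p) b) ∨
    (NFin γ s V a (b * p) ∧ ¬ NDead γ s V a (b * p))) then 1 / (p : ℝ) else 0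

/-- sum of the transitions -/
noncomputable def n8H (γ s V : ℝ) (P : Finset ℕ) (a b : ℕ) : ℝ := ∑ p ∈ P, n8tau γ s V a b p

open Classical in
/-- error of a prime -/
noncomputable def n8lam (s V η C' : ℝ) (p : ℕ) : ℝ :=
  (if (p : ℝ) ≤ V * s ^ (-(3 / 16) : ℝ) then η * (1 / (p : ℝ)) else 0) +
    C' * (s ^ (-(1 / 150) : ℝ)) ^ 2 * (1 / (p : ℝ)) ^ (501 / 500 : ℝ)

/-- the kernel of the induction -/
noncomputable def n8K (γ s V η C' : ℝ) (P : Finset ℕ) (a b : ℕ) : ℝ :=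
  (16 / ((a : ℝ) * b)) ^ (499 / 1000 : ℝ) * (nsig γ s V a b) ^ (499 / 1000 : ℝ) *
    Real.exp (4 * s ^ (-(1 / 150) : ℝ) * n8H γ s V P a b + ∑ p ∈ P, n8lam s V η C' p)

theorem n8_tau_nonneg (γ s V : ℝ) (a b p : ℕ) : 0 ≤ n8tau γ s V a b p := by
  classical
  unfold n8tau
  split_ifs <;> positivity

theorem n8_H_nonneg (γ s V : ℝ) (P : Finset ℕ) (a b : ℕ) : 0 ≤ n8H γ s V P a b :=
  sum_nonneg fun _ _ => n8_tau_nonneg _ _ _ _ _ _

theorem n8_H_le {γ s V : ℝ} (hs : 0 < s) {P : Finset ℕ} {a b : ℕ}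
    (h : ¬ NFin γ s V a b →
      open Classical in ∑ p ∈ P, (if (NFin γ s V (a * p) b ∧ ¬ NDead γ s V (a * p) b) ∨
        (NFin γ s V a (b * p) ∧ ¬ NDead γ s V a (b * p)) then 1 / (p : ℝ) else 0) ≤
      s ^ (1 / 80 : ℝ)) : n8H γ s V P a b ≤ s ^ (1 / 80 : ℝ) := by
  classical
  unfold n8H n8tau
  by_cases hf : NFin γ s V a b
  · have h0 : ∀ p ∈ P, (if ¬ NFin γ s V a b ∧ ((NFin γ s V (a * p) b ∧
        ¬ NDead γ s V (a * p) b) ∨ (NFin γ s V a (b * p) ∧ ¬ NDead γ s V a (b * p)))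
        then 1 / (p : ℝ) else 0) = 0 := by
      intro p _
      rw [if_neg]
      exact fun h' => h'.1 hf
    rw [sum_eq_zero h0]
    positivity
  · refine le_trans (le_of_eq ?_) (h hf)
    refine sum_congr rfl fun p _ => ?_
    refine if_congr ?_ rfl rfl
    simp only [hf, not_false_eq_true, true_and]

theorem n8_K_nonneg {γ s V η C' : ℝ} (hs : 0 < s) (P : Finset ℕ) (a b : ℕ) :
    0 ≤ n8K γ s V η C' P a b := by
  unfold n8K
  have h := nsig_nonneg (γ := γ) (V := V) hs a b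
  positivity

theorem n8_K_dead {γ s V η C' : ℝ} {P : Finset ℕ} {a b : ℕ} (h : NDead γ s V a b) :
    n8K γ s V η C' P a b = 0 := by
  unfold n8K
  rw [nsig_dead h, Real.zero_rpow (by norm_num), mul_zero, zero_mul]

/-- comparison of two states -/
theorem n8_K_cmp {γ s V η C' : ℝ} (hs : 0 < s) (hη : 0 ≤ η)
    (hηe : Real.exp (4 * s ^ (-(1 / 150) : ℝ) * s ^ (1 / 80 : ℝ)) ≤
      (1 + η) ^ (499 / 1000 : ℝ)) {P : Finset ℕ} {a b a' b' : ℕ} {t g : ℝ} (ht : 0 ≤ t)
    (hg : 0 ≤ g) (h16 : 16 / ((a' : ℝ) * b') = t * (16 / ((a : ℝ) * b)))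
    (hn : nsig γ s V a' b' ≤ g * nsig γ s V a b)
    (hH : n8H γ s V P a' b' ≤ s ^ (1 / 80 : ℝ)) :
    n8K γ s V η C' P a' b' ≤
      ((1 + η) * g * t) ^ (499 / 1000 : ℝ) * n8K γ s V η C' P a b := by
  have hna := nsig_nonneg (γ := γ) (V := V) hs a b
  have hna' := nsig_nonneg (γ := γ) (V := V) hs a' b'
  have h1 : nsig γ s V a' b' ^ (499 / 1000 : ℝ) ≤
      g ^ (499 / 1000 : ℝ) * nsig γ s V a b ^ (499 / 1000 : ℝ) := by
    rw [← Real.mul_rpow hg hna]
    exact Real.rpow_le_rpow hna' hn (by norm_num)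
  have hS : 0 ≤ 4 * s ^ (-(1 / 150) : ℝ) := by positivity
  have h2 : Real.exp (4 * s ^ (-(1 / 150) : ℝ) * n8H γ s V P a' b' + ∑ p ∈ P, n8lam s V η C' p) ≤
      (1 + η) ^ (499 / 1000 : ℝ) *
      Real.exp (4 * s ^ (-(1 / 150) : ℝ) * n8H γ s V P a b + ∑ p ∈ P, n8lam s V η C' p) := by
    refine le_trans ?_ (mul_le_mul_of_nonneg_right hηe (Real.exp_pos _).le)
    rw [← Real.exp_add]
    apply Real.exp_le_exp.2
    have h3 := mul_le_mul_of_nonneg_left hH hS
    have h4 := mul_nonneg hS (n8_H_nonneg γ s V P a b)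
    linarith only [h4, h3]
  unfold n8K
  rw [h16, Real.mul_rpow ht (by positivity), Real.mul_rpow (by positivity) ht,
    Real.mul_rpow (by positivity) hg]
  calc t ^ (499 / 1000 : ℝ) * (16 / ((a : ℝ) * b)) ^ (499 / 1000 : ℝ) *
        nsig γ s V a' b' ^ (499 / 1000 : ℝ) *
        Real.exp (4 * s ^ (-(1 / 150) : ℝ) * n8H γ s V P a' b' + ∑ p ∈ P, n8lam s V η C' p)
      ≤ t ^ (499 / 1000 : ℝ) * (16 / ((a : ℝ) * b)) ^ (499 / 1000 : ℝ) *
        (g ^ (499 / 1000 : ℝ) * nsig γ s V a b ^ (499 / 1000 : ℝ)) *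
        ((1 + η) ^ (499 / 1000 : ℝ) *
      Real.exp (4 * s ^ (-(1 / 150) : ℝ) * n8H γ s V P a b + ∑ p ∈ P, n8lam s V η C' p)) := by
        refine mul_le_mul (mul_le_mul_of_nonneg_left h1 (by positivity)) h2 (Real.exp_pos _).le
          (by positivity)
    _ = _ := by ring

/-! ### density ratios -/

theorem n8_inv {s : ℝ} (hs : 0 < s) :
    s ^ (-(1 / 150) : ℝ) * s ^ (1 / 150 : ℝ) = 1 := by
  rw [← Real.rpow_add hs]
  norm_num

theorem n8_one_le {s : ℝ} (hs : 0 < s) (hs1 : s ≤ 1) : 1 ≤ s ^ (-(1 / 150) : ℝ) :=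
  Real.one_le_rpow_of_pos_of_le_one_of_nonpos hs hs1 (by norm_num)

theorem n8_sig_le {γ s V : ℝ} (hs : 0 < s) (hs1 : s ≤ 1) {a b a' b' : ℕ}
    (h : ¬ NDead γ s V a b) :
    nsig γ s V a' b' ≤ s ^ (-(1 / 150) : ℝ) * nsig γ s V a b := by
  have h1 := nsig_le_one (γ := γ) (V := V) hs hs1 a' b'
  refine h1.trans ?_
  by_cases hf : NFin γ s V a b
  · rw [nsig_fin h hf, mul_one]
    exact n8_one_le hs hs1
  · rw [nsig_mid h hf, n8_inv hs]

theorem n8_sig_le_one {γ s V : ℝ} (hs : 0 < s) (hs1 : s ≤ 1) {a b a' b' : ℕ}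
    (h : ¬ NDead γ s V a b) (h' : NFin γ s V a b ∨ ¬ (NFin γ s V a' b' ∧ ¬ NDead γ s V a' b')) :
    nsig γ s V a' b' ≤ 1 * nsig γ s V a b := by
  rw [one_mul]
  by_cases hf : NFin γ s V a b
  · rw [nsig_fin h hf]
    exact nsig_le_one hs hs1 a' b'
  · rw [nsig_mid h hf]
    by_cases hd : NDead γ s V a' b'
    · rw [nsig_dead hd]
      positivity
    · have hf' : ¬ NFin γ s V a' b' := fun hf' =>
        (h'.resolve_left hf) ⟨hf', hd⟩
      rw [nsig_mid hd hf']

/-- the step of the induction, one state -/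
theorem n8_step {B₀ C : ℝ} (hC : 0 ≤ C)
    (hSP : ∀ (W ω : ℕ → ℝ) (B x : ℝ), 0 < B → B ≤ B₀ → 0 ≤ x → x ≤ B →
      W 0 = 1 → (∀ l, 0 ≤ W l) → (∀ l, 0 ≤ ω l) →
      (∀ l, 1 ≤ l → W l ≤ (ω l) ^ (499 / 1000 : ℝ)) →
      (∀ n, ∑ l ∈ Icc 1 n, ω l ≤ B) → (∀ n, ∑ l ∈ Icc 1 n, W l ≤ 2 * B ^ (499 / 1000 : ℝ)) →
      SPw (501 / 1000) W x (1 + (499 / 500) * (B - x) + C * B ^ (501 / 500 : ℝ)))
    {γ s V η : ℝ} (hs : 0 < s) (hs1 : s ≤ 1) (hη : 0 ≤ η) (hη1 : η ≤ 1)
    (hηe : Real.exp (4 * s ^ (-(1 / 150) : ℝ) * s ^ (1 / 80 : ℝ)) ≤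
      (1 + η) ^ (499 / 1000 : ℝ)) {P : Finset ℕ} {p : ℕ} (hp : p.Prime) (hpP : p ∉ P)
    (hpB : 4 * s ^ (-(1 / 150) : ℝ) * (1 / (p : ℝ)) ≤ B₀)
    (hp16 : s ^ (-(1 / 150) : ℝ) * (1 / (p : ℝ)) ≤ 1 / 16)
    (hH : ∀ a b : ℕ, 0 < a → 0 < b → n8H γ s V P a b ≤ s ^ (1 / 80 : ℝ))
    {a b : ℕ} (ha : 0 < a) (hb : 0 < b) :
    ∃ (W : ℕ → ℝ) (c : ℝ), W 0 = 1 ∧ (∀ l, 0 ≤ W l) ∧ 0 ≤ c ∧
      (∀ l, n8K γ s V η (4 + 16 * C) P (a * p ^ l) b ≤
        W l * n8K γ s V η (4 + 16 * C) P a b) ∧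
      (∀ l, n8K γ s V η (4 + 16 * C) P a (b * p ^ l) ≤
        W l * n8K γ s V η (4 + 16 * C) P a b) ∧
      SPw (501 / 1000) W (1 / (p : ℝ)) c ∧
      c * n8K γ s V η (4 + 16 * C) P a b ≤ n8K γ s V η (4 + 16 * C) (insert p P) a b := by
  classical
  set Si := s ^ (-(1 / 150) : ℝ) with hSi
  have hSi1 : 1 ≤ Si := n8_one_le hs hs1
  have hp0 : (0 : ℝ) < p := by exact_mod_cast hp.pos
  set y := 1 / (p : ℝ) with hy
  have hy0 : 0 < y := by positivity
  have hy16 : y ≤ 1 / 16 := by nlinarith only [hSi1, hp16, hy0]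
  have hC' : 0 ≤ 4 + 16 * C := by linarith only [hC]
  have hK0 := n8_K_nonneg (γ := γ) (V := V) (η := η) (C' := 4 + 16 * C) hs P a b
  have hyp : 0 ≤ y ^ (501 / 500 : ℝ) := by positivity
  -- the new kernel
  have hins : n8K γ s V η (4 + 16 * C) (insert p P) a b = n8K γ s V η (4 + 16 * C) P a b *
      Real.exp (4 * Si * n8tau γ s V a b p + n8lam s V η (4 + 16 * C) p) := by
    unfold n8K n8H
    rw [sum_insert hpP, sum_insert hpP, mul_assoc _ (Real.exp _), ← Real.exp_add]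
    congr 2
    ring
  have hfinal : ∀ c : ℝ, c ≤ 1 + (4 * Si * n8tau γ s V a b p + n8lam s V η (4 + 16 * C) p) →
      c * n8K γ s V η (4 + 16 * C) P a b ≤ n8K γ s V η (4 + 16 * C) (insert p P) a b := by
    intro c hc
    rw [hins, mul_comm]
    refine mul_le_mul_of_nonneg_left (hc.trans ?_) hK0
    have := Real.add_one_le_exp (4 * Si * n8tau γ s V a b p + n8lam s V η (4 + 16 * C) p)
    linarith only [this]
  have htau := n8_tau_nonneg γ s V a b p
  by_cases hcase : NDead γ s V a b ∨ V * s ^ (-(3 / 16) : ℝ) < p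
  · -- no growth
    refine ⟨fun l => if l = 0 then 1 else 0, 1 + C * y ^ (501 / 500 : ℝ), by simp, ?_, ?_,
      ?_, ?_, ?_, ?_⟩
    · intro l
      dsimp only
      split_ifs <;> norm_num
    · positivity
    · intro l
      dsimp only
      rcases Nat.eq_zero_or_pos l with rfl | hl
      · simp
      · rw [if_neg hl.ne', zero_mul]
        refine le_of_eq (n8_K_dead ?_)
        rcases hcase with h | h
        · exact NDead_mul_left (pow_pos hp.pos l) h
        · refine NDead_of_large (lt_of_lt_of_le h ?_)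
          have h1 : p ≤ a * p ^ l := by
            calc p = 1 * p ^ 1 := by ring
              _ ≤ a * p ^ l := Nat.mul_le_mul ha (Nat.pow_le_pow_right hp.pos hl)
          exact_mod_cast h1
    · intro l
      dsimp only
      rcases Nat.eq_zero_or_pos l with rfl | hl
      · simp
      · rw [if_neg hl.ne', zero_mul]
        refine le_of_eq (n8_K_dead ?_)
        rcases hcase with h | h
        · exact NDead_mul_right (pow_pos hp.pos l) h
        · refine NDead_comm (NDead_of_large (lt_of_lt_of_le h ?_))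
          have h1 : p ≤ b * p ^ l := by
            calc p = 1 * p ^ 1 := by ring
              _ ≤ b * p ^ l := Nat.mul_le_mul hb (Nat.pow_le_pow_right hp.pos hl)
          exact_mod_cast h1
    · have h := hSP (fun l => if l = 0 then 1 else 0) (fun _ => 0) y y hy0
        (by nlinarith only [hSi1, hpB, hy0]) hy0.le le_rfl (by simp)
        (by intro l; split_ifs <;> norm_num) (by intro l; exact le_rfl)
        (by
          intro l hl
          rw [if_neg (by omega)]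
          positivity)
        (by intro n; simpa using hy0.le)
        (by
          intro n
          have h0 : ∑ l ∈ Icc 1 n, (if l = 0 then (1 : ℝ) else 0) = 0 := by
            refine sum_eq_zero fun l hl => ?_
            rw [mem_Icc] at hl
            rw [if_neg (by omega)]
          rw [h0]
          positivity)
      have e : 1 + (499 / 500) * (y - y) + C * y ^ (501 / 500 : ℝ) =
          1 + C * y ^ (501 / 500 : ℝ) := by ring
      rw [e] at h
      exact h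
    · rcases hcase with h | h
      · rw [n8_K_dead h, n8_K_dead h, mul_zero]
      · refine hfinal _ ?_
        have h2 : n8lam s V η (4 + 16 * C) p = (4 + 16 * C) * Si ^ 2 * y ^ (501 / 500 : ℝ) := by
          unfold n8lam
          rw [if_neg (not_le.2 h), zero_add]
        rw [h2]
        have h3 : C * y ^ (501 / 500 : ℝ) ≤ (4 + 16 * C) * Si ^ 2 * y ^ (501 / 500 : ℝ) := by
          refine mul_le_mul_of_nonneg_right ?_ hyp
          have h4 : 1 ≤ Si ^ 2 := one_le_pow₀ hSi1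
          linarith only [mul_nonneg (sub_nonneg.2 h4) (sub_nonneg.2 hC), mul_nonneg (sq_nonneg (Si : ℝ)) (sub_nonneg.2 hC), h4]
        have h5 : 0 ≤ 4 * Si * n8tau γ s V a b p := by positivity
        linarith only [h3, h5]
  · -- growth
    push Not at hcase
    obtain ⟨hdead, hpV⟩ := hcase
    set τ : Prop := ¬ NFin γ s V a b ∧ ((NFin γ s V (a * p) b ∧ ¬ NDead γ s V (a * p) b) ∨
      (NFin γ s V a (b * p) ∧ ¬ NDead γ s V a (b * p))) with hτ
    set g : ℝ := if τ then Si else 1 with hg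
    have hg0 : 0 ≤ g := by
      rw [hg]
      split_ifs <;> linarith only [hSi1]
    have hg1 : 1 ≤ g := by
      rw [hg]
      split_ifs <;> linarith only [hSi1]
    have hgS : g ≤ Si := by
      rw [hg]
      split_ifs <;> linarith only [hSi1]
    set G : ℕ → ℝ := fun l => if l = 1 then g else Si with hG
    have hG0 : ∀ l, 0 ≤ G l := by
      intro l
      simp only [hG]
      split_ifs <;> linarith only [hSi1, hg0]
    set ω : ℕ → ℝ := fun l => (1 + η) * G l * y ^ l with hω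
    have hω0 : ∀ l, 0 ≤ ω l := by
      intro l
      have := hG0 l
      simp only [hω]
      positivity
    set B : ℝ := (1 + η) * g * y + 2 * ((1 + η) * Si) * y ^ 2 with hB
    have hBy : y ≤ B := by
      have h1 : y ≤ (1 + η) * g * y := by
        have h2 : 1 ≤ (1 + η) * g := by nlinarith only [hη, hg1]
        nlinarith only [h2, hy0]
      have h3 : 0 ≤ 2 * ((1 + η) * Si) * y ^ 2 := by positivity
      linarith only [h1, h3]
    have hB4 : B ≤ 4 * Si * y := by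
      have h1 : (1 + η) * g * y ≤ 2 * Si * y := by
        refine mul_le_mul_of_nonneg_right ?_ hy0.le
        exact mul_le_mul (by linarith only [hη1]) hgS hg0 (by norm_num)
      have h2 : 2 * ((1 + η) * Si) * y ^ 2 ≤ 2 * (2 * Si) * (y * (1 / 16)) := by
        have h3 : y ^ 2 ≤ y * (1 / 16) := by nlinarith only [hy16, hy0]
        have h4 : (1 + η) * Si ≤ 2 * Si :=
          mul_le_mul_of_nonneg_right (by linarith only [hη1]) (by linarith only [hSi1])
        exact mul_le_mul (by linarith only [h4]) h3 (by positivity) (by linarith only [hSi1])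
      have h5 : 0 ≤ Si * y := by positivity
      rw [hB]
      linarith only [h1, h2, h5]
    have hB0 : 0 < B := lt_of_lt_of_le hy0 hBy
    -- comparison of the states
    have hpl : ∀ l, (1 / (p : ℝ)) ^ l = 1 / (p : ℝ) ^ l := fun l => by rw [one_div, inv_pow, one_div]
    have ha' : (0 : ℝ) < a := by exact_mod_cast ha
    have hb' : (0 : ℝ) < b := by exact_mod_cast hb
    have hcmp1 : ∀ l, 1 ≤ l → n8K γ s V η (4 + 16 * C) P (a * p ^ l) b ≤
        (ω l) ^ (499 / 1000 : ℝ) * n8K γ s V η (4 + 16 * C) P a b := by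
      intro l hl
      refine n8_K_cmp hs hη hηe (by positivity) (hG0 l) ?_ ?_
        (hH _ _ (Nat.mul_pos ha (pow_pos hp.pos l)) hb)
      · rw [hy, hpl]
        push_cast
        field_simp
      · simp only [hG]
        split_ifs with h1
        · subst h1
          rw [pow_one, hg]
          split_ifs with h2
          · exact n8_sig_le hs hs1 hdead
          · refine n8_sig_le_one hs hs1 hdead ?_
            by_contra h3
            push Not at h3
            exact h2 ⟨h3.1, Or.inl h3.2⟩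
        · exact n8_sig_le hs hs1 hdead
    have hcmp2 : ∀ l, 1 ≤ l → n8K γ s V η (4 + 16 * C) P a (b * p ^ l) ≤
        (ω l) ^ (499 / 1000 : ℝ) * n8K γ s V η (4 + 16 * C) P a b := by
      intro l hl
      refine n8_K_cmp hs hη hηe (by positivity) (hG0 l) ?_ ?_
        (hH _ _ ha (Nat.mul_pos hb (pow_pos hp.pos l)))
      · rw [hy, hpl]
        push_cast
        field_simp
      · simp only [hG]
        split_ifs with h1
        · subst h1
          rw [pow_one, hg]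
          split_ifs with h2
          · exact n8_sig_le hs hs1 hdead
          · refine n8_sig_le_one hs hs1 hdead ?_
            by_contra h3
            push Not at h3
            exact h2 ⟨h3.1, Or.inr h3.2⟩
        · exact n8_sig_le hs hs1 hdead
    refine ⟨fun l => if l = 0 then 1 else (ω l) ^ (499 / 1000 : ℝ),
      1 + (499 / 500) * (B - y) + C * B ^ (501 / 500 : ℝ), by simp, ?_, ?_, ?_, ?_, ?_, ?_⟩
    · intro l
      have := hω0 l
      dsimp only
      split_ifs <;> positivity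
    · have : 0 ≤ B - y := by linarith only [hBy]
      (clear * - hBy hC hη hs hp0; positivity)
    · intro l
      dsimp only
      rcases Nat.eq_zero_or_pos l with rfl | hl
      · simp
      · rw [if_neg hl.ne']
        exact hcmp1 l hl
    · intro l
      dsimp only
      rcases Nat.eq_zero_or_pos l with rfl | hl
      · simp
      · rw [if_neg hl.ne']
        exact hcmp2 l hl
    · refine hSP _ ω B y hB0 (hB4.trans hpB) hy0.le hBy (by simp) ?_ hω0 ?_ ?_ ?_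
      · intro l
        have := hω0 l
        split_ifs <;> positivity
      · intro l hl
        rw [if_neg (by omega)]
      · intro n
        refine n8_geom hy0.le (by linarith only [hy16]) (by positivity) (by positivity) ?_ ?_ n
        · simp only [hω, hG, if_true, pow_one, le_refl]
        · intro l hl
          simp only [hω, hG]
          rw [if_neg (by omega)]
      · intro n
        have hρ : y ^ (499 / 1000 : ℝ) ≤ 1 / 2 := n8_pow_half hy0.le (by linarith only [hy16])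
        have hBρ : y ^ (499 / 1000 : ℝ) ≤ B ^ (499 / 1000 : ℝ) :=
          Real.rpow_le_rpow hy0.le hBy (by norm_num)
        have hD : ((1 + η) * Si) ^ (499 / 1000 : ℝ) * y ^ (499 / 1000 : ℝ) ≤ 1 / 2 := by
          rw [← Real.mul_rpow (by positivity) hy0.le]
          refine n8_pow_half (by positivity) ?_
          have h1 : (1 + η) * Si * y ≤ 2 * (Si * y) := by
            have h2 : 0 ≤ Si * y := by positivity
            nlinarith only [h2, hη1]
          linarith only [h1, hp16]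
        have hmain := n8_geom (r := y ^ (499 / 1000 : ℝ)) (A := B ^ (499 / 1000 : ℝ))
          (D := ((1 + η) * Si) ^ (499 / 1000 : ℝ)) (by positivity) hρ (by positivity)
          (by positivity) (f := fun l => if l = 0 then 1 else (ω l) ^ (499 / 1000 : ℝ)) (by
            rw [if_neg (by norm_num)]
            refine Real.rpow_le_rpow (hω0 1) ?_ (by norm_num)
            simp only [hω, hG, if_true, pow_one, hB]
            have : 0 ≤ 2 * ((1 + η) * Si) * y ^ 2 := by positivity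
            linarith only [this]) (by
            intro l hl
            rw [if_neg (by omega)]
            simp only [hω, hG]
            rw [if_neg (by omega), Real.mul_rpow (by positivity) (by positivity)]
            refine mul_le_mul_of_nonneg_left (le_of_eq ?_) (by positivity)
            rw [← Real.rpow_natCast, ← Real.rpow_mul hy0.le, ← Real.rpow_natCast,
              ← Real.rpow_mul hy0.le, mul_comm]) n
        refine hmain.trans ?_
        have h6 : ((1 + η) * Si) ^ (499 / 1000 : ℝ) * (y ^ (499 / 1000 : ℝ)) ^ 2 ≤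
            1 / 2 * B ^ (499 / 1000 : ℝ) := by
          have h7 : ((1 + η) * Si) ^ (499 / 1000 : ℝ) * (y ^ (499 / 1000 : ℝ)) ^ 2 =
            (((1 + η) * Si) ^ (499 / 1000 : ℝ) * y ^ (499 / 1000 : ℝ)) * y ^ (499 / 1000 : ℝ) := by
            ring
          rw [h7]
          exact mul_le_mul hD hBρ (by positivity) (by norm_num)
        linarith only [h6]
    · -- the constant
      refine hfinal _ ?_
      have hlam : n8lam s V η (4 + 16 * C) p =
          η * y + (4 + 16 * C) * Si ^ 2 * y ^ (501 / 500 : ℝ) := by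
        unfold n8lam
        rw [if_pos hpV]
      rw [hlam]
      have hB2 : B ^ (501 / 500 : ℝ) ≤ 16 * Si ^ 2 * y ^ (501 / 500 : ℝ) := by
        have h1 : B ^ (501 / 500 : ℝ) ≤ (4 * Si * y) ^ (501 / 500 : ℝ) :=
          Real.rpow_le_rpow hB0.le hB4 (by norm_num)
        rw [Real.mul_rpow (by positivity) hy0.le] at h1
        refine h1.trans (mul_le_mul_of_nonneg_right ?_ hyp)
        have h2 : (4 * Si) ^ (501 / 500 : ℝ) ≤ (4 * Si) ^ (2 : ℝ) :=
          Real.rpow_le_rpow_of_exponent_le (by linarith only [hSi1]) (by norm_num)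
        rw [Real.rpow_two] at h2
        linarith only [h2, mul_pow 4 Si 2]
      have hCB : C * B ^ (501 / 500 : ℝ) ≤ 16 * C * Si ^ 2 * y ^ (501 / 500 : ℝ) := by
        have := mul_le_mul_of_nonneg_left hB2 hC
        linarith only [this]
      have hy2 : y ^ 2 ≤ y ^ (501 / 500 : ℝ) := by
        rw [← Real.rpow_two]
        exact Real.rpow_le_rpow_of_exponent_ge hy0 (by linarith only [hy16]) (by norm_num)
      have hmain : (499 / 500) * (B - y) ≤ 4 * Si * n8tau γ s V a b p + η * y +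
          4 * Si ^ 2 * y ^ (501 / 500 : ℝ) := by
        have hBy0 : 0 ≤ B - y := by linarith only [hBy]
        by_cases hτ' : τ
        · have h1 : n8tau γ s V a b p = y := by
            unfold n8tau
            rw [if_pos hτ']
          rw [h1]
          have h2 : 0 ≤ η * y := by positivity
          have h3 : 0 ≤ 4 * Si ^ 2 * y ^ (501 / 500 : ℝ) := by positivity
          linarith only [h2, h3, hB4, hBy0, hy0]
        · have h1 : g = 1 := by
            rw [hg, if_neg hτ']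
          have h2 : B - y = η * y + 2 * ((1 + η) * Si) * y ^ 2 := by
            rw [hB, h1]
            ring
          have h3 : 2 * ((1 + η) * Si) * y ^ 2 ≤ 4 * Si ^ 2 * y ^ (501 / 500 : ℝ) := by
            refine mul_le_mul ?_ hy2 (by positivity) (by positivity)
            have h4 : (1 + η) * Si ≤ 2 * Si :=
              mul_le_mul_of_nonneg_right (by linarith only [hη1]) (by linarith only [hSi1])
            nlinarith only [h4, hSi1]
          have h5 : 0 ≤ 4 * Si * n8tau γ s V a b p := by positivity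
          linarith only [h2, h3, h5, hBy0]
      linarith only [hmain, hCB]

/-! ### the sum of the errors -/

theorem n8_logs {s₀ s V : ℝ} (h : NHyp s₀ s V) (hs4 : s ≤ 1 / 4) :
    1 ≤ Real.log (1 / s) ∧ 100 * Real.log (1 / s) ≤ Real.log V / Real.log (1 / s) ∧
      Real.log (1 / s) ≤ Real.log V ∧ 1 ≤ Real.log V := by
  obtain ⟨hs, -, hV, hL⟩ := h
  have h1 : 1 ≤ Real.log (1 / s) := by
    have h2 : Real.log 4 ≤ Real.log (1 / s) := by
      apply Real.log_le_log (by norm_num)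
      rw [le_div_iff₀ hs]
      linarith only [hs4]
    have h3 : Real.log 4 = 2 * Real.log 2 := by
      rw [show (4 : ℝ) = 2 ^ 2 by norm_num, Real.log_pow]
      norm_num
    linarith only [h2, h3, Real.log_two_gt_d9]
  refine ⟨h1, ?_, ?_, ?_⟩
  · rw [le_div_iff₀ (by linarith only [h1])]
    nlinarith only [hL]
  · nlinarith only [hL, h1]
  · nlinarith only [hL, h1]

theorem n8_inv_prime {s₀ s V : ℝ} (h : NHyp s₀ s V) (hs4 : s ≤ 1 / 4) {p : ℕ}
    (hp : nw s V < p) : 1 / (p : ℝ) ≤ s ^ (100 : ℝ) := by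
  have hs := h.1
  obtain ⟨h1, h2, -, -⟩ := n8_logs h hs4
  have h3 : s ^ (-(100 : ℝ)) ≤ nw s V := by
    unfold nw
    rw [Real.rpow_def_of_pos hs]
    apply Real.exp_le_exp.2
    rw [one_div, Real.log_inv] at h2
    rw [one_div, Real.log_inv]
    linarith only [h2]
  have h4 : 0 < s ^ (-(100 : ℝ)) := by positivity
  have h5 : s ^ (100 : ℝ) = 1 / s ^ (-(100 : ℝ)) := by
    rw [Real.rpow_neg hs.le, one_div, inv_inv]
  rw [h5]
  exact one_div_le_one_div_of_le h4 (h3.trans hp.le)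

theorem n8_sum_lam : ∃ C₁ > 0, ∃ Z > 0, ∀ (s₀ s V η C' : ℝ), NHyp s₀ s V → s ≤ 1 / 4 →
    0 ≤ η → 0 ≤ C' → ∀ P : Finset ℕ, (∀ p ∈ P, p.Prime ∧ nw s V < p) →
    ∑ p ∈ P, n8lam s V η C' p ≤ η * ((2 + C₁) * Real.log (1 / s)) +
      C' * Z * s ^ (13 / 150 : ℝ) := by
  classical
  obtain ⟨C₁, hC₁, hM⟩ := n8_mertens
  have hsm : Summable (fun n : ℕ => 1 / (n : ℝ) ^ (1001 / 1000 : ℝ)) :=
    Real.summable_one_div_nat_rpow.2 (by norm_num)
  refine ⟨C₁, hC₁, (∑' n : ℕ, 1 / (n : ℝ) ^ (1001 / 1000 : ℝ)) + 1, ?_, ?_⟩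
  · have : 0 ≤ ∑' n : ℕ, 1 / (n : ℝ) ^ (1001 / 1000 : ℝ) := tsum_nonneg fun n => by positivity
    linarith only [this]
  intro s₀ s V η C' hN hs4 hη hC' P hP
  have hs := hN.1
  have hV := hN.2.2.1
  obtain ⟨h1, h2, h3, h4⟩ := n8_logs hN hs4
  unfold n8lam
  rw [sum_add_distrib]
  refine add_le_add ?_ ?_
  · -- primes of the window
    rw [← sum_filter, ← mul_sum]
    refine mul_le_mul_of_nonneg_left ?_ hη
    set Q := P.filter (fun p : ℕ => (p : ℝ) ≤ V * s ^ (-(3 / 16) : ℝ)) with hQ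
    rcases Q.eq_empty_or_nonempty with hQe | ⟨q, hq⟩
    · rw [hQe, sum_empty]
      positivity
    have hx0 : 0 < nw s V := Real.exp_pos _
    have hlx : Real.log (nw s V) = Real.log V / Real.log (1 / s) := by
      unfold nw
      rw [Real.log_exp]
    have hx2 : 2 ≤ nw s V := by
      unfold nw
      have := Real.add_one_le_exp (Real.log V / Real.log (1 / s))
      linarith only [this, h2, h1]
    have hq' := mem_filter.1 hq
    have h5 := hM Q (nw s V) (V * s ^ (-(3 / 16) : ℝ)) (fun p hp => by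
      have hp' := mem_filter.1 hp
      exact ⟨(hP p hp'.1).1, (hP p hp'.1).2.le, hp'.2⟩) hx2
      ((hP q hq'.1).2.le.trans hq'.2)
    have h6 : Real.log (V * s ^ (-(3 / 16) : ℝ)) = Real.log V + 3 / 16 * Real.log (1 / s) := by
      rw [Real.log_mul hV.ne' (by positivity), Real.log_rpow hs, one_div, Real.log_inv]
      ring
    rw [hlx, h6, div_mul_eq_mul_div, div_le_iff₀ (by linarith only [h1])] at h5
    have h7 : (Real.log V + 3 / 16 * Real.log (1 / s) + C₁) * Real.log (1 / s) ≤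
        Real.log V * ((2 + C₁) * Real.log (1 / s)) := by
      have h8 : Real.log V + 3 / 16 * Real.log (1 / s) + C₁ ≤ Real.log V * (2 + C₁) := by
        nlinarith only [h3, h4, hC₁, h1]
      have h9 := mul_le_mul_of_nonneg_right h8 (by linarith only [h1] : 0 ≤ Real.log (1 / s))
      linarith only [h9]
    exact le_of_mul_le_mul_left (h5.trans h7) (by linarith only [h4])
  · -- the quadratic error
    have h5 : ∀ p ∈ P, C' * (s ^ (-(1 / 150) : ℝ)) ^ 2 * (1 / (p : ℝ)) ^ (501 / 500 : ℝ) ≤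
        C' * s ^ (13 / 150 : ℝ) * (1 / (p : ℝ) ^ (1001 / 1000 : ℝ)) := by
      intro p hp
      have hp0 : (0 : ℝ) < p := by exact_mod_cast (hP p hp).1.pos
      have h6 := n8_inv_prime hN hs4 (hP p hp).2
      have h7 : (1 / (p : ℝ)) ^ (501 / 500 : ℝ) ≤
          s ^ (1 / 10 : ℝ) * (1 / (p : ℝ) ^ (1001 / 1000 : ℝ)) := by
        have e1 : (1 / (p : ℝ)) ^ (501 / 500 : ℝ) =
            (1 / (p : ℝ)) ^ (1 / 1000 : ℝ) * (1 / (p : ℝ)) ^ (1001 / 1000 : ℝ) := by
          rw [← Real.rpow_add (by positivity)]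
          norm_num
        have e2 : (1 / (p : ℝ)) ^ (1001 / 1000 : ℝ) = 1 / (p : ℝ) ^ (1001 / 1000 : ℝ) := by
          rw [Real.div_rpow zero_le_one hp0.le, Real.one_rpow]
        have e3 : (1 / (p : ℝ)) ^ (1 / 1000 : ℝ) ≤ s ^ (1 / 10 : ℝ) := by
          have h8 := Real.rpow_le_rpow (by positivity) h6 (by norm_num : (0 : ℝ) ≤ 1 / 1000)
          rw [← Real.rpow_mul hs.le] at h8
          norm_num at h8 ⊢
          exact h8
        rw [e1, e2]
        exact mul_le_mul_of_nonneg_right e3 (by positivity)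
      have h8 : (s ^ (-(1 / 150) : ℝ)) ^ 2 * s ^ (1 / 10 : ℝ) = s ^ (13 / 150 : ℝ) := by
        rw [← Real.rpow_natCast, ← Real.rpow_mul hs.le, ← Real.rpow_add hs]
        norm_num
      calc C' * (s ^ (-(1 / 150) : ℝ)) ^ 2 * (1 / (p : ℝ)) ^ (501 / 500 : ℝ)
          ≤ C' * (s ^ (-(1 / 150) : ℝ)) ^ 2 *
            (s ^ (1 / 10 : ℝ) * (1 / (p : ℝ) ^ (1001 / 1000 : ℝ))) :=
            mul_le_mul_of_nonneg_left h7 (by positivity)
        _ = C' * ((s ^ (-(1 / 150) : ℝ)) ^ 2 * s ^ (1 / 10 : ℝ)) *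
            (1 / (p : ℝ) ^ (1001 / 1000 : ℝ)) := by ring
        _ = _ := by rw [h8]
    refine (sum_le_sum h5).trans ?_
    rw [← mul_sum]
    have h6 : ∑ p ∈ P, 1 / (p : ℝ) ^ (1001 / 1000 : ℝ) ≤
        (∑' n : ℕ, 1 / (n : ℝ) ^ (1001 / 1000 : ℝ)) + 1 := by
      have := hsm.sum_le_tsum P (fun n _ => by positivity)
      linarith only [this]
    have h7 := mul_le_mul_of_nonneg_left h6 (by positivity : 0 ≤ C' * s ^ (13 / 150 : ℝ))
    linarith only [h7]

/-! N8 -/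
theorem inner_N : ∃ Γ > 0, ∃ s₀ > 0, ∀ γ s V : ℝ, NHyp s₀ s V → ∀ P : Finset ℕ,
    (∀ p ∈ P, p.Prime ∧ nw s V < p) →
    LBound (NOm γ s V) (501 / 1000) (fun a b => Γ * ((16 / ((a : ℝ) * b)) ^ (499 / 1000 : ℝ) *
      (nsig γ s V a b) ^ (499 / 1000 : ℝ))) P (fun p => 1 / (p : ℝ)) 1 := by
  classical
  obtain ⟨B₀, hB₀, C, hC, -, hSP⟩ := SPw_small (θ := 501 / 1000) (by norm_num) (by norm_num)
  simp only [show (1 - 501 / 1000 : ℝ) = 499 / 1000 by norm_num,
    show (2 * (499 / 1000) : ℝ) = 499 / 500 by norm_num,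
    show (2 * (501 / 1000) : ℝ) = 501 / 500 by norm_num] at hSP
  obtain ⟨C₁, hC₁, Z, hZ, hlam⟩ := n8_sum_lam
  obtain ⟨s₁, hs₁, hbase⟩ := base_N
  obtain ⟨s₂, hs₂, htrans⟩ := trans_sum
  obtain ⟨s₃, hs₃, hsmall⟩ := n8_small (((((n8_ev_rpow (r := 1) (A := 1) (e := 1 / 4)
    (by norm_num) (by norm_num)).and (n8_ev_rpow (r := 7 / 1200) (A := 32) (e := 1)
    (by norm_num) (by norm_num))).and (n8_ev_log (r := 7 / 1200) (A := 32 * (2 + C₁)) (e := 1)
    (by norm_num) (by norm_num))).and (n8_ev_rpow (r := 13 / 150) (A := (4 + 16 * C) * Z)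
    (e := 1) (by norm_num) (by norm_num))).and (n8_ev_rpow (r := 99) (A := 1)
    (e := min (B₀ / 4) (1 / 16)) (by norm_num) (by positivity)))
  refine ⟨Real.exp 3, Real.exp_pos _, min s₁ (min s₂ s₃), by positivity, ?_⟩
  intro γ s V hN P hP
  have hs := hN.1
  have hN1 : NHyp s₁ s V := hN.mono (min_le_left _ _)
  have hN2 : NHyp s₂ s V := hN.mono ((min_le_right _ _).trans (min_le_left _ _))
  obtain ⟨⟨⟨⟨q1, q2⟩, q3⟩, q4⟩, q5⟩ := hsmall s hs
    (hN.2.1.trans ((min_le_right _ _).trans (min_le_right _ _)))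
  rw [Real.rpow_one, one_mul] at q1
  rw [one_mul] at q5
  have hs1 : s ≤ 1 := by linarith only [q1]
  set ε := s ^ (7 / 1200 : ℝ) with hε
  have hε0 : 0 < ε := by positivity
  have hSε : s ^ (-(1 / 150) : ℝ) * s ^ (1 / 80 : ℝ) = ε := by
    rw [← Real.rpow_add hs]
    norm_num
    rfl
  set η := Real.exp (16 * ε) - 1 with hη
  have hη0 : 0 ≤ η := by
    have := Real.add_one_le_exp (16 * ε)
    linarith only [this, hε0, hη]
  have hη32 : η ≤ 32 * ε := by
    have h := Real.abs_exp_sub_one_le (x := 16 * ε)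
      (by rw [abs_of_pos (by positivity)]; linarith only [q2])
    rw [abs_of_pos (a := 16 * ε) (by positivity)] at h
    have h' := le_abs_self (Real.exp (16 * ε) - 1)
    linarith only [h, h', hη]
  have hη1 : η ≤ 1 := hη32.trans q2
  have hηe : Real.exp (4 * s ^ (-(1 / 150) : ℝ) * s ^ (1 / 80 : ℝ)) ≤
      (1 + η) ^ (499 / 1000 : ℝ) := by
    have h1 : 1 + η = Real.exp (16 * ε) := by rw [hη]; ring
    rw [h1, ← Real.exp_mul, mul_assoc, hSε]
    apply Real.exp_le_exp.2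
    linarith only [hε0]
  have hC' : 0 ≤ 4 + 16 * C := by linarith only [hC]
  have hH : ∀ P : Finset ℕ, (∀ p ∈ P, p.Prime ∧ nw s V < p) → ∀ a b : ℕ, 0 < a → 0 < b →
      n8H γ s V P a b ≤ s ^ (1 / 80 : ℝ) := fun P hP a b ha hb =>
    n8_H_le hs fun hf => htrans γ s V hN2 a b ha hb hf P hP
  have hpS : ∀ p : ℕ, nw s V < p → s ^ (-(1 / 150) : ℝ) * (1 / (p : ℝ)) ≤
      min (B₀ / 4) (1 / 16) := by
    intro p hp
    have h1 := n8_inv_prime hN q1 hp
    have h2 : s ^ (-(1 / 150) : ℝ) * s ^ (100 : ℝ) ≤ s ^ (99 : ℝ) := by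
      rw [← Real.rpow_add hs]
      exact Real.rpow_le_rpow_of_exponent_ge hs hs1 (by norm_num)
    have h3 := mul_le_mul_of_nonneg_left h1 (by positivity : 0 ≤ s ^ (-(1 / 150) : ℝ))
    exact h3.trans (h2.trans q5)
  -- the induction
  have hind : ∀ P : Finset ℕ, (∀ p ∈ P, p.Prime ∧ nw s V < p) →
      LBound (NOm γ s V) (501 / 1000) (n8K γ s V η (4 + 16 * C) P) P
        (fun p => 1 / (p : ℝ)) 1 := by
    intro P
    induction P using Finset.induction_on with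
    | empty =>
      intro _
      refine LBound_mono (hbase γ s V hN1 _) fun a b _ _ => ?_
      unfold n8K n8H
      rw [sum_empty, sum_empty, mul_zero, add_zero, Real.exp_zero, mul_one]
    | insert p P hpP ih =>
      intro hP'
      have hPP : ∀ q ∈ P, q.Prime ∧ nw s V < q := fun q hq => hP' q (mem_insert_of_mem hq)
      have hpp := hP' p (mem_insert_self p P)
      refine lb_step (K := n8K γ s V η (4 + 16 * C) P) (by norm_num) (by norm_num)
        (fun q hq => (hPP q hq).1) hpp.1 hpP ?_ (n8_K_nonneg hs P) (ih hPP) ?_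
      · intro q hq
        have h2 : (2 : ℝ) ≤ q := by exact_mod_cast (hP' q hq).1.two_le
        refine ⟨by positivity, ?_⟩
        rw [div_lt_one (by linarith only [h2])]
        linarith only [h2]
      · intro a b ha hb
        have h1 := hpS p hpp.2
        exact n8_step hC hSP hs hs1 hη0 hη1 hηe hpp.1 hpP
          (by
            have := h1.trans (min_le_left _ _)
            linarith only [this])
          (h1.trans (min_le_right _ _)) (hH P hPP) ha hb
  refine LBound_mono (hind P hP) fun a b ha hb => ?_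
  unfold n8K
  rw [mul_comm (Real.exp 3)]
  have hn := nsig_nonneg (γ := γ) (V := V) hs a b
  refine mul_le_mul_of_nonneg_left (Real.exp_le_exp.2 ?_) (by positivity)
  have h1 := hlam _ s V η (4 + 16 * C) hN q1 hη0 hC' P hP
  have h2 : 4 * s ^ (-(1 / 150) : ℝ) * n8H γ s V P a b ≤ 4 * ε := by
    have h3 := mul_le_mul_of_nonneg_left (hH P hP a b ha hb)
      (by positivity : 0 ≤ 4 * s ^ (-(1 / 150) : ℝ))
    linarith only [h3, hSε]
  have h4 : η * ((2 + C₁) * Real.log (1 / s)) ≤ 1 := by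
    have h5 : 0 ≤ (2 + C₁) * Real.log (1 / s) := by
      have := (n8_logs hN q1).1
      positivity
    have h6 := mul_le_mul_of_nonneg_right hη32 h5
    linarith only [h6, q3]
  linarith only [h1, h2, h4, q2, q4]

end Vale.P028
end
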