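import Mathlib
import Vale.Agent.P028.Bd3.B1

set_option linter.all false

section

/-!
# The sift of the centres (A2)
-/

namespace Vale.P028

open Finset ArithmeticFunction

/-- Window counts. -/
theorem count_window (g : ℤ → Prop) [DecidablePred g] (N c : ℕ) (hN : 0 < N)
    (hc : ∀ t : ℤ, ((range N).filter (fun i : ℕ => g (t + i))).card = c) :
    ∀ (n : ℕ) (t : ℤ), (n / N) * c ≤ ((range n).filter (fun i : ℕ => g (t + i))).card ∧
      ((range n).filter (fun i : ℕ => g (t + i))).card ≤ (n / N + 1) * c := by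
  intro n
  induction n using Nat.strong_induction_on with
  | _ n ih =>
    intro t
    rcases Nat.lt_or_ge n N with h | h
    · rw [Nat.div_eq_of_lt h]
      refine ⟨by simp only [zero_mul, zero_le], ?_⟩
      rw [zero_add, one_mul, ← hc t]
      apply card_le_card
      apply filter_subset_filter
      intro i hi
      rw [mem_range] at *
      (clear * - h hi; omega)
    · have h1 := ih (n - N) (by omega) (t + N)
      have h2 : ((range n).filter (fun i : ℕ => g (t + i))).card =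
          ((range N).filter (fun i : ℕ => g (t + i))).card +
          ((range (n - N)).filter (fun i : ℕ => g (t + N + i))).card := by
        have h3 : range n = range N ∪ (range (n - N)).map (addLeftEmbedding N) := by
          rw [← range_add_eq_union]
          congr 1
          omega
        rw [h3, filter_union, card_union_of_disjoint]
        · congr 1
          rw [filter_map, card_map]
          congr 1
          apply filter_congr
          intro i _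
          simp only [Function.comp, addLeftEmbedding_apply]
          push_cast
          rw [add_assoc]
        · apply disjoint_filter_filter
          rw [disjoint_left]
          intro i hi hi2
          rw [mem_range] at hi
          simp only [mem_map, mem_range, addLeftEmbedding_apply] at hi2
          obtain ⟨a, _, ha⟩ := hi2
          omega
      rw [h2, hc t]
      have h4 : n / N = (n - N) / N + 1 := by
        have : n = (n - N) + N := by omega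
        conv_lhs => rw [this]
        rw [Nat.add_div_right _ hN]
      rw [h4]
      constructor
      · rw [add_mul]; linarith only [h1]
      · have := h1.2
        rw [add_mul, one_mul] at *
        rw [add_mul]
        linarith only [h1]

theorem card_Ico_int_filter (g : ℤ → Prop) [DecidablePred g] (t : ℤ) (n : ℕ) :
    ((Ico t (t + n)).filter g).card = ((range n).filter (fun i : ℕ => g (t + i))).card := by
  symm
  apply card_bij (fun (i : ℕ) _ => t + (i : ℤ))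
  · intro i hi
    rw [mem_filter, mem_range] at hi
    rw [mem_filter, mem_Ico]
    refine ⟨⟨by omega, by omega⟩, hi.2⟩
  · intro i _ j _ h
    omega
  · intro b hb
    rw [mem_filter, mem_Ico] at hb
    refine ⟨(b - t).toNat, ?_, ?_⟩
    · rw [mem_filter, mem_range]
      have : ((b - t).toNat : ℤ) = b - t := Int.toNat_of_nonneg (by omega)
      refine ⟨by omega, ?_⟩
      rw [this]
      have h2 : t + (b - t) = b := by ring
      rw [h2]; exact hb.2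
    · have : ((b - t).toNat : ℤ) = b - t := Int.toNat_of_nonneg (by omega)
      omega

/-- Linear change of variable in a full period. -/
theorem count_linear (B A : ℤ) (N : ℕ) (hN : 0 < N) (hB : IsCoprime B (N : ℤ))
    (g : ℤ → Prop) [DecidablePred g] (hg : ∀ x y : ℤ, x ≡ y [ZMOD N] → (g x ↔ g y)) (t : ℤ) :
    ((range N).filter (fun i : ℕ => g ((t + i) * B + A))).card =
      ((range N).filter (fun m : ℕ => g m)).card := by
  have hN' : (0 : ℤ) < N := by exact_mod_cast hN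
  set F : ℕ → ℕ := fun i => (((t + i) * B + A) % N).toNat with hF
  have hFv : ∀ i, ((F i : ℕ) : ℤ) = ((t + i) * B + A) % N := by
    intro i
    rw [hF]
    exact Int.toNat_of_nonneg (Int.emod_nonneg _ hN'.ne')
  have hFlt : ∀ i, F i < N := by
    intro i
    have := Int.emod_lt_of_pos ((t + i) * B + A) hN'
    rw [← hFv] at this
    exact_mod_cast this
  have hinj : Set.InjOn F (range N : Set ℕ) := by
    intro i hi j hj hij
    rw [coe_range, Set.mem_Iio] at hi hj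
    have h1 : ((t + i) * B + A) % N = ((t + j) * B + A) % N := by
      rw [← hFv, ← hFv, hij]
    have h2 : ((t + i) * B + A) ≡ ((t + j) * B + A) [ZMOD N] := h1
    have h3 := (Int.modEq_iff_dvd.mp h2)
    have h4 : (N : ℤ) ∣ ((j : ℤ) - i) * B := by
      convert h3 using 1; ring
    have h5 : (N : ℤ) ∣ (j : ℤ) - i := hB.symm.dvd_of_dvd_mul_right h4
    obtain ⟨k, hk⟩ := h5
    have h6 : k = 0 := by
      by_contra hk0
      rcases lt_or_gt_of_ne hk0 with h | h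
      · have : k ≤ -1 := by omega
        nlinarith only [hi, hk, h]
      · have : 1 ≤ k := by omega
        nlinarith only [hj, hk, h]
    rw [h6, mul_zero] at hk
    omega
  have himg : (range N).image F = range N := by
    apply eq_of_subset_of_card_le
    · intro m hm
      rw [mem_image] at hm
      obtain ⟨i, _, rfl⟩ := hm
      rw [mem_range]; exact hFlt i
    · rw [card_image_of_injOn hinj]
  have h7 : (range N).filter (fun m : ℕ => g m) =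
      ((range N).filter (fun i : ℕ => g ((t + i) * B + A))).image F := by
    conv_lhs => rw [← himg]
    rw [filter_image]
    congr 1
    apply filter_congr
    intro i _
    rw [hFv]
    apply hg
    exact Int.mod_modEq _ _
  rw [h7, card_image_of_injOn]
  intro i hi j hj hij
  apply hinj _ _ hij
  · have := (mem_filter.mp (mem_coe.mp hi)).1
    exact_mod_cast this
  · have := (mem_filter.mp (mem_coe.mp hj)).1
    exact_mod_cast this

/-- Multiples of `d` coprime to `P` in a period. -/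
theorem count_mul_coprime (d P : ℕ) (hd : 0 < d) (hdP : d.Coprime P) :
    ((range (d * P)).filter
      (fun m : ℕ => (d : ℤ) ∣ (m : ℤ) ∧ IsCoprime (m : ℤ) (P : ℤ))).card = P.totient := by
  rw [Nat.totient_eq_card_coprime]
  symm
  apply card_bij (fun m _ => d * m)
  · intro m hm
    rw [mem_filter, mem_range] at hm
    rw [mem_filter, mem_range]
    refine ⟨(Nat.mul_lt_mul_left hd).mpr hm.1, ?_, ?_⟩
    · exact_mod_cast Nat.dvd_mul_right d m
    · rw [Nat.isCoprime_iff_coprime]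
      exact Nat.Coprime.mul_left hdP hm.2.symm
  · intro a _ b _ h
    exact Nat.eq_of_mul_eq_mul_left hd h
  · intro b hb
    rw [mem_filter, mem_range] at hb
    obtain ⟨h1, h2, h3⟩ := hb
    have h2' : d ∣ b := by exact_mod_cast h2
    obtain ⟨m, rfl⟩ := h2'
    refine ⟨m, ?_, rfl⟩
    rw [mem_filter, mem_range]
    rw [Nat.isCoprime_iff_coprime] at h3
    exact ⟨(Nat.mul_lt_mul_left hd).mp h1, (Nat.Coprime.coprime_mul_left h3).symm⟩

/-- Bounds for the number of sifted multiples in an interval. -/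
theorem count_T (B A : ℤ) (d P : ℕ) (hd : 0 < d) (hP : 0 < P) (hdP : d.Coprime P)
    (hB : IsCoprime B ((d * P : ℕ) : ℤ)) (t : ℤ) (n : ℕ) :
    ((n : ℝ) / (d * P) - 1) * P.totient ≤
      (((Ico t (t + n)).filter (fun al : ℤ => (d : ℤ) ∣ al * B + A ∧
        IsCoprime (al * B + A) (P : ℤ))).card : ℝ) ∧
    (((Ico t (t + n)).filter (fun al : ℤ => (d : ℤ) ∣ al * B + A ∧
        IsCoprime (al * B + A) (P : ℤ))).card : ℝ) ≤ ((n : ℝ) / (d * P) + 1) * P.totient := by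
  classical
  have hN : 0 < d * P := Nat.mul_pos hd hP
  set g : ℤ → Prop := fun m => (d : ℤ) ∣ m ∧ IsCoprime m (P : ℤ) with hg
  have hgper : ∀ x y : ℤ, x ≡ y [ZMOD ((d * P : ℕ) : ℤ)] → (g x ↔ g y) := by
    have key : ∀ x y : ℤ, x ≡ y [ZMOD ((d * P : ℕ) : ℤ)] → g x → g y := by
      intro x y hxy hx
      obtain ⟨k, hk⟩ := Int.modEq_iff_dvd.mp hxy
      have hy : y = x + (d * P : ℕ) * k := by linarith only [hk]
      push_cast at hy
      refine ⟨?_, ?_⟩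
      · rw [hy]
        exact dvd_add hx.1 ⟨P * k, by ring⟩
      · rw [hy]
        have : x + (d : ℤ) * P * k = x + P * (d * k) := by ring
        rw [this]
        exact IsCoprime.add_mul_left_left hx.2 _
    intro x y hxy
    exact ⟨key x y hxy, key y x hxy.symm⟩
  have hc : ∀ t : ℤ, ((range (d * P)).filter
      (fun i : ℕ => (fun al : ℤ => g (al * B + A)) (t + i))).card = P.totient := by
    intro t
    have h1 := count_linear B A (d * P) hN hB g hgper t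
    rw [← count_mul_coprime d P hd hdP]
    convert h1 using 2
  have h2 := count_window (fun al : ℤ => g (al * B + A)) (d * P) P.totient hN hc n t
  have h2e := card_Ico_int_filter (fun al : ℤ => g (al * B + A)) t n
  rw [← h2e] at h2
  have h3 : (((n / (d * P) : ℕ) * P.totient : ℕ) : ℝ) ≤
      (((Ico t (t + n)).filter (fun al : ℤ => g (al * B + A))).card : ℝ) := by
    exact_mod_cast h2.1
  have h4 : (((Ico t (t + n)).filter (fun al : ℤ => g (al * B + A))).card : ℝ) ≤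
      (((n / (d * P) + 1 : ℕ) * P.totient : ℕ) : ℝ) := by
    exact_mod_cast h2.2
  have hN' : (0 : ℝ) < (d : ℝ) * P := by exact_mod_cast hN
  have h5 : ((n / (d * P) : ℕ) : ℝ) ≤ (n : ℝ) / (d * P) := by
    have := @Nat.cast_div_le ℝ _ _ _ n (d * P)
    push_cast at this
    exact this
  have h6 : (n : ℝ) / (d * P) - 1 ≤ ((n / (d * P) : ℕ) : ℝ) := by
    rw [sub_le_iff_le_add, div_le_iff₀ hN']
    have h7 : n < (n / (d * P) + 1) * (d * P) := by
      rw [add_mul, one_mul]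
      exact Nat.lt_div_mul_add hN
    have h8 : (n : ℝ) < (((n / (d * P) : ℕ) : ℝ) + 1) * (d * P) := by exact_mod_cast h7
    exact h8.le
  push_cast at h3 h4
  constructor
  · refine le_trans ?_ h3
    exact mul_le_mul_of_nonneg_right h6 (Nat.cast_nonneg _)
  · refine h4.trans ?_
    apply mul_le_mul_of_nonneg_right _ (Nat.cast_nonneg _)
    linarith only [h5]

end Vale.P028
end

section

/-!
# Overlaps of sifted sets
-/

namespace Vale.P028

open Finset MeasureTheory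

/-- splitting a window in residue classes -/
theorem ko_sum_window (h : ℤ → ℕ) (t₀ : ℤ) (M n : ℕ) :
    ∑ t ∈ Ico t₀ (t₀ + (n : ℤ) * M), h t =
      ∑ x ∈ Ico t₀ (t₀ + M), ∑ j ∈ range n, h (x + (j : ℤ) * M) := by
  induction n with
  | zero => simp
  | succ n ih =>
    have e1 : Ico t₀ (t₀ + ((n + 1 : ℕ) : ℤ) * M) =
        Ico t₀ (t₀ + (n : ℤ) * M) ∪ Ico (t₀ + (n : ℤ) * M) (t₀ + ((n + 1 : ℕ) : ℤ) * M) := by
      rw [Ico_union_Ico_eq_Ico]
      · have : (0 : ℤ) ≤ (n : ℤ) * M := by (clear * -; positivity)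
        linarith only [this]
      · push_cast
        have : (0 : ℤ) ≤ M := by (clear * -; positivity)
        linarith only []
    rw [e1, sum_union (Ico_disjoint_Ico_consecutive _ _ _), ih]
    have e2 : ∑ t ∈ Ico (t₀ + (n : ℤ) * M) (t₀ + ((n + 1 : ℕ) : ℤ) * M), h t =
        ∑ x ∈ Ico t₀ (t₀ + M), h (x + (n : ℤ) * M) := by
      symm
      apply sum_bij (fun x _ => x + (n : ℤ) * M)
      · intro x hx
        rw [mem_Ico] at hx ⊢
        push_cast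
        constructor
        · linarith only [hx]
        · linarith only [hx]
      · intro x _ y _ hxy
        linarith only [hxy]
      · intro y hy
        rw [mem_Ico] at hy
        push_cast at hy
        refine ⟨y - (n : ℤ) * M, ?_, by ring⟩
        rw [mem_Ico]
        constructor
        · linarith only [hy]
        · linarith only [hy]
      · intro x _
        rfl
    rw [e2, ← sum_add_distrib]
    apply sum_congr rfl
    intro x _
    rw [sum_range_succ]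

open Classical in
/-- Chinese remainder theorem, counting version -/
theorem ko_crt (f : ℕ → ℤ → Prop) (S : Finset ℕ) (hS : ∀ p ∈ S, p.Prime)
    (hf : ∀ p ∈ S, ∀ x y : ℤ, x ≡ y [ZMOD p] → (f p x ↔ f p y)) (t₀ : ℤ) :
    ((Ico t₀ (t₀ + ((∏ p ∈ S, p : ℕ) : ℤ))).filter (fun t => ∀ p ∈ S, f p t)).card =
      ∏ p ∈ S, ((range p).filter (fun i : ℕ => f p i)).card := by
  induction S using Finset.induction_on with
  | empty => simp only [notMem_empty, IsEmpty.forall_iff, implies_true, filter_true, prod_empty, Nat.cast_one, Int.card_Ico, add_sub_cancel_left, Int.toNat_one]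
  | insert p S hpS ih =>
    have hp : p.Prime := hS p (mem_insert_self _ _)
    have hS' : ∀ p' ∈ S, p'.Prime := fun p' h' => hS p' (mem_insert_of_mem h')
    have hf' : ∀ p' ∈ S, ∀ x y : ℤ, x ≡ y [ZMOD p'] → (f p' x ↔ f p' y) :=
      fun p' h' => hf p' (mem_insert_of_mem h')
    have ih' := ih hS' hf'
    rw [prod_insert hpS, prod_insert hpS]
    set M : ℕ := ∏ p ∈ S, p with hM
    have hcop : IsCoprime (M : ℤ) (p : ℤ) := by
      rw [Nat.isCoprime_iff_coprime, hM]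
      apply Nat.Coprime.prod_left
      intro p' hp'
      exact (Nat.coprime_primes (hS' p' hp') hp).mpr (fun h => hpS (h ▸ hp'))
    have hdvd : ∀ p' ∈ S, (p' : ℤ) ∣ (M : ℤ) := by
      intro p' hp'
      exact_mod_cast dvd_prod_of_mem _ hp'
    rw [card_filter]
    push_cast
    rw [ko_sum_window]
    have e1 : ∀ x ∈ Ico t₀ (t₀ + (M : ℤ)), ∑ j ∈ range p,
        (if ∀ p' ∈ insert p S, f p' (x + (j : ℤ) * M) then 1 else 0) =
        (if ∀ p' ∈ S, f p' x then 1 else 0) * ((range p).filter (fun i : ℕ => f p i)).card := by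
      intro x _
      have e2 : ∀ j : ℕ, (∀ p' ∈ insert p S, f p' (x + (j : ℤ) * M)) ↔
          ((∀ p' ∈ S, f p' x) ∧ f p (x + (j : ℤ) * M)) := by
        intro j
        rw [forall_mem_insert]
        have e3 : (∀ p' ∈ S, f p' (x + (j : ℤ) * M)) ↔ (∀ p' ∈ S, f p' x) := by
          apply forall₂_congr
          intro p' hp'
          apply hf' p' hp'
          rw [Int.modEq_iff_dvd]
          have : x - (x + (j : ℤ) * M) = -((j : ℤ) * M) := by ring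
          rw [this]
          exact (dvd_neg).mpr (Dvd.dvd.mul_left (hdvd p' hp') _)
        rw [e3, and_comm]
      simp only [e2]
      by_cases hx : ∀ p' ∈ S, f p' x
      · have e4 : ∀ j : ℕ, ((∀ p' ∈ S, f p' x) ∧ f p (x + (j : ℤ) * M)) ↔ f p (x + (j : ℤ) * M) :=
          fun j => ⟨fun h => h.2, fun h => ⟨hx, h⟩⟩
        simp only [e4]
        rw [if_pos hx, one_mul, ← card_filter]
        have := count_linear (M : ℤ) x p hp.pos hcop (f p) (hf p (mem_insert_self _ _)) 0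
        rw [← this]
        congr 1
        apply filter_congr
        intro j _
        have : x + (j : ℤ) * M = (0 + (j : ℤ)) * M + x := by ring
        rw [this]
      · have : ∀ j : ℕ, ¬ ((∀ p' ∈ S, f p' x) ∧ f p (x + (j : ℤ) * M)) := fun j h => hx h.1
        simp only [this, if_false, sum_const_zero]
        rw [if_neg hx, zero_mul]
    rw [sum_congr rfl e1, ← sum_mul, ← card_filter, ih', mul_comm]

open Classical in
theorem ko_crt' (f : ℕ → ℤ → Prop) (S : Finset ℕ) (hS : ∀ p ∈ S, p.Prime)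
    (hf : ∀ p ∈ S, ∀ x y : ℤ, x ≡ y [ZMOD p] → (f p x ↔ f p y)) (g : ℕ)
    (hg : ∀ p ∈ S, p ∣ g) (t₀ : ℤ) :
    (((Ico t₀ (t₀ + g)).filter (fun t => ∀ p ∈ S, f p t)).card : ℝ) =
      g * ∏ p ∈ S, (((range p).filter (fun i : ℕ => f p i)).card : ℝ) / p := by
  have hdvd : ∏ p ∈ S, p ∣ g := by
    apply prod_primes_dvd
    · intro p hp; exact (hS p hp).prime
    · exact hg
  obtain ⟨n, hn⟩ := hdvd
  set M : ℕ := ∏ p ∈ S, p with hM
  have hcount : ((Ico t₀ (t₀ + g)).filter (fun t => ∀ p ∈ S, f p t)).card =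
      n * ∏ p ∈ S, ((range p).filter (fun i : ℕ => f p i)).card := by
    have e0 : (g : ℤ) = (n : ℤ) * M := by rw [hn]; push_cast; ring
    rw [e0, card_filter, ko_sum_window]
    have hd : ∀ p' ∈ S, (p' : ℤ) ∣ (M : ℤ) := by
      intro p' hp'
      exact_mod_cast dvd_prod_of_mem _ hp'
    have e1 : ∀ x ∈ Ico t₀ (t₀ + (M : ℤ)), ∑ j ∈ range n,
        (if ∀ p' ∈ S, f p' (x + (j : ℤ) * M) then 1 else 0) =
        n * (if ∀ p' ∈ S, f p' x then 1 else 0) := by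
      intro x _
      have e3 : ∀ j : ℕ, (∀ p' ∈ S, f p' (x + (j : ℤ) * M)) ↔ (∀ p' ∈ S, f p' x) := by
        intro j
        apply forall₂_congr
        intro p' hp'
        apply hf p' hp'
        rw [Int.modEq_iff_dvd]
        have : x - (x + (j : ℤ) * M) = -((j : ℤ) * M) := by ring
        rw [this]
        exact (dvd_neg).mpr (Dvd.dvd.mul_left (hd p' hp') _)
      simp only [e3]
      rw [sum_const, card_range, smul_eq_mul]
    rw [sum_congr rfl e1, ← mul_sum, ← card_filter, ko_crt f S hS hf t₀]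
  rw [hcount, prod_div_distrib]
  have hM0 : (0 : ℝ) < ∏ p ∈ S, (p : ℝ) := prod_pos fun p hp => by exact_mod_cast (hS p hp).pos
  have hgR : (g : ℝ) = (∏ p ∈ S, (p : ℝ)) * n := by
    rw [hn, hM]; push_cast; ring
  rw [hgR]
  push_cast
  (clear * - hM0; field_simp)

theorem ko_mod_mem {p : ℕ} (hp : 0 < p) (c : ℤ) : (c % p).toNat ∈ range p ∧
    (p : ℤ) ∣ (((c % p).toNat : ℕ) : ℤ) - c := by
  have hp' : (0 : ℤ) < p := by exact_mod_cast hp
  have h1 := Int.emod_nonneg c hp'.ne'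
  have h2 := Int.emod_lt_of_pos c hp'
  have h3 : (((c % p).toNat : ℕ) : ℤ) = c % p := Int.toNat_of_nonneg h1
  refine ⟨?_, ?_⟩
  · rw [mem_range]; omega
  · rw [h3]
    exact ⟨-(c / p), by rw [Int.emod_def]; ring⟩

theorem count_classes (g : ℕ) (_hg : 0 < g) (Pa Pb : Finset ℕ)
    (h₁ : ∀ p ∈ Pa, p.Prime ∧ p ∣ g) (h₂ : ∀ p ∈ Pb, p.Prime ∧ p ∣ g) (c₁ c₂ : ℕ → ℤ) (t₀ : ℤ) :
    (((Ico t₀ (t₀ + g)).filter (fun t => (∀ p ∈ Pa, ¬ (p : ℤ) ∣ t - c₁ p) ∧
      (∀ p ∈ Pb, ¬ (p : ℤ) ∣ t - c₂ p))).card : ℝ) ≤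
      g * pr Pa * pr Pb * (pr ((Pa ∩ Pb).filter (fun p : ℕ => (p : ℤ) ∣ c₁ p - c₂ p)))⁻¹ := by
  classical
  set f : ℕ → ℤ → Prop := fun p t => (p ∈ Pa → ¬ (p : ℤ) ∣ t - c₁ p) ∧
    (p ∈ Pb → ¬ (p : ℤ) ∣ t - c₂ p) with hf
  have hP : ∀ p ∈ Pa ∪ Pb, p.Prime ∧ p ∣ g := by
    intro p hp
    rcases mem_union.mp hp with h | h
    · exact h₁ p h
    · exact h₂ p h
  have hper : ∀ p ∈ Pa ∪ Pb, ∀ x y : ℤ, x ≡ y [ZMOD p] → (f p x ↔ f p y) := by
    intro p _ x y hxy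
    have key : ∀ c : ℤ, ((p : ℤ) ∣ x - c ↔ (p : ℤ) ∣ y - c) := by
      intro c
      have h3 := Int.modEq_iff_dvd.mp hxy
      constructor
      · intro h
        have := dvd_add h3 h
        have e : y - x + (x - c) = y - c := by ring
        rwa [e] at this
      · intro h
        have := dvd_sub h h3
        have e : y - c - (y - x) = x - c := by ring
        rwa [e] at this
    simp only [hf, key]
  have e1 := ko_crt' f (Pa ∪ Pb) (fun p hp => (hP p hp).1) hper g (fun p hp => (hP p hp).2) t₀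
  have e0 : (((Ico t₀ (t₀ + g)).filter (fun t => (∀ p ∈ Pa, ¬ (p : ℤ) ∣ t - c₁ p) ∧
      (∀ p ∈ Pb, ¬ (p : ℤ) ∣ t - c₂ p))).card : ℝ) =
      g * ∏ p ∈ Pa ∪ Pb, (((range p).filter (fun i : ℕ => f p i)).card : ℝ) / p := by
    refine Eq.trans ?_ (e1.trans ?_)
    swap
    · congr!
    congr 2
    ext t
    simp only [mem_filter]
    apply and_congr_right
    intro _
    simp only [hf]
    constructor
    · rintro ⟨ha, hb⟩ p _
      exact ⟨fun h => ha p h, fun h => hb p h⟩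
    · intro h
      exact ⟨fun p hp => (h p (mem_union_left _ hp)).1 hp,
        fun p hp => (h p (mem_union_right _ hp)).2 hp⟩
  rw [e0]
  -- the local factors
  have hloc : ∀ p ∈ Pa ∪ Pb, (((range p).filter (fun i : ℕ => f p i)).card : ℝ) / p ≤
      (if p ∈ Pa then (1 - 1 / (p : ℝ)) else 1) * (if p ∈ Pb then (1 - 1 / (p : ℝ)) else 1) *
      (if p ∈ (Pa ∩ Pb).filter (fun p : ℕ => (p : ℤ) ∣ c₁ p - c₂ p) then (1 - 1 / (p : ℝ))⁻¹
        else 1) := by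
    intro p hp
    have hpp := (hP p hp).1
    have hp2 : (2 : ℝ) ≤ p := by exact_mod_cast hpp.two_le
    have hp0 : (0 : ℝ) < p := by linarith only [hp2]
    have hinv : (0 : ℝ) < 1 - 1 / (p : ℝ) := by
      rw [sub_pos, div_lt_one hp0]; linarith only [hp2]
    obtain ⟨hm1, hd1⟩ := ko_mod_mem hpp.pos (c₁ p)
    obtain ⟨hm2, hd2⟩ := ko_mod_mem hpp.pos (c₂ p)
    have hone : ∀ (z : ℕ), z ∈ range p → ¬ f p z →
        (((range p).filter (fun i : ℕ => f p i)).card : ℝ) ≤ p - 1 := by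
      intro z hz hfz
      have hsub : (range p).filter (fun i : ℕ => f p i) ⊆ (range p).erase z := by
        intro i hi
        rw [mem_filter] at hi
        rw [mem_erase]
        exact ⟨fun h => hfz (h ▸ hi.2), hi.1⟩
      have := card_le_card hsub
      rw [card_erase_of_mem hz, card_range] at this
      have h3 : (((range p).filter (fun i : ℕ => f p i)).card : ℝ) ≤ ((p - 1 : ℕ) : ℝ) := by
        exact_mod_cast this
      rw [Nat.cast_sub hpp.one_le] at h3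
      simpa only [ge_iff_le, Nat.cast_one] using h3
    have hf1 : p ∈ Pa → ¬ f p ((c₁ p % p).toNat : ℕ) := by
      intro ha h
      exact h.1 ha hd1
    have hf2 : p ∈ Pb → ¬ f p ((c₂ p % p).toNat : ℕ) := by
      intro hb h
      exact h.2 hb hd2
    have hbase : p ∈ Pa ∨ p ∈ Pb → (((range p).filter (fun i : ℕ => f p i)).card : ℝ) / p ≤
        1 - 1 / (p : ℝ) := by
      intro h
      rw [div_le_iff₀ hp0]
      have e : (1 - 1 / (p : ℝ)) * p = p - 1 := by (clear * - hp2; field_simp)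
      rw [e]
      rcases h with h | h
      · exact hone _ hm1 (hf1 h)
      · exact hone _ hm2 (hf2 h)
    by_cases ha : p ∈ Pa
    · by_cases hb : p ∈ Pb
      · by_cases hc : (p : ℤ) ∣ c₁ p - c₂ p
        · have hmem : p ∈ (Pa ∩ Pb).filter (fun p : ℕ => (p : ℤ) ∣ c₁ p - c₂ p) := by
            rw [mem_filter, mem_inter]; exact ⟨⟨ha, hb⟩, hc⟩
          rw [if_pos ha, if_pos hb, if_pos hmem, mul_assoc, mul_inv_cancel₀ hinv.ne', mul_one]
          exact hbase (Or.inl ha)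
        · have hmem : p ∉ (Pa ∩ Pb).filter (fun p : ℕ => (p : ℤ) ∣ c₁ p - c₂ p) := by
            rw [mem_filter]; exact fun h => hc h.2
          rw [if_pos ha, if_pos hb, if_neg hmem, mul_one]
          have hne : (c₁ p % p).toNat ≠ (c₂ p % p).toNat := by
            intro h
            apply hc
            rw [h] at hd1
            have := dvd_sub hd2 hd1
            have e : (((c₂ p % p).toNat : ℕ) : ℤ) - c₂ p - ((((c₂ p % p).toNat : ℕ) : ℤ) - c₁ p)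
                = c₁ p - c₂ p := by ring
            rwa [e] at this
          have hsub : (range p).filter (fun i : ℕ => f p i) ⊆
              ((range p).erase (c₁ p % p).toNat).erase (c₂ p % p).toNat := by
            intro i hi
            rw [mem_filter] at hi
            rw [mem_erase, mem_erase]
            exact ⟨fun h => hf2 hb (h ▸ hi.2), fun h => hf1 ha (h ▸ hi.2), hi.1⟩
          have hle := card_le_card hsub
          rw [card_erase_of_mem (mem_erase.mpr ⟨hne.symm, hm2⟩), card_erase_of_mem hm1,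
            card_range] at hle
          have h3 : (((range p).filter (fun i : ℕ => f p i)).card : ℝ) ≤ ((p - 1 - 1 : ℕ) : ℝ) := by
            exact_mod_cast hle
          have h4 : ((p - 1 - 1 : ℕ) : ℝ) = p - 2 := by
            have := hpp.two_le
            rw [Nat.sub_sub, Nat.cast_sub (by omega)]
            norm_num
          rw [h4] at h3
          rw [div_le_iff₀ hp0]
          have e : (1 - 1 / (p : ℝ)) * (1 - 1 / (p : ℝ)) * p = p - 2 + 1 / p := by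
            field_simp; ring
          rw [e]
          have : (0 : ℝ) < 1 / p := by (clear * - hp2; positivity)
          linarith only [h3, this]
      · have hmem : p ∉ (Pa ∩ Pb).filter (fun p : ℕ => (p : ℤ) ∣ c₁ p - c₂ p) := by
          rw [mem_filter, mem_inter]; exact fun h => hb h.1.2
        rw [if_pos ha, if_neg hb, if_neg hmem, mul_one, mul_one]
        exact hbase (Or.inl ha)
    · have hb : p ∈ Pb := by
        rcases mem_union.mp hp with h | h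
        · exact absurd h ha
        · exact h
      have hmem : p ∉ (Pa ∩ Pb).filter (fun p : ℕ => (p : ℤ) ∣ c₁ p - c₂ p) := by
        rw [mem_filter, mem_inter]; exact fun h => ha h.1.1
      rw [if_neg ha, if_pos hb, if_neg hmem, mul_one, one_mul]
      exact hbase (Or.inr hb)
  have hprod : ∏ p ∈ Pa ∪ Pb, (((range p).filter (fun i : ℕ => f p i)).card : ℝ) / p ≤
      pr Pa * pr Pb * (pr ((Pa ∩ Pb).filter (fun p : ℕ => (p : ℤ) ∣ c₁ p - c₂ p)))⁻¹ := by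
    refine (prod_le_prod (fun p _ => by (clear * -; positivity)) hloc).trans (le_of_eq ?_)
    rw [prod_mul_distrib, prod_mul_distrib]
    congr 1
    · congr 1
      · rw [prod_ite_mem, inter_eq_right.mpr subset_union_left, pr]
      · rw [prod_ite_mem, inter_eq_right.mpr subset_union_right, pr]
    · rw [prod_ite_mem, inter_eq_right.mpr, pr, prod_inv_distrib]
      exact (filter_subset _ _).trans (inter_subset_left.trans subset_union_left)
  calc (g : ℝ) * ∏ p ∈ Pa ∪ Pb, (((range p).filter (fun i : ℕ => f p i)).card : ℝ) / p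
      ≤ g * (pr Pa * pr Pb *
        (pr ((Pa ∩ Pb).filter (fun p : ℕ => (p : ℤ) ∣ c₁ p - c₂ p)))⁻¹) :=
        mul_le_mul_of_nonneg_left hprod (Nat.cast_nonneg _)
    _ = _ := by ring

/-- translates of a set, folded into `(0,1]` -/
theorem ko_fold (X : Set ℝ) (hX : MeasurableSet X) :
    volume (⋃ n : ℤ, ((fun x : ℝ => x + n) ⁻¹' X) ∩ Set.Ioc (0 : ℝ) 1) ≤ volume X := by
  calc volume (⋃ n : ℤ, ((fun x : ℝ => x + n) ⁻¹' X) ∩ Set.Ioc (0 : ℝ) 1)
      ≤ ∑' n : ℤ, volume (((fun x : ℝ => x + n) ⁻¹' X) ∩ Set.Ioc (0 : ℝ) 1) :=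
        measure_iUnion_le _
    _ = ∑' n : ℤ, volume (X ∩ Set.Ioc (n : ℝ) (n + 1)) := by
        apply tsum_congr
        intro n
        have e : ((fun x : ℝ => x + n) ⁻¹' X) ∩ Set.Ioc (0 : ℝ) 1 =
            (fun x : ℝ => x + n) ⁻¹' (X ∩ Set.Ioc (n : ℝ) (n + 1)) := by
          ext x
          simp only [Set.mem_inter_iff, Set.mem_preimage, Set.mem_Ioc]
          constructor
          · rintro ⟨h1, h2, h3⟩
            exact ⟨h1, by linarith only [h2], by linarith only [h3]⟩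
          · rintro ⟨h1, h2, h3⟩
            exact ⟨h1, by linarith only [n, x, h2], by linarith⟩
        rw [e, measure_preimage_add_right]
    _ = volume (⋃ n : ℤ, X ∩ Set.Ioc (n : ℝ) (n + 1)) := by
        rw [measure_iUnion]
        · intro m n hmn
          have := Set.pairwise_disjoint_Ioc_intCast ℝ hmn
          exact this.mono (by simpa only using Set.inter_subset_right)
            (by simpa only using Set.inter_subset_right)
        · intro n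
          exact hX.inter measurableSet_Ioc
    _ ≤ volume X := measure_mono (Set.iUnion_subset fun n => Set.inter_subset_left)

/-- The two arcs around given centres. -/
def koX (γ : ℝ) (q r : ℕ) (α β : ℝ) (al be : ℤ) : Set ℝ :=
  {x | |(q : ℝ) * x - γ - al| < α ∧ |(r : ℝ) * x - γ - be| < β}

theorem koX_meas (γ : ℝ) (q r : ℕ) (α β : ℝ) (al be : ℤ) :
    MeasurableSet (koX γ q r α β al be) := by
  have h1 : MeasurableSet {x : ℝ | |(q : ℝ) * x - γ - al| < α} :=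
    (isOpen_lt (by fun_prop) continuous_const).measurableSet
  have h2 : MeasurableSet {x : ℝ | |(r : ℝ) * x - γ - be| < β} :=
    (isOpen_lt (by fun_prop) continuous_const).measurableSet
  exact h1.inter h2

theorem ko_arc {γ : ℝ} {q : ℕ} (hq : 0 < q) {α : ℝ} (al : ℤ) :
    volume {x : ℝ | |(q : ℝ) * x - γ - al| < α} = ENNReal.ofReal (2 * (α / q)) := by
  have hq0 : (0 : ℝ) < q := by exact_mod_cast hq
  have e : {x : ℝ | |(q : ℝ) * x - γ - al| < α} =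
      Set.Ioo ((γ + al - α) / q) ((γ + al + α) / q) := by
    ext x
    rw [Set.mem_ofPred_eq, Set.mem_Ioo, div_lt_iff₀ hq0, lt_div_iff₀ hq0, abs_lt]
    constructor
    · rintro ⟨h1, h2⟩
      constructor <;> linarith only [h1, h2]
    · rintro ⟨h1, h2⟩
      constructor <;> linarith only [h1, h2]
  rw [e, Real.volume_Ioo]
  congr 1
  field_simp
  ring

theorem koX_vol (γ : ℝ) {q r : ℕ} (hq : 0 < q) (hr : 0 < r) {α β : ℝ} (hα : 0 < α) (hβ : 0 < β)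
    (al be : ℤ) : volume (koX γ q r α β al be) ≤
      ENNReal.ofReal (2 * (α * β / DD q r α β) / Nat.gcd q r) := by
  have hq0 : (0 : ℝ) < q := by exact_mod_cast hq
  have hr0 : (0 : ℝ) < r := by exact_mod_cast hr
  have hg : 0 < Nat.gcd q r := Nat.gcd_pos_of_pos_left _ hq
  have hg0 : (0 : ℝ) < Nat.gcd q r := by exact_mod_cast hg
  have hM : 0 < max ((r : ℝ) * α) (q * β) := lt_max_of_lt_left (by positivity)
  have e : 2 * (α * β / DD q r α β) / Nat.gcd q r = 2 * (α * β / max ((r : ℝ) * α) (q * β)) := by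
    rw [DD]
    field_simp
  rw [e]
  rcases le_total ((r : ℝ) * α) (q * β) with h | h
  · rw [max_eq_right h]
    have e2 : α * β / (q * β) = α / q := by (clear * - hβ hq hα; field_simp)
    rw [e2, ← ko_arc (γ := γ) hq al]
    exact measure_mono (fun x hx => hx.1)
  · rw [max_eq_left h]
    have e2 : α * β / (r * α) = β / r := by field_simp
    rw [e2, ← ko_arc (γ := γ) hr be]
    exact measure_mono (fun x hx => hx.2)

theorem ko_exists_root {p : ℕ} (hp : p.Prime) {m : ℤ} (hm : ¬ (p : ℤ) ∣ m) (z : ℤ) :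
    ∃ c : ℤ, (p : ℤ) ∣ m * c + z := by
  have hcop : IsCoprime m (p : ℤ) := by
    have := (Nat.prime_iff_prime_int.mp hp).coprime_iff_not_dvd.mpr hm
    exact this.symm
  obtain ⟨u, v, huv⟩ := hcop
  refine ⟨-(u * z), v * z, ?_⟩
  linear_combination -z * huv

/-- **Overlap of two sifted sets**, with exact local densities. -/
theorem overlap_gen (γ : ℝ) (q r : ℕ) (hq : 0 < q) (hr : 0 < r) (α β : ℝ) (hα : 0 < α)
    (hβ : 0 < β) (B₁ B₂ : ℕ) (A₁ A₂ : ℤ) (Pa Pb : Finset ℕ)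
    (h₁ : ∀ p ∈ Pa, p.Prime ∧ p ∣ q ∧ ¬ p ∣ B₁) (h₂ : ∀ p ∈ Pb, p.Prime ∧ p ∣ r ∧ ¬ p ∣ B₂)
    (P₁ P₂ : ℤ → Prop) (hP₁ : ∀ al, P₁ al → ∀ p ∈ Pa, ¬ (p : ℤ) ∣ al * (B₁ : ℤ) + A₁)
    (hP₂ : ∀ al, P₂ al → ∀ p ∈ Pb, ¬ (p : ℤ) ∣ al * (B₂ : ℤ) + A₂) (Ks : Finset ℤ)
    (hK : ∀ al be : ℤ, P₁ al → P₂ be →
      |((al : ℝ) + γ) * (cofac r q : ℝ) - ((be : ℝ) + γ) * (cofac q r : ℝ)| <
        (cofac r q : ℝ) * α + (cofac q r : ℝ) * β →
      al * (cofac r q : ℤ) - be * (cofac q r : ℤ) ∈ Ks) :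
    volume.real (GS γ q α P₁ ∩ GS γ r β P₂ ∩ Set.Ioc 0 1) ≤
      2 * (α * β / DD q r α β) * pr (Pa.filter (fun p : ℕ => ¬ p ∣ cofac q r)) *
        pr (Pb.filter (fun p : ℕ => ¬ p ∣ cofac r q)) *
        ∑ k ∈ Ks, (pr ((Pa ∩ Pb).filter (fun p : ℕ => ¬ p ∣ cofac q r ∧ ¬ p ∣ cofac r q ∧
          (p : ℤ) ∣ (B₁ : ℤ) * B₂ * k + (cofac r q : ℤ) * B₂ * A₁ -
            (cofac q r : ℤ) * B₁ * A₂)))⁻¹ := by
  classical
  have hg : 0 < Nat.gcd q r := Nat.gcd_pos_of_pos_left _ hq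
  have hg' : (0 : ℤ) < (Nat.gcd q r : ℤ) := by exact_mod_cast hg
  have hg0 : (0 : ℝ) < Nat.gcd q r := by exact_mod_cast hg
  have ha : 0 < cofac q r := cofac_pos r hq
  have hb : 0 < cofac r q := cofac_pos q hr
  have haR : (0 : ℝ) < cofac q r := by exact_mod_cast ha
  have hbR : (0 : ℝ) < cofac r q := by exact_mod_cast hb
  have hqe : Nat.gcd q r * cofac q r = q := gcd_mul_cofac q r
  have hre : Nat.gcd q r * cofac r q = r := by
    have := gcd_mul_cofac r q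
    rwa [Nat.gcd_comm r q] at this
  have hcop : Nat.Coprime (cofac q r) (cofac r q) := cofac_coprime hq
  set a := cofac q r with hadef
  set b := cofac r q with hbdef
  set g := Nat.gcd q r with hgdef
  have hD0 : 0 < DD q r α β := by
    have hrR : (0 : ℝ) < r := by exact_mod_cast hr
    rw [DD]
    apply div_pos _ hg0
    exact lt_max_of_lt_left (mul_pos hrR hα)
  set V : ℝ := 2 * (α * β / DD q r α β) / g with hV
  have hV0 : 0 ≤ V := by (clear * - hα hβ hD0 hq; positivity)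
  -- Bezout
  obtain ⟨x₀, y₀, hxy⟩ : ∃ x₀ y₀ : ℤ, x₀ * b - y₀ * a = 1 := by
    have h3 : IsCoprime (a : ℤ) (b : ℤ) := Nat.isCoprime_iff_coprime.mpr hcop
    obtain ⟨u, v, huv⟩ := h3
    exact ⟨v, -u, by linear_combination huv⟩
  -- allowed t
  set T : ℤ → Finset ℤ := fun k => (Ico (0 : ℤ) (0 + g)).filter (fun t =>
    (∀ p ∈ Pa, ¬ (p : ℤ) ∣ (k * x₀ + a * t) * (B₁ : ℤ) + A₁) ∧
    (∀ p ∈ Pb, ¬ (p : ℤ) ∣ (k * y₀ + b * t) * (B₂ : ℤ) + A₂)) with hT
  have hq' : (q : ℤ) = g * a := by exact_mod_cast hqe.symm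
  have hr' : (r : ℤ) = g * b := by exact_mod_cast hre.symm
  have hqR : (q : ℝ) = g * a := by exact_mod_cast hqe.symm
  have hrR : (r : ℝ) = g * b := by exact_mod_cast hre.symm
  have hsub : GS γ q α P₁ ∩ GS γ r β P₂ ∩ Set.Ioc 0 1 ⊆
      ⋃ k ∈ Ks, ⋃ t ∈ T k, ⋃ n : ℤ, ((fun x : ℝ => x + n) ⁻¹'
        (koX γ q r α β (k * x₀ + a * t) (k * y₀ + b * t))) ∩ Set.Ioc (0 : ℝ) 1 := by
    rintro x ⟨⟨⟨al, hal, hx1⟩, ⟨be, hbe, hx2⟩⟩, hx3⟩
    have hk := hK al be hal hbe (by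
      have e3 : (q : ℝ) * b = r * a := by rw [hqR, hrR]; ring
      have e5 : ((al : ℝ) + γ) * (b : ℝ) - ((be : ℝ) + γ) * (a : ℝ)
          = (a : ℝ) * ((r : ℝ) * x - γ - be) - (b : ℝ) * ((q : ℝ) * x - γ - al) := by
        linear_combination x * e3
      rw [e5]
      calc |(a : ℝ) * ((r : ℝ) * x - γ - be) - (b : ℝ) * ((q : ℝ) * x - γ - al)|
          ≤ |(a : ℝ) * ((r : ℝ) * x - γ - be)| + |(b : ℝ) * ((q : ℝ) * x - γ - al)| := abs_sub _ _
        _ = (a : ℝ) * |(r : ℝ) * x - γ - be| + (b : ℝ) * |(q : ℝ) * x - γ - al| := by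
            rw [abs_mul, abs_mul, abs_of_pos haR, abs_of_pos hbR]
        _ < (a : ℝ) * β + (b : ℝ) * α := by (clear * - hx2 ha hx1 hb; gcongr)
        _ = _ := by ring)
    set k := al * (b : ℤ) - be * (a : ℤ) with hkdef
    -- al = k x₀ + a t', be = k y₀ + b t'
    obtain ⟨t', ht1, ht2⟩ : ∃ t' : ℤ, al = k * x₀ + a * t' ∧ be = k * y₀ + b * t' := by
      refine ⟨be * x₀ - al * y₀, ?_, ?_⟩
      · rw [hkdef]; linear_combination -al * hxy
      · rw [hkdef]; linear_combination -be * hxy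
    set n := t' / (g : ℤ) with hn
    set t := t' % (g : ℤ) with ht
    have htt : t' = t + g * n := by rw [ht, hn]; exact (Int.emod_add_mul_ediv t' g).symm
    have ht0 : 0 ≤ t := Int.emod_nonneg _ hg'.ne'
    have htg : t < g := Int.emod_lt_of_pos _ hg'
    have hal2 : al = (k * x₀ + a * t) + q * n := by rw [ht1, htt, hq']; ring
    have hbe2 : be = (k * y₀ + b * t) + r * n := by rw [ht2, htt, hr']; ring
    simp only [Set.mem_iUnion]
    refine ⟨k, hk, t, ?_, -n, ?_, hx3⟩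
    · simp only [hT, mem_filter, mem_Ico]
      refine ⟨⟨ht0, by linarith only [htg]⟩, ?_, ?_⟩
      · intro p hp hdiv
        apply hP₁ al hal p hp
        have hpq : (p : ℤ) ∣ q := by exact_mod_cast (h₁ p hp).2.1
        rw [hal2]
        have e : ((k * x₀ + a * t) + q * n) * (B₁ : ℤ) + A₁ =
            ((k * x₀ + a * t) * (B₁ : ℤ) + A₁) + q * (n * B₁) := by ring
        rw [e]
        exact dvd_add hdiv (Dvd.dvd.mul_right hpq _)
      · intro p hp hdiv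
        apply hP₂ be hbe p hp
        have hpq : (p : ℤ) ∣ r := by exact_mod_cast (h₂ p hp).2.1
        rw [hbe2]
        have e : ((k * y₀ + b * t) + r * n) * (B₂ : ℤ) + A₂ =
            ((k * y₀ + b * t) * (B₂ : ℤ) + A₂) + r * (n * B₂) := by ring
        rw [e]
        exact dvd_add hdiv (Dvd.dvd.mul_right hpq _)
    · simp only [Set.mem_preimage, koX, Set.mem_ofPred_eq]
      constructor
      · have e : (q : ℝ) * (x + ((-n : ℤ) : ℝ)) - γ - ((k * x₀ + a * t : ℤ) : ℝ) =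
            q * x - γ - al := by
          have : (al : ℝ) = ((k * x₀ + a * t : ℤ) : ℝ) + q * n := by exact_mod_cast hal2
          rw [this]; push_cast; ring
        rw [e]; exact hx1
      · have e : (r : ℝ) * (x + ((-n : ℤ) : ℝ)) - γ - ((k * y₀ + b * t : ℤ) : ℝ) =
            r * x - γ - be := by
          have : (be : ℝ) = ((k * y₀ + b * t : ℤ) : ℝ) + r * n := by exact_mod_cast hbe2
          rw [this]; push_cast; ring
        rw [e]; exact hx2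
  have hvol : volume (GS γ q α P₁ ∩ GS γ r β P₂ ∩ Set.Ioc 0 1) ≤
      ENNReal.ofReal (∑ k ∈ Ks, ((T k).card : ℝ) * V) := by
    calc volume (GS γ q α P₁ ∩ GS γ r β P₂ ∩ Set.Ioc 0 1)
        ≤ volume (⋃ k ∈ Ks, ⋃ t ∈ T k, ⋃ n : ℤ, ((fun x : ℝ => x + n) ⁻¹'
          (koX γ q r α β (k * x₀ + a * t) (k * y₀ + b * t))) ∩ Set.Ioc (0 : ℝ) 1) :=
          measure_mono hsub
      _ ≤ ∑ k ∈ Ks, volume (⋃ t ∈ T k, ⋃ n : ℤ, ((fun x : ℝ => x + n) ⁻¹'
          (koX γ q r α β (k * x₀ + a * t) (k * y₀ + b * t))) ∩ Set.Ioc (0 : ℝ) 1) :=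
          measure_biUnion_finset_le _ _
      _ ≤ ∑ k ∈ Ks, ∑ t ∈ T k, volume (⋃ n : ℤ, ((fun x : ℝ => x + n) ⁻¹'
          (koX γ q r α β (k * x₀ + a * t) (k * y₀ + b * t))) ∩ Set.Ioc (0 : ℝ) 1) :=
          sum_le_sum fun k _ => measure_biUnion_finset_le _ _
      _ ≤ ∑ k ∈ Ks, ∑ t ∈ T k, ENNReal.ofReal V := by
          apply sum_le_sum
          intro k _
          apply sum_le_sum
          intro t _
          exact (ko_fold _ (koX_meas _ _ _ _ _ _ _)).trans (koX_vol γ hq hr hα hβ _ _)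
      _ = ENNReal.ofReal (∑ k ∈ Ks, ((T k).card : ℝ) * V) := by
          rw [ENNReal.ofReal_sum_of_nonneg (fun k _ => by (clear * - hα hβ hD0 hq; positivity))]
          apply sum_congr rfl
          intro k _
          rw [sum_const, nsmul_eq_mul, ENNReal.ofReal_mul (Nat.cast_nonneg _),
            ENNReal.ofReal_natCast]
  have hreal : volume.real (GS γ q α P₁ ∩ GS γ r β P₂ ∩ Set.Ioc 0 1) ≤
      ∑ k ∈ Ks, ((T k).card : ℝ) * V :=
    ENNReal.toReal_le_of_le_ofReal (sum_nonneg fun k _ => by (clear * - hα hβ hD0 hq; positivity)) hvol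
  -- counting
  have hcount : ∀ k ∈ Ks, ((T k).card : ℝ) ≤ g * pr (Pa.filter (fun p : ℕ => ¬ p ∣ a)) *
      pr (Pb.filter (fun p : ℕ => ¬ p ∣ b)) *
      (pr ((Pa ∩ Pb).filter (fun p : ℕ => ¬ p ∣ a ∧ ¬ p ∣ b ∧
          (p : ℤ) ∣ (B₁ : ℤ) * B₂ * k + (b : ℤ) * B₂ * A₁ - (a : ℤ) * B₁ * A₂)))⁻¹ := by
    intro k _
    have hc1 : ∀ p : ℕ, ∃ c : ℤ, p ∈ Pa.filter (fun p : ℕ => ¬ p ∣ a) →
        (p : ℤ) ∣ (a * B₁ : ℤ) * c + (k * x₀ * B₁ + A₁) := by
      intro p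
      by_cases hp : p ∈ Pa.filter (fun p : ℕ => ¬ p ∣ a)
      · rw [mem_filter] at hp
        obtain ⟨hpp, _, hpB⟩ := h₁ p hp.1
        have hnd : ¬ (p : ℤ) ∣ (a * B₁ : ℤ) := by
          intro h
          have h' : p ∣ a * B₁ := by exact_mod_cast h
          rcases (Nat.Prime.dvd_mul hpp).mp h' with h3 | h3
          · exact hp.2 h3
          · exact hpB h3
        obtain ⟨c, hc⟩ := ko_exists_root hpp hnd (k * x₀ * B₁ + A₁)
        exact ⟨c, fun _ => hc⟩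
      · exact ⟨0, fun h => absurd h hp⟩
    have hc2 : ∀ p : ℕ, ∃ c : ℤ, p ∈ Pb.filter (fun p : ℕ => ¬ p ∣ b) →
        (p : ℤ) ∣ (b * B₂ : ℤ) * c + (k * y₀ * B₂ + A₂) := by
      intro p
      by_cases hp : p ∈ Pb.filter (fun p : ℕ => ¬ p ∣ b)
      · rw [mem_filter] at hp
        obtain ⟨hpp, _, hpB⟩ := h₂ p hp.1
        have hnd : ¬ (p : ℤ) ∣ (b * B₂ : ℤ) := by
          intro h
          have h' : p ∣ b * B₂ := by exact_mod_cast h
          rcases (Nat.Prime.dvd_mul hpp).mp h' with h3 | h3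
          · exact hp.2 h3
          · exact hpB h3
        obtain ⟨c, hc⟩ := ko_exists_root hpp hnd (k * y₀ * B₂ + A₂)
        exact ⟨c, fun _ => hc⟩
      · exact ⟨0, fun h => absurd h hp⟩
    choose c₁ hc₁ using hc1
    choose c₂ hc₂ using hc2
    have hPa' : ∀ p ∈ Pa.filter (fun p : ℕ => ¬ p ∣ a), p.Prime ∧ p ∣ g := by
      intro p hp
      rw [mem_filter] at hp
      obtain ⟨hpp, hpq, _⟩ := h₁ p hp.1
      refine ⟨hpp, ?_⟩
      rw [← hqe] at hpq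
      rcases (Nat.Prime.dvd_mul hpp).mp hpq with h3 | h3
      · exact h3
      · exact absurd h3 hp.2
    have hPb' : ∀ p ∈ Pb.filter (fun p : ℕ => ¬ p ∣ b), p.Prime ∧ p ∣ g := by
      intro p hp
      rw [mem_filter] at hp
      obtain ⟨hpp, hpq, _⟩ := h₂ p hp.1
      refine ⟨hpp, ?_⟩
      rw [← hre] at hpq
      rcases (Nat.Prime.dvd_mul hpp).mp hpq with h3 | h3
      · exact h3
      · exact absurd h3 hp.2
    have hcc := count_classes g hg _ _ hPa' hPb' c₁ c₂ 0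
    have hsubT : T k ⊆ (Ico (0 : ℤ) (0 + g)).filter (fun t =>
        (∀ p ∈ Pa.filter (fun p : ℕ => ¬ p ∣ a), ¬ (p : ℤ) ∣ t - c₁ p) ∧
        (∀ p ∈ Pb.filter (fun p : ℕ => ¬ p ∣ b), ¬ (p : ℤ) ∣ t - c₂ p)) := by
      intro t ht
      simp only [hT, mem_filter] at ht
      obtain ⟨ht1, ht2, ht3⟩ := ht
      rw [mem_filter]
      refine ⟨ht1, ?_, ?_⟩
      · intro p hp hdiv
        apply ht2 p (mem_filter.mp hp).1
        have h3 := hc₁ p hp
        have e : (k * x₀ + a * t) * (B₁ : ℤ) + A₁ =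
            ((a * B₁ : ℤ) * c₁ p + (k * x₀ * B₁ + A₁)) + (t - c₁ p) * (a * B₁) := by ring
        rw [e]
        exact dvd_add h3 (Dvd.dvd.mul_right hdiv _)
      · intro p hp hdiv
        apply ht3 p (mem_filter.mp hp).1
        have h3 := hc₂ p hp
        have e : (k * y₀ + b * t) * (B₂ : ℤ) + A₂ =
            ((b * B₂ : ℤ) * c₂ p + (k * y₀ * B₂ + A₂)) + (t - c₂ p) * (b * B₂) := by ring
        rw [e]
        exact dvd_add h3 (Dvd.dvd.mul_right hdiv _)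
    have hcard : ((T k).card : ℝ) ≤ (((Ico (0 : ℤ) (0 + g)).filter (fun t =>
        (∀ p ∈ Pa.filter (fun p : ℕ => ¬ p ∣ a), ¬ (p : ℤ) ∣ t - c₁ p) ∧
        (∀ p ∈ Pb.filter (fun p : ℕ => ¬ p ∣ b), ¬ (p : ℤ) ∣ t - c₂ p))).card : ℝ) := by
      exact_mod_cast card_le_card hsubT
    refine hcard.trans (le_trans (le_of_eq ?_) (hcc.trans (le_of_eq ?_)))
    · congr!
    · congr 3
      ext p
      simp only [mem_filter, mem_inter]
      constructor
      · rintro ⟨⟨⟨hp1, hp2⟩, hp3, hp4⟩, hp5⟩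
        refine ⟨⟨hp1, hp3⟩, hp2, hp4, ?_⟩
        have k1 := hc₁ p (mem_filter.mpr ⟨hp1, hp2⟩)
        have k2 := hc₂ p (mem_filter.mpr ⟨hp3, hp4⟩)
        have e : (B₁ : ℤ) * B₂ * k + (b : ℤ) * B₂ * A₁ - (a : ℤ) * B₁ * A₂ =
            (b * B₂) * ((a * B₁ : ℤ) * c₁ p + (k * x₀ * B₁ + A₁)) -
            (a * B₁) * ((b * B₂ : ℤ) * c₂ p + (k * y₀ * B₂ + A₂)) -
            (a * b * B₁ * B₂) * (c₁ p - c₂ p) := by
          linear_combination -(B₁ : ℤ) * B₂ * k * hxy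
        rw [e]
        exact dvd_sub (dvd_sub (Dvd.dvd.mul_left k1 _) (Dvd.dvd.mul_left k2 _))
          (Dvd.dvd.mul_left hp5 _)
      · rintro ⟨⟨hp1, hp3⟩, hp2, hp4, hp5⟩
        refine ⟨⟨⟨hp1, hp2⟩, hp3, hp4⟩, ?_⟩
        have k1 := hc₁ p (mem_filter.mpr ⟨hp1, hp2⟩)
        have k2 := hc₂ p (mem_filter.mpr ⟨hp3, hp4⟩)
        obtain ⟨hpp, _, hpB1⟩ := h₁ p hp1
        obtain ⟨_, _, hpB2⟩ := h₂ p hp3
        have e : (a * b * B₁ * B₂) * (c₁ p - c₂ p) =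
            (b * B₂) * ((a * B₁ : ℤ) * c₁ p + (k * x₀ * B₁ + A₁)) -
            (a * B₁) * ((b * B₂ : ℤ) * c₂ p + (k * y₀ * B₂ + A₂)) -
            ((B₁ : ℤ) * B₂ * k + (b : ℤ) * B₂ * A₁ - (a : ℤ) * B₁ * A₂) := by
          linear_combination -(B₁ : ℤ) * B₂ * k * hxy
        have hdiv : (p : ℤ) ∣ (a * b * B₁ * B₂) * (c₁ p - c₂ p) := by
          rw [e]
          exact dvd_sub (dvd_sub (Dvd.dvd.mul_left k1 _) (Dvd.dvd.mul_left k2 _)) hp5
        have hpi : Prime (p : ℤ) := Nat.prime_iff_prime_int.mp hpp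
        rcases hpi.dvd_or_dvd hdiv with h3 | h3
        · exfalso
          have h3' : p ∣ a * b * B₁ * B₂ := by exact_mod_cast h3
          rcases (Nat.Prime.dvd_mul hpp).mp h3' with h4 | h4
          · rcases (Nat.Prime.dvd_mul hpp).mp h4 with h5 | h5
            · rcases (Nat.Prime.dvd_mul hpp).mp h5 with h6 | h6
              · exact hp2 h6
              · exact hp4 h6
            · exact hpB1 h5
          · exact hpB2 h4
        · exact h3
  calc volume.real (GS γ q α P₁ ∩ GS γ r β P₂ ∩ Set.Ioc 0 1)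
      ≤ ∑ k ∈ Ks, ((T k).card : ℝ) * V := hreal
    _ ≤ ∑ k ∈ Ks, (g * pr (Pa.filter (fun p : ℕ => ¬ p ∣ a)) *
      pr (Pb.filter (fun p : ℕ => ¬ p ∣ b)) *
      (pr ((Pa ∩ Pb).filter (fun p : ℕ => ¬ p ∣ a ∧ ¬ p ∣ b ∧
          (p : ℤ) ∣ (B₁ : ℤ) * B₂ * k + (b : ℤ) * B₂ * A₁ - (a : ℤ) * B₁ * A₂)))⁻¹) * V :=
        sum_le_sum fun k hk => mul_le_mul_of_nonneg_right (hcount k hk) hV0
    _ = 2 * (α * β / DD q r α β) * pr (Pa.filter (fun p : ℕ => ¬ p ∣ a)) *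
        pr (Pb.filter (fun p : ℕ => ¬ p ∣ b)) *
        ∑ k ∈ Ks, (pr ((Pa ∩ Pb).filter (fun p : ℕ => ¬ p ∣ a ∧ ¬ p ∣ b ∧
          (p : ℤ) ∣ (B₁ : ℤ) * B₂ * k + (b : ℤ) * B₂ * A₁ - (a : ℤ) * B₁ * A₂)))⁻¹ := by
        rw [mul_sum]
        apply sum_congr rfl
        intro k _
        rw [hV]
        (clear * - hg hD0 hβ hα; field_simp)

theorem pr_nonneg_of_prime (Ps : Finset ℕ) (h : ∀ p ∈ Ps, p.Prime) : 0 ≤ pr Ps := by
  apply prod_nonneg
  intro p hp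
  have : (1 : ℝ) ≤ p := by exact_mod_cast (h p hp).one_le
  rw [sub_nonneg, div_le_one (by linarith)]
  exact this

theorem overlap (γ : ℝ) (q r : ℕ) (hq : 0 < q) (hr : 0 < r) (α β : ℝ) (hα : 0 < α) (hβ : 0 < β)
    (_hα2 : α ≤ 1 / 2) (_hβ2 : β ≤ 1 / 2) (B₁ B₂ : ℕ) (A₁ A₂ : ℤ) (Pa Pb : Finset ℕ)
    (h₁ : ∀ p ∈ Pa, p.Prime ∧ p ∣ q ∧ ¬ p ∣ B₁) (h₂ : ∀ p ∈ Pb, p.Prime ∧ p ∣ r ∧ ¬ p ∣ B₂)
    (P₁ P₂ : ℤ → Prop) (hP₁ : ∀ al, P₁ al → ∀ p ∈ Pa, ¬ (p : ℤ) ∣ al * (B₁ : ℤ) + A₁)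
    (hP₂ : ∀ al, P₂ al → ∀ p ∈ Pb, ¬ (p : ℤ) ∣ al * (B₂ : ℤ) + A₂) (Ks : Finset ℤ)
    (hK : ∀ al be : ℤ, P₁ al → P₂ be →
      |((al : ℝ) + γ) * (cofac r q : ℝ) - ((be : ℝ) + γ) * (cofac q r : ℝ)| <
        (cofac r q : ℝ) * α + (cofac q r : ℝ) * β →
      al * (cofac r q : ℤ) - be * (cofac q r : ℤ) ∈ Ks) :
    volume.real (GS γ q α P₁ ∩ GS γ r β P₂ ∩ Set.Ioc 0 1) ≤
      16 * (α * β / DD q r α β) * pr (Pa.filter (fun p : ℕ => ¬ p ∣ cofac q r)) *
        pr (Pb.filter (fun p : ℕ => ¬ p ∣ cofac r q)) *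
        ∑ k ∈ Ks, (pr ((Pa ∩ Pb).filter (fun p : ℕ => ¬ p ∣ cofac q r ∧ ¬ p ∣ cofac r q ∧
          (p : ℤ) ∣ (B₁ : ℤ) * B₂ * k + (cofac r q : ℤ) * B₂ * A₁ -
            (cofac q r : ℤ) * B₁ * A₂)))⁻¹ := by
  refine (overlap_gen γ q r hq hr α β hα hβ B₁ B₂ A₁ A₂ Pa Pb h₁ h₂ P₁ P₂ hP₁ hP₂ Ks hK).trans ?_
  have hg0 : (0 : ℝ) < Nat.gcd q r := by exact_mod_cast Nat.gcd_pos_of_pos_left _ hq
  have hrR : (0 : ℝ) < r := by exact_mod_cast hr
  have hD0 : 0 < DD q r α β := by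
    rw [DD]
    apply div_pos _ hg0
    exact lt_max_of_lt_left (mul_pos hrR hα)
  have h3 : 0 ≤ pr (Pa.filter (fun p : ℕ => ¬ p ∣ cofac q r)) :=
    pr_nonneg_of_prime _ (fun p hp => (h₁ p (mem_filter.mp hp).1).1)
  have h4 : 0 ≤ pr (Pb.filter (fun p : ℕ => ¬ p ∣ cofac r q)) :=
    pr_nonneg_of_prime _ (fun p hp => (h₂ p (mem_filter.mp hp).1).1)
  apply mul_le_mul_of_nonneg_right
  · apply mul_le_mul_of_nonneg_right _ h4
    apply mul_le_mul_of_nonneg_right _ h3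
    apply mul_le_mul_of_nonneg_right _ (by (clear * - hα hβ hD0; positivity))
    norm_num
  · apply sum_nonneg
    intro k _
    apply inv_nonneg.mpr
    exact pr_nonneg_of_prime _ (fun p hp =>
      (h₁ p (mem_inter.mp (mem_filter.mp hp).1).1).1)

end Vale.P028
end

section

/-!
# The bound for one pair
-/

namespace Vale.P028

open Finset MeasureTheory

/-! ### products -/

theorem kp_pos {p : ℕ} (hp : p.Prime) : 0 < 1 - 1 / (p : ℝ) ∧ 1 - 1 / (p : ℝ) ≤ 1 := by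
  have hp2 : (2 : ℝ) ≤ p := by exact_mod_cast hp.two_le
  have h1 : 1 / (p : ℝ) ≤ 1 / 2 := one_div_le_one_div_of_le (by norm_num) hp2
  have h0 : 0 < 1 / (p : ℝ) := by positivity
  constructor <;> linarith

theorem pr_pos {Ps : Finset ℕ} (h : ∀ p ∈ Ps, p.Prime) : 0 < pr Ps :=
  prod_pos fun p hp => (kp_pos (h p hp)).1

theorem pr_le_one {Ps : Finset ℕ} (h : ∀ p ∈ Ps, p.Prime) : pr Ps ≤ 1 :=
  prod_le_one (fun p hp => (kp_pos (h p hp)).1.le) fun p hp => (kp_pos (h p hp)).2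

theorem pr_anti {A B : Finset ℕ} (hAB : A ⊆ B) (hB : ∀ p ∈ B, p.Prime) : pr B ≤ pr A := by
  classical
  have h1 : pr B = pr (B \ A) * pr A := by
    unfold pr
    exact (prod_sdiff hAB).symm
  rw [h1]
  have h2 : pr (B \ A) ≤ 1 := pr_le_one fun p hp => hB p (mem_sdiff.mp hp).1
  have h3 : 0 ≤ pr A := (pr_pos fun p hp => hB p (hAB hp)).le
  linarith only [mul_nonneg (sub_nonneg.2 h2) (sub_nonneg.2 h3)]

theorem pr_filter_mul (Ps : Finset ℕ) (P : ℕ → Prop) [DecidablePred P] :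
    pr (Ps.filter P) * pr (Ps.filter (fun p => ¬ P p)) = pr Ps := by
  unfold pr
  exact prod_filter_mul_prod_filter_not _ _ _

theorem pr_union {A B : Finset ℕ} (h : Disjoint A B) : pr (A ∪ B) = pr A * pr B := by
  unfold pr
  exact prod_union h

theorem pr_primeFactors {q : ℕ} (hq : 0 < q) : pr q.primeFactors = (q.totient : ℝ) / q := by
  have h : (q.totient : ℚ) = q * ∏ p ∈ q.primeFactors, (1 - (p : ℚ)⁻¹) :=
    Nat.totient_eq_mul_prod_factors q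
  have h' : (q.totient : ℝ) = q * ∏ p ∈ q.primeFactors, (1 - (p : ℝ)⁻¹) := by
    have := congrArg (fun x : ℚ => (x : ℝ)) h
    push_cast at this
    exact this
  have hq0 : (q : ℝ) ≠ 0 := by exact_mod_cast hq.ne'
  rw [h', mul_div_assoc, mul_comm, div_mul_cancel₀ _ hq0]
  unfold pr
  refine prod_congr rfl fun p _ => ?_
  rw [one_div]

theorem totient_ratio_pos {q : ℕ} (hq : 0 < q) : 0 < (q.totient : ℝ) / q := by
  have h1 : (0 : ℝ) < q.totient := by exact_mod_cast Nat.totient_pos.mpr hq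
  have h2 : (0 : ℝ) < q := by exact_mod_cast hq
  positivity

theorem totient_ratio_le {q : ℕ} (hq : 0 < q) {Ps : Finset ℕ} (h : Ps ⊆ q.primeFactors) :
    (q.totient : ℝ) / q ≤ pr Ps := by
  rw [← pr_primeFactors hq]
  exact pr_anti h fun p hp => Nat.prime_of_mem_primeFactors hp

/-! ### the objects of a pair -/

/-- The integer of the sheet `k`. -/
noncomputable def nk (γ x x' : ℝ) (u v : ℕ) (k : ℤ) : ℤ :=
  (Bq γ x : ℤ) * Bq γ x' * k + (v : ℤ) * Bq γ x' * Aq γ x - (u : ℤ) * Bq γ x * Aq γ x'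

/-- The active sheets. -/
def Sh (γ x x' : ℝ) (q r : ℕ) (k : ℤ) : Prop :=
  |(k : ℝ) - ((cofac q r : ℝ) - cofac r q) * γ| < 2 * DD q r x x' ∧
    ∃ al be : ℤ, AK γ x q al ∧ AK γ x' r be ∧ k = al * (cofac r q : ℤ) - be * (cofac q r : ℤ)

open Classical in
/-- The finite set of active sheets. -/
noncomputable def Shs (γ x x' : ℝ) (q r : ℕ) : Finset ℤ :=
  (Icc ⌊((cofac q r : ℝ) - cofac r q) * γ - 2 * DD q r x x'⌋
    ⌈((cofac q r : ℝ) - cofac r q) * γ + 2 * DD q r x x'⌉).filter (Sh γ x x' q r)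

theorem mem_Shs {γ x x' : ℝ} {q r : ℕ} {k : ℤ} : k ∈ Shs γ x x' q r ↔ Sh γ x x' q r k := by
  classical
  unfold Shs
  rw [mem_filter, mem_Icc]
  constructor
  · exact fun h => h.2
  · intro h
    refine ⟨?_, h⟩
    obtain ⟨h1, -⟩ := h
    rw [abs_lt] at h1
    constructor
    · have : ((⌊((cofac q r : ℝ) - cofac r q) * γ - 2 * DD q r x x'⌋ : ℤ) : ℝ) ≤ k := by
        have := Int.floor_le (((cofac q r : ℝ) - cofac r q) * γ - 2 * DD q r x x')
        linarith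
      exact_mod_cast this
    · have : (k : ℝ) ≤ ((⌈((cofac q r : ℝ) - cofac r q) * γ + 2 * DD q r x x'⌉ : ℤ) : ℝ) := by
        have := Int.le_ceil (((cofac q r : ℝ) - cofac r q) * γ + 2 * DD q r x x')
        linarith
      exact_mod_cast this

/-- primes of the factor of a sheet -/
noncomputable def Fk (γ x x' : ℝ) (q r : ℕ) (k : ℤ) : Finset ℕ :=
  (PK γ x q ∩ PK γ x' r).filter (fun p : ℕ => ¬ p ∣ cofac q r ∧ ¬ p ∣ cofac r q ∧
    (p : ℤ) ∣ nk γ x x' (cofac q r) (cofac r q) k)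

theorem mem_PK {γ x : ℝ} {q p : ℕ} (hp : p ∈ PK γ x q) :
    p.Prime ∧ p ∣ q ∧ yK γ x < (p : ℝ) ∧ ¬ p ∣ Bq γ x := by
  unfold PK at hp
  rw [mem_filter] at hp
  exact ⟨Nat.prime_of_mem_primeFactors hp.1, Nat.dvd_of_mem_primeFactors hp.1, hp.2.1, hp.2.2⟩

theorem PK_prime {γ x : ℝ} {q : ℕ} : ∀ p ∈ PK γ x q, p.Prime := fun _ hp => (mem_PK hp).1

theorem PK_subset (γ x : ℝ) (q : ℕ) : PK γ x q ⊆ q.primeFactors := filter_subset _ _

theorem DD_pos {q r : ℕ} (hq : 0 < q) (hr : 0 < r) {x x' : ℝ} (hx : 0 < x) : 0 < DD q r x x' := by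
  have hg0 : (0 : ℝ) < Nat.gcd q r := by exact_mod_cast Nat.gcd_pos_of_pos_left _ hq
  have hrR : (0 : ℝ) < r := by exact_mod_cast hr
  rw [DD]
  apply div_pos _ hg0
  exact lt_max_of_lt_left (mul_pos hrR hx)

theorem DD_eq' {q r : ℕ} (hq : 0 < q) (x x' : ℝ) :
    DD q r x x' = max ((cofac r q : ℝ) * x) ((cofac q r : ℝ) * x') := by
  rw [DD_eq q r hq]
  unfold cofac
  rw [Nat.gcd_comm r q]

/-- the weighted overlap -/
theorem pair_one (γ : ℝ) {q r : ℕ} (hq : 0 < q) (hr : 0 < r) {x x' : ℝ} (hx : 0 < x)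
    (hx' : 0 < x') (hx2 : x ≤ 1 / 2) (hx2' : x' ≤ 1 / 2) :
    wK γ x q * wK γ x' r *
      volume.real (GS γ q x (AK γ x q) ∩ GS γ r x' (AK γ x' r) ∩ Set.Ioc 0 1) ≤
      16 * ((q.totient : ℝ) / q * x * ((r.totient : ℝ) / r * x') / DD q r x x') *
        (pr ((PK γ x q).filter (fun p => p ∣ cofac q r)))⁻¹ *
        (pr ((PK γ x' r).filter (fun p => p ∣ cofac r q)))⁻¹ *
        ∑ k ∈ Shs γ x x' q r, (pr (Fk γ x x' q r k))⁻¹ := by
  have hov := overlap γ q r hq hr x x' hx hx' hx2 hx2' (Bq γ x) (Bq γ x') (Aq γ x) (Aq γ x')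
    (PK γ x q) (PK γ x' r) (fun p hp => ⟨(mem_PK hp).1, (mem_PK hp).2.1, (mem_PK hp).2.2.2⟩)
    (fun p hp => ⟨(mem_PK hp).1, (mem_PK hp).2.1, (mem_PK hp).2.2.2⟩)
    (AK γ x q) (AK γ x' r) (fun al h => h) (fun al h => h) (Shs γ x x' q r) (by
      intro al be hal hbe hlt
      rw [mem_Shs]
      refine ⟨?_, al, be, hal, hbe, rfl⟩
      have h1 : ((al * (cofac r q : ℤ) - be * (cofac q r : ℤ) : ℤ) : ℝ) -
          ((cofac q r : ℝ) - cofac r q) * γ =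
          ((al : ℝ) + γ) * (cofac r q : ℝ) - ((be : ℝ) + γ) * (cofac q r : ℝ) := by
        push_cast
        ring
      rw [h1]
      refine hlt.trans_le ?_
      rw [DD_eq' hq]
      have h2 := le_max_left ((cofac r q : ℝ) * x) ((cofac q r : ℝ) * x')
      have h3 := le_max_right ((cofac r q : ℝ) * x) ((cofac q r : ℝ) * x')
      linarith)
  have hD0 : 0 < DD q r x x' := DD_pos hq hr hx
  have hP1 : 0 < pr (PK γ x q) := pr_pos PK_prime
  have hP2 : 0 < pr (PK γ x' r) := pr_pos PK_prime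
  have hPa : 0 < pr ((PK γ x q).filter (fun p => p ∣ cofac q r)) :=
    pr_pos fun p hp => PK_prime p (mem_filter.mp hp).1
  have hPb : 0 < pr ((PK γ x' r).filter (fun p => p ∣ cofac r q)) :=
    pr_pos fun p hp => PK_prime p (mem_filter.mp hp).1
  have e1 := pr_filter_mul (PK γ x q) (fun p => p ∣ cofac q r)
  have e2 := pr_filter_mul (PK γ x' r) (fun p => p ∣ cofac r q)
  have hw1 : 0 ≤ wK γ x q := by
    unfold wK
    exact div_nonneg (totient_ratio_pos hq).le hP1.le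
  have hw2 : 0 ≤ wK γ x' r := by
    unfold wK
    exact div_nonneg (totient_ratio_pos hr).le hP2.le
  calc wK γ x q * wK γ x' r *
      volume.real (GS γ q x (AK γ x q) ∩ GS γ r x' (AK γ x' r) ∩ Set.Ioc 0 1)
      ≤ wK γ x q * wK γ x' r * (16 * (x * x' / DD q r x x') *
        pr ((PK γ x q).filter (fun p : ℕ => ¬ p ∣ cofac q r)) *
        pr ((PK γ x' r).filter (fun p : ℕ => ¬ p ∣ cofac r q)) *
        ∑ k ∈ Shs γ x x' q r, (pr (Fk γ x x' q r k))⁻¹) := by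
        apply mul_le_mul_of_nonneg_left _ (mul_nonneg hw1 hw2)
        exact hov
    _ = _ := by
        unfold wK
        rw [← e1, ← e2]
        have h1 : pr ((PK γ x q).filter (fun p : ℕ => ¬ p ∣ cofac q r)) ≠ 0 :=
          (pr_pos fun p hp => PK_prime p (mem_filter.mp hp).1).ne'
        have h2 : pr ((PK γ x' r).filter (fun p : ℕ => ¬ p ∣ cofac r q)) ≠ 0 :=
          (pr_pos fun p hp => PK_prime p (mem_filter.mp hp).1).ne'
        field_simp

end Vale.P028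
end

section
attribute [-instance] ProperSMul.toContinuousSMul IsTopologicalTorsor.toContinuousSMul IdemSemiring.toCanonicallyOrderedAdd IdemSemiring.toMulLeftMono IdemSemiring.toMulRightMono AddQuantale.instAddLeftMono AddQuantale.instAddRightMono Quantale.instMulLeftMono Quantale.instMulRightMono FiniteDimensional.rclike_to_real IsScalarTower.complexToReal FiniteDimensional.complexToReal

/-!
# Sheets with vanishing form and different denominators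
-/

namespace Vale.P028

open Finset

theorem kb_b1_le {b₁ b₂ : ℕ} (h : 3 / 16 * (b₁ : ℝ) ^ 4 ≤ b₂) :
    (b₁ : ℝ) ≤ 2 * (b₂ : ℝ) ^ (1 / 4 : ℝ) := by
  have hb0 : (0 : ℝ) ≤ b₂ := Nat.cast_nonneg _
  have h1 : ((b₂ : ℝ) ^ (1 / 4 : ℝ)) ^ 4 = b₂ := by
    rw [← Real.rpow_natCast, ← Real.rpow_mul hb0]
    norm_num
  have h2 : (b₁ : ℝ) ^ 4 ≤ (2 * (b₂ : ℝ) ^ (1 / 4 : ℝ)) ^ 4 := by
    rw [mul_pow, h1]
    linarith only [h]
  exact le_of_pow_le_pow_left₀ (by norm_num) (by (clear * -; positivity)) h2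

theorem kb_d_ge {b₁ b₂ : ℕ} (hb₁ : 0 < b₁) (hlt : b₁ < b₂) (h : 3 / 16 * (b₁ : ℝ) ^ 4 ≤ b₂) :
    (b₂ : ℝ) ^ (3 / 4 : ℝ) / 2 ≤ ((b₂ / Nat.gcd b₁ b₂ : ℕ) : ℝ) := by
  have hb2 : (0 : ℝ) < b₂ := by exact_mod_cast (by omega : 0 < b₂)
  have hb1 : (0 : ℝ) < b₁ := by exact_mod_cast hb₁
  have hg : 0 < Nat.gcd b₁ b₂ := Nat.gcd_pos_of_pos_left _ hb₁
  have hgR : (0 : ℝ) < Nat.gcd b₁ b₂ := by exact_mod_cast hg
  have hgle : (Nat.gcd b₁ b₂ : ℝ) ≤ b₁ := by exact_mod_cast Nat.gcd_le_left _ hb₁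
  rw [Nat.cast_div (Nat.gcd_dvd_right _ _) hgR.ne', le_div_iff₀ hgR]
  have h1 := kb_b1_le h
  have h2 : (b₂ : ℝ) ^ (3 / 4 : ℝ) * (b₂ : ℝ) ^ (1 / 4 : ℝ) = b₂ := by
    rw [← Real.rpow_add hb2]; norm_num
  calc (b₂ : ℝ) ^ (3 / 4 : ℝ) / 2 * (Nat.gcd b₁ b₂ : ℝ)
      ≤ (b₂ : ℝ) ^ (3 / 4 : ℝ) / 2 * (2 * (b₂ : ℝ) ^ (1 / 4 : ℝ)) :=
        mul_le_mul_of_nonneg_left (hgle.trans h1) (by (clear * - hb2; positivity))
    _ = (b₂ : ℝ) ^ (3 / 4 : ℝ) * (b₂ : ℝ) ^ (1 / 4 : ℝ) := by ring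
    _ = b₂ := h2

/-- the numerical bound at one level -/
theorem kb_level {x d e : ℝ} (hx : 1 ≤ x) (he : -4 ≤ e) (hd : x ^ (3 / 4 : ℝ) / 2 ≤ d) :
    x ^ (1 / 8 : ℝ) / x ^ e * (x ^ e * x ^ e / (d * 1)) ^ (31 / 64 : ℝ) ≤
      2 * x ^ (-(1 / 10) : ℝ) := by
  have hx0 : 0 < x := by linarith only [hx]
  have h34 : 0 < x ^ (3 / 4 : ℝ) := Real.rpow_pos_of_pos hx0 _
  have hd0 : 0 < d := by linarith only [hd, h34]
  have hxe : 0 < x ^ e := Real.rpow_pos_of_pos hx0 _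
  have h1 : x ^ e * x ^ e / (d * 1) ≤ 2 * x ^ (2 * e - 3 / 4) := by
    rw [mul_one, div_le_iff₀ hd0]
    have e1 : x ^ (2 * e - 3 / 4) = x ^ e * x ^ e / x ^ (3 / 4 : ℝ) := by
      rw [Real.rpow_sub hx0, two_mul, Real.rpow_add hx0]
    rw [e1]
    calc x ^ e * x ^ e = 2 * (x ^ e * x ^ e / x ^ (3 / 4 : ℝ)) * (x ^ (3 / 4 : ℝ) / 2) := by
          field_simp
      _ ≤ 2 * (x ^ e * x ^ e / x ^ (3 / 4 : ℝ)) * d :=
          mul_le_mul_of_nonneg_left hd (by positivity)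
  have h2 : (x ^ e * x ^ e / (d * 1)) ^ (31 / 64 : ℝ) ≤
      2 * x ^ ((2 * e - 3 / 4) * (31 / 64)) := by
    calc (x ^ e * x ^ e / (d * 1)) ^ (31 / 64 : ℝ)
        ≤ (2 * x ^ (2 * e - 3 / 4)) ^ (31 / 64 : ℝ) :=
          Real.rpow_le_rpow (by (clear * - hx hd0; positivity)) h1 (by norm_num)
      _ = (2 : ℝ) ^ (31 / 64 : ℝ) * x ^ ((2 * e - 3 / 4) * (31 / 64)) := by
          rw [Real.mul_rpow (by norm_num) (by positivity), ← Real.rpow_mul hx0.le]
      _ ≤ 2 * x ^ ((2 * e - 3 / 4) * (31 / 64)) := by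
          apply mul_le_mul_of_nonneg_right _ (by positivity)
          calc (2 : ℝ) ^ (31 / 64 : ℝ) ≤ (2 : ℝ) ^ (1 : ℝ) :=
                Real.rpow_le_rpow_of_exponent_le (by norm_num) (by norm_num)
            _ = 2 := Real.rpow_one 2
  calc x ^ (1 / 8 : ℝ) / x ^ e * (x ^ e * x ^ e / (d * 1)) ^ (31 / 64 : ℝ)
      ≤ x ^ (1 / 8 : ℝ) / x ^ e * (2 * x ^ ((2 * e - 3 / 4) * (31 / 64))) :=
        mul_le_mul_of_nonneg_left h2 (by positivity)
    _ = 2 * x ^ (1 / 8 - e + (2 * e - 3 / 4) * (31 / 64)) := by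
        rw [Real.rpow_add hx0, Real.rpow_sub hx0]; ring
    _ ≤ 2 * x ^ (-(1 / 10) : ℝ) := by
        apply mul_le_mul_of_nonneg_left _ (by norm_num)
        apply Real.rpow_le_rpow_of_exponent_le hx
        linarith only [he]

/-- the pairs with given denominators -/
theorem kb_pair : ∃ C > 0, ∀ (N : ℕ) (ψ f : ℕ → ℝ) (b₁ b₂ : ℕ), (∀ q, 0 ≤ ψ q) →
    (∀ q, 0 ≤ f q ∧ f q ≤ ψ q * (q.totient / q)) → 0 < b₁ → b₁ < b₂ →
    3 / 16 * (b₁ : ℝ) ^ 4 ≤ b₂ →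
    ∑ q ∈ Icc 1 N, ∑ r ∈ Icc 1 N, (if (b₂ / Nat.gcd b₁ b₂) ∣ cofac q r ∧
        1 < (b₂ : ℝ) ^ 4 * ψ q then f q * f r / DD q r (ψ q) (ψ r) else 0) ≤
      C * (b₂ : ℝ) ^ (-(1 / 10) : ℝ) * ((∑ q ∈ Icc 1 N, f q) + (∑ q ∈ Icc 1 N, f q) ^ 2) := by
  classical
  obtain ⟨C, hC, hT⟩ := T1div (θ := 33 / 64) (by norm_num) (by norm_num)
  refine ⟨82 * C + 1, by (clear * - hC; positivity), ?_⟩
  intro N ψ f b₁ b₂ hψ hf hb₁ hlt hgap
  set F := ∑ q ∈ Icc 1 N, f q with hF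
  have hF0 : 0 ≤ F := sum_nonneg fun q _ => (hf q).1
  set x : ℝ := (b₂ : ℝ) with hx
  have hx2 : 2 ≤ x := by rw [hx]; exact_mod_cast (by omega : 2 ≤ b₂)
  have hx0 : 0 < x := by linarith only [hx2]
  set d : ℕ := b₂ / Nat.gcd b₁ b₂ with hd
  have hdge : x ^ (3 / 4 : ℝ) / 2 ≤ (d : ℝ) := kb_d_ge hb₁ hlt hgap
  have hd0 : 0 < d := by
    have : (0 : ℝ) < d := lt_of_lt_of_le (by (clear * - hx2; positivity)) hdge
    exact_mod_cast this
  set s : ℕ → ℝ := fun i => x ^ ((i : ℝ) / 8 - 4) with hs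
  have hs0 : ∀ i, 0 < s i := fun i => Real.rpow_pos_of_pos hx0 _
  set E : ℕ → ℕ → ℕ → Prop := fun i q r => d ∣ cofac q r ∧ 1 ∣ cofac r q ∧
    (cofac r q : ℝ) * ψ q ≤ s i ∧ (cofac q r : ℝ) * ψ r ≤ s i with hE
  have hpt : ∀ q ∈ Icc 1 N, ∀ r ∈ Icc 1 N,
      (if d ∣ cofac q r ∧ 1 < x ^ 4 * ψ q then f q * f r / DD q r (ψ q) (ψ r) else 0) ≤
      (∑ i ∈ range 41, x ^ (1 / 8 : ℝ) / s i * (if E i q r then f q * f r else 0)) +
        x⁻¹ * (f q * f r) := by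
    intro q hq r hr
    have hq0 : 0 < q := (mem_Icc.mp hq).1
    have hff : 0 ≤ f q * f r := mul_nonneg (hf q).1 (hf r).1
    have hterm : ∀ i, 0 ≤ x ^ (1 / 8 : ℝ) / s i * (if E i q r then f q * f r else 0) := by
      intro i
      have := hs0 i
      split_ifs
      · (clear * - hx2 hff; positivity)
      · simp
    have hsum0 : 0 ≤ ∑ i ∈ range 41, x ^ (1 / 8 : ℝ) / s i *
        (if E i q r then f q * f r else 0) := sum_nonneg fun i _ => hterm i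
    split_ifs with hc
    · obtain ⟨hc1, hc2⟩ := hc
      have hr0 : 0 < r := (mem_Icc.mp hr).1
      have hv1 : (1 : ℝ) ≤ cofac r q := by exact_mod_cast cofac_pos q hr0
      have hDe : DD q r (ψ q) (ψ r) = max ((cofac r q : ℝ) * ψ q) ((cofac q r : ℝ) * ψ r) := by
        rw [DD_eq q r hq0]
        unfold cofac
        rw [Nat.gcd_comm r q]
      set D := DD q r (ψ q) (ψ r) with hD
      have hD1 : (cofac r q : ℝ) * ψ q ≤ D := by rw [hDe]; exact le_max_left _ _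
      have hD2 : (cofac q r : ℝ) * ψ r ≤ D := by rw [hDe]; exact le_max_right _ _
      have hψD : ψ q ≤ D := by
        calc ψ q = 1 * ψ q := (one_mul _).symm
          _ ≤ (cofac r q : ℝ) * ψ q := mul_le_mul_of_nonneg_right hv1 (hψ q)
          _ ≤ D := hD1
      have hs00 : s 0 = (x ^ 4)⁻¹ := by
        simp only [hs]
        rw [Nat.cast_zero, zero_div, zero_sub, Real.rpow_neg hx0.le]
        congr 1
        exact_mod_cast Real.rpow_natCast x 4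
      have hx4 : 0 < x ^ 4 := by (clear * - hx2; positivity)
      have hDs0 : s 0 ≤ D := by
        rw [hs00, inv_le_iff_one_le_mul₀ hx4]
        linarith only [mul_nonneg (sub_nonneg.2 hD1) (le_of_lt (sub_pos.2 hx4)), mul_nonneg (le_of_lt (sub_pos.2 hc2)) (sub_nonneg.2 hv1), hv1, hc2]
      have hD0 : 0 < D := lt_of_lt_of_le (hs0 0) hDs0
      rcases le_or_gt D x with hDx | hDx
      · have hex : ∃ i, D ≤ s i := ⟨40, by
          have : s 40 = x := by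
            simp only [hs]
            norm_num
          rw [this]; exact hDx⟩
        have hi40 : Nat.find hex ≤ 40 := Nat.find_min' hex (by
          have : s 40 = x := by
            simp only [hs]
            norm_num
          rw [this]; exact hDx)
        set i := Nat.find hex with hi
        have hiD : D ≤ s i := Nat.find_spec hex
        have hsi : s i ≤ x ^ (1 / 8 : ℝ) * D := by
          rcases Nat.eq_zero_or_pos i with h0 | hpos
          · rw [h0]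
            have h18 : 1 ≤ x ^ (1 / 8 : ℝ) := Real.one_le_rpow (by linarith only [hx2]) (by norm_num)
            nlinarith only [hDs0, hD0, h18]
          · have h1 : ¬ D ≤ s (i - 1) := Nat.find_min hex (by (clear * - hex hi40 hpos; omega))
            rw [not_le] at h1
            have h2 : s i = x ^ (1 / 8 : ℝ) * s (i - 1) := by
              simp only [hs]
              rw [← Real.rpow_add hx0]
              congr 1
              have : ((i - 1 : ℕ) : ℝ) = i - 1 := by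
                rw [Nat.cast_sub hpos]; simp
              rw [this]; ring
            rw [h2]
            exact mul_le_mul_of_nonneg_left h1.le (by (clear * - hx2; positivity))
        have hEi : E i q r := ⟨hc1, one_dvd _, hD1.trans hiD, hD2.trans hiD⟩
        have h3 : f q * f r / D ≤ x ^ (1 / 8 : ℝ) / s i * (if E i q r then f q * f r else 0) := by
          rw [if_pos hEi, div_le_iff₀ hD0]
          have h4 : 1 ≤ x ^ (1 / 8 : ℝ) / s i * D := by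
            rw [div_mul_eq_mul_div, le_div_iff₀ (hs0 i), one_mul]
            exact hsi
          calc f q * f r = 1 * (f q * f r) := (one_mul _).symm
            _ ≤ (x ^ (1 / 8 : ℝ) / s i * D) * (f q * f r) := mul_le_mul_of_nonneg_right h4 hff
            _ = _ := by ring
        have h5 : x ^ (1 / 8 : ℝ) / s i * (if E i q r then f q * f r else 0) ≤
            ∑ i ∈ range 41, x ^ (1 / 8 : ℝ) / s i * (if E i q r then f q * f r else 0) :=
          single_le_sum (f := fun i => x ^ (1 / 8 : ℝ) / s i * (if E i q r then f q * f r else 0))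
            (fun i _ => hterm i) (mem_range.mpr (by omega))
        have h6 : 0 ≤ x⁻¹ * (f q * f r) := by (clear * - hx2 hff; positivity)
        linarith only [h3, h5, h6]
      · have h3 : f q * f r / D ≤ x⁻¹ * (f q * f r) := by
          rw [div_eq_inv_mul]
          exact mul_le_mul_of_nonneg_right ((inv_le_inv₀ hD0 hx0).mpr hDx.le) hff
        linarith only [hsum0, h3]
    · (clear * - hx2 hff; positivity)
  have hsum : ∑ q ∈ Icc 1 N, ∑ r ∈ Icc 1 N, (if d ∣ cofac q r ∧ 1 < x ^ 4 * ψ q then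
      f q * f r / DD q r (ψ q) (ψ r) else 0) ≤
      (∑ i ∈ range 41, x ^ (1 / 8 : ℝ) / s i * psum (E i) N f f) + x⁻¹ * F ^ 2 := by
    refine (sum_le_sum fun q hq => sum_le_sum fun r hr => hpt q hq r hr).trans (le_of_eq ?_)
    simp only [sum_add_distrib]
    congr 1
    · unfold psum
      simp only [mul_sum]
      have hsw : ∀ g : ℕ → ℕ → ℕ → ℝ, ∑ q ∈ Icc 1 N, ∑ r ∈ Icc 1 N, ∑ i ∈ range 41, g q r i =
          ∑ i ∈ range 41, ∑ q ∈ Icc 1 N, ∑ r ∈ Icc 1 N, g q r i := by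
        intro g
        have h1 : ∑ q ∈ Icc 1 N, ∑ r ∈ Icc 1 N, ∑ i ∈ range 41, g q r i =
            ∑ q ∈ Icc 1 N, ∑ i ∈ range 41, ∑ r ∈ Icc 1 N, g q r i :=
          sum_congr rfl (fun q _ => sum_comm)
        rw [h1]
        exact sum_comm
      have h2 := hsw (fun q r i => x ^ (1 / 8 : ℝ) / s i * (if E i q r then f q * f r else 0))
      refine h2.trans ?_
      congr!
    · rw [hF, sq, sum_mul_sum, mul_sum]
      apply sum_congr rfl
      intro q _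
      rw [mul_sum]
  have hps : ∀ i ∈ range 41, x ^ (1 / 8 : ℝ) / s i * psum (E i) N f f ≤
      2 * C * x ^ (-(1 / 10) : ℝ) * (F + F ^ 2) := by
    intro i _
    have h1 : psum (E i) N f f ≤ C * (s i * s i / (d * ((1 : ℕ) : ℝ))) ^ (1 - 33 / 64 : ℝ) *
        (F * F) ^ (33 / 64 : ℝ) :=
      hT ψ ψ f f (s i) (s i) N d 1 (hs0 i) (hs0 i) hd0 one_pos hψ hψ hf hf
    have h2 : (F * F) ^ (33 / 64 : ℝ) ≤ F + F ^ 2 := by
      have h3 : (F * F) ^ (33 / 64 : ℝ) = F ^ (33 / 32 : ℝ) := by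
        rw [← sq, ← Real.rpow_natCast, ← Real.rpow_mul hF0]
        norm_num
      rw [h3]
      rcases le_or_gt F 1 with h | h
      · have h4 : F ^ (33 / 32 : ℝ) ≤ F ^ (1 : ℝ) :=
          Real.rpow_le_rpow_of_exponent_ge' hF0 h (by norm_num) (by norm_num)
        rw [Real.rpow_one] at h4
        nlinarith only [h4]
      · have h4 : F ^ (33 / 32 : ℝ) ≤ F ^ (2 : ℝ) :=
          Real.rpow_le_rpow_of_exponent_le h.le (by norm_num)
        rw [Real.rpow_two] at h4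
        linarith only [h, h4]
    have h3 := kb_level (x := x) (d := d) (e := (i : ℝ) / 8 - 4) (by linarith only [hx2])
      (by have : (0 : ℝ) ≤ (i : ℝ) / 8 := by (clear * -; positivity)
          linarith only [this]) hdge
    have hFF : 0 ≤ F + F ^ 2 := by (clear * - hF0; positivity)
    have e1 : (1 - 33 / 64 : ℝ) = 31 / 64 := by norm_num
    rw [e1, Nat.cast_one] at h1
    calc x ^ (1 / 8 : ℝ) / s i * psum (E i) N f f
        ≤ x ^ (1 / 8 : ℝ) / s i * (C * (s i * s i / (d * 1)) ^ (31 / 64 : ℝ) *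
          (F * F) ^ (33 / 64 : ℝ)) := by
          apply mul_le_mul_of_nonneg_left h1
          have := hs0 i
          (clear * - hx2; positivity)
      _ = C * (x ^ (1 / 8 : ℝ) / s i * (s i * s i / (d * 1)) ^ (31 / 64 : ℝ)) *
          (F * F) ^ (33 / 64 : ℝ) := by ring
      _ ≤ C * (2 * x ^ (-(1 / 10) : ℝ)) * (F + F ^ 2) := by
          apply mul_le_mul _ h2 (by (clear * - hF0; positivity)) (by (clear * - hC hx2; positivity))
          exact mul_le_mul_of_nonneg_left h3 hC.le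
      _ = _ := by ring
  have hxinv : x⁻¹ ≤ x ^ (-(1 / 10) : ℝ) := by
    rw [← Real.rpow_neg_one]
    exact Real.rpow_le_rpow_of_exponent_le (by linarith only [hx2]) (by norm_num)
  have hx10 : 0 < x ^ (-(1 / 10) : ℝ) := Real.rpow_pos_of_pos hx0 _
  calc ∑ q ∈ Icc 1 N, ∑ r ∈ Icc 1 N, (if d ∣ cofac q r ∧ 1 < x ^ 4 * ψ q then
      f q * f r / DD q r (ψ q) (ψ r) else 0)
      ≤ (∑ i ∈ range 41, x ^ (1 / 8 : ℝ) / s i * psum (E i) N f f) + x⁻¹ * F ^ 2 := hsum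
    _ ≤ (∑ i ∈ range 41, 2 * C * x ^ (-(1 / 10) : ℝ) * (F + F ^ 2)) +
        x ^ (-(1 / 10) : ℝ) * (F + F ^ 2) := by
        apply add_le_add (sum_le_sum hps)
        apply mul_le_mul hxinv (by linarith only [hF0]) (by (clear * -; positivity)) hx10.le
    _ = (82 * C + 1) * x ^ (-(1 / 10) : ℝ) * (F + F ^ 2) := by
        rw [sum_const, card_range]; simp only [nsmul_eq_mul]; push_cast; ring

theorem kb_values_double {γ : ℝ} {x y : ℝ} (h : Bq γ x < Bq γ y) : 2 * Bq γ x ≤ Bq γ y := by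
  have hpos : 0 < Bq γ x := Bsel_pos _ _ _
  have hy : Bad γ (1 / 1024) (Bq γ y) := by
    rcases Bsel_spec γ (1 / 1024) (min y (1 / 1024)) with h1 | h1
    · exfalso
      have : Bq γ y = 1 := h1
      omega
    · exact h1.1
  rcases Bsel_spec γ (1 / 1024) (min x (1 / 1024)) with h1 | h1
  · have h2 : Bq γ x = 1 := h1
    omega
  · exact Bad.two_mul_le (by norm_num) (by norm_num) h1.1 hy h

/-- the sum over the denominators -/
theorem kb_sum_values : ∃ K > 0, ∀ (𝓑 : Finset ℕ), (∀ b ∈ 𝓑, 0 < b) →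
    (∀ b ∈ 𝓑, ∀ b' ∈ 𝓑, b < b' → 2 * b ≤ b') → ∀ Y : ℝ, 0 < Y →
    ∑ b₂ ∈ 𝓑.filter (fun b₂ : ℕ => Y < (b₂ : ℝ)), ∑ b₁ ∈ 𝓑.filter (fun b₁ => b₁ < b₂),
      (b₂ : ℝ) ^ (-(1 / 10) : ℝ) ≤ K * Y ^ (-(1 / 20) : ℝ) := by
  classical
  set ρ : ℝ := (2 : ℝ) ^ (-(1 / 20) : ℝ) with hρ
  have hρ0 : 0 < ρ := Real.rpow_pos_of_pos (by norm_num) _
  have hρ1 : ρ < 1 := Real.rpow_lt_one_of_one_lt_of_neg (by norm_num) (by norm_num)
  have hsummable : Summable (fun k : ℕ => ((k : ℝ) + 1) * ρ ^ k) := by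
    have h1 : Summable (fun k : ℕ => (k : ℝ) ^ 1 * ρ ^ k) :=
      summable_pow_mul_geometric_of_norm_lt_one 1 (by rw [Real.norm_of_nonneg hρ0.le]; exact hρ1)
    have h2 : Summable (fun k : ℕ => ρ ^ k) := summable_geometric_of_lt_one hρ0.le hρ1
    refine (h1.add h2).congr fun k => ?_
    ring
  refine ⟨(∑' k : ℕ, ((k : ℝ) + 1) * ρ ^ k) + 1, by
    have : 0 ≤ ∑' k : ℕ, ((k : ℝ) + 1) * ρ ^ k := tsum_nonneg fun k => by positivity
    linarith only [this], ?_⟩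
  intro 𝓑 hpos hdouble Y hY
  have hinj : ∀ b ∈ 𝓑, ∀ b' ∈ 𝓑, b < b' → Nat.log 2 b < Nat.log 2 b' := by
    intro b hb b' hb' hlt
    have h1 := hdouble b hb b' hb' hlt
    have h2 : Nat.log 2 (b * 2) = Nat.log 2 b + 1 :=
      Nat.log_mul_base (by norm_num) (hpos b hb).ne'
    have h3 : Nat.log 2 (b * 2) ≤ Nat.log 2 b' := Nat.log_mono_right (by omega)
    omega
  have hY20 : 0 < Y ^ (-(1 / 20) : ℝ) := Real.rpow_pos_of_pos hY _
  have hb2 : ∀ b₂ ∈ 𝓑.filter (fun b₂ : ℕ => Y < (b₂ : ℝ)),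
      ∑ b₁ ∈ 𝓑.filter (fun b₁ => b₁ < b₂), (b₂ : ℝ) ^ (-(1 / 10) : ℝ) ≤
      Y ^ (-(1 / 20) : ℝ) * (((Nat.log 2 b₂ : ℕ) : ℝ) + 1) * ρ ^ (Nat.log 2 b₂) := by
    intro b₂ hb₂
    rw [mem_filter] at hb₂
    have hb0 : 0 < b₂ := hpos b₂ hb₂.1
    have hbR : (0 : ℝ) < b₂ := by exact_mod_cast hb0
    rw [sum_const, nsmul_eq_mul]
    have hcard : ((𝓑.filter (fun b₁ => b₁ < b₂)).card : ℝ) ≤ ((Nat.log 2 b₂ : ℕ) : ℝ) + 1 := by
      have h1 : (𝓑.filter (fun b₁ => b₁ < b₂)).card ≤ (range (Nat.log 2 b₂ + 1)).card := by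
        apply card_le_card_of_injOn (fun b => Nat.log 2 b)
        · intro b hb
          rw [mem_coe, mem_filter] at hb
          rw [mem_coe, mem_range]
          have h5 := Nat.log_mono_right (b := 2) hb.2.le
          show Nat.log 2 b < Nat.log 2 b₂ + 1
          omega
        · intro b hb b' hb' hbb
          rw [mem_coe, mem_filter] at hb hb'
          rcases lt_trichotomy b b' with h | h | h
          · have := hinj b hb.1 b' hb'.1 h
            simp only at hbb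
            omega
          · exact h
          · have := hinj b' hb'.1 b hb.1 h
            simp only at hbb
            omega
      rw [card_range] at h1
      exact_mod_cast h1
    have hpow : (b₂ : ℝ) ^ (-(1 / 10) : ℝ) ≤ Y ^ (-(1 / 20) : ℝ) * ρ ^ (Nat.log 2 b₂) := by
      have e1 : (b₂ : ℝ) ^ (-(1 / 10) : ℝ) = (b₂ : ℝ) ^ (-(1 / 20) : ℝ) * (b₂ : ℝ) ^ (-(1 / 20) : ℝ) := by
        rw [← Real.rpow_add hbR]; norm_num
      rw [e1]
      apply mul_le_mul _ _ (by (clear * - hb0; positivity)) hY20.le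
      · exact Real.rpow_le_rpow_of_nonpos hY hb₂.2.le (by norm_num)
      · have h2 : ((2 : ℝ) ^ (Nat.log 2 b₂)) ≤ b₂ := by
          exact_mod_cast Nat.pow_log_le_self 2 hb0.ne'
        calc (b₂ : ℝ) ^ (-(1 / 20) : ℝ) ≤ ((2 : ℝ) ^ (Nat.log 2 b₂)) ^ (-(1 / 20) : ℝ) :=
              Real.rpow_le_rpow_of_nonpos (by positivity) h2 (by norm_num)
          _ = ρ ^ (Nat.log 2 b₂) := by
              rw [hρ, ← Real.rpow_natCast, ← Real.rpow_natCast, ← Real.rpow_mul (by norm_num),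
                ← Real.rpow_mul (by norm_num), mul_comm]
    calc ((𝓑.filter (fun b₁ => b₁ < b₂)).card : ℝ) * (b₂ : ℝ) ^ (-(1 / 10) : ℝ)
        ≤ (((Nat.log 2 b₂ : ℕ) : ℝ) + 1) * (Y ^ (-(1 / 20) : ℝ) * ρ ^ (Nat.log 2 b₂)) :=
          mul_le_mul hcard hpow (by positivity) (by (clear * -; positivity))
      _ = _ := by ring
  refine (sum_le_sum hb2).trans ?_
  have hsum : ∑ b₂ ∈ 𝓑.filter (fun b₂ : ℕ => Y < (b₂ : ℝ)),
      (((Nat.log 2 b₂ : ℕ) : ℝ) + 1) * ρ ^ (Nat.log 2 b₂) ≤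
      ∑' k : ℕ, ((k : ℝ) + 1) * ρ ^ k := by
    rw [← sum_image (f := fun k : ℕ => ((k : ℝ) + 1) * ρ ^ k) (g := fun b => Nat.log 2 b)
      (s := 𝓑.filter (fun b₂ : ℕ => Y < (b₂ : ℝ)))]
    · exact hsummable.sum_le_tsum _ (fun k _ => by (clear * -; positivity))
    · intro b hb b' hb' hbb
      rw [mem_coe, mem_filter] at hb hb'
      rcases lt_trichotomy b b' with h | h | h
      · have := hinj b hb.1 b' hb'.1 h
        simp only at hbb
        omega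
      · exact h
      · have := hinj b' hb'.1 b hb.1 h
        simp only at hbb
        omega
  calc ∑ b₂ ∈ 𝓑.filter (fun b₂ : ℕ => Y < (b₂ : ℝ)),
        Y ^ (-(1 / 20) : ℝ) * (((Nat.log 2 b₂ : ℕ) : ℝ) + 1) * ρ ^ (Nat.log 2 b₂)
      = Y ^ (-(1 / 20) : ℝ) * ∑ b₂ ∈ 𝓑.filter (fun b₂ : ℕ => Y < (b₂ : ℝ)),
        (((Nat.log 2 b₂ : ℕ) : ℝ) + 1) * ρ ^ (Nat.log 2 b₂) := by
        rw [mul_sum]
        apply sum_congr rfl
        intro b _
        ring
    _ ≤ Y ^ (-(1 / 20) : ℝ) * ((∑' k : ℕ, ((k : ℝ) + 1) * ρ ^ k) + 1) := by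
        apply mul_le_mul_of_nonneg_left _ hY20.le
        linarith only [hsum]
    _ = _ := by ring

theorem bad_sum {δ : ℝ} (hδ : 0 < δ) : ∃ C X₀ : ℝ, 0 < C ∧ ∀ γ X : ℝ, X₀ ≤ X →
    ∀ (N : ℕ) (ψ f : ℕ → ℝ), (∀ q, 0 ≤ ψ q) → (∀ q, 0 ≤ f q ∧ f q ≤ ψ q * (q.totient / q)) →
    (∀ q, f q ≠ 0 → 0 < ψ q ∧ ψ q ≤ Real.exp (-(Real.log (Real.log X)) ^ (1 + δ))) →
    wsum (fun q r => Bq γ (ψ q) < Bq γ (ψ r) ∧
        (Bq γ (ψ r) / Nat.gcd (Bq γ (ψ q)) (Bq γ (ψ r))) ∣ cofac q r) N f f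
      (fun q r => (Real.log (Real.log X)) ^ 2 / DD q r (ψ q) (ψ r)) ≤
      C * ((∑ q ∈ Icc 1 N, f q) + (∑ q ∈ Icc 1 N, f q) ^ 2) := by
  classical
  obtain ⟨C, hC, hpair⟩ := kb_pair
  obtain ⟨K, hK, hval⟩ := kb_sum_values
  refine ⟨12800 * (C * K), Real.exp (Real.exp 1), by (clear * - hC hK; positivity), ?_⟩
  intro γ X hX N ψ f hψ hf hsupp
  set F := ∑ q ∈ Icc 1 N, f q with hF
  have hF0 : 0 ≤ F := sum_nonneg fun q _ => (hf q).1
  have hFF : 0 ≤ F + F ^ 2 := by (clear * - hF0; positivity)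
  set ℓ := Real.log (Real.log X) with hℓ
  have hX0 : 0 < X := lt_of_lt_of_le (Real.exp_pos _) hX
  have hlX : Real.exp 1 ≤ Real.log X := by
    have := Real.log_le_log (Real.exp_pos _) hX
    rwa [Real.log_exp] at this
  have hℓ1 : 1 ≤ ℓ := by
    have := Real.log_le_log (Real.exp_pos _) hlX
    rwa [Real.log_exp] at this
  set L := ℓ ^ (1 + δ) with hL
  have hLℓ : ℓ ≤ L := by
    calc ℓ = ℓ ^ (1 : ℝ) := (Real.rpow_one _).symm
      _ ≤ L := Real.rpow_le_rpow_of_exponent_le hℓ1 (by linarith only [hδ])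
  set Y : ℝ := Real.exp (L / 4) with hY
  have hY0 : 0 < Y := Real.exp_pos _
  set 𝓑 : Finset ℕ := (Icc 1 N).image (fun q => Bq γ (ψ q)) with h𝓑
  have hBpos : ∀ b ∈ 𝓑, 0 < b := by
    intro b hb
    rw [h𝓑, mem_image] at hb
    obtain ⟨q, _, rfl⟩ := hb
    exact Bsel_pos _ _ _
  have hBdouble : ∀ b ∈ 𝓑, ∀ b' ∈ 𝓑, b < b' → 2 * b ≤ b' := by
    intro b hb b' hb' hlt
    rw [h𝓑, mem_image] at hb hb'
    obtain ⟨q, _, rfl⟩ := hb
    obtain ⟨r, _, rfl⟩ := hb'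
    exact kb_values_double hlt
  -- the gap condition, as a decidable condition
  set G : ℕ → ℕ → ℕ → ℕ → ℝ := fun b₁ b₂ q r => (if (b₂ / Nat.gcd b₁ b₂) ∣ cofac q r ∧
        1 < (b₂ : ℝ) ^ 4 * ψ q then f q * f r / DD q r (ψ q) (ψ r) else 0) with hG
  have hDpos : ∀ q r, 0 ≤ DD q r (ψ q) (ψ r) := by
    intro q r
    rw [DD]
    apply div_nonneg _ (Nat.cast_nonneg _)
    exact le_max_of_le_left (mul_nonneg (Nat.cast_nonneg _) (hψ q))
  have hG0 : ∀ b₁ b₂ q r, 0 ≤ G b₁ b₂ q r := by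
    intro b₁ b₂ q r
    simp only [hG]
    split_ifs
    · exact div_nonneg (mul_nonneg (hf q).1 (hf r).1) (hDpos q r)
    · exact le_rfl
  set Gp : ℕ → ℕ → ℝ := fun b₁ b₂ => if 3 / 16 * (b₁ : ℝ) ^ 4 ≤ b₂ then
    ∑ q ∈ Icc 1 N, ∑ r ∈ Icc 1 N, G b₁ b₂ q r else 0 with hGp
  have hGple : ∀ b₁ b₂, 0 < b₁ → b₁ < b₂ →
      Gp b₁ b₂ ≤ C * (b₂ : ℝ) ^ (-(1 / 10) : ℝ) * (F + F ^ 2) := by
    intro b₁ b₂ h1 h2
    simp only [hGp]
    split_ifs with h3
    · exact hpair N ψ f b₁ b₂ hψ hf h1 h2 h3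
    · (clear * - hC hF0; positivity)
  have hpt : ∀ q ∈ Icc 1 N, ∀ r ∈ Icc 1 N,
      (if Bq γ (ψ q) < Bq γ (ψ r) ∧
        (Bq γ (ψ r) / Nat.gcd (Bq γ (ψ q)) (Bq γ (ψ r))) ∣ cofac q r then
        f q * f r * (ℓ ^ 2 / DD q r (ψ q) (ψ r)) else 0) ≤
      ∑ b₂ ∈ 𝓑.filter (fun b₂ : ℕ => Y < (b₂ : ℝ)), ∑ b₁ ∈ 𝓑.filter (fun b₁ => b₁ < b₂),
        (if 3 / 16 * (b₁ : ℝ) ^ 4 ≤ b₂ then ℓ ^ 2 * G b₁ b₂ q r else 0) := by
    intro q hq r hr
    have hnn : ∀ b₁ b₂ : ℕ, 0 ≤ (if 3 / 16 * (b₁ : ℝ) ^ 4 ≤ b₂ then ℓ ^ 2 * G b₁ b₂ q r else 0) := by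
      intro b₁ b₂
      split_ifs
      · exact mul_nonneg (sq_nonneg _) (hG0 _ _ _ _)
      · exact le_rfl
    have hsumnn : 0 ≤ ∑ b₂ ∈ 𝓑.filter (fun b₂ : ℕ => Y < (b₂ : ℝ)),
        ∑ b₁ ∈ 𝓑.filter (fun b₁ => b₁ < b₂),
        (if 3 / 16 * (b₁ : ℝ) ^ 4 ≤ b₂ then ℓ ^ 2 * G b₁ b₂ q r else 0) :=
      sum_nonneg fun b₂ _ => sum_nonneg fun b₁ _ => hnn b₁ b₂
    split_ifs with hc
    · obtain ⟨hc1, hc2⟩ := hc
      by_cases hfq : f q = 0
      · rw [hfq, zero_mul, zero_mul]; exact hsumnn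
      obtain ⟨hψq, hψq2⟩ := hsupp q hfq
      set b₁ := Bq γ (ψ q) with hb₁
      set b₂ := Bq γ (ψ r) with hb₂
      have hb₁pos : 0 < b₁ := Bsel_pos _ _ _
      have hb₂bad : Bad γ (1 / 1024) b₂ := by
        rcases Bsel_spec γ (1 / 1024) (min (ψ r) (1 / 1024)) with h1 | h1
        · exfalso
          have : b₂ = 1 := h1
          omega
        · exact h1.1
      have hbig : 1 < (b₂ : ℝ) ^ 4 * ψ q := by
        by_contra hne
        rw [not_lt] at hne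
        have h1 : (b₂ : ℝ) ^ 4 * min (ψ q) (1 / 1024) ≤ 1 :=
          (mul_le_mul_of_nonneg_left (min_le_left _ _) (by (clear * -; positivity))).trans hne
        have h2 : b₂ ≤ b₁ := Bsel_ge (lt_min hψq (by norm_num)) hb₂bad h1
        omega
      have hgap : 3 / 16 * (b₁ : ℝ) ^ 4 ≤ b₂ := by
        rcases Bsel_spec γ (1 / 1024) (min (ψ q) (1 / 1024)) with h1 | h1
        · have h2 : b₁ = 1 := h1
          rw [h2]
          have h3 : (1 : ℝ) ≤ b₂ := by exact_mod_cast (by omega : 1 ≤ b₂)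
          norm_num
          linarith only [h3]
        · have h2 := Bad.gap (by norm_num) h1.1 hb₂bad hc1
          exact (mul_le_mul_of_nonneg_left (le_max_left _ _) (by norm_num)).trans h2
      have hYb : Y < b₂ := by
        by_contra hne
        rw [not_lt] at hne
        have h1 : (b₂ : ℝ) ^ 4 ≤ Y ^ 4 := pow_le_pow_left₀ (Nat.cast_nonneg _) hne 4
        have h2 : Y ^ 4 = Real.exp L := by
          rw [hY, ← Real.exp_nat_mul]; congr 1; push_cast; ring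
        rw [h2] at h1
        have h3 : (b₂ : ℝ) ^ 4 * ψ q ≤ Real.exp L * Real.exp (-L) :=
          mul_le_mul h1 hψq2 hψq.le (Real.exp_pos _).le
        rw [← Real.exp_add, add_neg_cancel, Real.exp_zero] at h3
        linarith only [hbig, h3]
      have hmem2 : b₂ ∈ 𝓑.filter (fun b₂ : ℕ => Y < (b₂ : ℝ)) := by
        rw [mem_filter, h𝓑, mem_image]
        exact ⟨⟨r, hr, rfl⟩, hYb⟩
      have hmem1 : b₁ ∈ 𝓑.filter (fun b₁ => b₁ < b₂) := by
        rw [mem_filter, h𝓑, mem_image]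
        exact ⟨⟨q, hq, rfl⟩, hc1⟩
      have h5 : f q * f r * (ℓ ^ 2 / DD q r (ψ q) (ψ r)) =
          (if 3 / 16 * (b₁ : ℝ) ^ 4 ≤ b₂ then ℓ ^ 2 * G b₁ b₂ q r else 0) := by
        rw [if_pos hgap]
        simp only [hG]
        rw [if_pos ⟨hc2, hbig⟩]
        ring
      rw [h5]
      refine (single_le_sum (f := fun b₁ : ℕ => (if 3 / 16 * (b₁ : ℝ) ^ 4 ≤ b₂ then
        ℓ ^ 2 * G b₁ b₂ q r else 0)) (fun b _ => hnn b b₂) hmem1).trans ?_
      exact single_le_sum (f := fun b₂ : ℕ => ∑ b₁ ∈ 𝓑.filter (fun b₁ => b₁ < b₂),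
        (if 3 / 16 * (b₁ : ℝ) ^ 4 ≤ b₂ then ℓ ^ 2 * G b₁ b₂ q r else 0))
        (fun b _ => sum_nonneg fun b' _ => hnn b' b) hmem2
    · exact hsumnn
  have hmain : wsum (fun q r => Bq γ (ψ q) < Bq γ (ψ r) ∧
        (Bq γ (ψ r) / Nat.gcd (Bq γ (ψ q)) (Bq γ (ψ r))) ∣ cofac q r) N f f
      (fun q r => ℓ ^ 2 / DD q r (ψ q) (ψ r)) ≤
      ∑ b₂ ∈ 𝓑.filter (fun b₂ : ℕ => Y < (b₂ : ℝ)), ∑ b₁ ∈ 𝓑.filter (fun b₁ => b₁ < b₂),
        ℓ ^ 2 * Gp b₁ b₂ := by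
    unfold wsum
    refine le_trans (le_of_eq ?_) ((sum_le_sum fun q hq => sum_le_sum fun r hr =>
      hpt q hq r hr).trans (le_of_eq ?_))
    · congr!
    · rw [sum_congr rfl (fun q _ => sum_comm), sum_comm]
      apply sum_congr rfl
      intro b₂ _
      rw [sum_congr rfl (fun q _ => sum_comm), sum_comm]
      apply sum_congr rfl
      intro b₁ _
      simp only [hGp]
      split_ifs
      · simp only [mul_sum]
      · simp
  refine hmain.trans ?_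
  calc ∑ b₂ ∈ 𝓑.filter (fun b₂ : ℕ => Y < (b₂ : ℝ)), ∑ b₁ ∈ 𝓑.filter (fun b₁ => b₁ < b₂),
        ℓ ^ 2 * Gp b₁ b₂
      ≤ ∑ b₂ ∈ 𝓑.filter (fun b₂ : ℕ => Y < (b₂ : ℝ)), ∑ b₁ ∈ 𝓑.filter (fun b₁ => b₁ < b₂),
        (ℓ ^ 2 * C * (F + F ^ 2)) * (b₂ : ℝ) ^ (-(1 / 10) : ℝ) := by
        apply sum_le_sum
        intro b₂ _
        apply sum_le_sum
        intro b₁ hb₁
        rw [mem_filter] at hb₁
        have := hGple b₁ b₂ (hBpos b₁ hb₁.1) hb₁.2
        calc ℓ ^ 2 * Gp b₁ b₂ ≤ ℓ ^ 2 * (C * (b₂ : ℝ) ^ (-(1 / 10) : ℝ) * (F + F ^ 2)) :=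
              mul_le_mul_of_nonneg_left this (sq_nonneg _)
          _ = _ := by ring
    _ = (ℓ ^ 2 * C * (F + F ^ 2)) * ∑ b₂ ∈ 𝓑.filter (fun b₂ : ℕ => Y < (b₂ : ℝ)),
        ∑ b₁ ∈ 𝓑.filter (fun b₁ => b₁ < b₂), (b₂ : ℝ) ^ (-(1 / 10) : ℝ) := by
        simp only [mul_sum]
    _ ≤ (ℓ ^ 2 * C * (F + F ^ 2)) * (K * Y ^ (-(1 / 20) : ℝ)) :=
        mul_le_mul_of_nonneg_left (hval 𝓑 hBpos hBdouble Y hY0) (by (clear * - hℓ1 hC hF0; positivity))
    _ = (C * K) * (ℓ ^ 2 * Y ^ (-(1 / 20) : ℝ)) * (F + F ^ 2) := by ring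
    _ ≤ (C * K) * 12800 * (F + F ^ 2) := by
        apply mul_le_mul_of_nonneg_right _ hFF
        apply mul_le_mul_of_nonneg_left _ (by positivity)
        have h1 : Y ^ (-(1 / 20) : ℝ) = Real.exp (-(L / 80)) := by
          rw [hY, ← Real.exp_mul]; congr 1; ring
        have h2 : Real.exp (-(L / 80)) ≤ Real.exp (-(ℓ / 80)) := by
          apply Real.exp_le_exp.mpr; linarith only [hLℓ]
        have h3 : Real.exp (-(ℓ / 80)) ≤ 2 / (ℓ / 80) ^ 2 := by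
          have h4 := Real.pow_div_factorial_le_exp (ℓ / 80) (by positivity) 2
          rw [Real.exp_neg, inv_le_comm₀ (Real.exp_pos _) (by positivity), inv_div]
          simpa [Nat.factorial] using h4
        rw [h1]
        calc ℓ ^ 2 * Real.exp (-(L / 80)) ≤ ℓ ^ 2 * (2 / (ℓ / 80) ^ 2) :=
              mul_le_mul_of_nonneg_left (h2.trans h3) (sq_nonneg _)
          _ = 12800 := by field_simp; norm_num
    _ = _ := by ring

end Vale.P028
end

section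
attribute [-instance] ProperSMul.toContinuousSMul IsTopologicalTorsor.toContinuousSMul IdemSemiring.toCanonicallyOrderedAdd IdemSemiring.toMulLeftMono IdemSemiring.toMulRightMono AddQuantale.instAddLeftMono AddQuantale.instAddRightMono Quantale.instMulLeftMono Quantale.instMulRightMono FiniteDimensional.rclike_to_real IsScalarTower.complexToReal FiniteDimensional.complexToReal

/-!
# Overlap of two levels
-/

namespace Vale.P028

open Finset MeasureTheory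

theorem kc_pr_pos (Ps : Finset ℕ) (h : ∀ p ∈ Ps, p.Prime) : 0 < pr Ps := by
  apply prod_pos
  intro p hp
  have : (2 : ℝ) ≤ p := by exact_mod_cast (h p hp).two_le
  rw [sub_pos, div_lt_one (by linarith only [this])]
  linarith only [this]

/-- upper bound for the number of sifted points of an interval -/
theorem kc_count (B : ℕ) (A : ℤ) (r : ℕ) (hr : 4096 ≤ r) (Pb : Finset ℕ)
    (h₂ : ∀ p ∈ Pb, p.Prime ∧ p ∣ r ∧ ¬ p ∣ B) (s : ℤ) (n : ℕ) (hn : Real.sqrt r ≤ n) :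
    (((Ico s (s + n)).filter (fun be : ℤ => ∀ p ∈ Pb, ¬ (p : ℤ) ∣ be * (B : ℤ) + A)).card : ℝ) ≤
      2 * Real.exp 64 * n * pr Pb := by
  classical
  have hr0 : 0 < r := by omega
  have hrR : (4096 : ℝ) ≤ r := by exact_mod_cast hr
  have hrpos : (0 : ℝ) < r := by linarith only [hrR]
  have hlogr : 8 ≤ Real.log r := by
    have h1 : Real.log 4096 ≤ Real.log r := Real.log_le_log (by norm_num) hrR
    have h2 : Real.log 4096 = 12 * Real.log 2 := by
      rw [show (4096 : ℝ) = 2 ^ 12 by norm_num, Real.log_pow]; norm_num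
    have h3 := Real.log_two_gt_d9
    linarith only [h1, h2, h3]
  set y : ℝ := Real.log r / 16 + 2 with hy
  have hy2 : 2 ≤ y := by rw [hy]; linarith only [hlogr]
  set Pz := Pb.filter (fun p : ℕ => (p : ℝ) ≤ y) with hPz
  set M : ℕ := ∏ p ∈ Pz, p with hM
  have hPzp : ∀ p ∈ Pz, p.Prime := fun p hp => (h₂ p (mem_filter.mp hp).1).1
  have hM0 : 0 < M := prod_pos fun p hp => (hPzp p hp).pos
  have hM0R : (0 : ℝ) < M := by exact_mod_cast hM0
  -- size of `M`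
  have hM1 : (M : ℝ) ≤ n := by
    have h1 : M ≤ primorial ⌊y⌋₊ := by
      rw [primorial, hM]
      apply prod_le_prod_of_subset_of_one_le'
      · intro p hp
        rw [mem_filter, mem_range]
        refine ⟨?_, hPzp p hp⟩
        have := (mem_filter.mp hp).2
        have h3 : p ≤ ⌊y⌋₊ := Nat.le_floor this
        omega
      · intro p hp _
        exact (mem_filter.mp hp).2.one_lt.le
    have h2 : M ≤ 4 ^ ⌊y⌋₊ := h1.trans (primorial_le_four_pow _)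
    have h3 : (M : ℝ) ≤ (4 : ℝ) ^ (⌊y⌋₊ : ℝ) := by
      rw [Real.rpow_natCast]; exact_mod_cast h2
    have h4 : (4 : ℝ) ^ (⌊y⌋₊ : ℝ) ≤ (4 : ℝ) ^ y :=
      Real.rpow_le_rpow_of_exponent_le (by norm_num) (Nat.floor_le (by linarith only [hlogr, hy]))
    have h5 : (4 : ℝ) ^ y = Real.exp (Real.log 4 * y) := Real.rpow_def_of_pos (by norm_num) _
    have h6 : Real.log 4 ≤ 1.4 := by
      have e : Real.log 4 = 2 * Real.log 2 := by
        rw [show (4 : ℝ) = 2 ^ 2 by norm_num, Real.log_pow]; norm_num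
      rw [e]
      have := Real.log_two_lt_d9
      linarith only [this]
    have h7 : Real.log 4 * y ≤ Real.log r / 2 := by
      calc Real.log 4 * y ≤ 1.4 * y := mul_le_mul_of_nonneg_right h6 (by linarith only [hlogr, hy])
        _ ≤ Real.log r / 2 := by rw [hy]; linarith only [hlogr]
    have h8 : Real.exp (Real.log r / 2) = Real.sqrt r := by
      rw [Real.sqrt_eq_rpow, Real.rpow_def_of_pos hrpos]
      congr 1; ring
    calc (M : ℝ) ≤ Real.exp (Real.log 4 * y) := by rw [← h5]; exact h3.trans h4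
      _ ≤ Real.exp (Real.log r / 2) := Real.exp_le_exp.mpr h7
      _ = Real.sqrt r := h8
      _ ≤ n := hn
  have hcopB : IsCoprime (B : ℤ) ((1 * M : ℕ) : ℤ) := by
    rw [one_mul, Nat.isCoprime_iff_coprime, hM]
    apply Nat.Coprime.prod_right
    intro p hp
    have h3 := h₂ p (mem_filter.mp hp).1
    exact ((Nat.Prime.coprime_iff_not_dvd h3.1).mpr h3.2.2).symm
  have hT := (count_T (B : ℤ) A 1 M one_pos hM0 (Nat.coprime_one_left M) hcopB s n).2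
  have hsub : (Ico s (s + n)).filter (fun be : ℤ => ∀ p ∈ Pb, ¬ (p : ℤ) ∣ be * (B : ℤ) + A) ⊆
      (Ico s (s + n)).filter (fun al : ℤ => ((1 : ℕ) : ℤ) ∣ al * B + A ∧
        IsCoprime (al * B + A) (M : ℤ)) := by
    intro be hbe
    rw [mem_filter] at hbe ⊢
    refine ⟨hbe.1, by simp, ?_⟩
    rw [hM]
    push_cast
    apply IsCoprime.prod_right
    intro p hp
    have hpp := hPzp p hp
    have := (Nat.prime_iff_prime_int.mp hpp).coprime_iff_not_dvd.mpr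
      (hbe.2 p (mem_filter.mp hp).1)
    exact this.symm
  have hcard : (((Ico s (s + n)).filter
      (fun be : ℤ => ∀ p ∈ Pb, ¬ (p : ℤ) ∣ be * (B : ℤ) + A)).card : ℝ) ≤
      (((Ico s (s + n)).filter (fun al : ℤ => ((1 : ℕ) : ℤ) ∣ al * B + A ∧
        IsCoprime (al * B + A) (M : ℤ))).card : ℝ) := by
    exact_mod_cast card_le_card hsub
  have hTe : (((Ico s (s + n)).filter (fun al : ℤ => ((1 : ℕ) : ℤ) ∣ al * B + A ∧
        IsCoprime (al * B + A) (M : ℤ))).card : ℝ) ≤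
        ((n : ℝ) / ((1 : ℕ) * M) + 1) * M.totient := by
    convert hT
  have hφ : (M.totient : ℝ) = M * pr Pz := by
    have h1 := bt_totient_div_eq hM0
    have h2 : M.primeFactors = Pz := by
      rw [hM]
      exact Nat.primeFactors_prod hPzp
    rw [h2] at h1
    rw [div_eq_iff hM0R.ne'] at h1
    rw [h1, pr]; ring
  -- large primes
  have hlarge : (pr (Pb.filter (fun p : ℕ => ¬ (p : ℝ) ≤ y)))⁻¹ ≤ Real.exp 64 := by
    have h1 := bs_prod_le_exp (Pb.filter (fun p : ℕ => ¬ (p : ℝ) ≤ y))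
      (fun p hp => (h₂ p (mem_filter.mp hp).1).1)
    rw [pr, ← prod_inv_distrib]
    refine h1.trans (Real.exp_le_exp.mpr ?_)
    have h2 := bs_sum_large hr0 hy2
    have h3 : ∑ p ∈ Pb.filter (fun p : ℕ => ¬ (p : ℝ) ≤ y), 1 / (p : ℝ) ≤
        ∑ p ∈ r.primeFactors.filter (fun p : ℕ => y < (p : ℝ)), 1 / (p : ℝ) := by
      apply sum_le_sum_of_subset_of_nonneg
      · intro p hp
        rw [mem_filter, not_le] at hp
        rw [mem_filter, Nat.mem_primeFactors]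
        exact ⟨⟨(h₂ p hp.1).1, (h₂ p hp.1).2.1, hr0.ne'⟩, hp.2⟩
      · intro p _ _
        positivity
    have h4 : 2 * Real.log r / y ≤ 32 := by
      rw [div_le_iff₀ (by linarith only [hlogr, hy]), hy]
      linarith only []
    linarith only [h2, h3, h4]
  have hprsplit : pr Pb = pr Pz * pr (Pb.filter (fun p : ℕ => ¬ (p : ℝ) ≤ y)) := by
    rw [pr, pr, pr, hPz, prod_filter_mul_prod_filter_not]
  have hbig0 : 0 < pr (Pb.filter (fun p : ℕ => ¬ (p : ℝ) ≤ y)) :=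
    kc_pr_pos _ (fun p hp => (h₂ p (mem_filter.mp hp).1).1)
  have hz0 : 0 < pr Pz := kc_pr_pos _ hPzp
  have hPzle : pr Pz ≤ Real.exp 64 * pr Pb := by
    rw [hprsplit]
    have h1 : 1 ≤ Real.exp 64 * pr (Pb.filter (fun p : ℕ => ¬ (p : ℝ) ≤ y)) := by
      rw [inv_le_iff_one_le_mul₀ hbig0] at hlarge
      exact hlarge
    calc pr Pz = pr Pz * 1 := (mul_one _).symm
      _ ≤ pr Pz * (Real.exp 64 * pr (Pb.filter (fun p : ℕ => ¬ (p : ℝ) ≤ y))) :=
          mul_le_mul_of_nonneg_left h1 hz0.le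
      _ = _ := by ring
  calc (((Ico s (s + n)).filter (fun be : ℤ => ∀ p ∈ Pb, ¬ (p : ℤ) ∣ be * (B : ℤ) + A)).card : ℝ)
      ≤ ((n : ℝ) / ((1 : ℕ) * M) + 1) * M.totient := hcard.trans hTe
    _ = ((n : ℝ) + M) * pr Pz := by
        rw [hφ]; field_simp; push_cast; ring
    _ ≤ (2 * n) * (Real.exp 64 * pr Pb) := by
        apply mul_le_mul (by linarith only [hM1]) hPzle hz0.le (by positivity)
    _ = _ := by ring

/-- pairs from different levels -/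
theorem cross_overlap : ∃ C > 0, ∃ Q₀ : ℕ, ∀ (γ : ℝ) (q r : ℕ) (α β : ℝ), Q₀ ≤ q → q ^ 6 ≤ r →
    0 < α → α ≤ 1 / 2 → 0 < β → β ≤ 1 / 2 → 1 / (q : ℝ) ^ 2 ≤ α → ∀ (B B' : ℕ) (A A' : ℤ)
    (Pa Pb : Finset ℕ), (∀ p ∈ Pa, p.Prime ∧ p ∣ q ∧ ¬ p ∣ B) →
    (∀ p ∈ Pb, p.Prime ∧ p ∣ r ∧ ¬ p ∣ B') →
    ∀ (P₁ P₂ : ℤ → Prop), (∀ al, P₁ al → ∀ p ∈ Pa, ¬ (p : ℤ) ∣ al * (B : ℤ) + A) →
    (∀ al, P₂ al → ∀ p ∈ Pb, ¬ (p : ℤ) ∣ al * (B' : ℤ) + A') →
    volume.real (GS γ q α P₁ ∩ GS γ r β P₂ ∩ Set.Ioc 0 1) ≤ C * (α * β) * pr Pa * pr Pb := by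
  classical
  refine ⟨40 * Real.exp 64, by positivity, 4, ?_⟩
  intro γ q r α β hq4 hqr hα hα2 hβ hβ2 hαq B B' A A' Pa Pb h₁ h₂ P₁ P₂ hP₁ hP₂
  have hq0 : 0 < q := by omega
  have hq0R : (0 : ℝ) < q := by exact_mod_cast hq0
  have hq4R : (4 : ℝ) ≤ q := by exact_mod_cast hq4
  have hr4096 : 4096 ≤ r := by
    have : 4 ^ 6 ≤ q ^ 6 := Nat.pow_le_pow_left hq4 6
    omega
  have hr0 : 0 < r := by omega
  have hr0R : (0 : ℝ) < r := by exact_mod_cast hr0
  have hqrR : ((q : ℝ) ^ 3) ^ 2 ≤ r := by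
    have : ((q ^ 6 : ℕ) : ℝ) ≤ r := by exact_mod_cast hqr
    push_cast at this
    have e : ((q : ℝ) ^ 3) ^ 2 = (q : ℝ) ^ 6 := by ring
    rw [e]
    exact this
  have hs3 : (q : ℝ) ^ 3 ≤ Real.sqrt r := Real.le_sqrt_of_sq_le hqrR
  have hsq : Real.sqrt r * Real.sqrt r = r := Real.mul_self_sqrt hr0R.le
  have hsr1 : 1 ≤ Real.sqrt r := by
    have : (64 : ℝ) ≤ (q : ℝ) ^ 3 := by
      calc (64 : ℝ) = 4 ^ 3 := by norm_num
        _ ≤ (q : ℝ) ^ 3 := pow_le_pow_left₀ (by norm_num) hq4R 3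
    linarith only [hs3, this]
  set L : ℝ := r * α / q with hL
  have hLs : Real.sqrt r ≤ L := by
    rw [hL, le_div_iff₀ hq0R]
    have h1 : Real.sqrt r * q ^ 3 ≤ r := by
      calc Real.sqrt r * (q : ℝ) ^ 3 ≤ Real.sqrt r * Real.sqrt r :=
            mul_le_mul_of_nonneg_left hs3 (by linarith only [hsr1])
        _ = r := hsq
    have h2 : (r : ℝ) * (1 / (q : ℝ) ^ 2) ≤ r * α := mul_le_mul_of_nonneg_left hαq hr0R.le
    have h3 : Real.sqrt r * q = Real.sqrt r * q ^ 3 * (1 / (q : ℝ) ^ 2) := by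
      field_simp
    rw [h3]
    refine le_trans ?_ h2
    exact mul_le_mul_of_nonneg_right h1 (by positivity)
  set n : ℕ := ⌈2 * L⌉₊ + 2 with hn
  have hn1 : 2 * L + 2 ≤ n := by
    rw [hn]; push_cast
    linarith only [Nat.le_ceil (2 * L)]
  have hn2 : (n : ℝ) ≤ 5 * L := by
    rw [hn]; push_cast
    have := Nat.ceil_lt_add_one (show 0 ≤ 2 * L by linarith only [hsr1, hLs])
    linarith only [hsr1, hLs, this]
  -- windows
  set t₀ : ℤ := ⌊-γ - 1 / 2⌋ + 1 with ht₀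
  set T₁ : Finset ℤ := (Ico t₀ (t₀ + ((2 * q : ℕ) : ℤ))).filter
    (fun al => ∀ p ∈ Pa, ¬ (p : ℤ) ∣ al * (B : ℤ) + A) with hT₁
  set s : ℤ → ℤ := fun al => ⌊(r : ℝ) * ((al + γ) / q) - γ - (L + 1 / 2)⌋ + 1 with hs
  set T₂ : ℤ → Finset ℤ := fun al => (Ico (s al) (s al + n)).filter
    (fun be : ℤ => ∀ p ∈ Pb, ¬ (p : ℤ) ∣ be * (B' : ℤ) + A') with hT₂
  have hcard1 : (T₁.card : ℝ) ≤ 2 * q * pr Pa := by
    have hc1 : ∀ p : ℕ, ∃ c : ℤ, p ∈ Pa → (p : ℤ) ∣ (B : ℤ) * c + A := by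
      intro p
      by_cases hp : p ∈ Pa
      · obtain ⟨hpp, _, hpB⟩ := h₁ p hp
        obtain ⟨c, hc⟩ := ko_exists_root hpp (m := (B : ℤ)) (by exact_mod_cast hpB) A
        exact ⟨c, fun _ => hc⟩
      · exact ⟨0, fun h => absurd h hp⟩
    choose c₁ hc₁ using hc1
    have hcc := count_classes (2 * q) (by omega) Pa ∅
      (fun p hp => ⟨(h₁ p hp).1, Dvd.dvd.mul_left (h₁ p hp).2.1 2⟩)
      (fun p hp => absurd hp (notMem_empty _)) c₁ (fun _ => 0) t₀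
    have hsub : T₁ ⊆ (Ico t₀ (t₀ + ((2 * q : ℕ) : ℤ))).filter
        (fun t => (∀ p ∈ Pa, ¬ (p : ℤ) ∣ t - c₁ p) ∧
          (∀ p ∈ (∅ : Finset ℕ), ¬ (p : ℤ) ∣ t - (fun _ => 0 : ℕ → ℤ) p)) := by
      intro t ht
      rw [hT₁, mem_filter] at ht
      rw [mem_filter]
      refine ⟨ht.1, ?_, fun p hp => absurd hp (notMem_empty _)⟩
      intro p hp hdiv
      apply ht.2 p hp
      have e : t * (B : ℤ) + A = ((B : ℤ) * c₁ p + A) + (t - c₁ p) * B := by ring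
      rw [e]
      exact dvd_add (hc₁ p hp) (Dvd.dvd.mul_right hdiv _)
    have h3 : (T₁.card : ℝ) ≤ (((Ico t₀ (t₀ + ((2 * q : ℕ) : ℤ))).filter
        (fun t => (∀ p ∈ Pa, ¬ (p : ℤ) ∣ t - c₁ p) ∧
          (∀ p ∈ (∅ : Finset ℕ), ¬ (p : ℤ) ∣ t - (fun _ => 0 : ℕ → ℤ) p))).card : ℝ) := by
      exact_mod_cast card_le_card hsub
    refine h3.trans (le_trans (le_of_eq ?_) (hcc.trans (le_of_eq ?_)))
    · congr!
    · simp [pr]
  have hcard2 : ∀ al, ((T₂ al).card : ℝ) ≤ 2 * Real.exp 64 * n * pr Pb := by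
    intro al
    have := kc_count B' A' r hr4096 Pb h₂ (s al) n (by linarith only [hLs, hn1])
    refine le_trans (le_of_eq ?_) this
    congr!
  have hsub : GS γ q α P₁ ∩ GS γ r β P₂ ∩ Set.Ioc 0 1 ⊆
      ⋃ al ∈ T₁, ⋃ be ∈ T₂ al, {x : ℝ | |(r : ℝ) * x - γ - be| < β} := by
    rintro x ⟨⟨⟨al, hal, hx1⟩, ⟨be, hbe, hx2⟩⟩, hx3, hx4⟩
    simp only [Set.mem_iUnion]
    rw [abs_lt] at hx1
    have hx2' := abs_lt.mp hx2
    have hqx : 0 < (q : ℝ) * x := mul_pos hq0R hx3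
    have hqx2 : (q : ℝ) * x ≤ q := by nlinarith only [hx4]
    refine ⟨al, ?_, be, ?_, hx2⟩
    · rw [hT₁, mem_filter, mem_Ico]
      refine ⟨⟨?_, ?_⟩, hP₁ al hal⟩
      · rw [ht₀]
        have h3 : (⌊-γ - 1 / 2⌋ : ℤ) < al := by
          apply Int.floor_lt.mpr
          linarith only [hα2, hqx, hx1.2]
        omega
      · rw [ht₀]
        have h3 : (al : ℝ) < (⌊-γ - 1 / 2⌋ : ℤ) + 1 + 2 * q := by
          have := Int.lt_floor_add_one (-γ - 1 / 2)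
          linarith only [hα2, hq4R, hqx2, this, hx1.1]
        have h4 : al < ⌊-γ - 1 / 2⌋ + 1 + 2 * q := by exact_mod_cast h3
        push_cast
        linarith only [h4]
    · simp only [hT₂, mem_filter, mem_Ico]
      -- distance of `r x` from the centre
      have h5 : |(r : ℝ) * x - r * ((al + γ) / q)| ≤ L := by
        have e : (r : ℝ) * x - r * ((al + γ) / q) = r / q * (q * x - γ - al) := by
          field_simp; ring
        rw [e, abs_mul, abs_of_pos (by positivity)]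
        have h6 : |(q : ℝ) * x - γ - al| ≤ α := abs_le.mpr ⟨by linarith only [hx1.1], by linarith only [hx1.2]⟩
        calc (r : ℝ) / q * |(q : ℝ) * x - γ - al| ≤ r / q * α :=
              mul_le_mul_of_nonneg_left h6 (by positivity)
          _ = L := by rw [hL]; ring
      have h5' := abs_le.mp h5
      refine ⟨⟨?_, ?_⟩, hP₂ be hbe⟩
      · have h3 : (⌊(r : ℝ) * ((al + γ) / q) - γ - (L + 1 / 2)⌋ : ℤ) < be := by
          apply Int.floor_lt.mpr
          linarith only [hβ2, h5', hx2'.2]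
        simp only [hs]
        omega
      · have h3 : (be : ℝ) < (⌊(r : ℝ) * ((al + γ) / q) - γ - (L + 1 / 2)⌋ : ℤ) + 1 + n := by
          have := Int.lt_floor_add_one ((r : ℝ) * ((al + γ) / q) - γ - (L + 1 / 2))
          linarith only [hβ2, hn1, h5', this, hx2'.1]
        have h4 : be < ⌊(r : ℝ) * ((al + γ) / q) - γ - (L + 1 / 2)⌋ + 1 + n := by
          exact_mod_cast h3
        simp only [hs]
        exact h4
  have hK0 : 0 ≤ 2 * Real.exp 64 * n * pr Pb :=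
    mul_nonneg (by positivity) (pr_nonneg_of_prime _ fun p hp => (h₂ p hp).1)
  have hvol : volume (GS γ q α P₁ ∩ GS γ r β P₂ ∩ Set.Ioc 0 1) ≤
      ENNReal.ofReal (∑ al ∈ T₁, ((T₂ al).card : ℝ) * (2 * (β / r))) := by
    calc volume (GS γ q α P₁ ∩ GS γ r β P₂ ∩ Set.Ioc 0 1)
        ≤ volume (⋃ al ∈ T₁, ⋃ be ∈ T₂ al, {x : ℝ | |(r : ℝ) * x - γ - be| < β}) :=
          measure_mono hsub
      _ ≤ ∑ al ∈ T₁, volume (⋃ be ∈ T₂ al, {x : ℝ | |(r : ℝ) * x - γ - be| < β}) :=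
          measure_biUnion_finset_le _ _
      _ ≤ ∑ al ∈ T₁, ∑ be ∈ T₂ al, volume {x : ℝ | |(r : ℝ) * x - γ - be| < β} :=
          sum_le_sum fun k _ => measure_biUnion_finset_le _ _
      _ = ∑ al ∈ T₁, ∑ be ∈ T₂ al, ENNReal.ofReal (2 * (β / r)) := by
          simp only [ko_arc hr0]
      _ = ENNReal.ofReal (∑ al ∈ T₁, ((T₂ al).card : ℝ) * (2 * (β / r))) := by
          rw [ENNReal.ofReal_sum_of_nonneg (fun k _ => by (clear * - hβ hr4096; positivity))]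
          apply sum_congr rfl
          intro k _
          rw [sum_const, nsmul_eq_mul, ENNReal.ofReal_mul (Nat.cast_nonneg _),
            ENNReal.ofReal_natCast]
  have hreal : volume.real (GS γ q α P₁ ∩ GS γ r β P₂ ∩ Set.Ioc 0 1) ≤
      ∑ al ∈ T₁, ((T₂ al).card : ℝ) * (2 * (β / r)) :=
    ENNReal.toReal_le_of_le_ofReal (sum_nonneg fun k _ => by (clear * - hβ hr4096; positivity)) hvol
  have hpa : 0 ≤ pr Pa := pr_nonneg_of_prime _ fun p hp => (h₁ p hp).1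
  have hpb : 0 ≤ pr Pb := pr_nonneg_of_prime _ fun p hp => (h₂ p hp).1
  calc volume.real (GS γ q α P₁ ∩ GS γ r β P₂ ∩ Set.Ioc 0 1)
      ≤ ∑ al ∈ T₁, ((T₂ al).card : ℝ) * (2 * (β / r)) := hreal
    _ ≤ ∑ al ∈ T₁, (2 * Real.exp 64 * n * pr Pb) * (2 * (β / r)) :=
        sum_le_sum fun al _ => mul_le_mul_of_nonneg_right (hcard2 al) (by positivity)
    _ = T₁.card * ((2 * Real.exp 64 * n * pr Pb) * (2 * (β / r))) := by
        rw [sum_const, nsmul_eq_mul]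
    _ ≤ (2 * q * pr Pa) * ((2 * Real.exp 64 * (5 * L) * pr Pb) * (2 * (β / r))) := by
        apply mul_le_mul hcard1 _ (by positivity) (by positivity)
        apply mul_le_mul_of_nonneg_right _ (by positivity)
        apply mul_le_mul_of_nonneg_right _ hpb
        apply mul_le_mul_of_nonneg_left hn2 (by positivity)
    _ = 40 * Real.exp 64 * (α * β) * pr Pa * pr Pb := by
        rw [hL]; field_simp; ring

end Vale.P028
end

section

/-!
# Sheets: measure of the intersection of two sifted sets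
-/

namespace Vale.P028

open Finset MeasureTheory

theorem bp_Dpr_eq (q r : ℕ) (hq : 0 < q) (ρ₁ ρ₂ : ℝ) :
    Dpr (cofac q r) (cofac r q) ρ₁ ρ₂ = DD q r ρ₁ ρ₂ := by
  rw [DD_eq q r hq, Dpr]
  unfold cofac
  rw [Nat.gcd_comm r q]

theorem bp_one_sub {p : ℕ} (hp : p.Prime) : (1 - 1 / (p : ℝ)) ≠ 0 := by
  have : (2 : ℝ) ≤ p := by exact_mod_cast hp.two_le
  have h2 : 1 / (p : ℝ) ≤ 1 / 2 := one_div_le_one_div_of_le (by norm_num) this
  intro h
  linarith only [h, h2]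

theorem bp_one_sub_nonneg {p : ℕ} (hp : p.Prime) : 0 ≤ (1 - 1 / (p : ℝ)) := by
  have : (2 : ℝ) ≤ p := by exact_mod_cast hp.two_le
  have h2 : 1 / (p : ℝ) ≤ 1 / 2 := one_div_le_one_div_of_le (by norm_num) this
  linarith

theorem bp_totient {q : ℕ} (hq : 0 < q) :
    (q.totient : ℝ) / q = ∏ p ∈ q.primeFactors, (1 - 1 / (p : ℝ)) := by
  have h := Nat.totient_eq_mul_prod_factors q
  have h2 : (q.totient : ℝ) = q * ∏ p ∈ q.primeFactors, (1 - ((p : ℝ))⁻¹) := by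
    have := congrArg (fun z : ℚ => (z : ℝ)) h
    push_cast at this
    exact this
  have hq0 : (q : ℝ) ≠ 0 := by exact_mod_cast hq.ne'
  rw [h2, mul_div_cancel_left₀ _ hq0]
  apply prod_congr rfl
  intro p _
  rw [one_div]

/-- splitting the local densities -/
theorem bp_split {q u B : ℕ} (hq : 0 < q) (hu : u ∣ q) :
    (q.totient : ℝ) / q = cB q B *
      (pr ((q.primeFactors.filter (fun p => ¬ p ∣ B)).filter (fun p => ¬ p ∣ u)) *
        pr (u.primeFactors.filter (fun p => ¬ p ∣ B))) := by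
  have e1 : u.primeFactors.filter (fun p => ¬ p ∣ B) =
      (q.primeFactors.filter (fun p => ¬ p ∣ B)).filter (fun p => ¬ ¬ p ∣ u) := by
    ext p
    simp only [mem_filter, Nat.mem_primeFactors, not_not]
    have hu0 : u ≠ 0 := fun h => by rw [h] at hu; exact hq.ne' (zero_dvd_iff.mp hu)
    constructor
    · rintro ⟨⟨h1, h2, _⟩, h3⟩
      exact ⟨⟨⟨h1, h2.trans hu, hq.ne'⟩, h3⟩, h2⟩
    · rintro ⟨⟨⟨h1, _, _⟩, h3⟩, h4⟩
      exact ⟨⟨h1, h4, hu0⟩, h3⟩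
  rw [bp_totient hq, e1, pr, pr, prod_filter_mul_prod_filter_not, cB,
    prod_filter_mul_prod_filter_not]

open Classical in
/-- measure of the intersection, sheet by sheet, with the exact local densities. -/
theorem PV (γ ρ₁ ρ₂ : ℝ) (hρ₁ : 0 < ρ₁) (hρ₂ : 0 < ρ₂) (q r : ℕ) (hq : 0 < q) (hr : 0 < r)
    (B₁ B₂ : ℕ) (A₁ A₂ : ℤ) (hB₁ : 0 < B₁) (hB₂ : 0 < B₂) (h₁ : IsCoprime (B₁ : ℤ) A₁)
    (h₂ : IsCoprime (B₂ : ℤ) A₂) :
    cB q B₁ * cB r B₂ * volume.real (GB γ ρ₁ q B₁ A₁ ∩ GB γ ρ₂ r B₂ A₂ ∩ Set.Icc 0 1) ≤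
      2 * (((q.totient : ℝ) / q) * ρ₁) * (((r.totient : ℝ) / r) * ρ₂) /
        Dpr (cofac q r) (cofac r q) ρ₁ ρ₂ *
        ∑ t ∈ sheets γ (cofac q r) (cofac r q) (Dpr (cofac q r) (cofac r q) ρ₁ ρ₂),
          Kt (Nat.gcd q r) (cofac q r) (cofac r q) B₁ A₁ B₂ A₂ t := by
  have hg : 0 < Nat.gcd q r := Nat.gcd_pos_of_pos_left _ hq
  have hg0 : (0 : ℝ) < Nat.gcd q r := by exact_mod_cast hg
  have ha : 0 < cofac q r := cofac_pos r hq
  have hb : 0 < cofac r q := cofac_pos q hr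
  have haR : (0 : ℝ) < cofac q r := by exact_mod_cast ha
  have hbR : (0 : ℝ) < cofac r q := by exact_mod_cast hb
  have hcop : Nat.Coprime (cofac q r) (cofac r q) := cofac_coprime hq
  have haq : cofac q r ∣ q := cofac_dvd q r
  have hbr : cofac r q ∣ r := cofac_dvd r q
  have hDe := bp_Dpr_eq q r hq ρ₁ ρ₂
  have hqe : Nat.gcd q r * cofac q r = q := gcd_mul_cofac q r
  have hre : Nat.gcd q r * cofac r q = r := by
    have := gcd_mul_cofac r q
    rwa [Nat.gcd_comm r q] at this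
  have hD0 : 0 < DD q r ρ₁ ρ₂ := by
    have hrR : (0 : ℝ) < r := by exact_mod_cast hr
    rw [DD]
    apply div_pos _ hg0
    exact lt_max_of_lt_left (mul_pos hrR hρ₁)
  rw [hDe]
  set u := cofac q r with hu
  set v := cofac r q with hv
  set D := DD q r ρ₁ ρ₂ with hD
  set Pa := q.primeFactors.filter (fun p => ¬ p ∣ B₁) with hPa
  set Pb := r.primeFactors.filter (fun p => ¬ p ∣ B₂) with hPb
  set Ks := (sheets γ u v D).filter (fun t =>
    (∀ p ∈ u.primeFactors, ¬ p ∣ B₁ → ¬ (p : ℤ) ∣ B₁ * t + v * A₁) ∧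
      (∀ p ∈ v.primeFactors, ¬ p ∣ B₂ → ¬ (p : ℤ) ∣ B₂ * t - u * A₂)) with hKs
  have hP1 : ∀ al : ℤ, Int.gcd (al * B₁ + A₁) q = 1 → ∀ p ∈ Pa,
      ¬ (p : ℤ) ∣ al * (B₁ : ℤ) + A₁ := by
    intro al hal p hp hdiv
    rw [hPa, mem_filter, Nat.mem_primeFactors] at hp
    have h3 : (p : ℤ) ∣ (Int.gcd (al * B₁ + A₁) q : ℤ) :=
      Int.dvd_coe_gcd hdiv (by exact_mod_cast hp.1.2.1)
    rw [hal] at h3
    have h4 : p ∣ 1 := by exact_mod_cast h3
    exact hp.1.1.one_lt.ne' (Nat.dvd_one.mp h4)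
  have hP2 : ∀ al : ℤ, Int.gcd (al * B₂ + A₂) r = 1 → ∀ p ∈ Pb,
      ¬ (p : ℤ) ∣ al * (B₂ : ℤ) + A₂ := by
    intro al hal p hp hdiv
    rw [hPb, mem_filter, Nat.mem_primeFactors] at hp
    have h3 : (p : ℤ) ∣ (Int.gcd (al * B₂ + A₂) r : ℤ) :=
      Int.dvd_coe_gcd hdiv (by exact_mod_cast hp.1.2.1)
    rw [hal] at h3
    have h4 : p ∣ 1 := by exact_mod_cast h3
    exact hp.1.1.one_lt.ne' (Nat.dvd_one.mp h4)
  have hover := overlap_gen γ q r hq hr ρ₁ ρ₂ hρ₁ hρ₂ B₁ B₂ A₁ A₂ Pa Pb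
    (fun p hp => by
      rw [hPa, mem_filter, Nat.mem_primeFactors] at hp
      exact ⟨hp.1.1, hp.1.2.1, hp.2⟩)
    (fun p hp => by
      rw [hPb, mem_filter, Nat.mem_primeFactors] at hp
      exact ⟨hp.1.1, hp.1.2.1, hp.2⟩)
    (fun al => Int.gcd (al * B₁ + A₁) q = 1) (fun al => Int.gcd (al * B₂ + A₂) r = 1)
    hP1 hP2 Ks (by
      intro al be hal hbe hclose
      rw [← hu, ← hv] at hclose
      have hle : (v : ℝ) * ρ₁ + u * ρ₂ ≤ 2 * D := by
        rw [← hDe, Dpr]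
        have k1 := le_max_left ((v : ℝ) * ρ₁) ((u : ℝ) * ρ₂)
        have k2 := le_max_right ((v : ℝ) * ρ₁) ((u : ℝ) * ρ₂)
        linarith only [k1, k2]
      have hlt : |((al * (v : ℤ) - be * (u : ℤ) : ℤ) : ℝ) - ((u : ℝ) - v) * γ| < 2 * D := by
        have e : ((al * (v : ℤ) - be * (u : ℤ) : ℤ) : ℝ) - ((u : ℝ) - v) * γ =
            ((al : ℝ) + γ) * v - ((be : ℝ) + γ) * u := by push_cast; ring
        rw [e]
        linarith only [hclose, hle]
      rw [hKs, mem_filter, sheets, mem_filter, mem_Icc]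
      have hlt' := abs_lt.mp hlt
      refine ⟨⟨⟨?_, ?_⟩, hlt⟩, ?_, ?_⟩
      · apply Int.floor_le_iff.mpr
        linarith only [hlt'.1]
      · apply Int.le_ceil_iff.mpr
        linarith only [hlt'.2]
      · intro p hp hpB hdiv
        rw [Nat.mem_primeFactors] at hp
        have hpv : ¬ p ∣ v := fun h => by
          have := Nat.dvd_gcd hp.2.1 h
          rw [hcop] at this
          exact hp.1.one_lt.ne' (Nat.dvd_one.mp this)
        have e : (B₁ : ℤ) * (al * v - be * u) + v * A₁ =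
            v * (al * B₁ + A₁) - u * (be * B₁) := by ring
        rw [e] at hdiv
        have hpu : (p : ℤ) ∣ u := by exact_mod_cast hp.2.1
        have h3 : (p : ℤ) ∣ v * (al * B₁ + A₁) := by
          have := dvd_add hdiv (Dvd.dvd.mul_right hpu (be * B₁))
          simpa only [sub_add_cancel] using this
        rcases (Nat.prime_iff_prime_int.mp hp.1).dvd_or_dvd h3 with h4 | h4
        · exact hpv (by exact_mod_cast h4)
        · apply hP1 al hal p _ h4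
          rw [hPa, mem_filter, Nat.mem_primeFactors]
          exact ⟨⟨hp.1, hp.2.1.trans haq, hq.ne'⟩, hpB⟩
      · intro p hp hpB hdiv
        rw [Nat.mem_primeFactors] at hp
        have hpv : ¬ p ∣ u := fun h => by
          have := Nat.dvd_gcd h hp.2.1
          rw [hcop] at this
          exact hp.1.one_lt.ne' (Nat.dvd_one.mp this)
        have e : (B₂ : ℤ) * (al * v - be * u) - u * A₂ =
            v * (al * B₂) - u * (be * B₂ + A₂) := by ring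
        rw [e] at hdiv
        have hpu : (p : ℤ) ∣ v := by exact_mod_cast hp.2.1
        have h3 : (p : ℤ) ∣ u * (be * B₂ + A₂) := by
          have := dvd_sub (Dvd.dvd.mul_right hpu (al * B₂)) hdiv
          simpa only [sub_sub_cancel] using this
        rcases (Nat.prime_iff_prime_int.mp hp.1).dvd_or_dvd h3 with h4 | h4
        · exact hpv (by exact_mod_cast h4)
        · apply hP2 be hbe p _ h4
          rw [hPb, mem_filter, Nat.mem_primeFactors]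
          exact ⟨⟨hp.1, hp.2.1.trans hbr, hr.ne'⟩, hpB⟩)
  have hIcc : volume.real (GB γ ρ₁ q B₁ A₁ ∩ GB γ ρ₂ r B₂ A₂ ∩ Set.Icc 0 1) =
      volume.real (GB γ ρ₁ q B₁ A₁ ∩ GB γ ρ₂ r B₂ A₂ ∩ Set.Ioc 0 1) := by
    rw [Measure.real, Measure.real]
    congr 1
    apply measure_congr
    exact (ae_eq_refl _).inter Ioc_ae_eq_Icc.symm
  have e1 := bp_split (B := B₁) hq haq
  have e2 := bp_split (B := B₂) hr hbr
  rw [← hPa] at e1
  rw [← hPb] at e2
  have hcB1 : 0 ≤ cB q B₁ := prod_nonneg fun p hp => bp_one_sub_nonneg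
    (Nat.prime_of_mem_primeFactors (mem_filter.mp hp).1)
  have hcB2 : 0 ≤ cB r B₂ := prod_nonneg fun p hp => bp_one_sub_nonneg
    (Nat.prime_of_mem_primeFactors (mem_filter.mp hp).1)
  have hpu : pr (u.primeFactors.filter (fun p => ¬ p ∣ B₁)) ≠ 0 := by
    rw [pr, prod_ne_zero_iff]
    intro p hp
    exact bp_one_sub (Nat.prime_of_mem_primeFactors (mem_filter.mp hp).1)
  have hpv : pr (v.primeFactors.filter (fun p => ¬ p ∣ B₂)) ≠ 0 := by
    rw [pr, prod_ne_zero_iff]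
    intro p hp
    exact bp_one_sub (Nat.prime_of_mem_primeFactors (mem_filter.mp hp).1)
  -- the sum over sheets
  have hKt : ∑ t ∈ sheets γ u v D, Kt (Nat.gcd q r) u v B₁ A₁ B₂ A₂ t =
      (pr (u.primeFactors.filter (fun p => ¬ p ∣ B₁)))⁻¹ *
      (pr (v.primeFactors.filter (fun p => ¬ p ∣ B₂)))⁻¹ *
      ∑ k ∈ Ks, (pr ((Pa ∩ Pb).filter (fun p : ℕ => ¬ p ∣ u ∧ ¬ p ∣ v ∧
          (p : ℤ) ∣ (B₁ : ℤ) * B₂ * k + (v : ℤ) * B₂ * A₁ - (u : ℤ) * B₁ * A₂)))⁻¹ := by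
    rw [hKs, sum_filter, mul_sum]
    apply sum_congr rfl
    intro t _
    unfold Kt
    split_ifs with hc
    · have e3 : (Nat.gcd q r).primeFactors.filter (fun p => ¬ p ∣ u ∧ ¬ p ∣ v ∧ ¬ p ∣ B₁ ∧
          ¬ p ∣ B₂ ∧ (p : ℤ) ∣ nt u v B₁ A₁ B₂ A₂ t) =
          (Pa ∩ Pb).filter (fun p : ℕ => ¬ p ∣ u ∧ ¬ p ∣ v ∧
          (p : ℤ) ∣ (B₁ : ℤ) * B₂ * t + (v : ℤ) * B₂ * A₁ - (u : ℤ) * B₁ * A₂) := by
        ext p
        have e4 : nt u v B₁ A₁ B₂ A₂ t =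
            (B₁ : ℤ) * B₂ * t + (v : ℤ) * B₂ * A₁ - (u : ℤ) * B₁ * A₂ := by
          unfold nt; ring
        simp only [mem_filter, mem_inter, hPa, hPb, Nat.mem_primeFactors, e4]
        constructor
        · rintro ⟨⟨k1, k2, k3⟩, k4, k5, k6, k7, k8⟩
          exact ⟨⟨⟨⟨k1, k2.trans (Nat.gcd_dvd_left _ _), hq.ne'⟩, k6⟩,
            ⟨⟨k1, k2.trans (Nat.gcd_dvd_right _ _), hr.ne'⟩, k7⟩⟩, k4, k5, k8⟩
        · rintro ⟨⟨⟨⟨k1, k2, _⟩, k6⟩, ⟨⟨_, k3, _⟩, k7⟩⟩, k4, k5, k8⟩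
          exact ⟨⟨k1, Nat.dvd_gcd k2 k3, hg.ne'⟩, k4, k5, k6, k7, k8⟩
      rw [e3]
      unfold pr
      rw [prod_inv_distrib, prod_inv_distrib, prod_inv_distrib]
    · rw [mul_zero]
  rw [hKt, hIcc, e1, e2]
  have hfin : volume.real (GB γ ρ₁ q B₁ A₁ ∩ GB γ ρ₂ r B₂ A₂ ∩ Set.Ioc 0 1) ≤
      2 * (ρ₁ * ρ₂ / D) * pr (Pa.filter (fun p : ℕ => ¬ p ∣ u)) *
        pr (Pb.filter (fun p : ℕ => ¬ p ∣ v)) *
        ∑ k ∈ Ks, (pr ((Pa ∩ Pb).filter (fun p : ℕ => ¬ p ∣ u ∧ ¬ p ∣ v ∧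
          (p : ℤ) ∣ (B₁ : ℤ) * B₂ * k + (v : ℤ) * B₂ * A₁ -
            (u : ℤ) * B₁ * A₂)))⁻¹ := hover
  refine (mul_le_mul_of_nonneg_left hfin (mul_nonneg hcB1 hcB2)).trans (le_of_eq ?_)
  (clear * - hpu hpv hD0 hρ₂ hρ₁; field_simp)

/-- trivial bound. -/
theorem PV0 (γ ρ₁ ρ₂ : ℝ) (hρ₁ : 0 < ρ₁) (hρ₂ : 0 < ρ₂) (q r : ℕ) (hq : 0 < q) (hr : 0 < r)
    (B₁ B₂ : ℕ) (A₁ A₂ : ℤ) (hD : Dpr (cofac q r) (cofac r q) ρ₁ ρ₂ < 1 / 4) :
    volume.real (GB γ ρ₁ q B₁ A₁ ∩ GB γ ρ₂ r B₂ A₂ ∩ Set.Icc 0 1) ≤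
      2 * ρ₁ * ρ₂ / Dpr (cofac q r) (cofac r q) ρ₁ ρ₂ := by
  rw [bp_Dpr_eq q r hq] at hD ⊢
  have hg0 : (0 : ℝ) < Nat.gcd q r := by exact_mod_cast Nat.gcd_pos_of_pos_left _ hq
  have hD0 : 0 < DD q r ρ₁ ρ₂ := by
    have hrR : (0 : ℝ) < r := by exact_mod_cast hr
    rw [DD]
    apply div_pos _ hg0
    exact lt_max_of_lt_left (mul_pos hrR hρ₁)
  have hIcc : volume.real (GB γ ρ₁ q B₁ A₁ ∩ GB γ ρ₂ r B₂ A₂ ∩ Set.Icc 0 1) =
      volume.real (GB γ ρ₁ q B₁ A₁ ∩ GB γ ρ₂ r B₂ A₂ ∩ Set.Ioc 0 1) := by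
    rw [Measure.real, Measure.real]
    congr 1
    apply measure_congr
    exact (ae_eq_refl _).inter Ioc_ae_eq_Icc.symm
  rw [hIcc]
  have h1 := GS_inter_le γ q r ρ₁ ρ₂ (fun al => Int.gcd (al * B₁ + A₁) q = 1)
    (fun al => Int.gcd (al * B₂ + A₂) r = 1)
  have h2 := volume_inter_le_of_lt_quarter q r hq hr γ γ ρ₁ ρ₂ hρ₁.le hρ₂.le hD0 hD
  exact ENNReal.toReal_le_of_le_ofReal (by (clear * - hρ₁ hρ₂ hD0; positivity)) (h1.trans h2)

/-- the sheet is empty or (if `q = r`) trivial when the form vanishes. -/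
theorem Kt_eq_zero_of_nt (u v g B : ℕ) (A t : ℤ) (hB : 0 < B) (h : IsCoprime (B : ℤ) A)
    (huv : Nat.Coprime u v) (hu : 0 < u) (hv : 0 < v) (hne : u ≠ v)
    (hn : nt u v B A B A t = 0) : Kt g u v B A B A t = 0 := by
  unfold Kt
  rw [if_neg]
  rintro ⟨h1, h2⟩
  have hB0 : (B : ℤ) ≠ 0 := by exact_mod_cast hB.ne'
  have h3 : (B : ℤ) * t = (u - v) * A := by
    have e : nt u v B A B A t = B * (B * t - (u - v) * A) := by unfold nt; ring
    rw [e] at hn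
    rcases mul_eq_zero.mp hn with h4 | h4
    · exact absurd h4 hB0
    · linarith only [h4]
  have hdvd : (B : ℤ) ∣ u - v := by
    apply h.dvd_of_dvd_mul_right
    exact ⟨t, h3.symm⟩
  -- every prime factor of `u` divides `B`
  have hu1 : ∀ p ∈ u.primeFactors, p ∣ B := by
    intro p hp
    by_contra hpB
    apply h1 p hp hpB
    have e : (B : ℤ) * t + v * A = u * A := by linear_combination h3
    rw [e]
    exact Dvd.dvd.mul_right (by exact_mod_cast (Nat.mem_primeFactors.mp hp).2.1) _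
  have hv1 : ∀ p ∈ v.primeFactors, p ∣ B := by
    intro p hp
    by_contra hpB
    apply h2 p hp hpB
    have e : (B : ℤ) * t - u * A = -(v * A) := by linear_combination h3
    rw [e]
    exact (dvd_neg).mpr (Dvd.dvd.mul_right (by exact_mod_cast (Nat.mem_primeFactors.mp hp).2.1) _)
  have key : ∀ p : ℕ, p.Prime → p ∣ B → (p ∣ u ↔ p ∣ v) := by
    intro p _ hpB
    have h4 : (p : ℤ) ∣ (u : ℤ) - v := (by exact_mod_cast hpB : (p : ℤ) ∣ B).trans hdvd
    constructor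
    · intro h5
      have h6 : (p : ℤ) ∣ u := by exact_mod_cast h5
      have := dvd_sub h6 h4
      have e : (u : ℤ) - (u - v) = v := by ring
      rw [e] at this
      exact_mod_cast this
    · intro h5
      have h6 : (p : ℤ) ∣ v := by exact_mod_cast h5
      have := dvd_add h6 h4
      have e : (v : ℤ) + (u - v) = u := by ring
      rw [e] at this
      exact_mod_cast this
  have hu2 : u = 1 := by
    by_contra hu3
    obtain ⟨p, hp, hpu⟩ := Nat.exists_prime_and_dvd hu3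
    have hpB := hu1 p (Nat.mem_primeFactors.mpr ⟨hp, hpu, hu.ne'⟩)
    have hpv := (key p hp hpB).mp hpu
    have := Nat.dvd_gcd hpu hpv
    rw [huv] at this
    exact hp.one_lt.ne' (Nat.dvd_one.mp this)
  have hv2 : v = 1 := by
    by_contra hv3
    obtain ⟨p, hp, hpv⟩ := Nat.exists_prime_and_dvd hv3
    have hpB := hv1 p (Nat.mem_primeFactors.mpr ⟨hp, hpv, hv.ne'⟩)
    have hpu := (key p hp hpB).mpr hpv
    have := Nat.dvd_gcd hpu hpv
    rw [huv] at this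
    exact hp.one_lt.ne' (Nat.dvd_one.mp this)
  exact hne (hu2.trans hv2.symm)

theorem dvd_of_nt (u v B₁ B₂ : ℕ) (A₁ A₂ t : ℤ) (hB₁ : 0 < B₁) (_hB₂ : 0 < B₂)
    (h₂ : IsCoprime (B₂ : ℤ) A₂) (hn : nt u v B₁ A₁ B₂ A₂ t = 0) :
    B₂ / Nat.gcd B₁ B₂ ∣ u := by
  have h1 : (B₂ : ℤ) ∣ (u * B₁ : ℤ) * A₂ := by
    refine ⟨B₁ * t + v * A₁, ?_⟩
    unfold nt at hn
    linear_combination -hn
  have h2 : (B₂ : ℤ) ∣ (u * B₁ : ℤ) := h₂.dvd_of_dvd_mul_right h1
  have h3 : B₂ ∣ u * B₁ := by exact_mod_cast h2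
  have hg : 0 < Nat.gcd B₁ B₂ := Nat.gcd_pos_of_pos_left _ hB₁
  obtain ⟨b1, hb1⟩ := Nat.gcd_dvd_left B₁ B₂
  obtain ⟨b2, hb2⟩ := Nat.gcd_dvd_right B₁ B₂
  have hcop : Nat.Coprime b1 b2 := by
    have := Nat.coprime_div_gcd_div_gcd hg
    rw [Nat.div_eq_of_eq_mul_right hg hb1, Nat.div_eq_of_eq_mul_right hg hb2] at this
    exact this
  have e : B₂ / Nat.gcd B₁ B₂ = b2 := Nat.div_eq_of_eq_mul_right hg hb2
  rw [e]
  have h4 : Nat.gcd B₁ B₂ * b2 ∣ Nat.gcd B₁ B₂ * (u * b1) := by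
    have : Nat.gcd B₁ B₂ * (u * b1) = u * B₁ := by
      conv_rhs => rw [hb1]
      ring
    rw [this, ← hb2]
    exact h3
  have h5 : b2 ∣ u * b1 := Nat.dvd_of_mul_dvd_mul_left hg h4
  exact hcop.symm.dvd_of_dvd_mul_right h5

end Vale.P028
end

section

/-!
# Cost of the sheets (Theorem B)
-/

namespace Vale.P028

open Finset

theorem bc_one_sub_inv {p : ℕ} (hp : p.Prime) :
    0 < 1 - 1 / (p : ℝ) ∧ 1 ≤ (1 - 1 / (p : ℝ))⁻¹ := by
  have h2 : (2 : ℝ) ≤ p := by exact_mod_cast hp.two_le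
  have h1 : 1 / (p : ℝ) ≤ 1 / 2 := one_div_le_one_div_of_le (by norm_num) h2
  have h3 : 0 < 1 / (p : ℝ) := by positivity
  have h4 : 0 < 1 - 1 / (p : ℝ) := by linarith only [h1]
  exact ⟨h4, (one_le_inv₀ h4).2 (by linarith only [h3])⟩

/-- The product of `(1 - 1/p)⁻¹` over a finite set. -/
noncomputable def ip (s : Finset ℕ) : ℝ := ∏ p ∈ s, (1 - 1 / (p : ℝ))⁻¹

theorem ip_mono {s t : Finset ℕ} (hst : s ⊆ t) (ht : ∀ p ∈ t, p.Prime) : ip s ≤ ip t :=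
  prod_le_prod_of_subset_of_one_le hst
    (fun p hp => zero_le_one.trans (bc_one_sub_inv (ht p (hst hp))).2)
    (fun p hp _ => (bc_one_sub_inv (ht p hp)).2)

theorem one_le_ip {s : Finset ℕ} (hs : ∀ p ∈ s, p.Prime) : 1 ≤ ip s := by
  have := ip_mono (empty_subset s) hs
  simpa only [ip, one_div, prod_inv_distrib, ge_iff_le, prod_empty, inv_one] using this

theorem ip_nonneg {s : Finset ℕ} (hs : ∀ p ∈ s, p.Prime) : 0 ≤ ip s :=
  zero_le_one.trans (one_le_ip hs)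

theorem ip_split (s : Finset ℕ) (Q : ℕ → Prop) [DecidablePred Q] :
    ip s = ip (s.filter Q) * ip (s.filter fun p => ¬ Q p) := by
  unfold ip
  rw [prod_filter_mul_prod_filter_not]

theorem ip_filter_le {s : Finset ℕ} (hs : ∀ p ∈ s, p.Prime) (Q : ℕ → Prop) [DecidablePred Q] :
    ip (s.filter Q) ≤ ip s := ip_mono (filter_subset _ _) hs

theorem pf_prime (n : ℕ) : ∀ p ∈ n.primeFactors, p.Prime := fun _ hp => Nat.prime_of_mem_primeFactors hp

theorem pf_filter_prime (n : ℕ) (Q : ℕ → Prop) [DecidablePred Q] :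
    ∀ p ∈ n.primeFactors.filter Q, p.Prime := fun p hp => pf_prime n p (mem_filter.1 hp).1

/-- The three sets of primes in `Kt`. -/
theorem Kt_eq (g u v B₁ : ℕ) (A₁ : ℤ) (B₂ : ℕ) (A₂ t : ℤ)
    [Decidable ((∀ p ∈ u.primeFactors, ¬ p ∣ B₁ → ¬ (p : ℤ) ∣ B₁ * t + v * A₁) ∧
      (∀ p ∈ v.primeFactors, ¬ p ∣ B₂ → ¬ (p : ℤ) ∣ B₂ * t - u * A₂))] :
    Kt g u v B₁ A₁ B₂ A₂ t =
      if (∀ p ∈ u.primeFactors, ¬ p ∣ B₁ → ¬ (p : ℤ) ∣ B₁ * t + v * A₁) ∧
      (∀ p ∈ v.primeFactors, ¬ p ∣ B₂ → ¬ (p : ℤ) ∣ B₂ * t - u * A₂) then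
      ip (u.primeFactors.filter (fun p => ¬ p ∣ B₁)) *
      ip (v.primeFactors.filter (fun p => ¬ p ∣ B₂)) *
      ip (g.primeFactors.filter (fun p => ¬ p ∣ u ∧ ¬ p ∣ v ∧ ¬ p ∣ B₁ ∧ ¬ p ∣ B₂ ∧
        (p : ℤ) ∣ nt u v B₁ A₁ B₂ A₂ t)) else 0 := by
  unfold Kt ip
  congr

theorem Kt_le_three (g u v B₁ : ℕ) (A₁ : ℤ) (B₂ : ℕ) (A₂ t : ℤ)
    (hn : nt u v B₁ A₁ B₂ A₂ t ≠ 0) :
    Kt g u v B₁ A₁ B₂ A₂ t ≤ ip u.primeFactors * ip v.primeFactors *
      ip (nt u v B₁ A₁ B₂ A₂ t).natAbs.primeFactors := by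
  classical
  rw [Kt_eq]
  have h1 := ip_filter_le (pf_prime u) (fun p => ¬ p ∣ B₁)
  have h2 := ip_filter_le (pf_prime v) (fun p => ¬ p ∣ B₂)
  have h3 : ip (g.primeFactors.filter (fun p => ¬ p ∣ u ∧ ¬ p ∣ v ∧ ¬ p ∣ B₁ ∧ ¬ p ∣ B₂ ∧
        (p : ℤ) ∣ nt u v B₁ A₁ B₂ A₂ t)) ≤ ip (nt u v B₁ A₁ B₂ A₂ t).natAbs.primeFactors := by
    apply ip_mono _ (pf_prime _)
    intro p hp
    rw [mem_filter] at hp
    rw [Nat.mem_primeFactors]
    refine ⟨Nat.prime_of_mem_primeFactors hp.1, ?_, by simpa only [ne_eq, Int.natAbs_eq_zero] using hn⟩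
    exact Int.natCast_dvd.1 hp.2.2.2.2.2
  have p1 := ip_nonneg (pf_prime u)
  have p2 := ip_nonneg (pf_prime v)
  have p3 := ip_nonneg (pf_prime (nt u v B₁ A₁ B₂ A₂ t).natAbs)
  have q1 := ip_nonneg (pf_filter_prime u (fun p => ¬ p ∣ B₁))
  have q2 := ip_nonneg (pf_filter_prime v (fun p => ¬ p ∣ B₂))
  split_ifs
  · exact mul_le_mul (mul_le_mul h1 h2 q2 p1) h3 (ip_nonneg (pf_filter_prime _ _))
      (mul_nonneg p1 p2)
  · (clear * - p1 p2 p3; positivity)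

/-- trivial bound of the cost -/
theorem Kt_le_totient (q r : ℕ) (hq : 0 < q) (hr : 0 < r) (B₁ : ℕ) (A₁ : ℤ) (B₂ : ℕ)
    (A₂ t : ℤ) :
    Kt (Nat.gcd q r) (cofac q r) (cofac r q) B₁ A₁ B₂ A₂ t ≤ ip q.primeFactors * ip r.primeFactors := by
  classical
  rw [Kt_eq]
  have hgq : Nat.gcd q r ∣ q := Nat.gcd_dvd_left q r
  have huq : cofac q r ∣ q := Nat.div_dvd_of_dvd hgq
  have hvr : cofac r q ∣ r := Nat.div_dvd_of_dvd (Nat.gcd_dvd_left r q)
  set u := cofac q r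
  set v := cofac r q
  set g := Nat.gcd q r
  have h1 : ip (u.primeFactors.filter (fun p => ¬ p ∣ B₁)) *
      ip (g.primeFactors.filter (fun p => ¬ p ∣ u ∧ ¬ p ∣ v ∧ ¬ p ∣ B₁ ∧ ¬ p ∣ B₂ ∧
        (p : ℤ) ∣ nt u v B₁ A₁ B₂ A₂ t)) ≤ ip q.primeFactors := by
    have hdisj : Disjoint (u.primeFactors.filter (fun p => ¬ p ∣ B₁))
        (g.primeFactors.filter (fun p => ¬ p ∣ u ∧ ¬ p ∣ v ∧ ¬ p ∣ B₁ ∧ ¬ p ∣ B₂ ∧
        (p : ℤ) ∣ nt u v B₁ A₁ B₂ A₂ t)) := by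
      rw [Finset.disjoint_left]
      intro p hp hp'
      rw [mem_filter] at hp hp'
      exact hp'.2.1 (Nat.dvd_of_mem_primeFactors hp.1)
    unfold ip
    rw [← prod_union hdisj]
    apply ip_mono _ (pf_prime q)
    apply union_subset
    · exact (filter_subset _ _).trans (Nat.primeFactors_mono huq hq.ne')
    · exact (filter_subset _ _).trans (Nat.primeFactors_mono hgq hq.ne')
  have h2 : ip (v.primeFactors.filter (fun p => ¬ p ∣ B₂)) ≤ ip r.primeFactors :=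
    ip_mono ((filter_subset _ _).trans (Nat.primeFactors_mono hvr hr.ne')) (pf_prime r)
  have p1 := ip_nonneg (pf_prime q)
  have p2 := ip_nonneg (pf_prime r)
  split_ifs
  · have h3 := mul_le_mul h1 h2 (ip_nonneg (pf_filter_prime _ _)) p1
    refine le_trans (le_of_eq ?_) h3
    ring
  · exact mul_nonneg p1 p2

/-- the class of a linear form -/
theorem exists_class {p : ℕ} (hp : p.Prime) (m w : ℤ) (hm : ¬ (p : ℤ) ∣ m) :
    ∃ c : ℤ, ∀ t : ℤ, (p : ℤ) ∣ m * t + w ↔ (p : ℤ) ∣ t - c := by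
  have hpi : Prime (p : ℤ) := Nat.prime_iff_prime_int.1 hp
  have hco : IsCoprime m (p : ℤ) := (hpi.coprime_iff_not_dvd.2 hm).symm
  obtain ⟨a, b, hab⟩ := hco
  refine ⟨-(w * a), fun t => ?_⟩
  constructor
  · intro h
    have h1 : (p : ℤ) ∣ a * (m * t + w) + b * p * t := dvd_add (h.mul_left a) ⟨b * t, by ring⟩
    have e : a * (m * t + w) + b * p * t = t - -(w * a) := by
      linear_combination t * hab
    rwa [e] at h1
  · intro h
    have h1 : (p : ℤ) ∣ m * (t - -(w * a)) + b * p * w := dvd_add (h.mul_left m) ⟨b * w, by ring⟩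
    have e : m * (t - -(w * a)) + b * p * w = m * t + w := by
      linear_combination w * hab
    rwa [e] at h1


open Classical in
/-- the cost, after removing the primes larger than `D` -/
theorem Kt_le_small (g u v B₁ : ℕ) (A₁ : ℤ) (B₂ : ℕ) (A₂ t : ℤ) (D K : ℝ)
    (hK1 : 1 ≤ K)
    (hu : ip (u.primeFactors.filter (fun p : ℕ => D < p)) ≤ K)
    (hv : ip (v.primeFactors.filter (fun p : ℕ => D < p)) ≤ K)
    (hn0 : nt u v B₁ A₁ B₂ A₂ t ≠ 0)
    (hn : ip ((nt u v B₁ A₁ B₂ A₂ t).natAbs.primeFactors.filter (fun p : ℕ => D < p)) ≤ K) :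
    Kt g u v B₁ A₁ B₂ A₂ t ≤ K ^ 3 *
      (ip (u.primeFactors.filter (fun p => ¬ p ∣ B₁ ∧ (p : ℝ) ≤ D)) *
      ip (v.primeFactors.filter (fun p => ¬ p ∣ B₂ ∧ (p : ℝ) ≤ D))) *
      (if (∀ p ∈ u.primeFactors.filter (fun p => ¬ p ∣ B₁ ∧ (p : ℝ) ≤ D),
          ¬ (p : ℤ) ∣ B₁ * t + v * A₁) ∧
        (∀ p ∈ v.primeFactors.filter (fun p => ¬ p ∣ B₂ ∧ (p : ℝ) ≤ D),
          ¬ (p : ℤ) ∣ B₂ * t - u * A₂) then
        ip (g.primeFactors.filter (fun p => (¬ p ∣ u ∧ ¬ p ∣ v ∧ ¬ p ∣ B₁ ∧ ¬ p ∣ B₂ ∧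
          (p : ℝ) ≤ D) ∧ (p : ℤ) ∣ nt u v B₁ A₁ B₂ A₂ t)) else 0) := by
  rw [Kt_eq]
  set n := nt u v B₁ A₁ B₂ A₂ t with hndef
  have hK0 : 0 ≤ K := zero_le_one.trans hK1
  have e1 : ip (u.primeFactors.filter (fun p => ¬ p ∣ B₁)) ≤
      K * ip (u.primeFactors.filter (fun p => ¬ p ∣ B₁ ∧ (p : ℝ) ≤ D)) := by
    rw [ip_split _ (fun p : ℕ => (p : ℝ) ≤ D), mul_comm]
    rw [filter_filter, filter_filter]
    apply mul_le_mul_of_nonneg_right _ (ip_nonneg (pf_filter_prime _ _))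
    refine le_trans (ip_mono ?_ (pf_filter_prime _ _)) hu
    intro p hp
    rw [mem_filter] at hp ⊢
    exact ⟨hp.1, not_le.1 hp.2.2⟩
  have e2 : ip (v.primeFactors.filter (fun p => ¬ p ∣ B₂)) ≤
      K * ip (v.primeFactors.filter (fun p => ¬ p ∣ B₂ ∧ (p : ℝ) ≤ D)) := by
    rw [ip_split _ (fun p : ℕ => (p : ℝ) ≤ D), mul_comm]
    rw [filter_filter, filter_filter]
    apply mul_le_mul_of_nonneg_right _ (ip_nonneg (pf_filter_prime _ _))
    refine le_trans (ip_mono ?_ (pf_filter_prime _ _)) hv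
    intro p hp
    rw [mem_filter] at hp ⊢
    exact ⟨hp.1, not_le.1 hp.2.2⟩
  have e3 : ip (g.primeFactors.filter (fun p => ¬ p ∣ u ∧ ¬ p ∣ v ∧ ¬ p ∣ B₁ ∧ ¬ p ∣ B₂ ∧
        (p : ℤ) ∣ n)) ≤
      K * ip (g.primeFactors.filter (fun p => (¬ p ∣ u ∧ ¬ p ∣ v ∧ ¬ p ∣ B₁ ∧ ¬ p ∣ B₂ ∧
          (p : ℝ) ≤ D) ∧ (p : ℤ) ∣ n)) := by
    rw [ip_split _ (fun p : ℕ => (p : ℝ) ≤ D), mul_comm]
    rw [filter_filter, filter_filter]
    apply mul_le_mul _ _ (ip_nonneg (pf_filter_prime _ _)) hK0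
    · refine le_trans (ip_mono ?_ (pf_filter_prime _ _)) hn
      intro p hp
      rw [mem_filter] at hp ⊢
      refine ⟨?_, not_le.1 hp.2.2⟩
      rw [Nat.mem_primeFactors]
      exact ⟨Nat.prime_of_mem_primeFactors hp.1, Int.natCast_dvd.1 hp.2.1.2.2.2.2, by simpa using hn0⟩
    · apply ip_mono _ (pf_filter_prime _ _)
      intro p hp
      rw [mem_filter] at hp ⊢
      exact ⟨hp.1, ⟨hp.2.1.1, hp.2.1.2.1, hp.2.1.2.2.1, hp.2.1.2.2.2.1, hp.2.2⟩, hp.2.1.2.2.2.2⟩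
  have n1 := ip_nonneg (pf_filter_prime u (fun p => ¬ p ∣ B₁ ∧ (p : ℝ) ≤ D))
  have n2 := ip_nonneg (pf_filter_prime v (fun p => ¬ p ∣ B₂ ∧ (p : ℝ) ≤ D))
  have n3 := ip_nonneg (pf_filter_prime g (fun p => (¬ p ∣ u ∧ ¬ p ∣ v ∧ ¬ p ∣ B₁ ∧ ¬ p ∣ B₂ ∧
          (p : ℝ) ≤ D) ∧ (p : ℤ) ∣ n))
  by_cases hc : (∀ p ∈ u.primeFactors, ¬ p ∣ B₁ → ¬ (p : ℤ) ∣ B₁ * t + v * A₁) ∧
      (∀ p ∈ v.primeFactors, ¬ p ∣ B₂ → ¬ (p : ℤ) ∣ B₂ * t - u * A₂)
  · rw [if_pos hc, if_pos ⟨fun p hp => hc.1 p (mem_filter.1 hp).1 (mem_filter.1 hp).2.1,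
      fun p hp => hc.2 p (mem_filter.1 hp).1 (mem_filter.1 hp).2.1⟩]
    have h4 := mul_le_mul (mul_le_mul e1 e2 (ip_nonneg (pf_filter_prime _ _)) (mul_nonneg hK0 n1))
      e3 (ip_nonneg (pf_filter_prime _ _)) (mul_nonneg (mul_nonneg hK0 n1) (mul_nonneg hK0 n2))
    refine h4.trans (le_of_eq ?_)
    ring
  · rw [if_neg hc]
    apply mul_nonneg (mul_nonneg (by positivity) (mul_nonneg n1 n2))
    split_ifs
    · exact n3
    · exact le_rfl


open Classical in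
/-- the sum of the costs over the sheets with nonvanishing form, via the sieve -/
theorem sheets_sum_le {C : ℝ} (hSV : ∀ (P G : Finset ℕ) (c : ℕ → ℤ) (D : ℝ) (a : ℤ), 2 ≤ D →
    (∀ p ∈ P, p.Prime ∧ (p : ℝ) ≤ D) → (∀ p ∈ G, p.Prime ∧ (p : ℝ) ≤ D) → Disjoint P G →
    ∑ t ∈ (Icc a (a + ⌈8 * D⌉)).filter (fun t => ∀ p : ℕ, p ∈ P → ¬ (p : ℤ) ∣ t - c p),
      ∏ p ∈ G.filter (fun p : ℕ => (p : ℤ) ∣ t - c p), (1 - 1 / (p : ℝ))⁻¹ ≤
      C * D * ∏ p ∈ P, (1 - 1 / (p : ℝ)))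
    (γ : ℝ) (g u v B₁ : ℕ) (A₁ : ℤ) (B₂ : ℕ) (A₂ : ℤ) (huv : Nat.Coprime u v) (D K : ℝ)
    (hD : 2 ≤ D) (hK1 : 1 ≤ K)
    (hu : ip (u.primeFactors.filter (fun p : ℕ => D < p)) ≤ K)
    (hv : ip (v.primeFactors.filter (fun p : ℕ => D < p)) ≤ K)
    (hn : ∀ t ∈ sheets γ u v D, nt u v B₁ A₁ B₂ A₂ t ≠ 0 →
      ip ((nt u v B₁ A₁ B₂ A₂ t).natAbs.primeFactors.filter (fun p : ℕ => D < p)) ≤ K) :
    ∑ t ∈ (sheets γ u v D).filter (fun t => nt u v B₁ A₁ B₂ A₂ t ≠ 0),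
      Kt g u v B₁ A₁ B₂ A₂ t ≤ K ^ 3 * (C * D) := by
  set Pu := u.primeFactors.filter (fun p : ℕ => ¬ p ∣ B₁ ∧ (p : ℝ) ≤ D) with hPu
  set Pv := v.primeFactors.filter (fun p : ℕ => ¬ p ∣ B₂ ∧ (p : ℝ) ≤ D) with hPv
  set G := g.primeFactors.filter (fun p : ℕ => ¬ p ∣ u ∧ ¬ p ∣ v ∧ ¬ p ∣ B₁ ∧ ¬ p ∣ B₂ ∧
          (p : ℝ) ≤ D) with hG
  have hPuv : Disjoint Pu Pv := by
    rw [Finset.disjoint_left]
    intro p hp hp'
    rw [hPu, mem_filter] at hp
    rw [hPv, mem_filter] at hp'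
    have h1 := Nat.dvd_gcd (Nat.dvd_of_mem_primeFactors hp.1) (Nat.dvd_of_mem_primeFactors hp'.1)
    rw [huv] at h1
    exact (Nat.prime_of_mem_primeFactors hp.1).one_lt.ne' (Nat.dvd_one.1 h1)
  have hPuG : ∀ p ∈ G, p ∉ Pu := by
    intro p hp hp'
    rw [hG, mem_filter] at hp
    rw [hPu, mem_filter] at hp'
    exact hp.2.1 (Nat.dvd_of_mem_primeFactors hp'.1)
  have hPvG : ∀ p ∈ G, p ∉ Pv := by
    intro p hp hp'
    rw [hG, mem_filter] at hp
    rw [hPv, mem_filter] at hp'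
    exact hp.2.2.1 (Nat.dvd_of_mem_primeFactors hp'.1)
  -- the classes
  have hex : ∀ p : ℕ, ∃ c : ℤ, (p ∈ Pu → ∀ t : ℤ, (p : ℤ) ∣ B₁ * t + v * A₁ ↔ (p : ℤ) ∣ t - c) ∧
      (p ∈ Pv → ∀ t : ℤ, (p : ℤ) ∣ B₂ * t - u * A₂ ↔ (p : ℤ) ∣ t - c) ∧
      (p ∈ G → ∀ t : ℤ, (p : ℤ) ∣ nt u v B₁ A₁ B₂ A₂ t ↔ (p : ℤ) ∣ t - c) := by
    intro p
    by_cases h1 : p ∈ Pu
    · have h1' := h1
      rw [hPu, mem_filter] at h1'
      have hp := Nat.prime_of_mem_primeFactors h1'.1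
      obtain ⟨c, hc⟩ := exists_class hp (B₁ : ℤ) (v * A₁) (by
        intro h; exact h1'.2.1 (Int.natCast_dvd_natCast.1 h))
      exact ⟨c, fun _ => hc, fun h => absurd h (Finset.disjoint_left.1 hPuv h1),
        fun h => absurd h1 (hPuG p h)⟩
    · by_cases h2 : p ∈ Pv
      · have h1' := h2
        rw [hPv, mem_filter] at h1'
        have hp := Nat.prime_of_mem_primeFactors h1'.1
        obtain ⟨c, hc⟩ := exists_class hp (B₂ : ℤ) (-(u * A₂)) (by
          intro h; exact h1'.2.1 (Int.natCast_dvd_natCast.1 h))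
        exact ⟨c, fun h => absurd h h1, fun _ t => by rw [sub_eq_add_neg]; exact hc t,
          fun h => absurd h2 (hPvG p h)⟩
      · by_cases h3 : p ∈ G
        · have h1' := h3
          rw [hG, mem_filter] at h1'
          have hp := Nat.prime_of_mem_primeFactors h1'.1
          obtain ⟨c, hc⟩ := exists_class hp ((B₁ : ℤ) * B₂) (-(u * B₁ * A₂) + v * B₂ * A₁) (by
            intro h
            rcases (Nat.prime_iff_prime_int.1 hp).dvd_or_dvd h with h | h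
            · exact h1'.2.2.2.1 (Int.natCast_dvd_natCast.1 h)
            · exact h1'.2.2.2.2.1 (Int.natCast_dvd_natCast.1 h))
          refine ⟨c, fun h => absurd h h1, fun h => absurd h h2, fun _ t => ?_⟩
          rw [← hc t]
          unfold nt
          constructor <;> intro h <;> convert h using 1 <;> ring
        · exact ⟨0, fun h => absurd h h1, fun h => absurd h h2, fun h => absurd h h3⟩
  choose c hcu hcv hcG using hex
  set T := (sheets γ u v D).filter (fun t => nt u v B₁ A₁ B₂ A₂ t ≠ 0) with hT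
  set a : ℤ := ⌊((u : ℝ) - v) * γ - 2 * D⌋ with ha
  have hTsub : T ⊆ Icc a (a + ⌈8 * D⌉) := by
    intro t ht
    rw [hT, mem_filter, sheets, mem_filter, mem_Icc] at ht
    rw [mem_Icc]
    refine ⟨ht.1.1.1, ?_⟩
    have h1 := (abs_lt.1 ht.1.2).2
    have h2 : ((u : ℝ) - v) * γ - 2 * D < a + 1 := Int.lt_floor_add_one _
    have h3 : 8 * D ≤ ⌈8 * D⌉ := Int.le_ceil _
    have h4 : (t : ℝ) < (a + ⌈8 * D⌉ : ℤ) + 1 := by
      push_cast
      linarith only [h2, h1, hD, h3]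
    exact Int.lt_add_one_iff.1 (by exact_mod_cast h4)
  have hterm : ∀ t ∈ T, Kt g u v B₁ A₁ B₂ A₂ t ≤ K ^ 3 * (ip Pu * ip Pv) *
      (if (∀ p : ℕ, p ∈ Pu ∪ Pv → ¬ (p : ℤ) ∣ t - c p) then
        ∏ p ∈ G.filter (fun p : ℕ => (p : ℤ) ∣ t - c p), (1 - 1 / (p : ℝ))⁻¹ else 0) := by
    intro t ht
    rw [hT, mem_filter] at ht
    refine (Kt_le_small g u v B₁ A₁ B₂ A₂ t D K hK1 hu hv ht.2 (hn t ht.1 ht.2)).trans
      (le_of_eq ?_)
    rw [← hPu, ← hPv]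
    congr 1
    have hiff : ((∀ p ∈ Pu, ¬ (p : ℤ) ∣ B₁ * t + v * A₁) ∧ (∀ p ∈ Pv, ¬ (p : ℤ) ∣ B₂ * t - u * A₂)) ↔
        (∀ p : ℕ, p ∈ Pu ∪ Pv → ¬ (p : ℤ) ∣ t - c p) := by
      constructor
      · rintro ⟨h1, h2⟩ p hp
        rcases mem_union.1 hp with hp | hp
        · rw [← hcu p hp t]; exact h1 p hp
        · rw [← hcv p hp t]; exact h2 p hp
      · intro h
        refine ⟨fun p hp => ?_, fun p hp => ?_⟩
        · rw [hcu p hp t]; exact h p (mem_union_left _ hp)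
        · rw [hcv p hp t]; exact h p (mem_union_right _ hp)
    have hset : (g.primeFactors.filter (fun p => (¬ p ∣ u ∧ ¬ p ∣ v ∧ ¬ p ∣ B₁ ∧ ¬ p ∣ B₂ ∧
          (p : ℝ) ≤ D) ∧ (p : ℤ) ∣ nt u v B₁ A₁ B₂ A₂ t)) =
        G.filter (fun p : ℕ => (p : ℤ) ∣ t - c p) := by
      rw [← filter_filter, ← hG]
      apply filter_congr
      intro p hp
      exact hcG p hp t
    rw [hset]
    unfold ip
    by_cases h : ∀ p : ℕ, p ∈ Pu ∪ Pv → ¬ (p : ℤ) ∣ t - c p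
    · rw [if_pos h, if_pos (hiff.2 h)]
    · rw [if_neg h, if_neg (fun h' => h (hiff.1 h'))]
  have hprime : ∀ p ∈ G, p.Prime := fun p hp => pf_prime g p (mem_filter.1 hp).1
  have hnn : ∀ t : ℤ, 0 ≤ ∏ p ∈ G.filter (fun p : ℕ => (p : ℤ) ∣ t - c p), (1 - 1 / (p : ℝ))⁻¹ :=
    fun t => ip_nonneg fun p hp => hprime p (mem_filter.1 hp).1
  have hPP : ∀ p ∈ Pu ∪ Pv, p.Prime ∧ (p : ℝ) ≤ D := by
    intro p hp
    rcases mem_union.1 hp with hp | hp
    · rw [hPu, mem_filter] at hp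
      exact ⟨Nat.prime_of_mem_primeFactors hp.1, hp.2.2⟩
    · rw [hPv, mem_filter] at hp
      exact ⟨Nat.prime_of_mem_primeFactors hp.1, hp.2.2⟩
  have hsum := hSV (Pu ∪ Pv) G c D a hD hPP
    (fun p hp => ⟨hprime p hp, by rw [hG, mem_filter] at hp; exact hp.2.2.2.2.2⟩)
    (by
      rw [Finset.disjoint_left]
      intro p hp hp'
      rcases mem_union.1 hp with hp | hp
      · exact hPuG p hp' hp
      · exact hPvG p hp' hp)
  have hPunn := ip_nonneg (pf_filter_prime u (fun p : ℕ => ¬ p ∣ B₁ ∧ (p : ℝ) ≤ D))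
  have hPvnn := ip_nonneg (pf_filter_prime v (fun p : ℕ => ¬ p ∣ B₂ ∧ (p : ℝ) ≤ D))
  have hK0 : 0 ≤ K := zero_le_one.trans hK1
  calc ∑ t ∈ T, Kt g u v B₁ A₁ B₂ A₂ t
      ≤ ∑ t ∈ T, K ^ 3 * (ip Pu * ip Pv) *
      (if (∀ p : ℕ, p ∈ Pu ∪ Pv → ¬ (p : ℤ) ∣ t - c p) then
        ∏ p ∈ G.filter (fun p : ℕ => (p : ℤ) ∣ t - c p), (1 - 1 / (p : ℝ))⁻¹ else 0) :=
        sum_le_sum hterm
    _ = K ^ 3 * (ip Pu * ip Pv) * ∑ t ∈ T,
      (if (∀ p : ℕ, p ∈ Pu ∪ Pv → ¬ (p : ℤ) ∣ t - c p) then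
        ∏ p ∈ G.filter (fun p : ℕ => (p : ℤ) ∣ t - c p), (1 - 1 / (p : ℝ))⁻¹ else 0) := by
        rw [mul_sum]
    _ ≤ K ^ 3 * (ip Pu * ip Pv) * ∑ t ∈ Icc a (a + ⌈8 * D⌉),
      (if (∀ p : ℕ, p ∈ Pu ∪ Pv → ¬ (p : ℤ) ∣ t - c p) then
        ∏ p ∈ G.filter (fun p : ℕ => (p : ℤ) ∣ t - c p), (1 - 1 / (p : ℝ))⁻¹ else 0) := by
        apply mul_le_mul_of_nonneg_left _ (mul_nonneg (by positivity) (mul_nonneg hPunn hPvnn))
        apply sum_le_sum_of_subset_of_nonneg hTsub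
        intro t _ _
        split_ifs
        · exact hnn t
        · exact le_rfl
    _ = K ^ 3 * (ip Pu * ip Pv) *
        ∑ t ∈ (Icc a (a + ⌈8 * D⌉)).filter (fun t => ∀ p : ℕ, p ∈ Pu ∪ Pv → ¬ (p : ℤ) ∣ t - c p),
        ∏ p ∈ G.filter (fun p : ℕ => (p : ℤ) ∣ t - c p), (1 - 1 / (p : ℝ))⁻¹ := by
        rw [sum_filter]
    _ ≤ K ^ 3 * (ip Pu * ip Pv) * (C * D * ∏ p ∈ Pu ∪ Pv, (1 - 1 / (p : ℝ))) := by
        apply mul_le_mul_of_nonneg_left _ (mul_nonneg (by positivity) (mul_nonneg hPunn hPvnn))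
        exact hsum
    _ = K ^ 3 * (C * D) := by
        have e1 : ip Pu * ip Pv = ip (Pu ∪ Pv) := by
          unfold ip
          rw [prod_union hPuv]
        have e2 : ip (Pu ∪ Pv) * ∏ p ∈ Pu ∪ Pv, (1 - 1 / (p : ℝ)) = 1 := by
          unfold ip
          rw [← prod_mul_distrib]
          apply prod_eq_one
          intro p hp
          exact inv_mul_cancel₀ (bc_one_sub_inv (hPP p hp).1).1.ne'
        rw [e1]
        linear_combination (K ^ 3 * (C * D)) * e2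

end Vale.P028
end

section

/-!
# Second moment of the sifted sets (Theorem A)
-/

namespace Vale.P028

open Finset MeasureTheory Filter

/-- Summation over dyadic levels. -/
theorem am_dyadic_general (T : Finset (ℕ × ℕ)) (D g : ℕ × ℕ → ℝ) (hD : ∀ p ∈ T, 0 < D p ∧ D p ≤ 1)
    (hg : ∀ p ∈ T, 0 ≤ g p) (b : ℕ → ℝ) (K : ℝ)
    (hb : ∀ i, ∑ p ∈ T with (1 / 2 : ℝ) ^ (i + 1) < D p ∧ D p ≤ (1 / 2) ^ i, g p
      ≤ (1 / 2) ^ i * b i)
    (hK : ∀ I, ∑ i ∈ range I, b i ≤ K) :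
    ∑ p ∈ T, g p / D p ≤ 2 * K := by
  classical
  have hex : ∀ p : ℕ × ℕ, ∃ i : ℕ, p ∈ T → (1 / 2 : ℝ) ^ (i + 1) < D p ∧ D p ≤ (1 / 2) ^ i := by
    intro p
    by_cases hp : p ∈ T
    · obtain ⟨n, hn⟩ := exists_nat_pow_near_of_lt_one (hD p hp).1 (hD p hp).2
        (by norm_num : (0 : ℝ) < 1 / 2) (by norm_num)
      exact ⟨n, fun _ => hn⟩
    · exact ⟨0, fun h => absurd h hp⟩
  choose i hi using hex
  set I := T.sup i + 1 with hI
  have hlt : ∀ p ∈ T, i p ∈ range I := by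
    intro p hp
    rw [mem_range, hI]
    exact Nat.lt_succ_of_le (le_sup hp)
  rw [← sum_fiberwise_of_maps_to hlt]
  calc ∑ k ∈ range I, ∑ p ∈ T with i p = k, g p / D p
      ≤ ∑ k ∈ range I, 2 * b k := by
        refine sum_le_sum fun k _ => ?_
        have h1 : ∑ p ∈ T with i p = k, g p / D p
            ≤ ∑ p ∈ T with i p = k, 2 * 2 ^ k * g p := by
          refine sum_le_sum fun p hp => ?_
          rw [mem_filter] at hp
          have h2 := hi p hp.1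
          rw [hp.2] at h2
          have h3 := hD p hp.1
          rw [div_le_iff₀ h3.1]
          have h4 : (1 : ℝ) ≤ 2 * 2 ^ k * D p := by
            have : (2 : ℝ) * 2 ^ k * (1 / 2) ^ (k + 1) = 1 := by
              rw [pow_succ, one_div, inv_pow]
              field_simp
            calc (1 : ℝ) = 2 * 2 ^ k * (1 / 2) ^ (k + 1) := this.symm
              _ ≤ 2 * 2 ^ k * D p := by
                apply mul_le_mul_of_nonneg_left h2.1.le (by positivity)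
          calc g p = 1 * g p := (one_mul _).symm
            _ ≤ (2 * 2 ^ k * D p) * g p := mul_le_mul_of_nonneg_right h4 (hg p hp.1)
            _ = 2 * 2 ^ k * g p * D p := by ring
        refine h1.trans ?_
        rw [← mul_sum]
        have h5 : ∑ p ∈ T with i p = k, g p ≤
            ∑ p ∈ T with (1 / 2 : ℝ) ^ (k + 1) < D p ∧ D p ≤ (1 / 2) ^ k, g p := by
          apply sum_le_sum_of_subset_of_nonneg
          · intro p hp
            rw [mem_filter] at hp ⊢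
            refine ⟨hp.1, ?_⟩
            have := hi p hp.1
            rwa [hp.2] at this
          · intro p hp _
            rw [mem_filter] at hp
            exact hg p hp.1
        have h6 := h5.trans (hb k)
        calc (2 : ℝ) * 2 ^ k * ∑ p ∈ T with i p = k, g p
            ≤ 2 * 2 ^ k * ((1 / 2) ^ k * b k) := mul_le_mul_of_nonneg_left h6 (by positivity)
          _ = 2 * b k := by
            rw [one_div, inv_pow]
            field_simp
    _ = 2 * ∑ k ∈ range I, b k := by rw [mul_sum]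
    _ ≤ 2 * K := by linarith only [hK I]

theorem am_cofac_pos {q r : ℕ} (hq : 0 < q) : 0 < cofac q r :=
  Nat.div_pos (Nat.gcd_le_left _ hq) (Nat.gcd_pos_of_pos_left _ hq)

end Vale.P028
end

section
attribute [-instance] ProperSMul.toContinuousSMul IsTopologicalTorsor.toContinuousSMul IdemSemiring.toCanonicallyOrderedAdd IdemSemiring.toMulLeftMono IdemSemiring.toMulRightMono AddQuantale.instAddLeftMono AddQuantale.instAddRightMono Quantale.instMulLeftMono Quantale.instMulRightMono FiniteDimensional.rclike_to_real IsScalarTower.complexToReal FiniteDimensional.complexToReal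

/-!
# Second moment of the sifted sets (Theorem B): reduction to bilinear sums
-/

namespace Vale.P028

open Finset MeasureTheory

theorem bm_card_sheets (γ : ℝ) (u v : ℕ) (D : ℝ) (hD : 0 ≤ D) :
    ((sheets γ u v D).card : ℝ) ≤ 4 * D + 1 := by
  set x := ((u : ℝ) - v) * γ with hx
  have hsub : sheets γ u v D ⊆ Finset.Icc ⌈x - 2 * D⌉ ⌊x + 2 * D⌋ := by
    intro t ht
    rw [sheets, mem_filter, abs_lt] at ht
    rw [mem_Icc]
    constructor
    · apply Int.ceil_le.2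
      linarith only [ht]
    · apply Int.le_floor.2
      linarith only [ht]
  have h1 := card_le_card hsub
  rw [Int.card_Icc] at h1
  have h2 : (((⌊x + 2 * D⌋ + 1 - ⌈x - 2 * D⌉).toNat : ℕ) : ℝ) ≤ 4 * D + 1 := by
    have h3 : ((⌊x + 2 * D⌋ + 1 - ⌈x - 2 * D⌉ : ℤ) : ℝ) ≤ 4 * D + 1 := by
      push_cast
      have := Int.floor_le (x + 2 * D)
      have := Int.le_ceil (x - 2 * D)
      (clear hD hx hsub h1; linarith)
    have h4 : (((⌊x + 2 * D⌋ + 1 - ⌈x - 2 * D⌉).toNat : ℤ) : ℝ) ≤ 4 * D + 1 := by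
      rw [Int.toNat_eq_max]
      push_cast
      apply max_le
      · push_cast at h3; exact h3
      · linarith only [hD]
    exact_mod_cast h4
  calc ((sheets γ u v D).card : ℝ) ≤ ((⌊x + 2 * D⌋ + 1 - ⌈x - 2 * D⌉).toNat : ℝ) := by exact_mod_cast h1
    _ ≤ _ := h2

theorem bm_card_zero (γ : ℝ) (u v B₁ B₂ : ℕ) (A₁ A₂ : ℤ) (hB₁ : 0 < B₁) (hB₂ : 0 < B₂) (D : ℝ) :
    ((sheets γ u v D).filter (fun t => nt u v B₁ A₁ B₂ A₂ t = 0)).card ≤ 1 := by
  rw [card_le_one]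
  intro t ht t' ht'
  rw [mem_filter] at ht ht'
  have h1 := ht.2
  have h2 := ht'.2
  unfold nt at h1 h2
  have h3 : (B₁ : ℤ) * B₂ * (t - t') = 0 := by linear_combination h1 - h2
  have h4 : (B₁ : ℤ) * B₂ ≠ 0 := by (clear * - hB₁ hB₂; positivity)
  rcases mul_eq_zero.1 h3 with h | h
  · exact absurd h h4
  · linarith only [h]

theorem bm_cB_mem (q B : ℕ) : 0 ≤ cB q B ∧ cB q B ≤ 1 := by
  unfold cB
  constructor
  · exact prod_nonneg fun p hp => (bc_one_sub_inv (pf_filter_prime q _ p hp)).1.le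
  · apply prod_le_one
    · exact fun p hp => (bc_one_sub_inv (pf_filter_prime q _ p hp)).1.le
    · intro p hp
      have : 0 ≤ 1 / (p : ℝ) := by (clear * -; positivity)
      linarith only [this]

theorem bm_totient (q : ℕ) (hq : 0 < q) :
    (q.totient : ℝ) / q = ∏ p ∈ q.primeFactors, (1 - 1 / (p : ℝ)) := by
  have h := Nat.totient_eq_mul_prod_factors q
  have hqR : (q : ℝ) ≠ 0 := by exact_mod_cast hq.ne'
  have h2 : (q.totient : ℝ) = q * ∏ p ∈ q.primeFactors, (1 - 1 / (p : ℝ)) := by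
    have h3 : ((q.totient : ℚ) : ℝ) = ((q * ∏ p ∈ q.primeFactors, (1 - (p : ℚ)⁻¹) : ℚ) : ℝ) := by
      rw [h]
    push_cast at h3
    rw [h3]
    simp only [one_div]
  rw [h2]
  (clear * - hqR; field_simp)

theorem bm_totient_ip (q : ℕ) (hq : 0 < q) : (q.totient : ℝ) / q * ip q.primeFactors = 1 := by
  rw [bm_totient q hq]
  unfold ip
  rw [← prod_mul_distrib]
  apply prod_eq_one
  intro p hp
  exact mul_inv_cancel₀ (bc_one_sub_inv (pf_prime q p hp)).1.ne'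


/-- The weighted overlap of two sifted sets. -/
noncomputable def VB (γ : ℝ) (ψ : ℕ → ℝ) (B : ℕ → ℕ) (A : ℕ → ℤ) (q r : ℕ) : ℝ :=
  cB q (B q) * cB r (B r) *
    volume.real (GB γ (ψ q) q (B q) (A q) ∩ GB γ (ψ r) r (B r) (A r) ∩ Set.Icc 0 1)

/-- the pair has different denominators and a vanishing sheet -/
def ZeroPair (B : ℕ → ℕ) (q r : ℕ) : Prop :=
  (B q < B r ∧ B r / Nat.gcd (B q) (B r) ∣ cofac q r) ∨
    (B r < B q ∧ B q / Nat.gcd (B r) (B q) ∣ cofac r q)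

open Classical in
theorem pair_bound (γ : ℝ) (ψ : ℕ → ℝ) (B : ℕ → ℕ) (A : ℕ → ℤ) (q r : ℕ) (s₁ Lam D₁ κ C₁ : ℝ)
    (hq : 0 < q) (hr : 0 < r) (hψq : 0 < ψ q ∧ ψ q ≤ 1 / 2) (hψr : 0 < ψ r ∧ ψ r ≤ 1 / 2)
    (hBq : 0 < B q) (hBr : 0 < B r) (hAq : IsCoprime (B q : ℤ) (A q))
    (hAr : IsCoprime (B r : ℤ) (A r)) (hAB : B q = B r → A q = A r)
    (hs₁0 : 0 < s₁) (hs₁ : s₁ ≤ 1 / 8) (hLam : 1 ≤ Lam) (hipq : ip q.primeFactors ≤ Lam)
    (hipr : ip r.primeFactors ≤ Lam) (hκ : 0 ≤ κ) (hC₁ : 0 ≤ C₁)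
    (D : ℝ) (hDdef : D = Dpr (cofac q r) (cofac r q) (ψ q) (ψ r))
    (hbig : q ≠ r → D₁ ≤ D → ∑ t ∈ (sheets γ (cofac q r) (cofac r q) D).filter
      (fun t => nt (cofac q r) (cofac r q) (B q) (A q) (B r) (A r) t ≠ 0),
      Kt (Nat.gcd q r) (cofac q r) (cofac r q) (B q) (A q) (B r) (A r) t ≤ C₁ * D)
    (hmid : q ≠ r → D < D₁ → ∀ t ∈ sheets γ (cofac q r) (cofac r q) D,
      nt (cofac q r) (cofac r q) (B q) (A q) (B r) (A r) t ≠ 0 →
      Kt (Nat.gcd q r) (cofac q r) (cofac r q) (B q) (A q) (B r) (A r) t ≤ κ) :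
    VB γ ψ B A q r ≤
      (if q = r then 6 * ((q.totient : ℝ) / q * ψ q) else 0) +
      (2 * C₁ + 2) * (((q.totient : ℝ) / q * ψ q) * ((r.totient : ℝ) / r * ψ r)) +
      (if q ≠ r ∧ s₁ ≤ D ∧ D < D₁ then 2 * κ * (4 * D₁ + 1) *
        ((((q.totient : ℝ) / q * ψ q) * ((r.totient : ℝ) / r * ψ r)) / D) else 0) +
      (if q ≠ r ∧ s₁ ≤ D ∧ D < Lam ^ 2 ∧ ZeroPair B q r then 2 * Lam ^ 2 *
        ((((q.totient : ℝ) / q * ψ q) * ((r.totient : ℝ) / r * ψ r)) / D) else 0) +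
      (if q ≠ r ∧ D < s₁ ∧ VB γ ψ B A q r ≠ 0 then 2 * Lam ^ 2 *
        ((((q.totient : ℝ) / q * ψ q) * ((r.totient : ℝ) / r * ψ r)) / D) else 0) := by
  set u := cofac q r with hu
  set v := cofac r q with hv
  set g := Nat.gcd q r with hg
  have hu0 : 0 < u := am_cofac_pos hq
  have hv0 : 0 < v := am_cofac_pos hr
  have huR : (1 : ℝ) ≤ u := by exact_mod_cast hu0
  have hvR : (1 : ℝ) ≤ v := by exact_mod_cast hv0
  set fq := (q.totient : ℝ) / q * ψ q with hfq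
  set fr := (r.totient : ℝ) / r * ψ r with hfr
  have hfq0 : 0 ≤ fq := mul_nonneg (by positivity) hψq.1.le
  have hfr0 : 0 ≤ fr := mul_nonneg (by positivity) hψr.1.le
  have hD0 : 0 < D := by
    rw [hDdef, Dpr]
    exact lt_max_of_lt_left (mul_pos (by linarith only [hvR]) hψq.1)
  have hff : 0 ≤ fq * fr := mul_nonneg hfq0 hfr0
  have hffD : 0 ≤ fq * fr / D := div_nonneg hff hD0.le
  have hLam0 : 0 < Lam := by linarith only [hLam]
  have t1 : 0 ≤ (if q = r then 6 * fq else 0) := by split_ifs <;> positivity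
  have t2 : 0 ≤ (2 * C₁ + 2) * (fq * fr) := by (clear * - hC₁ hfq0 hfr0; positivity)
  have t3 : 0 ≤ (if q ≠ r ∧ s₁ ≤ D ∧ D < D₁ then 2 * κ * (4 * D₁ + 1) *
        (fq * fr / D) else 0) := by
    split_ifs with h
    · have : 0 < D₁ := by linarith only [h.2.2, hD0]
      (clear * - hκ this hfq0 hfr0 hD0; positivity)
    · exact le_rfl
  have t4 : 0 ≤ (if q ≠ r ∧ s₁ ≤ D ∧ D < Lam ^ 2 ∧ ZeroPair B q r then 2 * Lam ^ 2 *
        (fq * fr / D) else 0) := by split_ifs <;> positivity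
  have t5 : 0 ≤ (if q ≠ r ∧ D < s₁ ∧ VB γ ψ B A q r ≠ 0 then 2 * Lam ^ 2 *
        (fq * fr / D) else 0) := by split_ifs <;> positivity
  -- PV
  have hPV := PV γ (ψ q) (ψ r) hψq.1 hψr.1 q r hq hr (B q) (B r) (A q) (A r) hBq hBr hAq hAr
  rw [← hu, ← hv, ← hg, ← hDdef, ← hfq, ← hfr] at hPV
  have hPV' : VB γ ψ B A q r ≤ 2 * (fq * fr / D) *
      ∑ t ∈ sheets γ u v D, Kt g u v (B q) (A q) (B r) (A r) t := by
    refine hPV.trans (le_of_eq ?_)
    ring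
  have hKtriv : ∀ t, Kt g u v (B q) (A q) (B r) (A r) t ≤ Lam ^ 2 := by
    intro t
    refine (Kt_le_totient q r hq hr (B q) (A q) (B r) (A r) t).trans ?_
    rw [pow_two]
    exact mul_le_mul hipq hipr (ip_nonneg (pf_prime r)) (by linarith only [hLam])
  by_cases hqr : q = r
  · -- diagonal
    subst hqr
    have hu1 : u = 1 := by rw [hu]; unfold cofac; rw [Nat.gcd_self, Nat.div_self hq]
    have hv1 : v = 1 := by rw [hv]; unfold cofac; rw [Nat.gcd_self, Nat.div_self hq]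
    have hD' : D = ψ q := by
      rw [hDdef, hu1, hv1, Dpr]; simp
    rw [if_pos rfl] at t1 ⊢
    have hKd : ∀ t ∈ sheets γ u v D, Kt g u v (B q) (A q) (B q) (A q) t ≤ ip q.primeFactors := by
      intro t _
      rw [Kt_eq, hu1, hv1]
      have hgq : g = q := by rw [hg, Nat.gcd_self]
      rw [hgq]
      have e1 : ip ((1 : ℕ).primeFactors.filter (fun p => ¬ p ∣ B q)) = 1 := by
        simp only [ip, Nat.primeFactors_one, filter_empty, one_div, prod_inv_distrib, prod_empty, inv_one]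
      split_ifs
      · rw [e1, one_mul, one_mul]
        exact ip_filter_le (pf_prime q) _
      · exact ip_nonneg (pf_prime q)
    have hsum : ∑ t ∈ sheets γ u v D, Kt g u v (B q) (A q) (B q) (A q) t ≤
        3 * ip q.primeFactors := by
      refine (sum_le_card_nsmul _ _ _ hKd).trans ?_
      rw [nsmul_eq_mul]
      apply mul_le_mul_of_nonneg_right _ (ip_nonneg (pf_prime q))
      refine (bm_card_sheets γ u v D hD0.le).trans ?_
      rw [hD']; linarith only [hψq.2]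
    have h1 : VB γ ψ B A q q ≤ 2 * (fq * fr / D) * (3 * ip q.primeFactors) :=
      hPV'.trans (mul_le_mul_of_nonneg_left hsum (by (clear * - hfq0 hD0; positivity)))
    have h2 : 2 * (fq * fr / D) * (3 * ip q.primeFactors) = 6 * fq := by
      have e := bm_totient_ip q hq
      have h0 : ψ q ≠ 0 := hψq.1.ne'
      have e3 : fq * fr / D = fq * ((q.totient : ℝ) / q) := by
        rw [hD', hfr, ← mul_assoc, mul_div_assoc, div_self h0, mul_one]
      rw [e3]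
      linear_combination 6 * fq * e
    linarith only [h1, t5, h2, t3, t4, t2]
  · rcases le_or_gt s₁ D with hDs | hDs
    · -- use the sheets
      have hsplit : ∑ t ∈ sheets γ u v D, Kt g u v (B q) (A q) (B r) (A r) t =
          ∑ t ∈ (sheets γ u v D).filter (fun t => nt u v (B q) (A q) (B r) (A r) t ≠ 0),
            Kt g u v (B q) (A q) (B r) (A r) t +
          ∑ t ∈ (sheets γ u v D).filter (fun t => nt u v (B q) (A q) (B r) (A r) t = 0),
            Kt g u v (B q) (A q) (B r) (A r) t := by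
        rw [← sum_filter_add_sum_filter_not (sheets γ u v D)
          (fun t => nt u v (B q) (A q) (B r) (A r) t ≠ 0)]
        congr 1
        apply sum_congr _ (fun _ _ => rfl)
        apply filter_congr
        intro t _
        rw [not_not]
      have hnz : 2 * (fq * fr / D) *
          ∑ t ∈ (sheets γ u v D).filter (fun t => nt u v (B q) (A q) (B r) (A r) t ≠ 0),
            Kt g u v (B q) (A q) (B r) (A r) t ≤ 2 * C₁ * (fq * fr) +
          (if q ≠ r ∧ s₁ ≤ D ∧ D < D₁ then 2 * κ * (4 * D₁ + 1) * (fq * fr / D) else 0) := by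
        rcases le_or_gt D₁ D with hD1 | hD1
        · have h1 := mul_le_mul_of_nonneg_left (hbig hqr hD1)
            (by (clear * - hfq0 hfr0 hD0; positivity) : 0 ≤ 2 * (fq * fr / D))
          have h2 : 2 * (fq * fr / D) * (C₁ * D) = 2 * C₁ * (fq * fr) := by
            (clear * - hD0; field_simp)
          rw [h2] at h1
          linarith only [h1, t3]
        · rw [if_pos ⟨hqr, hDs, hD1⟩]
          have h1 : ∑ t ∈ (sheets γ u v D).filter
              (fun t => nt u v (B q) (A q) (B r) (A r) t ≠ 0),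
              Kt g u v (B q) (A q) (B r) (A r) t ≤ (4 * D₁ + 1) * κ := by
            refine (sum_le_card_nsmul _ _ κ ?_).trans ?_
            · intro t ht
              rw [mem_filter] at ht
              exact hmid hqr hD1 t ht.1 ht.2
            · rw [nsmul_eq_mul]
              apply mul_le_mul_of_nonneg_right _ hκ
              have h2 : (((sheets γ u v D).filter
                (fun t => nt u v (B q) (A q) (B r) (A r) t ≠ 0)).card : ℝ) ≤
                (sheets γ u v D).card := by exact_mod_cast card_filter_le _ _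
              have h3 := bm_card_sheets γ u v D hD0.le
              linarith only [h2, h3, hD1]
          have h2 := mul_le_mul_of_nonneg_left h1 (by (clear * - hfq0 hfr0 hD0; positivity) : 0 ≤ 2 * (fq * fr / D))
          have h3 : 0 ≤ 2 * C₁ * (fq * fr) := by (clear * - hC₁ hfq0 hfr0; positivity)
          have h4 : 2 * (fq * fr / D) * ((4 * D₁ + 1) * κ) =
            2 * κ * (4 * D₁ + 1) * (fq * fr / D) := by ring
          linarith only [h3, h2]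
      have hz : 2 * (fq * fr / D) *
          ∑ t ∈ (sheets γ u v D).filter (fun t => nt u v (B q) (A q) (B r) (A r) t = 0),
            Kt g u v (B q) (A q) (B r) (A r) t ≤ 2 * (fq * fr) +
          (if q ≠ r ∧ s₁ ≤ D ∧ D < Lam ^ 2 ∧ ZeroPair B q r then 2 * Lam ^ 2 *
        (fq * fr / D) else 0) := by
        by_cases hempty : ∃ t ∈ sheets γ u v D, nt u v (B q) (A q) (B r) (A r) t = 0
        · obtain ⟨t, ht, hnt⟩ := hempty
          have huv : Nat.Coprime u v := by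
            rw [hu, hv]
            unfold cofac
            rw [Nat.gcd_comm r q]
            exact Nat.coprime_div_gcd_div_gcd (Nat.gcd_pos_of_pos_left _ hq)
          have hne : u ≠ v := fun h => hqr (eq_of_cofac_eq (hu ▸ hv ▸ h))
          by_cases hBB : B q = B r
          · have h0 : ∑ t ∈ (sheets γ u v D).filter
              (fun t => nt u v (B q) (A q) (B r) (A r) t = 0),
              Kt g u v (B q) (A q) (B r) (A r) t = 0 := by
              apply sum_eq_zero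
              intro t ht
              rw [mem_filter] at ht
              have h1 := ht.2
              rw [← hAB hBB, ← hBB] at h1 ⊢
              exact Kt_eq_zero_of_nt u v g (B q) (A q) t hBq hAq huv hu0 hv0 hne h1
            rw [h0, mul_zero]
            linarith only [hff, t4]
          · have hsum : ∑ t ∈ (sheets γ u v D).filter
              (fun t => nt u v (B q) (A q) (B r) (A r) t = 0),
              Kt g u v (B q) (A q) (B r) (A r) t ≤ Lam ^ 2 := by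
              refine (sum_le_card_nsmul _ _ _ fun t _ => hKtriv t).trans ?_
              rw [nsmul_eq_mul]
              have h1 : (((sheets γ u v D).filter
                (fun t => nt u v (B q) (A q) (B r) (A r) t = 0)).card : ℝ) ≤ 1 := by
                exact_mod_cast bm_card_zero γ u v (B q) (B r) (A q) (A r) hBq hBr D
              exact (mul_le_mul_of_nonneg_right h1 (sq_nonneg Lam)).trans (one_mul _).le
            have h1 := mul_le_mul_of_nonneg_left hsum (by (clear * - hfq0 hfr0 hD0; positivity) : 0 ≤ 2 * (fq * fr / D))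
            rcases le_or_gt (Lam ^ 2) D with hDL | hDL
            · have h2 : 2 * (fq * fr / D) * Lam ^ 2 ≤ 2 * (fq * fr) := by
                have h3 : fq * fr / D * Lam ^ 2 ≤ fq * fr := by
                  rw [div_mul_eq_mul_div, div_le_iff₀ hD0]
                  exact mul_le_mul_of_nonneg_left hDL hff
                linarith only [h3]
              linarith only [t4, h2, h1]
            · have hZ : ZeroPair B q r := by
                rcases lt_or_gt_of_ne hBB with h | h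
                · left
                  exact ⟨h, dvd_of_nt u v (B q) (B r) (A q) (A r) t hBq hBr hAr hnt⟩
                · right
                  refine ⟨h, dvd_of_nt v u (B r) (B q) (A r) (A q) (-t) hBr hBq hAq ?_⟩
                  unfold nt at hnt ⊢
                  linear_combination -hnt
              rw [if_pos ⟨hqr, hDs, hDL, hZ⟩]
              have h4 : 2 * (fq * fr / D) * Lam ^ 2 = 2 * Lam ^ 2 * (fq * fr / D) := by ring
              linarith only [h1, hff]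
        · have h0 : (sheets γ u v D).filter
              (fun t => nt u v (B q) (A q) (B r) (A r) t = 0) = ∅ := by
            apply filter_eq_empty_iff.2
            intro t ht hnt
            exact hempty ⟨t, ht, hnt⟩
          rw [h0, sum_empty, mul_zero]
          linarith only [hff, t4]
      have h5 : VB γ ψ B A q r ≤ (2 * C₁ * (fq * fr) +
          (if q ≠ r ∧ s₁ ≤ D ∧ D < D₁ then 2 * κ * (4 * D₁ + 1) * (fq * fr / D) else 0)) +
          (2 * (fq * fr) + (if q ≠ r ∧ s₁ ≤ D ∧ D < Lam ^ 2 ∧ ZeroPair B q r then 2 * Lam ^ 2 *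
        (fq * fr / D) else 0)) := by
        refine hPV'.trans ?_
        rw [hsplit, mul_add]
        exact add_le_add hnz hz
      linarith only [t1, h5, t5]
    · -- small distance
      by_cases hV : VB γ ψ B A q r = 0
      · rw [hV] at t5 ⊢
        linarith only [t2, t1, t4, t3, t5]
      · rw [if_pos (show q ≠ r ∧ D < s₁ ∧ VB γ ψ B A q r ≠ 0 from ⟨hqr, hDs, hV⟩)] at t5 ⊢
        have h1 := PV0 γ (ψ q) (ψ r) hψq.1 hψr.1 q r hq hr (B q) (B r) (A q) (A r)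
          (by rw [← hu, ← hv, ← hDdef]; linarith only [hDs, hs₁])
        rw [← hu, ← hv, ← hDdef] at h1
        have h2 : VB γ ψ B A q r ≤ 1 * (2 * ψ q * ψ r / D) := by
          unfold VB
          apply mul_le_mul _ h1 measureReal_nonneg zero_le_one
          exact mul_le_one₀ (bm_cB_mem _ _).2 (bm_cB_mem _ _).1 (bm_cB_mem _ _).2
        have hψfq : ψ q = fq * ip q.primeFactors := by
          have := bm_totient_ip q hq
          rw [hfq]; linear_combination (-ψ q) * this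
        have hψfr : ψ r = fr * ip r.primeFactors := by
          have := bm_totient_ip r hr
          rw [hfr]; linear_combination (-ψ r) * this
        have h3 : ψ q * ψ r ≤ fq * fr * Lam ^ 2 := by
          rw [hψfq, hψfr]
          have h4 : ip q.primeFactors * ip r.primeFactors ≤ Lam * Lam :=
            mul_le_mul hipq hipr (ip_nonneg (pf_prime r)) (by linarith only [hLam])
          calc fq * ip q.primeFactors * (fr * ip r.primeFactors) =
              fq * fr * (ip q.primeFactors * ip r.primeFactors) := by ring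
            _ ≤ fq * fr * (Lam * Lam) := mul_le_mul_of_nonneg_left h4 hff
            _ = _ := by ring
        have h5 : 2 * ψ q * ψ r / D ≤ 2 * Lam ^ 2 * (fq * fr / D) := by
          rw [div_le_iff₀ hD0]
          have e : 2 * Lam ^ 2 * (fq * fr / D) * D = 2 * (fq * fr * Lam ^ 2) := by
            (clear * - hD0 hLam; field_simp)
          rw [e]; linarith only [h3]
        linarith only [h5, h2, t2, t1, t4, t3]

end Vale.P028
end

section

/-!
# Dyadic summation lemmas (Theorem B)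
-/

namespace Vale.P028

open Finset

theorem dyad_scale (T : Finset (ℕ × ℕ)) (D g : ℕ × ℕ → ℝ) (s₀ : ℝ) (hs₀ : 0 < s₀)
    (hD : ∀ p ∈ T, 0 < D p ∧ D p ≤ s₀) (hg : ∀ p ∈ T, 0 ≤ g p) (b : ℕ → ℝ) (K : ℝ)
    (hb : ∀ i, ∑ p ∈ T with s₀ * (1 / 2 : ℝ) ^ i / 2 < D p ∧ D p ≤ s₀ * (1 / 2) ^ i, g p
      ≤ (1 / 2) ^ i * b i)
    (hK : ∀ I, ∑ i ∈ range I, b i ≤ K) :
    ∑ p ∈ T, g p / D p ≤ 2 * K / s₀ := by
  have h1 := am_dyadic_general T (fun p => D p / s₀) g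
    (fun p hp => ⟨div_pos (hD p hp).1 hs₀, (div_le_one hs₀).2 (hD p hp).2⟩) hg b K
    (by
      intro i
      refine le_trans (le_of_eq ?_) (hb i)
      apply sum_congr _ (fun _ _ => rfl)
      apply filter_congr
      intro p _
      rw [lt_div_iff₀ hs₀, div_le_iff₀ hs₀, pow_succ]
      constructor
      · rintro ⟨h1, h2⟩
        exact ⟨by linarith only [h1], by linarith only [h2]⟩
      · rintro ⟨h1, h2⟩
        exact ⟨by linarith only [h1], by linarith only [h2]⟩) hK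
  rw [le_div_iff₀ hs₀]
  refine le_trans (le_of_eq ?_) h1
  rw [sum_mul]
  refine sum_congr rfl fun p hp => ?_
  have := (hD p hp).1
  (clear * - hs₀ this; field_simp)

theorem dyad_gt (T : Finset (ℕ × ℕ)) (D g : ℕ × ℕ → ℝ) (s₀ κ A : ℝ) (hs₀ : 0 < s₀)
    (hκ : 1 < κ) (hA : 0 ≤ A) (hD : ∀ p ∈ T, 0 < D p ∧ D p ≤ s₀) (hg : ∀ p ∈ T, 0 ≤ g p)
    (hb : ∀ s, 0 < s → s ≤ s₀ → ∑ p ∈ T with s / 2 < D p ∧ D p ≤ s, g p ≤ A * s ^ κ) :
    ∑ p ∈ T, g p / D p ≤ 2 / (1 - (1 / 2 : ℝ) ^ (κ - 1)) * A * s₀ ^ (κ - 1) := by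
  set x : ℝ := (1 / 2 : ℝ) ^ (κ - 1) with hx
  have hx0 : 0 < x := by positivity
  have hx1 : x < 1 := Real.rpow_lt_one (by norm_num) (by norm_num) (by linarith only [hκ])
  have h1 := dyad_scale T D g s₀ hs₀ hD hg (fun i => A * s₀ ^ κ * x ^ i) (A * s₀ ^ κ / (1 - x))
    (by
      intro i
      have h2 := hb (s₀ * (1 / 2) ^ i) (by positivity) (by
        have : (1 / 2 : ℝ) ^ i ≤ 1 := pow_le_one₀ (by norm_num) (by norm_num)
        linarith only [mul_nonneg (le_of_lt (sub_pos.2 hs₀)) (sub_nonneg.2 this)])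
      refine h2.trans (le_of_eq ?_)
      rw [Real.mul_rpow hs₀.le (by positivity)]
      have e : ((1 / 2 : ℝ) ^ i) ^ κ = (1 / 2) ^ i * x ^ i := by
        rw [hx, ← Real.rpow_natCast, ← Real.rpow_natCast, ← Real.rpow_mul (by norm_num),
          ← Real.rpow_mul (by norm_num), ← Real.rpow_add (by norm_num)]
        congr 1
        ring
      rw [e]; ring)
    (by
      intro I
      rw [← mul_sum]
      have h2 : ∑ i ∈ range I, x ^ i ≤ 1 / (1 - x) := by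
        rw [le_div_iff₀ (by linarith only [hx1]), geom_sum_mul_neg]
        have : 0 ≤ x ^ I := by positivity
        linarith only [this]
      calc A * s₀ ^ κ * ∑ i ∈ range I, x ^ i ≤ A * s₀ ^ κ * (1 / (1 - x)) :=
            mul_le_mul_of_nonneg_left h2 (by positivity)
        _ = A * s₀ ^ κ / (1 - x) := by ring)
  refine h1.trans (le_of_eq ?_)
  rw [Real.rpow_sub_one hs₀.ne']
  have : 1 - x ≠ 0 := by linarith only [hx1]
  (clear * - hs₀ this; field_simp)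

theorem dyad_mid (T : Finset (ℕ × ℕ)) (D g : ℕ × ℕ → ℝ) (s₁ s₂ κ A : ℝ) (n : ℕ) (hs₁ : 0 < s₁)
    (hs₂ : s₂ ≤ 2 ^ n * s₁) (hs12 : 0 < s₂)
    (hκ : κ ≤ 1) (hA : 0 ≤ A) (hD : ∀ p ∈ T, s₁ ≤ D p ∧ D p ≤ s₂) (hg : ∀ p ∈ T, 0 ≤ g p)
    (hb : ∀ s, s₁ ≤ s → s ≤ s₂ → ∑ p ∈ T with s / 2 < D p ∧ D p ≤ s, g p ≤ A * s ^ κ) :
    ∑ p ∈ T, g p / D p ≤ 2 * (n + 1) * A * s₁ ^ (κ - 1) := by
  have h1 := dyad_scale T D g s₂ hs12 (fun p hp => ⟨hs₁.trans_le (hD p hp).1, (hD p hp).2⟩) hg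
    (fun i => if i ≤ n then A * s₂ * s₁ ^ (κ - 1) else 0) ((n + 1) * (A * s₂ * s₁ ^ (κ - 1)))
    (by
      intro i
      have hi0 : 0 < s₂ * (1 / 2 : ℝ) ^ i := by (clear * - hs12; positivity)
      have hle : s₂ * (1 / 2 : ℝ) ^ i ≤ s₂ := by
        have : (1 / 2 : ℝ) ^ i ≤ 1 := pow_le_one₀ (by norm_num) (by norm_num)
        nlinarith only [hs12, this]
      rcases le_or_gt s₁ (s₂ * (1 / 2 : ℝ) ^ i) with h | h
      · have hin : i ≤ n := by
          by_contra hcon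
          push Not at hcon
          have h3 : s₂ * (1 / 2 : ℝ) ^ i ≤ (2 ^ n * s₁) * (1 / 2) ^ i :=
            mul_le_mul_of_nonneg_right hs₂ (by positivity)
          have h4 : (1 / 2 : ℝ) ^ i ≤ (1 / 2) ^ (n + 1) :=
            pow_le_pow_of_le_one (by norm_num) (by norm_num) hcon
          have h5 : (2 ^ n * s₁) * (1 / 2 : ℝ) ^ i ≤ (2 ^ n * s₁) * (1 / 2) ^ (n + 1) :=
            mul_le_mul_of_nonneg_left h4 (by positivity)
          have h6 : (2 ^ n * s₁) * (1 / 2 : ℝ) ^ (n + 1) = s₁ / 2 := by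
            rw [pow_succ, one_div, inv_pow]; field_simp
          linarith only [h, hi0, h6, h3, h5]
        rw [if_pos hin]
        refine (hb _ h hle).trans ?_
        have h3 : (s₂ * (1 / 2 : ℝ) ^ i) ^ κ = (s₂ * (1 / 2) ^ i) ^ (κ - 1) * (s₂ * (1 / 2) ^ i) := by
          rw [Real.rpow_sub_one hi0.ne']; field_simp
        have h4 : (s₂ * (1 / 2 : ℝ) ^ i) ^ (κ - 1) ≤ s₁ ^ (κ - 1) :=
          Real.rpow_le_rpow_of_nonpos hs₁ h (by linarith only [hκ])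
        rw [h3]
        calc A * ((s₂ * (1 / 2) ^ i) ^ (κ - 1) * (s₂ * (1 / 2) ^ i)) ≤
            A * (s₁ ^ (κ - 1) * (s₂ * (1 / 2) ^ i)) := by gcongr
          _ = _ := by ring
      · have h0 : (T.filter fun p => s₂ * (1 / 2 : ℝ) ^ i / 2 < D p ∧ D p ≤ s₂ * (1 / 2) ^ i) = ∅ := by
          apply filter_eq_empty_iff.2
          intro p hp hcon
          linarith only [(hD p hp).1, hcon.2, h]
        rw [h0, sum_empty]
        split_ifs <;> positivity)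
    (by
      intro I
      have h0 : 0 ≤ A * s₂ * s₁ ^ (κ - 1) := by positivity
      calc ∑ i ∈ range I, (if i ≤ n then A * s₂ * s₁ ^ (κ - 1) else 0)
          = ((range I).filter (fun i => i ≤ n)).card * (A * s₂ * s₁ ^ (κ - 1)) := by
            rw [← sum_filter, sum_const, nsmul_eq_mul]
        _ ≤ (n + 1) * (A * s₂ * s₁ ^ (κ - 1)) := by
            apply mul_le_mul_of_nonneg_right _ h0
            have h1 : ((range I).filter (fun i => i ≤ n)).card ≤ (range (n + 1)).card := by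
              apply card_le_card
              intro i hi
              rw [mem_filter] at hi
              rw [mem_range]
              omega
            rw [card_range] at h1
            exact_mod_cast h1)
  refine h1.trans (le_of_eq ?_)
  (clear * - hs12 hs₁; field_simp)

end Vale.P028
end

section

/-!
# Second moment of the sifted sets (Theorem B): summation over the pairs
-/

namespace Vale.P028

open Finset MeasureTheory

/-- `μ(q) = φ(q) ψ(q) / q`. -/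
noncomputable def muq (ψ : ℕ → ℝ) (q : ℕ) : ℝ := (q.totient : ℝ) / q * ψ q

/-- `D(q, r)` -/
noncomputable def DP (ψ : ℕ → ℝ) (p : ℕ × ℕ) : ℝ :=
  Dpr (cofac p.1 p.2) (cofac p.2 p.1) (ψ p.1) (ψ p.2)

open Classical in
theorem moment_sum (γ : ℝ) (ψ : ℕ → ℝ) (B : ℕ → ℕ) (A : ℕ → ℤ) (S : Finset ℕ)
    (s₁ Lam D₁ κ C₁ : ℝ)
    (hS : ∀ q ∈ S, 0 < q ∧ 0 < ψ q ∧ ψ q ≤ 1 / 2 ∧ 0 < B q ∧ IsCoprime (B q : ℤ) (A q) ∧
      ip q.primeFactors ≤ Lam)
    (hAB : ∀ q r, B q = B r → A q = A r)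
    (hs₁0 : 0 < s₁) (hs₁ : s₁ ≤ 1 / 8) (hLam : 1 ≤ Lam) (hκ : 0 ≤ κ) (hC₁ : 0 ≤ C₁)
    (hbig : ∀ q ∈ S, ∀ r ∈ S, q ≠ r → D₁ ≤ DP ψ (q, r) →
      ∑ t ∈ (sheets γ (cofac q r) (cofac r q) (DP ψ (q, r))).filter
      (fun t => nt (cofac q r) (cofac r q) (B q) (A q) (B r) (A r) t ≠ 0),
      Kt (Nat.gcd q r) (cofac q r) (cofac r q) (B q) (A q) (B r) (A r) t ≤ C₁ * DP ψ (q, r))
    (hmid : ∀ q ∈ S, ∀ r ∈ S, q ≠ r → DP ψ (q, r) < D₁ →
      ∀ t ∈ sheets γ (cofac q r) (cofac r q) (DP ψ (q, r)),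
      nt (cofac q r) (cofac r q) (B q) (A q) (B r) (A r) t ≠ 0 →
      Kt (Nat.gcd q r) (cofac q r) (cofac r q) (B q) (A q) (B r) (A r) t ≤ κ) :
    ∑ q ∈ S, ∑ r ∈ S, VB γ ψ B A q r ≤
      6 * (∑ q ∈ S, muq ψ q) + (2 * C₁ + 2) * (∑ q ∈ S, muq ψ q) ^ 2 +
      2 * κ * (4 * D₁ + 1) * (∑ p ∈ (S ×ˢ S).filter (fun p => p.1 ≠ p.2 ∧ s₁ ≤ DP ψ p ∧
        DP ψ p < D₁), muq ψ p.1 * muq ψ p.2 / DP ψ p) +
      2 * Lam ^ 2 * (∑ p ∈ (S ×ˢ S).filter (fun p => p.1 ≠ p.2 ∧ s₁ ≤ DP ψ p ∧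
        DP ψ p < Lam ^ 2 ∧ ZeroPair B p.1 p.2), muq ψ p.1 * muq ψ p.2 / DP ψ p) +
      2 * Lam ^ 2 * (∑ p ∈ (S ×ˢ S).filter (fun p => p.1 ≠ p.2 ∧ DP ψ p < s₁ ∧
        VB γ ψ B A p.1 p.2 ≠ 0), muq ψ p.1 * muq ψ p.2 / DP ψ p) := by
  have hpair : ∀ q ∈ S, ∀ r ∈ S, VB γ ψ B A q r ≤
      (if q = r then 6 * muq ψ q else 0) + (2 * C₁ + 2) * (muq ψ q * muq ψ r) +
      (if q ≠ r ∧ s₁ ≤ DP ψ (q, r) ∧ DP ψ (q, r) < D₁ then 2 * κ * (4 * D₁ + 1) *
        ((muq ψ q * muq ψ r) / DP ψ (q, r)) else 0) +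
      (if q ≠ r ∧ s₁ ≤ DP ψ (q, r) ∧ DP ψ (q, r) < Lam ^ 2 ∧ ZeroPair B q r then 2 * Lam ^ 2 *
        ((muq ψ q * muq ψ r) / DP ψ (q, r)) else 0) +
      (if q ≠ r ∧ DP ψ (q, r) < s₁ ∧ VB γ ψ B A q r ≠ 0 then 2 * Lam ^ 2 *
        ((muq ψ q * muq ψ r) / DP ψ (q, r)) else 0) := by
    intro q hq r hr
    obtain ⟨q0, qψ, qψ', qB, qA, qL⟩ := hS q hq
    obtain ⟨r0, rψ, rψ', rB, rA, rL⟩ := hS r hr
    exact pair_bound γ ψ B A q r s₁ Lam D₁ κ C₁ q0 r0 ⟨qψ, qψ'⟩ ⟨rψ, rψ'⟩ qB rB qA rA (hAB q r)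
      hs₁0 hs₁ hLam qL rL hκ hC₁ (DP ψ (q, r)) rfl (hbig q hq r hr) (hmid q hq r hr)
  have hmu0 : ∀ q ∈ S, 0 ≤ muq ψ q := fun q hq =>
    mul_nonneg (by positivity) (hS q hq).2.1.le
  refine (sum_le_sum fun q hq => sum_le_sum fun r hr => hpair q hq r hr).trans ?_
  simp only [sum_add_distrib]
  have e1 : ∑ q ∈ S, ∑ r ∈ S, (if q = r then 6 * muq ψ q else 0) = 6 * ∑ q ∈ S, muq ψ q := by
    rw [mul_sum]
    refine sum_congr rfl fun q hq => ?_
    rw [sum_ite_eq S q, if_pos hq]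
  have e2 : ∑ q ∈ S, ∑ r ∈ S, (2 * C₁ + 2) * (muq ψ q * muq ψ r) =
      (2 * C₁ + 2) * (∑ q ∈ S, muq ψ q) ^ 2 := by
    rw [pow_two, sum_mul_sum, mul_sum]
    refine sum_congr rfl fun q _ => ?_
    rw [mul_sum]
  have key : ∀ (R : ℕ × ℕ → Prop) (c : ℝ), ∑ q ∈ S, ∑ r ∈ S, (if R (q, r) then c *
        ((muq ψ q * muq ψ r) / DP ψ (q, r)) else 0) =
      c * ∑ p ∈ (S ×ˢ S).filter R, muq ψ p.1 * muq ψ p.2 / DP ψ p := by
    intro R c
    rw [← sum_product' (f := fun q r => if R (q, r) then c *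
        ((muq ψ q * muq ψ r) / DP ψ (q, r)) else 0), mul_sum, sum_filter]
  have e3 : ∑ q ∈ S, ∑ r ∈ S, (if q ≠ r ∧ s₁ ≤ DP ψ (q, r) ∧ DP ψ (q, r) < D₁ then
      2 * κ * (4 * D₁ + 1) * ((muq ψ q * muq ψ r) / DP ψ (q, r)) else 0) =
      2 * κ * (4 * D₁ + 1) * ∑ p ∈ (S ×ˢ S).filter (fun p => p.1 ≠ p.2 ∧ s₁ ≤ DP ψ p ∧
        DP ψ p < D₁), muq ψ p.1 * muq ψ p.2 / DP ψ p := by
    convert key (fun p => p.1 ≠ p.2 ∧ s₁ ≤ DP ψ p ∧ DP ψ p < D₁) (2 * κ * (4 * D₁ + 1))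
  have e4 : ∑ q ∈ S, ∑ r ∈ S, (if q ≠ r ∧ s₁ ≤ DP ψ (q, r) ∧ DP ψ (q, r) < Lam ^ 2 ∧
      ZeroPair B q r then 2 * Lam ^ 2 * ((muq ψ q * muq ψ r) / DP ψ (q, r)) else 0) =
      2 * Lam ^ 2 * ∑ p ∈ (S ×ˢ S).filter (fun p => p.1 ≠ p.2 ∧ s₁ ≤ DP ψ p ∧
        DP ψ p < Lam ^ 2 ∧ ZeroPair B p.1 p.2), muq ψ p.1 * muq ψ p.2 / DP ψ p := by
    convert key (fun p => p.1 ≠ p.2 ∧ s₁ ≤ DP ψ p ∧ DP ψ p < Lam ^ 2 ∧ ZeroPair B p.1 p.2)
      (2 * Lam ^ 2)
  have e5 : ∑ q ∈ S, ∑ r ∈ S, (if q ≠ r ∧ DP ψ (q, r) < s₁ ∧ VB γ ψ B A q r ≠ 0 then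
      2 * Lam ^ 2 * ((muq ψ q * muq ψ r) / DP ψ (q, r)) else 0) =
      2 * Lam ^ 2 * ∑ p ∈ (S ×ˢ S).filter (fun p => p.1 ≠ p.2 ∧ DP ψ p < s₁ ∧
        VB γ ψ B A p.1 p.2 ≠ 0), muq ψ p.1 * muq ψ p.2 / DP ψ p := by
    convert key (fun p => p.1 ≠ p.2 ∧ DP ψ p < s₁ ∧ VB γ ψ B A p.1 p.2 ≠ 0) (2 * Lam ^ 2)
  rw [e1, e2, e3, e4, e5]

theorem DP_pos {ψ : ℕ → ℝ} {p : ℕ × ℕ} (h1 : 0 < p.1) (h2 : 0 < p.2) (h3 : 0 < ψ p.1) :
    0 < DP ψ p := by
  unfold DP Dpr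
  apply lt_max_of_lt_left
  have : 0 < cofac p.2 p.1 := am_cofac_pos h2
  positivity

/-- the intersection of two sifted sets forces the Bohr condition -/
theorem rel_of_VB {γ : ℝ} {ψ : ℕ → ℝ} {B : ℕ → ℕ} {A : ℕ → ℤ} {q r : ℕ} (hq : 0 < q)
    (hr : 0 < r) (hqr : q ≠ r) (hV : VB γ ψ B A q r ≠ 0) (s : ℝ) (hs : DP ψ (q, r) ≤ s) :
    Rel γ ψ s q r := by
  have hne : (GB γ (ψ q) q (B q) (A q) ∩ GB γ (ψ r) r (B r) (A r) ∩ Set.Icc 0 1).Nonempty := by
    rw [Set.nonempty_iff_ne_empty]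
    intro h
    apply hV
    unfold VB
    rw [h, measureReal_empty, mul_zero]
  obtain ⟨x, ⟨⟨al, _, hal⟩, ⟨be, _, hbe⟩⟩, _⟩ := hne
  have hle : (cofac r q : ℝ) * ψ q ≤ s ∧ (cofac q r : ℝ) * ψ r ≤ s := by
    unfold DP Dpr at hs
    exact max_le_iff.1 hs
  refine ⟨fun h => hqr (eq_of_cofac_eq h), hle.1, hle.2, ?_⟩
  set u := cofac q r with hu
  set v := cofac r q with hv
  have hu0 : 0 < u := am_cofac_pos hq
  have hv0 : 0 < v := am_cofac_pos hr
  have huR : (0 : ℝ) < u := by exact_mod_cast hu0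
  have hvR : (0 : ℝ) < v := by exact_mod_cast hv0
  have e4 : q * v = r * u := by
    rw [hu, hv]
    unfold cofac
    rw [Nat.gcd_comm r q, ← Nat.mul_div_assoc _ (Nat.gcd_dvd_right q r),
      ← Nat.mul_div_assoc _ (Nat.gcd_dvd_left q r), Nat.mul_comm]
  have e3 : (q : ℝ) * v = r * u := by exact_mod_cast e4
  apply distInt_le_of_int (v * al - u * be)
  have e5 : (((v : ℤ) * al - (u : ℤ) * be : ℤ) : ℝ) - ((u : ℝ) - v) * γ
      = (u : ℝ) * ((r : ℝ) * x - γ - be) - (v : ℝ) * ((q : ℝ) * x - γ - al) := by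
    push_cast
    linear_combination x * e3
  rw [e5]
  calc |(u : ℝ) * ((r : ℝ) * x - γ - be) - (v : ℝ) * ((q : ℝ) * x - γ - al)|
      ≤ |(u : ℝ) * ((r : ℝ) * x - γ - be)| + |(v : ℝ) * ((q : ℝ) * x - γ - al)| := abs_sub _ _
    _ = (u : ℝ) * |(r : ℝ) * x - γ - be| + (v : ℝ) * |(q : ℝ) * x - γ - al| := by
        rw [abs_mul, abs_mul, abs_of_pos huR, abs_of_pos hvR]
    _ < (u : ℝ) * ψ r + (v : ℝ) * ψ q := by gcongr
    _ ≤ s + s := add_le_add hle.2 hle.1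
    _ = 2 * s := by ring

/-- balanced near pairs are killed -/
theorem far_of_VB {γ : ℝ} {ψ : ℕ → ℝ} {s₁ : ℝ} (hs₁ : s₁ ≤ 1 / 1000) {q r : ℕ} (hq : 0 < q)
    (hr : 0 < r) (hqr : q ≠ r)
    (hV : VB γ ψ (fun q => Bsel γ s₁ (min (ψ q) s₁)) (fun q => Anum γ (Bsel γ s₁ (min (ψ q) s₁)))
      q r ≠ 0) (s : ℝ) (hs0 : 0 < s) (hss : s ≤ s₁) (hs : DP ψ (q, r) ≤ s)
    (hb1 : s ^ 2 ≤ (cofac r q : ℝ) * ψ q) (hb2 : s ^ 2 ≤ (cofac q r : ℝ) * ψ r) :
    Far γ s (cofac q r) (cofac r q) := by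
  by_contra hF
  unfold Far at hF
  push Not at hF
  obtain ⟨B, hB, hlt⟩ := hF
  have hle : (cofac r q : ℝ) * ψ q ≤ s ∧ (cofac q r : ℝ) * ψ r ≤ s := by
    unfold DP Dpr at hs
    exact max_le_iff.1 hs
  have hu0 : 0 < cofac q r := am_cofac_pos hq
  have hv0 : 0 < cofac r q := am_cofac_pos hr
  have hd0 : 0 ≤ distInt (B * γ) := abs_nonneg _
  have h1 : 4 * distInt (B * γ) * (cofac r q : ℝ) < 1 :=
    lt_of_le_of_lt (mul_le_mul_of_nonneg_left (le_max_right _ _) (by linarith)) hlt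
  have h2 : 4 * distInt (B * γ) * (cofac q r : ℝ) < 1 :=
    lt_of_le_of_lt (mul_le_mul_of_nonneg_left (le_max_left _ _) (by linarith)) hlt
  have hBq : Bsel γ s₁ (min (ψ q) s₁) = B := Bsel_eq_of_near hs0 hss hs₁ hv0 hB h1 hle.1 hb1
  have hBr : Bsel γ s₁ (min (ψ r) s₁) = B := Bsel_eq_of_near hs0 hss hs₁ hu0 hB h2 hle.2 hb2
  apply hV
  unfold VB
  simp only
  rw [hBq, hBr, kill_full hs0 (hss.trans hs₁) hq hr hqr hle.1 hle.2 hB hlt, Set.empty_inter,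
    measureReal_empty, mul_zero]

end Vale.P028
end

section

/-!
# Bilinear bounds for the three families of pairs (Theorem B)
-/

namespace Vale.P028

open Finset MeasureTheory

/-- the weights supported on `S` -/
noncomputable def fS (ψ : ℕ → ℝ) (S : Finset ℕ) (q : ℕ) : ℝ := by
  classical exact if q ∈ S then muq ψ q else 0

theorem muq_nonneg {ψ : ℕ → ℝ} (hψ : ∀ q, 0 ≤ ψ q) (q : ℕ) : 0 ≤ muq ψ q :=
  mul_nonneg (by (clear * -; positivity)) (hψ q)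

theorem fS_nonneg {ψ : ℕ → ℝ} (hψ : ∀ q, 0 ≤ ψ q) (S : Finset ℕ) (q : ℕ) : 0 ≤ fS ψ S q := by
  unfold fS
  split_ifs
  · exact muq_nonneg hψ q
  · exact le_rfl

theorem fS_le {ψ : ℕ → ℝ} (hψ : ∀ q, 0 ≤ ψ q) (S : Finset ℕ) (q : ℕ) :
    fS ψ S q ≤ ψ q * (q.totient / q) := by
  have h0 : (0 : ℝ) ≤ (q.totient : ℝ) / q := by (clear * -; positivity)
  unfold fS
  split_ifs
  · unfold muq; rw [mul_comm]
  · exact mul_nonneg (hψ q) h0

theorem totient_div_le_one (q : ℕ) : (q.totient : ℝ) / q ≤ 1 := by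
  rcases Nat.eq_zero_or_pos q with h | h
  · rw [h]; simp only [Nat.totient_zero, CharP.cast_eq_zero, div_zero, zero_le_one]
  · rw [div_le_one (by exact_mod_cast h)]
    exact_mod_cast Nat.totient_le q

theorem fS_le' {ψ : ℕ → ℝ} (hψ : ∀ q, 0 ≤ ψ q) (S : Finset ℕ) (q : ℕ) : fS ψ S q ≤ ψ q := by
  refine (fS_le hψ S q).trans ?_
  calc ψ q * (q.totient / q) ≤ ψ q * 1 := mul_le_mul_of_nonneg_left (totient_div_le_one q) (hψ q)
    _ = ψ q := mul_one _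

theorem sum_fS {ψ : ℕ → ℝ} (S : Finset ℕ) (N : ℕ) (hN : ∀ q ∈ S, 0 < q ∧ q ≤ N) :
    ∑ q ∈ Icc 1 N, fS ψ S q = ∑ q ∈ S, muq ψ q := by
  classical
  have hsub : S ⊆ Icc 1 N := fun q hq => mem_Icc.2 ⟨(hN q hq).1, (hN q hq).2⟩
  rw [← sum_subset hsub]
  · refine sum_congr rfl fun q hq => ?_
    unfold fS
    rw [if_pos hq]
  · intro q _ hq
    unfold fS
    rw [if_neg hq]

/-- from a sum over a set of pairs to `psum` -/
theorem sum_pairs_le {ψ : ℕ → ℝ} (hψ : ∀ q, 0 ≤ ψ q) (S : Finset ℕ) (N : ℕ)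
    (hN : ∀ q ∈ S, 0 < q ∧ q ≤ N) (T : Finset (ℕ × ℕ)) (hT : T ⊆ S ×ˢ S) (R : ℕ → ℕ → Prop)
    (hR : ∀ p ∈ T, R p.1 p.2) :
    ∑ p ∈ T, muq ψ p.1 * muq ψ p.2 ≤ psum R N (fS ψ S) (fS ψ S) := by
  have h1 := sum_le_psum R N (fS ψ S) (fS ψ S) (fS_nonneg hψ S) (fS_nonneg hψ S) T
    (fun p hp => by
      have h := mem_product.1 (hT hp)
      exact ⟨mem_Icc.2 ⟨(hN _ h.1).1, (hN _ h.1).2⟩, mem_Icc.2 ⟨(hN _ h.2).1, (hN _ h.2).2⟩,
        hR p hp⟩)
  refine le_trans (le_of_eq ?_) h1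
  refine sum_congr rfl fun p hp => ?_
  have h := mem_product.1 (hT hp)
  unfold fS
  rw [if_pos h.1, if_pos h.2]

open Classical in
theorem mid_bound {θ : ℝ} (hθ : 1 / 2 < θ) (hθ1 : θ < 1) : ∃ C > 0, ∀ (ψ : ℕ → ℝ) (S : Finset ℕ)
    (N n : ℕ) (s₁ D₁ : ℝ), (∀ q, 0 ≤ ψ q) → (∀ q ∈ S, 0 < q ∧ q ≤ N) → 0 < s₁ → 0 < D₁ →
    D₁ ≤ 2 ^ n * s₁ →
    ∑ p ∈ (S ×ˢ S).filter (fun p => p.1 ≠ p.2 ∧ s₁ ≤ DP ψ p ∧ DP ψ p < D₁),
      muq ψ p.1 * muq ψ p.2 / DP ψ p ≤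
      2 * (n + 1) * (C * (∑ q ∈ S, muq ψ q) ^ (2 * θ)) * s₁ ^ (2 * (1 - θ) - 1) := by
  obtain ⟨C, hC, hT1⟩ := T1 hθ hθ1
  refine ⟨C, hC, ?_⟩
  intro ψ S N n s₁ D₁ hψ hN hs₁ hD₁ hn
  set M := ∑ q ∈ S, muq ψ q with hM
  have hM0 : 0 ≤ M := sum_nonneg fun q _ => muq_nonneg hψ q
  apply dyad_mid _ (DP ψ) (fun p => muq ψ p.1 * muq ψ p.2) s₁ D₁ (2 * (1 - θ))
    (C * M ^ (2 * θ)) n hs₁ hn hD₁ (by linarith only [hθ]) (by (clear * - hC hM0; positivity))
  · intro p hp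
    rw [mem_filter] at hp
    exact ⟨hp.2.2.1, hp.2.2.2.le⟩
  · intro p _
    exact mul_nonneg (muq_nonneg hψ _) (muq_nonneg hψ _)
  · intro s hs _
    have hs0 : 0 < s := hs₁.trans_le hs
    have h1 := sum_pairs_le hψ S N hN (((S ×ˢ S).filter (fun p => p.1 ≠ p.2 ∧ s₁ ≤ DP ψ p ∧
      DP ψ p < D₁)).filter (fun p => s / 2 < DP ψ p ∧ DP ψ p ≤ s))
      ((filter_subset _ _).trans (filter_subset _ _))
      (fun q r => (cofac r q : ℝ) * ψ q ≤ s ∧ (cofac q r : ℝ) * ψ r ≤ s)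
      (by
        intro p hp
        rw [mem_filter] at hp
        exact max_le_iff.1 hp.2.2)
    refine h1.trans ((hT1 ψ ψ _ _ s s N hs0 hs0 hψ hψ (fun q => ⟨fS_nonneg hψ S q, fS_le hψ S q⟩)
      (fun q => ⟨fS_nonneg hψ S q, fS_le hψ S q⟩)).trans (le_of_eq ?_))
    rw [sum_fS S N hN, ← hM, Real.mul_rpow hs0.le hs0.le, Real.mul_rpow hM0 hM0,
      ← Real.rpow_add hs0, two_mul, two_mul, Real.rpow_add_of_nonneg hM0 (by linarith only [hθ]) (by linarith only [hθ])]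
    ring


open Classical in
theorem zero_bound {θ : ℝ} (hθ : 1 / 2 < θ) (hθ1 : θ < 1) : ∃ C > 0, ∀ (ψ : ℕ → ℝ) (S : Finset ℕ)
    (N n : ℕ) (s₁ s₂ b₀ : ℝ) (B : ℕ → ℕ) (𝓑 : Finset ℕ), (∀ q, 0 ≤ ψ q) →
    (∀ q ∈ S, 0 < q ∧ q ≤ N) → 0 < s₁ → 0 < s₂ → s₂ ≤ 2 ^ n * s₁ → 0 < b₀ →
    (∀ q ∈ S, B q ∈ 𝓑 ∧ 0 < B q) →
    (∀ q ∈ S, ∀ r ∈ S, B q < B r → b₀ ≤ (B r / Nat.gcd (B q) (B r) : ℕ)) →
    ∑ p ∈ (S ×ˢ S).filter (fun p => p.1 ≠ p.2 ∧ s₁ ≤ DP ψ p ∧ DP ψ p < s₂ ∧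
      ZeroPair B p.1 p.2), muq ψ p.1 * muq ψ p.2 / DP ψ p ≤
      (𝓑.card : ℝ) ^ 2 * (2 * (n + 1) * (C * b₀ ^ (-(1 - θ)) * (∑ q ∈ S, muq ψ q) ^ (2 * θ)) *
        s₁ ^ (2 * (1 - θ) - 1)) := by
  obtain ⟨C, hC, hT1⟩ := T1div hθ hθ1
  refine ⟨C, hC, ?_⟩
  intro ψ S N n s₁ s₂ b₀ B 𝓑 hψ hN hs₁ hs₂ hn hb₀ hB hratio
  set M := ∑ q ∈ S, muq ψ q with hM
  have hM0 : 0 ≤ M := sum_nonneg fun q _ => muq_nonneg hψ q
  set T := (S ×ˢ S).filter (fun p => p.1 ≠ p.2 ∧ s₁ ≤ DP ψ p ∧ DP ψ p < s₂ ∧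
      ZeroPair B p.1 p.2) with hT
  have hTS : T ⊆ S ×ˢ S := filter_subset _ _
  have hmaps : ∀ p ∈ T, (fun p : ℕ × ℕ => (B p.1, B p.2)) p ∈ 𝓑 ×ˢ 𝓑 := by
    intro p hp
    have h := mem_product.1 (hTS hp)
    exact mem_product.2 ⟨(hB _ h.1).1, (hB _ h.2).1⟩
  rw [← sum_fiberwise_of_maps_to hmaps]
  have hone : ∀ β ∈ 𝓑 ×ˢ 𝓑, ∑ p ∈ T with (fun p : ℕ × ℕ => (B p.1, B p.2)) p = β,
      muq ψ p.1 * muq ψ p.2 / DP ψ p ≤ 2 * (n + 1) * (C * b₀ ^ (-(1 - θ)) * M ^ (2 * θ)) *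
        s₁ ^ (2 * (1 - θ) - 1) := by
    intro β _
    set T' := T.filter (fun p => (fun p : ℕ × ℕ => (B p.1, B p.2)) p = β) with hT'
    have hT'S : T' ⊆ S ×ˢ S := (filter_subset _ _).trans hTS
    apply dyad_mid T' (DP ψ) (fun p => muq ψ p.1 * muq ψ p.2) s₁ s₂ (2 * (1 - θ))
      (C * b₀ ^ (-(1 - θ)) * M ^ (2 * θ)) n hs₁ hn hs₂ (by linarith only [hθ]) (by (clear * - hC hb₀ hM0; positivity))
    · intro p hp
      rw [hT', mem_filter, hT, mem_filter] at hp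
      exact ⟨hp.1.2.2.1, hp.1.2.2.2.1.le⟩
    · intro p _
      exact mul_nonneg (muq_nonneg hψ _) (muq_nonneg hψ _)
    · intro s hs _
      have hs0 : 0 < s := hs₁.trans_le hs
      -- the divisors
      set T'' := T'.filter (fun p => s / 2 < DP ψ p ∧ DP ψ p ≤ s) with hT''
      rcases T''.eq_empty_or_nonempty with hemp | ⟨p₀, hp₀⟩
      · rw [hemp, sum_empty]; (clear * - hC hb₀ hM0 hs0; positivity)
      have hmem : ∀ p ∈ T'', p.1 ∈ S ∧ p.2 ∈ S ∧ B p.1 = β.1 ∧ B p.2 = β.2 ∧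
          ZeroPair B p.1 p.2 ∧ ((cofac p.2 p.1 : ℝ) * ψ p.1 ≤ s ∧ (cofac p.1 p.2 : ℝ) * ψ p.2 ≤ s) := by
        intro p hp
        rw [hT'', mem_filter, hT', mem_filter, hT, mem_filter, mem_product] at hp
        obtain ⟨⟨⟨⟨h1, h2⟩, -, -, -, h3⟩, h4⟩, -, h5⟩ := hp
        have h6 : (B p.1, B p.2) = β := h4
        exact ⟨h1, h2, by rw [← h6], by rw [← h6], h3, max_le_iff.1 h5⟩
      have hfin : ∀ d e : ℕ, 0 < d → 0 < e → b₀ ≤ (d : ℝ) * e →
          (∀ p ∈ T'', d ∣ cofac p.1 p.2 ∧ e ∣ cofac p.2 p.1) →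
          ∑ p ∈ T'', muq ψ p.1 * muq ψ p.2 ≤ C * b₀ ^ (-(1 - θ)) * M ^ (2 * θ) * s ^ (2 * (1 - θ)) := by
        intro d e hd he hde hdiv
        have h1 := sum_pairs_le hψ S N hN T'' ((filter_subset _ _).trans hT'S)
          (fun q r => d ∣ cofac q r ∧ e ∣ cofac r q ∧ (cofac r q : ℝ) * ψ q ≤ s ∧
            (cofac q r : ℝ) * ψ r ≤ s)
          (fun p hp => ⟨(hdiv p hp).1, (hdiv p hp).2, (hmem p hp).2.2.2.2.2⟩)
        refine h1.trans ((hT1 ψ ψ _ _ s s N d e hs0 hs0 hd he hψ hψ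
          (fun q => ⟨fS_nonneg hψ S q, fS_le hψ S q⟩)
          (fun q => ⟨fS_nonneg hψ S q, fS_le hψ S q⟩)).trans ?_)
        rw [sum_fS S N hN, ← hM]
        have hdR : (0 : ℝ) < d := by exact_mod_cast hd
        have heR : (0 : ℝ) < e := by exact_mod_cast he
        have h2 : (s * s / (d * e)) ^ (1 - θ) ≤ b₀ ^ (-(1 - θ)) * s ^ (2 * (1 - θ)) := by
          rw [Real.div_rpow (by (clear * - hs0; positivity)) (by (clear * - hd he; positivity)), Real.mul_rpow hs0.le hs0.le,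
            ← Real.rpow_add hs0, div_eq_mul_inv, ← Real.rpow_neg (by (clear * - hd he; positivity)), mul_comm]
          have h3 : ((d : ℝ) * e) ^ (-(1 - θ)) ≤ b₀ ^ (-(1 - θ)) :=
            Real.rpow_le_rpow_of_nonpos hb₀ hde (by linarith only [hθ1])
          rw [two_mul]
          exact mul_le_mul_of_nonneg_right h3 (by positivity)
        have h4 : (M * M) ^ θ = M ^ (2 * θ) := by
          rw [Real.mul_rpow hM0 hM0, two_mul, Real.rpow_add_of_nonneg hM0 (by linarith only [hθ]) (by linarith only [hθ])]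
        rw [h4]
        calc C * (s * s / (d * e)) ^ (1 - θ) * M ^ (2 * θ)
            ≤ C * (b₀ ^ (-(1 - θ)) * s ^ (2 * (1 - θ))) * M ^ (2 * θ) := by (clear * - h2 hC hM0; gcongr)
          _ = _ := by ring
      obtain ⟨m1, m2, m3, m4, m5, -⟩ := hmem p₀ hp₀
      rcases lt_trichotomy β.1 β.2 with hlt | heq | hgt
      · have hr := hratio p₀.1 m1 p₀.2 m2 (by rw [m3, m4]; exact hlt)
        rw [m3, m4] at hr
        have hd0 : 0 < β.2 / Nat.gcd β.1 β.2 := by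
          have : (0 : ℝ) < (β.2 / Nat.gcd β.1 β.2 : ℕ) := hb₀.trans_le hr
          exact_mod_cast this
        apply hfin (β.2 / Nat.gcd β.1 β.2) 1 hd0 one_pos (by rw [Nat.cast_one, mul_one]; exact hr)
        intro p hp
        obtain ⟨-, -, k3, k4, k5, -⟩ := hmem p hp
        refine ⟨?_, one_dvd _⟩
        rcases k5 with h | h
        · rw [k3, k4] at h; exact h.2
        · rw [k3, k4] at h; exact absurd h.1 (by omega)
      · exfalso
        rcases m5 with h | h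
        · rw [m3, m4] at h; omega
        · rw [m3, m4] at h; omega
      · have hr := hratio p₀.2 m2 p₀.1 m1 (by rw [m3, m4]; exact hgt)
        rw [m3, m4] at hr
        have hd0 : 0 < β.1 / Nat.gcd β.2 β.1 := by
          have : (0 : ℝ) < (β.1 / Nat.gcd β.2 β.1 : ℕ) := hb₀.trans_le hr
          exact_mod_cast this
        apply hfin 1 (β.1 / Nat.gcd β.2 β.1) one_pos hd0 (by rw [Nat.cast_one, one_mul]; exact hr)
        intro p hp
        obtain ⟨-, -, k3, k4, k5, -⟩ := hmem p hp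
        refine ⟨one_dvd _, ?_⟩
        rcases k5 with h | h
        · rw [k3, k4] at h; exact absurd h.1 (by omega)
        · rw [k3, k4] at h; exact h.2
  refine (sum_le_card_nsmul _ _ _ hone).trans (le_of_eq ?_)
  rw [nsmul_eq_mul, card_product]
  push_cast
  ring

open Classical in
theorem sum_three_cover (T : Finset (ℕ × ℕ)) (g : ℕ × ℕ → ℝ) (hg : ∀ p ∈ T, 0 ≤ g p)
    (P₁ P₂ P₃ : ℕ × ℕ → Prop) (h : ∀ p ∈ T, ¬ P₁ p → ¬ P₂ p → P₃ p) :
    ∑ p ∈ T, g p ≤ ∑ p ∈ T.filter P₁, g p + ∑ p ∈ T.filter P₂, g p + ∑ p ∈ T.filter P₃, g p := by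
  rw [sum_filter, sum_filter, sum_filter, ← sum_add_distrib, ← sum_add_distrib]
  refine sum_le_sum fun p hp => ?_
  have h0 := hg p hp
  have a1 : ∀ Q : Prop, 0 ≤ (if Q then g p else 0) := fun Q => by
    split_ifs <;> [exact h0; exact le_rfl]
  by_cases h1 : P₁ p
  · rw [if_pos h1]
    linarith only [a1 (P₂ p), a1 (P₃ p)]
  · by_cases h2 : P₂ p
    · rw [if_pos h2]
      linarith only [a1 (P₁ p), a1 (P₃ p)]
    · rw [if_pos (h p hp h1 h2)]
      linarith [a1 (P₁ p), a1 (P₂ p)]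

open Classical in
theorem near_bound {θ : ℝ} (hθ : 1 / 2 < θ) (hθ2 : θ < 2 / 3) :
    ∃ C > 0, ∃ k ≥ (0 : ℝ), ∀ (γ : ℝ) (ψ : ℕ → ℝ) (S : Finset ℕ)
    (N V : ℕ) (s₁ : ℝ), (∀ q, 0 ≤ ψ q) → (∀ q ∈ S, 0 < q ∧ q ≤ N ∧ 0 < ψ q ∧ s₁ ≤ V * ψ q) →
    0 < s₁ → s₁ ≤ 1 / 1000 → 1 ≤ V → 
    ∑ p ∈ (S ×ˢ S).filter (fun p => p.1 ≠ p.2 ∧ DP ψ p < s₁ ∧
        VB γ ψ (fun q => Bsel γ s₁ (min (ψ q) s₁)) (fun q => Anum γ (Bsel γ s₁ (min (ψ q) s₁)))
          p.1 p.2 ≠ 0), muq ψ p.1 * muq ψ p.2 / DP ψ p ≤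
      C * (∑ q ∈ S, muq ψ q) ^ (2 * θ) * s₁ ^ (3 * (1 - θ) - 1) +
      C * (1 + Real.log V) ^ k * (∑ q ∈ S, muq ψ q) ^ (33 / 32 : ℝ) * s₁ ^ (1 / 32 : ℝ) := by
  obtain ⟨C, hC, hT1⟩ := T1 hθ (by linarith only [hθ2] : θ < 1)
  obtain ⟨C', hC', k, hk, hnG⟩ := nearG
  set K₁ : ℝ := 2 / (1 - (1 / 2 : ℝ) ^ (3 * (1 - θ) - 1)) with hK₁
  set K₂ : ℝ := 2 / (1 - (1 / 2 : ℝ) ^ ((33 / 32 : ℝ) - 1)) with hK₂
  have hK₁0 : 0 < K₁ := by
    rw [hK₁]
    have : (1 / 2 : ℝ) ^ (3 * (1 - θ) - 1) < 1 :=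
      Real.rpow_lt_one (by norm_num) (by norm_num) (by linarith only [hθ2])
    apply div_pos two_pos (by linarith only [this])
  have hK₂0 : 0 < K₂ := by
    rw [hK₂]
    have : (1 / 2 : ℝ) ^ ((33 / 32 : ℝ) - 1) < 1 :=
      Real.rpow_lt_one (by norm_num) (by norm_num) (by norm_num)
    apply div_pos two_pos (by linarith only [this])
  refine ⟨max (2 * (K₁ * (C * 4 ^ (1 - θ)))) (K₂ * C'), lt_max_of_lt_left (by (clear * - hK₁0 hC; positivity)), k, hk, ?_⟩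
  intro γ ψ S N V s₁ hψ hS hs₁ hs₁' hV
  have hN : ∀ q ∈ S, 0 < q ∧ q ≤ N := fun q hq => ⟨(hS q hq).1, (hS q hq).2.1⟩
  set M := ∑ q ∈ S, muq ψ q with hM
  have hM0 : 0 ≤ M := sum_nonneg fun q _ => muq_nonneg hψ q
  have hlogV : 0 ≤ Real.log V := Real.log_natCast_nonneg V
  set T := (S ×ˢ S).filter (fun p => p.1 ≠ p.2 ∧ DP ψ p < s₁ ∧
        VB γ ψ (fun q => Bsel γ s₁ (min (ψ q) s₁)) (fun q => Anum γ (Bsel γ s₁ (min (ψ q) s₁)))
          p.1 p.2 ≠ 0) with hT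
  have hTS : T ⊆ S ×ˢ S := filter_subset _ _
  have hTD : ∀ p ∈ T, 0 < DP ψ p ∧ DP ψ p ≤ s₁ := by
    intro p hp
    have h := mem_product.1 (hTS hp)
    rw [hT, mem_filter] at hp
    exact ⟨DP_pos (hS _ h.1).1 (hS _ h.2).1 (hS _ h.1).2.2.1, hp.2.2.1.le⟩
  have hg0 : ∀ p ∈ T, 0 ≤ muq ψ p.1 * muq ψ p.2 / DP ψ p := fun p hp =>
    div_nonneg (mul_nonneg (muq_nonneg hψ _) (muq_nonneg hψ _)) (hTD p hp).1.le
  set T₁ := T.filter (fun p => (cofac p.2 p.1 : ℝ) * ψ p.1 < 4 * DP ψ p ^ 2) with hT₁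
  set T₂ := T.filter (fun p => (cofac p.1 p.2 : ℝ) * ψ p.2 < 4 * DP ψ p ^ 2) with hT₂
  set T₃ := T.filter (fun p => 4 * DP ψ p ^ 2 ≤ (cofac p.2 p.1 : ℝ) * ψ p.1 ∧
    4 * DP ψ p ^ 2 ≤ (cofac p.1 p.2 : ℝ) * ψ p.2) with hT₃
  have hcover : ∑ p ∈ T, muq ψ p.1 * muq ψ p.2 / DP ψ p ≤
      ∑ p ∈ T₁, muq ψ p.1 * muq ψ p.2 / DP ψ p + ∑ p ∈ T₂, muq ψ p.1 * muq ψ p.2 / DP ψ p +
      ∑ p ∈ T₃, muq ψ p.1 * muq ψ p.2 / DP ψ p := by
    have h := sum_three_cover T (fun p => muq ψ p.1 * muq ψ p.2 / DP ψ p) hg0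
      (fun p => (cofac p.2 p.1 : ℝ) * ψ p.1 < 4 * DP ψ p ^ 2)
      (fun p => (cofac p.1 p.2 : ℝ) * ψ p.2 < 4 * DP ψ p ^ 2)
      (fun p => 4 * DP ψ p ^ 2 ≤ (cofac p.2 p.1 : ℝ) * ψ p.1 ∧
        4 * DP ψ p ^ 2 ≤ (cofac p.1 p.2 : ℝ) * ψ p.2)
      (fun p _ h1 h2 => ⟨not_lt.1 h1, not_lt.1 h2⟩)
    convert h using 3
    rw [hT₃]
    ext p
    simp only [mem_filter]
  have h4 : (M * M) ^ θ = M ^ (2 * θ) := by
    rw [Real.mul_rpow hM0 hM0, two_mul, Real.rpow_add_of_nonneg hM0 (by linarith only [hθ]) (by linarith only [hθ])]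
  have hpow : ∀ s : ℝ, 0 < s → (4 * s ^ 2 * s) ^ (1 - θ) = 4 ^ (1 - θ) * s ^ (3 * (1 - θ)) := by
    intro s hs
    have e : 4 * s ^ 2 * s = 4 * s ^ (3 : ℝ) := by
      have : s ^ (3 : ℝ) = s ^ 3 := by exact_mod_cast Real.rpow_natCast s 3
      rw [this]; ring
    rw [e, Real.mul_rpow (by norm_num) (by (clear * - hs; positivity)), ← Real.rpow_mul hs.le]
  -- first family
  have b1 : ∑ p ∈ T₁, muq ψ p.1 * muq ψ p.2 / DP ψ p ≤
      K₁ * (C * 4 ^ (1 - θ) * M ^ (2 * θ)) * s₁ ^ (3 * (1 - θ) - 1) := by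
    apply dyad_gt T₁ (DP ψ) (fun p => muq ψ p.1 * muq ψ p.2) s₁ (3 * (1 - θ))
      (C * 4 ^ (1 - θ) * M ^ (2 * θ)) hs₁ (by linarith only [hθ2]) (by (clear * - hC hM0; positivity))
      (fun p hp => hTD p (mem_filter.1 hp).1)
      (fun p _ => mul_nonneg (muq_nonneg hψ _) (muq_nonneg hψ _))
    intro s hs _
    have h1 := sum_pairs_le hψ S N hN (T₁.filter (fun p => s / 2 < DP ψ p ∧ DP ψ p ≤ s))
      ((filter_subset _ _).trans ((filter_subset _ _).trans hTS))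
      (fun q r => (cofac r q : ℝ) * ψ q ≤ 4 * s ^ 2 ∧ (cofac q r : ℝ) * ψ r ≤ s)
      (by
        intro p hp
        rw [mem_filter, hT₁, mem_filter] at hp
        have h2 := hTD p hp.1.1
        have h3 := max_le_iff.1 hp.2.2
        refine ⟨hp.1.2.le.trans ?_, h3.2⟩
        have : DP ψ p ^ 2 ≤ s ^ 2 := pow_le_pow_left₀ h2.1.le hp.2.2 2
        linarith only [this])
    refine h1.trans ((hT1 ψ ψ _ _ (4 * s ^ 2) s N (by (clear * - hs; positivity)) hs hψ hψ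
      (fun q => ⟨fS_nonneg hψ S q, fS_le hψ S q⟩)
      (fun q => ⟨fS_nonneg hψ S q, fS_le hψ S q⟩)).trans (le_of_eq ?_))
    rw [sum_fS S N hN, ← hM, hpow s hs, h4]
    ring
  have b2 : ∑ p ∈ T₂, muq ψ p.1 * muq ψ p.2 / DP ψ p ≤
      K₁ * (C * 4 ^ (1 - θ) * M ^ (2 * θ)) * s₁ ^ (3 * (1 - θ) - 1) := by
    apply dyad_gt T₂ (DP ψ) (fun p => muq ψ p.1 * muq ψ p.2) s₁ (3 * (1 - θ))
      (C * 4 ^ (1 - θ) * M ^ (2 * θ)) hs₁ (by linarith only [hθ2]) (by (clear * - hC hM0; positivity))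
      (fun p hp => hTD p (mem_filter.1 hp).1)
      (fun p _ => mul_nonneg (muq_nonneg hψ _) (muq_nonneg hψ _))
    intro s hs _
    have h1 := sum_pairs_le hψ S N hN (T₂.filter (fun p => s / 2 < DP ψ p ∧ DP ψ p ≤ s))
      ((filter_subset _ _).trans ((filter_subset _ _).trans hTS))
      (fun q r => (cofac r q : ℝ) * ψ q ≤ s ∧ (cofac q r : ℝ) * ψ r ≤ 4 * s ^ 2)
      (by
        intro p hp
        rw [mem_filter, hT₂, mem_filter] at hp
        have h2 := hTD p hp.1.1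
        have h3 := max_le_iff.1 hp.2.2
        refine ⟨h3.1, hp.1.2.le.trans ?_⟩
        have : DP ψ p ^ 2 ≤ s ^ 2 := pow_le_pow_left₀ h2.1.le hp.2.2 2
        linarith only [this])
    refine h1.trans ((hT1 ψ ψ _ _ s (4 * s ^ 2) N hs (by (clear * - hs; positivity)) hψ hψ
      (fun q => ⟨fS_nonneg hψ S q, fS_le hψ S q⟩)
      (fun q => ⟨fS_nonneg hψ S q, fS_le hψ S q⟩)).trans (le_of_eq ?_))
    rw [sum_fS S N hN, ← hM, mul_comm s (4 * s ^ 2), hpow s hs, h4]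
    ring
  have b3 : ∑ p ∈ T₃, muq ψ p.1 * muq ψ p.2 / DP ψ p ≤
      K₂ * (C' * (1 + Real.log V) ^ k * M ^ (33 / 32 : ℝ)) * s₁ ^ ((33 / 32 : ℝ) - 1) := by
    apply dyad_gt T₃ (DP ψ) (fun p => muq ψ p.1 * muq ψ p.2) s₁ (33 / 32)
      (C' * (1 + Real.log V) ^ k * M ^ (33 / 32 : ℝ)) hs₁ (by norm_num) (by (clear * - hC' hM0; positivity))
      (fun p hp => hTD p (mem_filter.1 hp).1)
      (fun p _ => mul_nonneg (muq_nonneg hψ _) (muq_nonneg hψ _))
    intro s hs hss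
    have h1 := sum_pairs_le hψ S N hN (T₃.filter (fun p => s / 2 < DP ψ p ∧ DP ψ p ≤ s))
      ((filter_subset _ _).trans ((filter_subset _ _).trans hTS))
      (fun q r => Rel γ ψ s q r ∧ Far γ s (cofac q r) (cofac r q) ∧ cofac q r ≤ V ∧
        cofac r q ≤ V)
      (by
        intro p hp
        rw [mem_filter, hT₃, mem_filter] at hp
        have hpT := hp.1.1
        have h2 := hTD p hpT
        have hmem := mem_product.1 (hTS hpT)
        rw [hT, mem_filter] at hpT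
        obtain ⟨-, hne, -, hVB⟩ := hpT
        have h3 := max_le_iff.1 hp.2.2
        have hsq : s ^ 2 ≤ 4 * DP ψ p ^ 2 := by
          have : (s / 2) ^ 2 ≤ DP ψ p ^ 2 := pow_le_pow_left₀ (by (clear * - hs; positivity)) hp.2.1.le 2
          linarith only [this]
        have hbd : ∀ (w : ℕ) (q : ℕ), q ∈ S → (w : ℝ) * ψ q ≤ s → w ≤ V := by
          intro w q hq hw
          have h5 := (hS q hq).2.2
          have h6 : (w : ℝ) * ψ q ≤ V * ψ q := hw.trans (hss.trans h5.2)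
          exact_mod_cast le_of_mul_le_mul_right h6 h5.1
        refine ⟨rel_of_VB (hS _ hmem.1).1 (hS _ hmem.2).1 hne hVB s hp.2.2, ?_,
          hbd _ _ hmem.2 h3.2, hbd _ _ hmem.1 h3.1⟩
        exact far_of_VB hs₁' (hS _ hmem.1).1 (hS _ hmem.2).1 hne hVB s hs hss hp.2.2
          (hsq.trans hp.1.2.1) (hsq.trans hp.1.2.2))
    refine h1.trans ((hnG γ s hs (hss.trans hs₁') V N ψ (fS ψ S) hV
      (fun q => ⟨fS_nonneg hψ S q, fS_le' hψ S q⟩)).trans (le_of_eq ?_))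
    rw [sum_fS S N hN, ← hM]
    ring
  have e33 : (33 / 32 : ℝ) - 1 = 1 / 32 := by norm_num
  rw [e33] at b3
  have m1 : 0 ≤ M ^ (2 * θ) * s₁ ^ (3 * (1 - θ) - 1) := by (clear * - hM0 hs₁; positivity)
  have m2 : 0 ≤ (1 + Real.log V) ^ k * M ^ (33 / 32 : ℝ) * s₁ ^ (1 / 32 : ℝ) := by (clear * - hM0 hs₁; positivity)
  have c1 := mul_le_mul_of_nonneg_right
    (le_max_left (2 * (K₁ * (C * 4 ^ (1 - θ)))) (K₂ * C')) m1
  have c2 := mul_le_mul_of_nonneg_right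
    (le_max_right (2 * (K₁ * (C * 4 ^ (1 - θ)))) (K₂ * C')) m2
  have d1 : K₁ * (C * 4 ^ (1 - θ) * M ^ (2 * θ)) * s₁ ^ (3 * (1 - θ) - 1) =
    K₁ * (C * 4 ^ (1 - θ)) * (M ^ (2 * θ) * s₁ ^ (3 * (1 - θ) - 1)) := by ring
  have d3 : K₂ * (C' * (1 + Real.log V) ^ k * M ^ (33 / 32 : ℝ)) * s₁ ^ (1 / 32 : ℝ) =
    K₂ * C' * ((1 + Real.log V) ^ k * M ^ (33 / 32 : ℝ) * s₁ ^ (1 / 32 : ℝ)) := by ring
  rw [d1] at b1 b2
  rw [d3] at b3
  linarith only [c1, b1, b3, c2, hcover, b2]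

end Vale.P028
end

section

/-!
# Second moment in class II (Theorem B): numerical part
-/

namespace Vale.P028

open Finset MeasureTheory Filter

theorem ev_log_pow_le (c d : ℝ) (hd : 0 ≤ d) (m : ℕ) {a : ℝ} (ha : 0 < a) :
    ∀ᶠ J : ℝ in atTop, c * (1 + d * Real.log J) ^ m ≤ J ^ a := by
  set a' : ℝ := a / (2 * (m + 1)) with ha'
  have ha'0 : 0 < a' := by (clear * - ha; positivity)
  have h1 : ∀ᶠ J : ℝ in atTop, 1 + d * Real.log J ≤ J ^ a' := by
    have hlog := (isLittleO_log_rpow_atTop ha'0).bound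
      (show (0 : ℝ) < 1 / (2 * (d + 1)) by positivity)
    have hone : ∀ᶠ J : ℝ in atTop, (2 : ℝ) ≤ J ^ a' :=
      (tendsto_rpow_atTop ha'0).eventually_ge_atTop 2
    filter_upwards [hlog, hone, eventually_ge_atTop (1 : ℝ)] with J h2 h3 h4
    have h5 : 0 ≤ Real.log J := Real.log_nonneg h4
    rw [Real.norm_of_nonneg h5, Real.norm_of_nonneg (by (clear * - h4; positivity))] at h2
    have h6 : d * Real.log J ≤ 1 / 2 * J ^ a' := by
      calc d * Real.log J ≤ (d + 1) * Real.log J := mul_le_mul_of_nonneg_right (by linarith only []) h5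
        _ ≤ (d + 1) * (1 / (2 * (d + 1)) * J ^ a') := mul_le_mul_of_nonneg_left h2 (by positivity)
        _ = 1 / 2 * J ^ a' := by field_simp
    linarith only [h6, h3]
  have h2 : ∀ᶠ J : ℝ in atTop, |c| ≤ J ^ (a / 2) :=
    (tendsto_rpow_atTop (by (clear * - ha; positivity))).eventually_ge_atTop _
  filter_upwards [h1, h2, eventually_ge_atTop (1 : ℝ)] with J h3 h4 h5
  have h0 : 0 ≤ 1 + d * Real.log J := by
    have := Real.log_nonneg h5
    (clear * - hd this; positivity)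
  have hJ0 : 0 < J := by linarith only [h5]
  calc c * (1 + d * Real.log J) ^ m ≤ |c| * (1 + d * Real.log J) ^ m :=
        mul_le_mul_of_nonneg_right (le_abs_self c) (by (clear * - h0; positivity))
    _ ≤ J ^ (a / 2) * (J ^ a') ^ m := by
        apply mul_le_mul h4 _ (by (clear * - h0; positivity)) (by positivity)
        exact pow_le_pow_left₀ h0 h3 m
    _ = J ^ (a / 2 + a' * m) := by
        rw [← Real.rpow_natCast (J ^ a') m, ← Real.rpow_mul hJ0.le, Real.rpow_add hJ0]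
    _ ≤ J ^ a := by
        apply Real.rpow_le_rpow_of_exponent_le h5
        have : a' * m ≤ a / 2 := by
          rw [ha', div_mul_eq_mul_div, div_le_div_iff₀ (by (clear * -; positivity)) (by norm_num)]
          linarith only [ha]
        linarith only [this]

theorem ev_rpow_le_exp (c : ℝ) : ∀ᶠ J : ℝ in atTop, Real.exp (-J ^ 4) ≤ J ^ (-c) := by
  have h1 := (isLittleO_rpow_exp_atTop c).bound (show (0 : ℝ) < 1 by norm_num)
  filter_upwards [h1, eventually_ge_atTop (1 : ℝ)] with J h2 h3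
  have hJ0 : 0 < J := by linarith only [h3]
  rw [Real.norm_of_nonneg (by positivity), Real.norm_of_nonneg (Real.exp_pos _).le, one_mul] at h2
  rw [Real.exp_neg, Real.rpow_neg hJ0.le]
  apply inv_anti₀ (by positivity)
  refine h2.trans (Real.exp_le_exp.2 ?_)
  exact le_self_pow₀ h3 (by norm_num)

/-- choice of the number of dyadic levels -/
theorem exists_levels {J a : ℝ} (hJ : 1 ≤ J) (ha : 0 ≤ a) :
    ∃ n : ℕ, J ^ a ≤ 2 ^ n ∧ (n : ℝ) + 1 ≤ 2 * (1 + a * Real.log J) := by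
  have hlog2 : 1 / 2 < Real.log 2 := by
    have := Real.log_two_gt_d9
    linarith only [this]
  have hlJ : 0 ≤ Real.log J := Real.log_nonneg hJ
  refine ⟨⌈a * Real.log J / Real.log 2⌉₊, ?_, ?_⟩
  · have h1 := Nat.le_ceil (a * Real.log J / Real.log 2)
    have hJ0 : 0 < J := by linarith only [hJ]
    rw [← Real.rpow_natCast, Real.rpow_def_of_pos hJ0, Real.rpow_def_of_pos (by norm_num)]
    apply Real.exp_le_exp.2
    rw [div_le_iff₀ (by linarith only [hlog2])] at h1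
    linarith only [h1]
  · have h1 := (Nat.ceil_lt_add_one (show 0 ≤ a * Real.log J / Real.log 2 by
      apply div_nonneg (by positivity) (by linarith only [hlog2]))).le
    have h2 : a * Real.log J / Real.log 2 ≤ 2 * (a * Real.log J) := by
      rw [div_le_iff₀ (by linarith only [hlog2])]
      have : 0 ≤ a * Real.log J := by positivity
      nlinarith only [this, hlog2]
    linarith only [h2, h1]


theorem mpow_le {M a : ℝ} (hM1 : 1 ≤ M) (ha : a ≤ 2) : M ^ a ≤ M ^ 2 := by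
  have : M ^ a ≤ M ^ (2 : ℝ) := Real.rpow_le_rpow_of_exponent_le hM1 ha
  have e : M ^ (2 : ℝ) = M ^ 2 := by exact_mod_cast Real.rpow_natCast M 2
  rwa [e] at this

open Classical in
/-- middle pairs -/
theorem mid_final {ε : ℝ} (hε : 0 < ε) (hε1 : ε ≤ 1) (C₅ Ca : ℝ) (k : ℕ) (hC₅0 : 0 < C₅)
    (hCa : 0 < Ca) :
    ∃ J₀ : ℝ, ∀ J : ℝ, J₀ ≤ J → 1 ≤ J → ∀ (ψ : ℕ → ℝ) (S : Finset ℕ), (∀ q, 0 ≤ ψ q) →
      (∀ q ∈ S, 0 < q) → J ^ ε ≤ ∑ q ∈ S, muq ψ q →
      2 * (Ca * (1 + 6 * Real.log J) ^ k) ^ 3 * (4 * J ^ (ε / 4) + 1) *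
        (∑ p ∈ (S ×ˢ S).filter (fun p => p.1 ≠ p.2 ∧ J ^ (-C₅) ≤ DP ψ p ∧
        DP ψ p < J ^ (ε / 4)), muq ψ p.1 * muq ψ p.2 / DP ψ p) ≤ 5 * (∑ q ∈ S, muq ψ q) ^ 2 := by
  set η : ℝ := min (1 / 16) (ε / (8 * (C₅ + 1))) with hη
  have hη0 : 0 < η := lt_min (by norm_num) (by positivity)
  have hη1 : η ≤ 1 / 16 := min_le_left _ _
  have hη2 : C₅ * (2 * η) ≤ ε / 4 := by
    have h1 : η ≤ ε / (8 * (C₅ + 1)) := min_le_right _ _
    have h2 : C₅ * (2 * η) ≤ C₅ * (2 * (ε / (8 * (C₅ + 1)))) := by gcongr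
    refine h2.trans ?_
    rw [show C₅ * (2 * (ε / (8 * (C₅ + 1)))) = (C₅ / (C₅ + 1)) * (ε / 4) by field_simp; norm_num]
    have h3 : C₅ / (C₅ + 1) ≤ 1 := by rw [div_le_one (by linarith only [hC₅0])]; linarith only []
    calc C₅ / (C₅ + 1) * (ε / 4) ≤ 1 * (ε / 4) := mul_le_mul_of_nonneg_right h3 (by positivity)
      _ = ε / 4 := one_mul _
  obtain ⟨Cm, hCm, hmid⟩ := mid_bound (θ := 1 / 2 + η) (by linarith only [hη0]) (by linarith only [hη1])
  obtain ⟨J₀, hJ₀⟩ := eventually_atTop.1 (ev_log_pow_le (8 * Ca ^ 3 * Cm) (C₅ + 7)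
    (by positivity) (3 * k + 1) (show 0 < ε / 8 by positivity))
  refine ⟨J₀, ?_⟩
  intro J hJ hJ1 ψ S hψ hS hM
  have a4 := hJ₀ J hJ
  have hJ0 : 0 < J := by linarith only [hJ1]
  have hlogJ : 0 ≤ Real.log J := Real.log_nonneg hJ1
  set s₁ : ℝ := J ^ (-C₅) with hs₁
  have hs₁0 : 0 < s₁ := by positivity
  set M := ∑ q ∈ S, muq ψ q with hMdef
  have hM1 : 1 ≤ M := le_trans (Real.one_le_rpow hJ1 hε.le) hM
  have hM0 : 0 < M := by linarith only [hM1]
  obtain ⟨N, hN⟩ : ∃ N : ℕ, ∀ q ∈ S, q ≤ N := ⟨S.sup id, fun q hq => le_sup (f := id) hq⟩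
  set D₁ : ℝ := J ^ (ε / 4) with hD₁
  have hD₁1 : 1 ≤ D₁ := Real.one_le_rpow hJ1 (by positivity)
  set κ : ℝ := (Ca * (1 + 6 * Real.log J) ^ k) ^ 3 with hκ
  have hκ0 : 0 ≤ κ := by (clear * - hCa hlogJ; positivity)
  obtain ⟨n, hn1, hn2⟩ := exists_levels (a := C₅ + 1) hJ1 (by linarith only [hC₅0])
  have h1 := hmid ψ S N n s₁ D₁ hψ (fun q hq => ⟨hS q hq, hN q hq⟩) hs₁0 (by linarith only [hD₁1]) (by
    have h2 : J ^ (C₅ + 1) * s₁ = J := by
      rw [hs₁, ← Real.rpow_add hJ0]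
      rw [show C₅ + 1 + -C₅ = 1 by ring, Real.rpow_one]
    have h3 : J ^ (C₅ + 1) * s₁ ≤ 2 ^ n * s₁ := mul_le_mul_of_nonneg_right hn1 hs₁0.le
    have h4 : D₁ ≤ J := by
      calc D₁ ≤ J ^ (1 : ℝ) := Real.rpow_le_rpow_of_exponent_le hJ1 (by linarith only [hε1])
        _ = J := Real.rpow_one J
    linarith only [h2, h3, h4])
  rw [← hMdef] at h1
  have h5 : s₁ ^ (2 * (1 - (1 / 2 + η)) - 1) ≤ D₁ := by
    rw [hs₁, ← Real.rpow_mul hJ0.le]
    apply Real.rpow_le_rpow_of_exponent_le hJ1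
    calc -C₅ * (2 * (1 - (1 / 2 + η)) - 1) = C₅ * (2 * η) := by ring
      _ ≤ ε / 4 := hη2
  have h6 : J ^ (5 * ε / 8) ≤ M ^ (5 / 8 : ℝ) := by
    have := Real.rpow_le_rpow (by (clear * - hJ1; positivity)) hM (show (0 : ℝ) ≤ 5 / 8 by norm_num)
    rw [← Real.rpow_mul hJ0.le] at this
    rwa [show ε * (5 / 8) = 5 * ε / 8 by ring] at this
  have h7 : 4 * κ * Cm * (n + 1) ≤ J ^ (ε / 8) := by
    refine le_trans ?_ a4
    have g1 : (1 + 6 * Real.log J) ^ (3 * k) ≤ (1 + (C₅ + 7) * Real.log J) ^ (3 * k) := by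
      apply pow_le_pow_left₀ (by (clear * - hlogJ; positivity))
      have := mul_le_mul_of_nonneg_right (show (6 : ℝ) ≤ C₅ + 7 by linarith only [hC₅0]) hlogJ
      linarith only [this]
    have g2 : (1 + (C₅ + 1) * Real.log J) ≤ (1 + (C₅ + 7) * Real.log J) := by
      have := mul_le_mul_of_nonneg_right (show C₅ + 1 ≤ C₅ + 7 by linarith only []) hlogJ
      linarith only [hlogJ]
    have g3 : 0 ≤ 1 + (C₅ + 1) * Real.log J := by (clear * - hC₅0 hlogJ; positivity)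
    calc 4 * κ * Cm * (n + 1) ≤ 4 * κ * Cm * (2 * (1 + (C₅ + 1) * Real.log J)) :=
          mul_le_mul_of_nonneg_left hn2 (by (clear * - hCa hlogJ hCm; positivity))
      _ = (8 * Ca ^ 3 * Cm) * ((1 + 6 * Real.log J) ^ (3 * k) * (1 + (C₅ + 1) * Real.log J)) := by
          rw [hκ]; ring
      _ ≤ (8 * Ca ^ 3 * Cm) * ((1 + (C₅ + 7) * Real.log J) ^ (3 * k) *
            (1 + (C₅ + 7) * Real.log J)) := by
          apply mul_le_mul_of_nonneg_left _ (by positivity)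
          exact mul_le_mul g1 g2 g3 (by (clear * - hC₅0 hlogJ; positivity))
      _ = _ := by ring
  have h8 : 0 ≤ 2 * κ * (4 * D₁ + 1) := by (clear * - hCa hlogJ hJ1; positivity)
  refine (mul_le_mul_of_nonneg_left h1 h8).trans ?_
  have h9 : 4 * D₁ + 1 ≤ 5 * D₁ := by linarith only [hD₁1]
  set x := s₁ ^ (2 * (1 - (1 / 2 + η)) - 1) with hx
  have hx0 : 0 ≤ x := by positivity
  have hMθ : 0 ≤ M ^ (2 * (1 / 2 + η)) := by (clear * - hM1; positivity)
  have s1 : 2 * κ * (4 * D₁ + 1) * (2 * (n + 1) * (Cm * M ^ (2 * (1 / 2 + η))) * x) =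
      (4 * κ * Cm * (n + 1)) * ((4 * D₁ + 1) * x) * M ^ (2 * (1 / 2 + η)) := by ring
  have s2 : (4 * D₁ + 1) * x ≤ (5 * D₁) * D₁ := mul_le_mul h9 h5 hx0 (by positivity)
  have s3 : (4 * κ * Cm * (n + 1)) * ((4 * D₁ + 1) * x) ≤ J ^ (ε / 8) * ((5 * D₁) * D₁) :=
    mul_le_mul h7 s2 (by positivity) (by positivity)
  have s4 : J ^ (ε / 8) * ((5 * D₁) * D₁) = 5 * J ^ (5 * ε / 8) := by
    have : J ^ (5 * ε / 8) = J ^ (ε / 8) * (J ^ (ε / 4) * J ^ (ε / 4)) := by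
      rw [← Real.rpow_add hJ0, ← Real.rpow_add hJ0]
      congr 1
      ring
    rw [this, ← hD₁]; ring
  rw [s1]
  calc (4 * κ * Cm * (n + 1)) * ((4 * D₁ + 1) * x) * M ^ (2 * (1 / 2 + η))
      ≤ (J ^ (ε / 8) * ((5 * D₁) * D₁)) * M ^ (2 * (1 / 2 + η)) :=
        mul_le_mul_of_nonneg_right s3 hMθ
    _ = 5 * J ^ (5 * ε / 8) * M ^ (2 * (1 / 2 + η)) := by rw [s4]
    _ ≤ 5 * M ^ (5 / 8 : ℝ) * M ^ (2 * (1 / 2 + η)) := by
        apply mul_le_mul_of_nonneg_right _ hMθ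
        linarith only [h6]
    _ = 5 * M ^ (5 / 8 + 2 * (1 / 2 + η)) := by rw [Real.rpow_add hM0]; ring
    _ ≤ 5 * M ^ 2 := by
        apply mul_le_mul_of_nonneg_left (mpow_le hM1 _) (by norm_num)
        linarith only [hη1]

open Classical in
/-- pairs with a vanishing sheet -/
theorem zero_final (k : ℕ) : ∃ C > (0 : ℝ), ∀ C₅ : ℝ, 32 * (2 * k + 11) ≤ C₅ →
    ∃ J₀ : ℝ, ∀ J : ℝ, J₀ ≤ J → 2 ≤ J → J ^ (-C₅) ≤ 1 / 1000 → Real.exp (-J ^ 4) ≤ J ^ (-C₅) →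
      ∀ (γ : ℝ) (ψ : ℕ → ℝ) (S : Finset ℕ) (Lam : ℝ),
      (∀ q, 0 ≤ ψ q) → (∀ q ∈ S, 0 < q ∧ Real.exp (-J ^ 4) ≤ ψ q ∧ ψ q ≤ 1 / 2) →
      1 ≤ ∑ q ∈ S, muq ψ q → 0 < Lam → Lam ^ 2 ≤ J ^ (2 * (k : ℝ) + 2) →
      2 * Lam ^ 2 * (∑ p ∈ (S ×ˢ S).filter (fun p => p.1 ≠ p.2 ∧ J ^ (-C₅) ≤ DP ψ p ∧
        DP ψ p < Lam ^ 2 ∧ ZeroPair (fun q => Bsel γ (J ^ (-C₅)) (min (ψ q) (J ^ (-C₅))))
          p.1 p.2), muq ψ p.1 * muq ψ p.2 / DP ψ p) ≤ C * (∑ q ∈ S, muq ψ q) ^ 2 := by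
  obtain ⟨Cz, hCz, hzero⟩ := zero_bound (θ := 17 / 32) (by norm_num) (by norm_num)
  set Cz' : ℝ := Cz * (16 / 3) ^ (15 / 32 : ℝ) with hCz'
  refine ⟨18 * Cz', by (clear * - hCz; positivity), ?_⟩
  intro C₅ hC₅
  have hC₅0 : 0 < C₅ := lt_of_lt_of_le (by positivity) hC₅
  obtain ⟨J₀, hJ₀⟩ := eventually_atTop.1 (ev_log_pow_le 4 (2 * k + 2 + C₅)
    (by positivity) 1 (show (0 : ℝ) < 1 by norm_num))
  refine ⟨J₀, ?_⟩
  intro J hJ hJ2 a1 a2 γ ψ S Lam hψ hS hM1 hLam0 hLam2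
  have a5 := hJ₀ J hJ
  have hJ0 : 0 < J := by linarith only [hJ2]
  have hJ1 : 1 ≤ J := by linarith only [hJ2]
  set s₁ : ℝ := J ^ (-C₅) with hs₁
  have hs₁0 : 0 < s₁ := by positivity
  set M := ∑ q ∈ S, muq ψ q with hMdef
  have hM0 : 0 < M := by linarith only [hM1]
  obtain ⟨N, hN⟩ : ∃ N : ℕ, ∀ q ∈ S, q ≤ N := ⟨S.sup id, fun q hq => le_sup (f := id) hq⟩
  have hψpos : ∀ q ∈ S, 0 < ψ q := fun q hq => (Real.exp_pos _).trans_le (hS q hq).2.1
  obtain ⟨n, hn1, hn2⟩ := exists_levels (a := 2 * k + 2 + C₅) hJ1 (by positivity)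
  obtain ⟨𝓑, hcard, h𝓑⟩ := Bsel_values (γ := γ) hs₁0 a1 (J ^ 4) (by positivity)
  set b₀ : ℝ := 3 / 16 * s₁ ^ (-(1 / 4 : ℝ)) with hb₀
  have hb₀0 : 0 < b₀ := by positivity
  have h1 := hzero ψ S N n s₁ (Lam ^ 2) b₀ (fun q => Bsel γ s₁ (min (ψ q) s₁)) 𝓑 hψ
    (fun q hq => ⟨(hS q hq).1, hN q hq⟩) hs₁0
    (by positivity) (by
      have h2 : J ^ (2 * (k : ℝ) + 2 + C₅) * s₁ = J ^ (2 * (k : ℝ) + 2) := by
        rw [hs₁, ← Real.rpow_add hJ0]
        congr 1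
        ring
      have h3 : J ^ (2 * (k : ℝ) + 2 + C₅) * s₁ ≤ 2 ^ n * s₁ :=
        mul_le_mul_of_nonneg_right hn1 hs₁0.le
      linarith only [h3, hLam2, h2]) hb₀0
    (fun q hq => ⟨h𝓑 _ (le_min (hS q hq).2.1 a2)
      ((min_le_left _ _).trans (by linarith only [(hS q hq).2.2])), Bsel_pos _ _ _⟩)
    (fun q hq r hr hlt => Bsel_ratio hs₁0 a1 (lt_min (hψpos q hq) hs₁0) (min_le_right _ _)
      (lt_min (hψpos r hr) hs₁0) (min_le_right _ _) hlt)
  rw [← hMdef] at h1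
  have h2 : b₀ ^ (-(1 - (17 / 32 : ℝ))) = (16 / 3) ^ (15 / 32 : ℝ) * s₁ ^ (15 / 128 : ℝ) := by
    rw [hb₀, Real.mul_rpow (by norm_num) (by positivity), ← Real.rpow_mul hs₁0.le]
    congr 1
    · rw [show (-(1 - (17 / 32 : ℝ))) = -(15 / 32) by norm_num, Real.rpow_neg (by norm_num),
        ← Real.inv_rpow (by norm_num)]
      norm_num
    · (clear * -; norm_num)
  have h3 : s₁ ^ (15 / 128 : ℝ) * s₁ ^ (2 * (1 - (17 / 32 : ℝ)) - 1) = s₁ ^ (7 / 128 : ℝ) := by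
    rw [← Real.rpow_add hs₁0]
    norm_num
  have h4 : (𝓑.card : ℝ) ≤ 3 * J ^ 4 := by
    have : (2 : ℝ) ^ 4 ≤ J ^ 4 := pow_le_pow_left₀ (by norm_num) hJ2 4
    linarith only [this, hcard]
  have h5 : 2 * ((n : ℝ) + 1) ≤ J := by
    rw [Real.rpow_one, pow_one] at a5
    linarith only [hn2, a5]
  have h6 : J ^ (2 * (k : ℝ) + 2) * J ^ 9 * s₁ ^ (7 / 128 : ℝ) ≤ 1 := by
    rw [hs₁, ← Real.rpow_mul hJ0.le]
    have e9 : J ^ 9 = J ^ (9 : ℝ) := by exact_mod_cast (Real.rpow_natCast J 9).symm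
    rw [e9, ← Real.rpow_add hJ0, ← Real.rpow_add hJ0]
    apply Real.rpow_le_one_of_one_le_of_nonpos hJ1
    linarith only [hC₅]
  have h7 : (0 : ℝ) ≤ 2 * Lam ^ 2 := by positivity
  refine (mul_le_mul_of_nonneg_left h1 h7).trans ?_
  have hMp := mpow_le (a := 2 * (17 / 32 : ℝ)) hM1 (by norm_num)
  set x := s₁ ^ (2 * (1 - (17 / 32 : ℝ)) - 1) with hx
  have hx0 : 0 ≤ x := by positivity
  set y := b₀ ^ (-(1 - (17 / 32 : ℝ))) with hy
  have hy0 : 0 ≤ y := by positivity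
  have s1 : 2 * Lam ^ 2 ≤ 2 * J ^ (2 * (k : ℝ) + 2) := by linarith only [hLam2]
  have s2 : (𝓑.card : ℝ) ^ 2 ≤ (3 * J ^ 4) ^ 2 := pow_le_pow_left₀ (by (clear * -; positivity)) h4 2
  have s3 : 2 * ((n : ℝ) + 1) * (Cz * y * M ^ (2 * (17 / 32 : ℝ))) * x ≤
      J * (Cz * y * M ^ 2) * x := by
    apply mul_le_mul_of_nonneg_right _ hx0
    apply mul_le_mul h5 _ (by (clear * - hCz hJ2 hM1; positivity)) hJ0.le
    exact mul_le_mul_of_nonneg_left hMp (by positivity)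
  calc 2 * Lam ^ 2 * ((𝓑.card : ℝ) ^ 2 * (2 * (n + 1) *
        (Cz * y * M ^ (2 * (17 / 32 : ℝ))) * x))
      ≤ 2 * J ^ (2 * (k : ℝ) + 2) * ((3 * J ^ 4) ^ 2 * (J * (Cz * y * M ^ 2) * x)) := by
        apply mul_le_mul s1 _ (by (clear * - hCz hJ2 hM1; positivity)) (by positivity)
        exact mul_le_mul s2 s3 (by (clear * - hCz hJ2 hM1; positivity)) (by positivity)
    _ = 18 * Cz' * M ^ 2 * (J ^ (2 * (k : ℝ) + 2) * J ^ 9 * s₁ ^ (7 / 128 : ℝ)) := by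
        rw [h2, ← h3, hCz']; ring
    _ ≤ 18 * Cz' * M ^ 2 * 1 := mul_le_mul_of_nonneg_left h6 (by (clear * - hCz hM1; positivity))
    _ = _ := mul_one _

end Vale.P028
end
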