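import Mathlib
import Vale.Agent.P028.Bd3.B1
import Vale.Agent.P001.LSArith

set_option linter.all false

section

/-!
# Jacobsthal's conjecture: definitions and statements of the modules
-/

open Finset Real

namespace Vale.Agent.P013.J

/-- `e x = exp (2 π i x)` -/
noncomputable def e (x : ℝ) : ℂ := Complex.exp (2 * π * x * Complex.I)

/-! ### Primes in progressions -/

/-! ### The two halves of the proof -/

/-! ### Boxes of small primes -/

/-! ### Labels -/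

/-! ### The sieve -/

/-- support of the linear sieve weights, as sets of primes; `b = 0`: lower bound, `b = 1`: upper -/
noncomputable def supp (Q : Finset ℕ) (τ : ℕ → ℝ) (b x : ℕ) (T : ℝ) : Finset (Finset ℕ) := by
  classical
  exact (Q.filter (fun q => q < x)).powerset.filter (fun F => ∀ s ∈ F,
    Even ((F.filter (fun s' => s ≤ s')).card + b) →
      3 * τ s < T - ∑ s' ∈ F.filter (fun s' => s < s'), τ s')

/-- primes below `z` -/
def PP (z : ℕ) : Finset ℕ := (range z).filter Nat.Prime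

end Vale.Agent.P013.J
end

section

/-!
# Upper bound sieve with at most two classes per prime (V3)
-/

open Finset Real

namespace Vale.Agent.P013.J

lemma mem_PP {z p : ℕ} : p ∈ PP z ↔ p < z ∧ p.Prime := by
  simp only [PP, mem_filter, mem_range]

/-- Rankin: half of the mass of the sieve denominator is carried by small products. -/
lemma rankin_half : ∃ s : ℝ, 1 ≤ s ∧ ∀ (z : ℕ) (ω : ℕ → ℕ), 2 ≤ z →
    (∀ p ∈ PP z, ω p ≤ 2 ∧ ω p < p) → ∀ Q : ℝ, (z : ℝ) ^ s ≤ Q →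
    (1 / 2) * ∏ p ∈ PP z, (1 - (ω p : ℝ) / p)⁻¹ ≤
      ∑ F ∈ (PP z).powerset.filter (fun F => ((∏ p ∈ F, p : ℕ) : ℝ) ≤ Q),
        ∏ p ∈ F, ((ω p : ℝ) / ((p : ℝ) - ω p)) := by
  obtain ⟨C, hC, hM⟩ := mertens_one
  refine ⟨5 + 6 * C, by linarith only [hC], fun z ω hz hω Q hQ => ?_⟩
  have hz2 : (2 : ℝ) ≤ z := by exact_mod_cast hz
  have hlz : 0 < Real.log z := Real.log_pos (by linarith only [hz2])
  have hl2 : Real.log 2 ≤ Real.log z := Real.log_le_log (by norm_num) hz2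
  have hl2' : (0.69 : ℝ) ≤ Real.log 2 := by
    have := Real.log_two_gt_d9
    linarith only [this]
  set δ : ℝ := 1 / Real.log z with hδ
  have hδ0 : 0 < δ := by positivity
  have hQ0 : 0 < Q := lt_of_lt_of_le (by (clear * - hz; positivity)) hQ
  set h : ℕ → ℝ := fun p => (ω p : ℝ) / ((p : ℝ) - ω p) with hh
  have hpos : ∀ p ∈ PP z, (0 : ℝ) < p ∧ (0 : ℝ) < (p : ℝ) - ω p := by
    intro p hp
    have h1 := (mem_PP.1 hp).2.pos
    have h2 := (hω p hp).2
    have h3 : (ω p : ℝ) < p := by exact_mod_cast h2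
    exact ⟨by exact_mod_cast h1, by linarith only [h3]⟩
  have hh0 : ∀ p ∈ PP z, 0 ≤ h p := fun p hp =>
    div_nonneg (Nat.cast_nonneg _) (hpos p hp).2.le
  have h1h : ∀ p ∈ PP z, 1 + h p = (1 - (ω p : ℝ) / p)⁻¹ := by
    intro p hp
    obtain ⟨a, b⟩ := hpos p hp
    have hne : (1 - (ω p : ℝ) / p) = ((p : ℝ) - ω p) / p := by (clear * - a b; field_simp)
    rw [hne, inv_div, hh]
    field_simp
    ring
  have htot : ∏ p ∈ PP z, (1 - (ω p : ℝ) / p)⁻¹ = ∑ F ∈ (PP z).powerset, ∏ p ∈ F, h p := by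
    rw [← Finset.prod_one_add]
    exact (Finset.prod_congr rfl h1h).symm
  have hsplit : ∑ F ∈ (PP z).powerset, ∏ p ∈ F, h p =
      ∑ F ∈ (PP z).powerset.filter (fun F => ((∏ p ∈ F, p : ℕ) : ℝ) ≤ Q), ∏ p ∈ F, h p +
      ∑ F ∈ (PP z).powerset.filter (fun F => ¬ ((∏ p ∈ F, p : ℕ) : ℝ) ≤ Q), ∏ p ∈ F, h p :=
    (Finset.sum_filter_add_sum_filter_not _ _ _).symm
  have htail : ∑ F ∈ (PP z).powerset.filter (fun F => ¬ ((∏ p ∈ F, p : ℕ) : ℝ) ≤ Q),
      ∏ p ∈ F, h p ≤ (1 / 2) * ∏ p ∈ PP z, (1 - (ω p : ℝ) / p)⁻¹ := by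
    have hterm : ∀ F ∈ (PP z).powerset.filter (fun F => ¬ ((∏ p ∈ F, p : ℕ) : ℝ) ≤ Q),
        ∏ p ∈ F, h p ≤ Q ^ (-δ) * ∏ p ∈ F, (h p * (p : ℝ) ^ δ) := by
      intro F hF
      rw [Finset.mem_filter, Finset.mem_powerset] at hF
      obtain ⟨hFP, hFQ⟩ := hF
      rw [Finset.prod_mul_distrib]
      have e1 : ∏ p ∈ F, (p : ℝ) ^ δ = (((∏ p ∈ F, p : ℕ) : ℝ)) ^ δ := by
        push_cast
        rw [Real.finsetProd_rpow]
        intro i _
        exact Nat.cast_nonneg _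
      rw [e1]
      have e2 : 1 ≤ Q ^ (-δ) * (((∏ p ∈ F, p : ℕ) : ℝ)) ^ δ := by
        rw [Real.rpow_neg hQ0.le, ← div_eq_inv_mul, le_div_iff₀ (by (clear * - hQ0; positivity)), one_mul]
        exact Real.rpow_le_rpow hQ0.le (not_le.1 hFQ).le hδ0.le
      have e3 : 0 ≤ ∏ p ∈ F, h p := Finset.prod_nonneg fun p hp => hh0 p (hFP hp)
      calc ∏ p ∈ F, h p = 1 * ∏ p ∈ F, h p := (one_mul _).symm
        _ ≤ (Q ^ (-δ) * (((∏ p ∈ F, p : ℕ) : ℝ)) ^ δ) * ∏ p ∈ F, h p :=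
            mul_le_mul_of_nonneg_right e2 e3
        _ = _ := by ring
    have hsum : ∑ F ∈ (PP z).powerset.filter (fun F => ¬ ((∏ p ∈ F, p : ℕ) : ℝ) ≤ Q),
        ∏ p ∈ F, h p ≤ Q ^ (-δ) * ∏ p ∈ PP z, (1 + h p * (p : ℝ) ^ δ) := by
      rw [Finset.prod_one_add, Finset.mul_sum]
      refine (Finset.sum_le_sum hterm).trans ?_
      refine Finset.sum_le_sum_of_subset_of_nonneg (Finset.filter_subset _ _) ?_
      intro F hF _
      rw [Finset.mem_powerset] at hF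
      exact mul_nonneg (by (clear * - hQ0; positivity)) (Finset.prod_nonneg fun p hp =>
        mul_nonneg (hh0 p (hF hp)) (by (clear * -; positivity)))
    have hfac : ∀ p ∈ PP z, 1 + h p * (p : ℝ) ^ δ ≤
        (1 - (ω p : ℝ) / p)⁻¹ * Real.exp (4 * δ * (Real.log p / p)) := by
      intro p hp
      obtain ⟨a, b⟩ := hpos p hp
      obtain ⟨hpz, hpp⟩ := mem_PP.1 hp
      have hlp : 0 ≤ Real.log p := Real.log_nonneg (by exact_mod_cast hpp.one_lt.le)
      have hlp' : δ * Real.log p ≤ 1 := by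
        rw [hδ, one_div, ← div_eq_inv_mul, div_le_one hlz]
        exact Real.log_le_log a (by exact_mod_cast hpz.le)
      have hexp : (p : ℝ) ^ δ - 1 ≤ 2 * (δ * Real.log p) := by
        rw [Real.rpow_def_of_pos a, mul_comm]
        have h0 : 0 ≤ δ * Real.log p := by (clear * - hlz; positivity)
        have := Real.abs_exp_sub_one_le (x := δ * Real.log p) (by rwa [abs_of_nonneg h0])
        rw [abs_of_nonneg h0] at this
        exact (le_abs_self _).trans this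
      have hω2 : (ω p : ℝ) ≤ 2 := by exact_mod_cast (hω p hp).1
      have key : 1 + h p * (p : ℝ) ^ δ = (1 + h p) * (1 + (ω p : ℝ) / p * ((p : ℝ) ^ δ - 1)) := by
        rw [hh]
        field_simp
        ring
      rw [key, h1h p hp]
      have hinv : 0 ≤ (1 - (ω p : ℝ) / p)⁻¹ := by
        rw [← h1h p hp]
        linarith only [hh0 p hp]
      refine mul_le_mul_of_nonneg_left ?_ hinv
      have h3 : (ω p : ℝ) / p * ((p : ℝ) ^ δ - 1) ≤ 4 * δ * (Real.log p / p) := by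
        have h4 : 0 ≤ (p : ℝ) ^ δ - 1 := by
          have : (1 : ℝ) ≤ (p : ℝ) ^ δ := Real.one_le_rpow (by exact_mod_cast hpp.one_lt.le) hδ0.le
          linarith only [this]
        calc (ω p : ℝ) / p * ((p : ℝ) ^ δ - 1) ≤ 2 / p * (2 * (δ * Real.log p)) := by
              refine mul_le_mul ?_ hexp h4 (by (clear * - a; positivity))
              exact div_le_div_of_nonneg_right hω2 a.le
          _ = 4 * δ * (Real.log p / p) := by ring
      calc 1 + (ω p : ℝ) / p * ((p : ℝ) ^ δ - 1) ≤ 1 + 4 * δ * (Real.log p / p) := by linarith only [h3]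
        _ ≤ Real.exp (4 * δ * (Real.log p / p)) := by
            rw [add_comm]
            exact Real.add_one_le_exp _
    have hprod : ∏ p ∈ PP z, (1 + h p * (p : ℝ) ^ δ) ≤
        (∏ p ∈ PP z, (1 - (ω p : ℝ) / p)⁻¹) * Real.exp (4 + 6 * C) := by
      have h1 : ∏ p ∈ PP z, (1 + h p * (p : ℝ) ^ δ) ≤
          ∏ p ∈ PP z, ((1 - (ω p : ℝ) / p)⁻¹ * Real.exp (4 * δ * (Real.log p / p))) :=
        Finset.prod_le_prod (fun p hp => by
          have := hh0 p hp
          (clear * - this; positivity)) hfac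
      rw [Finset.prod_mul_distrib, ← Real.exp_sum, ← Finset.mul_sum] at h1
      refine h1.trans (mul_le_mul_of_nonneg_left ?_ ?_)
      · rw [Real.exp_le_exp]
        have h2 := (abs_le.1 (hM z (by omega))).2
        have h3 : ∑ p ∈ PP z, Real.log p / p ≤ Real.log z + C := by
          have : PP z = (range z).filter Nat.Prime := rfl
          rw [this]
          linarith only [h2]
        calc 4 * δ * ∑ p ∈ PP z, Real.log p / p ≤ 4 * δ * (Real.log z + C) :=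
              mul_le_mul_of_nonneg_left h3 (by positivity)
          _ = 4 + 4 * C / Real.log z := by
              rw [hδ]
              field_simp
          _ ≤ 4 + 6 * C := by
              have h5 : 4 * C / Real.log z ≤ 6 * C := by
                rw [div_le_iff₀ hlz]
                linarith only [mul_nonneg (le_of_lt (sub_pos.2 hC)) (sub_nonneg.2 hl2'), mul_nonneg (le_of_lt (sub_pos.2 hC)) (sub_nonneg.2 hl2), hC]
              linarith only [h5]
      · refine Finset.prod_nonneg fun p hp => ?_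
        rw [← h1h p hp]
        linarith only [hh0 p hp]
    have hQδ : Q ^ (-δ) ≤ Real.exp (-(5 + 6 * C)) := by
      have h1 : (z : ℝ) ^ (5 + 6 * C) = Real.exp ((5 + 6 * C) * Real.log z) := by
        rw [Real.rpow_def_of_pos (by linarith only [hz2]), mul_comm]
      have h2 : Q ^ (-δ) ≤ ((z : ℝ) ^ (5 + 6 * C)) ^ (-δ) :=
        Real.rpow_le_rpow_of_nonpos (by positivity) hQ (by linarith only [hδ0])
      refine h2.trans (le_of_eq ?_)
      rw [h1, ← Real.exp_mul]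
      congr 1
      rw [hδ]
      (clear * - hlz hC; field_simp)
    have hP0 : 0 ≤ ∏ p ∈ PP z, (1 - (ω p : ℝ) / p)⁻¹ := by
      refine Finset.prod_nonneg fun p hp => ?_
      rw [← h1h p hp]
      linarith only [hh0 p hp]
    calc ∑ F ∈ (PP z).powerset.filter (fun F => ¬ ((∏ p ∈ F, p : ℕ) : ℝ) ≤ Q), ∏ p ∈ F, h p
        ≤ Q ^ (-δ) * ∏ p ∈ PP z, (1 + h p * (p : ℝ) ^ δ) := hsum
      _ ≤ Real.exp (-(5 + 6 * C)) *
          ((∏ p ∈ PP z, (1 - (ω p : ℝ) / p)⁻¹) * Real.exp (4 + 6 * C)) := by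
          refine mul_le_mul hQδ hprod ?_ (by positivity)
          refine Finset.prod_nonneg fun p hp => ?_
          have := hh0 p hp
          (clear * - this; positivity)
      _ = Real.exp (-1) * ∏ p ∈ PP z, (1 - (ω p : ℝ) / p)⁻¹ := by
          rw [mul_comm (∏ p ∈ PP z, (1 - (ω p : ℝ) / p)⁻¹), ← mul_assoc, ← Real.exp_add]
          congr 2
          ring
      _ ≤ (1 / 2) * ∏ p ∈ PP z, (1 - (ω p : ℝ) / p)⁻¹ := by
          refine mul_le_mul_of_nonneg_right ?_ hP0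
          rw [Real.exp_neg, one_div]
          refine inv_anti₀ (by norm_num) ?_
          have := Real.add_one_le_exp (1 : ℝ)
          linarith only [this]
  have := htot
  rw [hsplit] at this
  linarith only [htot, hsplit, htail]

/-- Upper bound sieve, at most two forbidden classes for every prime below `z`. -/
theorem upper_sieve : ∃ C s : ℝ, 0 < C ∧ 1 ≤ s ∧ ∀ (z N : ℕ) (M : ℤ) (ω : ℕ → ℕ) (S : Finset ℤ),
    2 ≤ z → (z : ℝ) ^ s ≤ N → (∀ n ∈ S, M ≤ n ∧ n < M + N) →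
    (∀ p ∈ PP z, ω p ≤ 2 ∧ ω p < p ∧
      (S.image (fun n : ℤ => (n : ZMod p))).card + ω p ≤ p) →
    (S.card : ℝ) ≤ C * N * ∏ p ∈ PP z, (1 - (ω p : ℝ) / p) := by
  obtain ⟨s, hs, hR⟩ := rankin_half
  have hc := Vale.Agent.P001.cLS_pos
  refine ⟨4 * Vale.Agent.P001.cLS, 2 * s + 2, by (clear * - hc; positivity), by linarith,
    fun z N M ω S hz hN hS hω => ?_⟩
  have hz2 : (2 : ℝ) ≤ z := by exact_mod_cast hz
  have hzs : (z : ℝ) ^ s ≤ Nat.sqrt N := by
    have h1 : ((z : ℝ) ^ (s + 1)) ^ 2 ≤ N := by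
      rw [← Real.rpow_natCast, ← Real.rpow_mul (by linarith only [])]
      refine le_trans (le_of_eq ?_) hN
      congr 1
      push_cast
      ring
    have h2 : (N : ℝ) < ((Nat.sqrt N : ℝ) + 1) ^ 2 := by
      have := Nat.lt_succ_sqrt' N
      have h3 : (N : ℝ) < (((Nat.sqrt N).succ : ℕ) : ℝ) ^ 2 := by exact_mod_cast this
      simpa only [gt_iff_lt, Nat.succ_eq_add_one, Nat.cast_add, Nat.cast_one] using h3
    have h3 : (z : ℝ) ^ (s + 1) < (Nat.sqrt N : ℝ) + 1 :=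
      lt_of_pow_lt_pow_left₀ 2 (by (clear * -; positivity)) (h1.trans_lt h2)
    have h4 : (z : ℝ) ^ (s + 1) = (z : ℝ) ^ s * z := by
      rw [Real.rpow_add_one (by linarith only [hz2])]
    have h5 : 1 ≤ (z : ℝ) ^ s := Real.one_le_rpow (by linarith only [hz2]) (by linarith only [hs])
    rw [h4] at h3
    nlinarith only [hz2, h3, h5]
  have hsq1 : 1 ≤ Nat.sqrt N := by
    have h5 : 1 ≤ (z : ℝ) ^ s := Real.one_le_rpow (by linarith) (by linarith only [hs])
    exact_mod_cast h5.trans hzs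
  have hω' : ∀ p ∈ PP z, ω p ≤ 2 ∧ ω p < p := fun p hp => ⟨(hω p hp).1, (hω p hp).2.1⟩
  have h1 := hR z ω hz hω' (Nat.sqrt N) hzs
  have h2 := Vale.Agent.P001.arith_large_sieve S M N hS (Nat.sqrt N) hsq1
    ((PP z).powerset.filter (fun F => ((∏ p ∈ F, p : ℕ) : ℝ) ≤ (Nat.sqrt N : ℕ)))
    (by
      intro F hF p hp
      rw [Finset.mem_filter, Finset.mem_powerset] at hF
      exact (mem_PP.1 (hF.1 hp)).2)
    (by
      intro F hF
      rw [Finset.mem_filter] at hF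
      exact_mod_cast hF.2)
    (fun p => p - ω p)
    (by
      intro F hF p hp
      rw [Finset.mem_filter, Finset.mem_powerset] at hF
      have := (hω p (hF.1 hp)).2.1
      omega)
    (by
      intro F hF p hp
      exact Nat.sub_le _ _)
    (by
      intro F hF p hp
      rw [Finset.mem_filter, Finset.mem_powerset] at hF
      have := (hω p (hF.1 hp)).2.2
      omega)
  have h3 : ∑ F ∈ (PP z).powerset.filter (fun F => ((∏ p ∈ F, p : ℕ) : ℝ) ≤ (Nat.sqrt N : ℕ)),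
      ∏ p ∈ F, ((p : ℝ) / ((p - ω p : ℕ) : ℝ) - 1) =
      ∑ F ∈ (PP z).powerset.filter (fun F => ((∏ p ∈ F, p : ℕ) : ℝ) ≤ (Nat.sqrt N : ℕ)),
      ∏ p ∈ F, ((ω p : ℝ) / ((p : ℝ) - ω p)) := by
    refine Finset.sum_congr rfl fun F hF => Finset.prod_congr rfl fun p hp => ?_
    rw [Finset.mem_filter, Finset.mem_powerset] at hF
    have h4 := (hω p (hF.1 hp)).2.1
    have h5 : (ω p : ℝ) < p := by exact_mod_cast h4
    rw [Nat.cast_sub h4.le]
    have h6 : (p : ℝ) - ω p ≠ 0 := by linarith only [h5]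
    field_simp
    ring
  rw [h3] at h2
  have hQ2 : ((Nat.sqrt N : ℕ) : ℝ) ^ 2 ≤ N := by
    have := Nat.sqrt_le' N
    exact_mod_cast this
  have hprodpos : 0 < ∏ p ∈ PP z, (1 - (ω p : ℝ) / p) := by
    refine Finset.prod_pos fun p hp => ?_
    have h4 := (hω p hp).2.1
    have h5 : (ω p : ℝ) < p := by exact_mod_cast h4
    have h6 : (0 : ℝ) < p := lt_of_le_of_lt (Nat.cast_nonneg _) h5
    rw [sub_pos, div_lt_one h6]
    exact h5
  rw [Finset.prod_inv_distrib] at h1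
  have h4 : (S.card : ℝ) * ((1 / 2) * (∏ p ∈ PP z, (1 - (ω p : ℝ) / p))⁻¹) ≤
      Vale.Agent.P001.cLS * (N + N) := by
    calc (S.card : ℝ) * ((1 / 2) * (∏ p ∈ PP z, (1 - (ω p : ℝ) / p))⁻¹) ≤ _ :=
          mul_le_mul_of_nonneg_left h1 (Nat.cast_nonneg _)
      _ ≤ _ := h2
      _ ≤ _ := mul_le_mul_of_nonneg_left (by linarith only [hQ2]) hc.le
  have h5 : (S.card : ℝ) * ((1 / 2) * (∏ p ∈ PP z, (1 - (ω p : ℝ) / p))⁻¹) *
      (2 * ∏ p ∈ PP z, (1 - (ω p : ℝ) / p)) = S.card := by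
    (clear * - hprodpos; field_simp)
  rw [← h5]
  calc _ ≤ Vale.Agent.P001.cLS * (N + N) * (2 * ∏ p ∈ PP z, (1 - (ω p : ℝ) / p)) :=
        mul_le_mul_of_nonneg_right h4 (by (clear * - hprodpos; positivity))
    _ = _ := by ring

/-- The image modulo `p` of a set avoiding `R` has at most `p - |R|` elements. -/
lemma image_card_add (p : ℕ) (hp : 0 < p) (S : Finset ℤ) (R : Finset (ZMod p))
    (h : ∀ n ∈ S, ((n : ℤ) : ZMod p) ∉ R) :
    (S.image (fun n : ℤ => (n : ZMod p))).card + R.card ≤ p := by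
  classical
  have : NeZero p := ⟨hp.ne'⟩
  have hd : Disjoint (S.image (fun n : ℤ => (n : ZMod p))) R := by
    rw [Finset.disjoint_left]
    intro a ha
    rw [Finset.mem_image] at ha
    obtain ⟨n, hn, rfl⟩ := ha
    exact h n hn
  rw [← Finset.card_union_of_disjoint hd]
  calc _ ≤ Fintype.card (ZMod p) := Finset.card_le_univ _
    _ = p := ZMod.card p

end Vale.Agent.P013.J
end

section

/-!
# Upper bound sieves (K3)
-/

namespace Vale.P028

open Finset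

theorem ks_factor_pos {p : ℕ} (hp : p.Prime) : 0 < 1 - 1 / (p : ℝ) := by
  have h : (2 : ℝ) ≤ p := by exact_mod_cast hp.two_le
  rw [sub_pos, div_lt_one (by linarith only [h])]
  linarith only [h]

theorem ks_factor_le_one (p : ℕ) : 1 - 1 / (p : ℝ) ≤ 1 := by
  have : 0 ≤ 1 / (p : ℝ) := by positivity
  linarith only [this]

theorem ks_pr_pos {Ps : Finset ℕ} (h : ∀ p ∈ Ps, p.Prime) : 0 < pr Ps :=
  Finset.prod_pos fun p hp => ks_factor_pos (h p hp)

theorem ks_pr_mono {Ps Qs : Finset ℕ} (h : ∀ p ∈ Qs, p.Prime) (hs : Ps ⊆ Qs) : pr Qs ≤ pr Ps := by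
  unfold pr
  exact Finset.prod_le_prod_of_subset_of_le_one hs (fun p hp => (ks_factor_pos (h p hp)).le)
    (fun p _ _ => ks_factor_le_one p)

theorem ks_inv_le_exp {p : ℕ} (hp : p.Prime) :
    (1 - 1 / (p : ℝ))⁻¹ ≤ Real.exp (2 * (1 / (p : ℝ))) := by
  have h : (2 : ℝ) ≤ p := by exact_mod_cast hp.two_le
  have h1 : (1 - 1 / (p : ℝ))⁻¹ = 1 / ((p : ℝ) - 1) + 1 := by
    have : (p : ℝ) - 1 ≠ 0 := by linarith only [h]
    field_simp
    ring
  rw [h1]
  refine le_trans ?_ (Real.add_one_le_exp _)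
  have h2 : 1 / ((p : ℝ) - 1) ≤ 2 * (1 / (p : ℝ)) := by
    rw [mul_one_div, div_le_div_iff₀ (by linarith only [h]) (by linarith only [h])]
    linarith only [h]
  linarith only [h2]

theorem ks_pr_inv_le_exp {Ps : Finset ℕ} (h : ∀ p ∈ Ps, p.Prime) :
    (pr Ps)⁻¹ ≤ Real.exp (2 * ∑ p ∈ Ps, 1 / (p : ℝ)) := by
  unfold pr
  rw [← Finset.prod_inv_distrib, Finset.mul_sum, Real.exp_sum]
  exact Finset.prod_le_prod (fun p hp => (inv_pos.2 (ks_factor_pos (h p hp))).le)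
    fun p hp => ks_inv_le_exp (h p hp)

/-- primes between `x` and `x ^ K` -/
theorem ks_sum_ratio {K : ℝ} (hK : 1 ≤ K) : ∃ C > 0, ∀ (Qs : Finset ℕ) (x y : ℝ),
    (∀ p ∈ Qs, p.Prime ∧ x ≤ (p : ℝ) ∧ (p : ℝ) ≤ y) → 2 ≤ x → y ≤ x ^ K →
    ∑ p ∈ Qs, 1 / (p : ℝ) ≤ C := by
  obtain ⟨C₁, hC₁, hM⟩ := Vale.Agent.P013.mertens_one
  have hl2 : 0 < Real.log 2 := Real.log_pos (by norm_num)
  refine ⟨K + (Real.log 2 + 2 * C₁) / Real.log 2, by positivity, ?_⟩
  intro Qs x y hQ hx hy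
  have hlx : Real.log 2 ≤ Real.log x := Real.log_le_log (by norm_num) hx
  have hlx0 : 0 < Real.log x := hl2.trans_le hlx
  rcases lt_or_ge y x with hyx | hxy
  · have : Qs = ∅ := by
      rw [Finset.eq_empty_iff_forall_notMem]
      intro p hp
      have := hQ p hp
      linarith [this.2.1, this.2.2]
    rw [this, Finset.sum_empty]
    positivity
  have hy0 : 0 < y := by linarith only [hx, hxy]
  set a := ⌈x⌉₊ with ha
  set b := ⌊y⌋₊ + 1 with hb
  have hab : a ≤ b := by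
    have h1 : ⌈x⌉₊ ≤ ⌈y⌉₊ := Nat.ceil_le_ceil hxy
    exact h1.trans (Nat.ceil_le_floor_add_one y)
  have ha1 : (x : ℝ) ≤ a := Nat.le_ceil x
  have ha2 : 1 ≤ a := by
    have : (0 : ℝ) < a := by linarith only [hx, ha1]
    exact_mod_cast this
  have hb1 : (b : ℝ) ≤ 2 * y := by
    have := Nat.floor_le hy0.le
    rw [hb]
    push_cast
    linarith only [hx, hxy, this]
  have hMa := (abs_le.1 (hM a ha2)).1
  have hMb := (abs_le.1 (hM b (ha2.trans hab))).2
  have hsub : Qs ⊆ ((range b).filter Nat.Prime) \ ((range a).filter Nat.Prime) := by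
    intro p hp
    obtain ⟨h1, h2, h3⟩ := hQ p hp
    have h4 : p < b := by
      rw [hb, Nat.lt_add_one_iff]
      exact Nat.le_floor h3
    have h5 : a ≤ p := by
      rw [ha]
      exact Nat.ceil_le.2 h2
    simp only [mem_sdiff, mem_filter, mem_range, not_and]
    exact ⟨⟨h4, h1⟩, fun h => absurd h (by omega)⟩
  have hsum : ∑ p ∈ Qs, Real.log p / p ≤ Real.log b - Real.log a + 2 * C₁ := by
    calc ∑ p ∈ Qs, Real.log p / p
        ≤ ∑ p ∈ ((range b).filter Nat.Prime) \ ((range a).filter Nat.Prime),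
            Real.log p / (p : ℝ) := by
          refine Finset.sum_le_sum_of_subset_of_nonneg hsub fun p _ _ => ?_
          exact div_nonneg (Real.log_natCast_nonneg p) (Nat.cast_nonneg p)
      _ = ∑ p ∈ (range b).filter Nat.Prime, Real.log p / (p : ℝ) -
            ∑ p ∈ (range a).filter Nat.Prime, Real.log p / (p : ℝ) := by
          rw [eq_sub_iff_add_eq]
          refine Finset.sum_sdiff ?_
          exact Finset.filter_subset_filter _ (Finset.range_subset_range.2 hab)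
      _ ≤ _ := by linarith only [hMa, hMb]
  have hlb : Real.log b ≤ Real.log 2 + K * Real.log x := by
    calc Real.log b ≤ Real.log (2 * y) :=
          Real.log_le_log (by exact_mod_cast (lt_of_lt_of_le (by omega : 0 < a) hab)) hb1
      _ = Real.log 2 + Real.log y := Real.log_mul (by norm_num) hy0.ne'
      _ ≤ Real.log 2 + Real.log (x ^ K) := by
          have := Real.log_le_log hy0 hy
          linarith only [this]
      _ = _ := by rw [Real.log_rpow (by linarith only [hx])]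
  have hla : Real.log x ≤ Real.log a := Real.log_le_log (by linarith only [hx]) ha1
  have hfin : Real.log x * ∑ p ∈ Qs, 1 / (p : ℝ) ≤ ∑ p ∈ Qs, Real.log p / p := by
    rw [Finset.mul_sum]
    refine Finset.sum_le_sum fun p hp => ?_
    obtain ⟨h1, h2, h3⟩ := hQ p hp
    rw [mul_one_div]
    exact div_le_div_of_nonneg_right (Real.log_le_log (by linarith only [hx]) h2) (Nat.cast_nonneg p)
  have h6 : Real.log x * ∑ p ∈ Qs, 1 / (p : ℝ) ≤
      Real.log x * (K + (Real.log 2 + 2 * C₁) / Real.log 2) := by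
    have h7 : Real.log 2 + 2 * C₁ ≤ Real.log x * ((Real.log 2 + 2 * C₁) / Real.log 2) := by
      rw [mul_div_assoc', le_div_iff₀ hl2, mul_comm]
      exact mul_le_mul_of_nonneg_right hlx (by positivity)
    have h8 : 0 ≤ Real.log x * K := by positivity
    linarith only [h7, hfin, hla, hlb, hsum, hlx, hl2]
  exact le_of_mul_le_mul_left h6 hlx0

theorem ks_pr_ratio {K : ℝ} (hK : 1 ≤ K) : ∃ C > 0, ∀ (Qs : Finset ℕ) (x y : ℝ),
    (∀ p ∈ Qs, p.Prime) → 2 ≤ x → y ≤ x ^ K →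
    pr (Qs.filter (fun p : ℕ => (p : ℝ) < x)) ≤ C * pr (Qs.filter (fun p : ℕ => (p : ℝ) ≤ y)) := by
  obtain ⟨C, hC, h⟩ := ks_sum_ratio hK
  refine ⟨Real.exp (2 * C), Real.exp_pos _, ?_⟩
  intro Qs x y hQ hx hy
  set M := Qs.filter (fun p : ℕ => x ≤ (p : ℝ) ∧ (p : ℝ) ≤ y) with hM
  set L := Qs.filter (fun p : ℕ => (p : ℝ) < x) with hL
  have hMp : ∀ p ∈ M, p.Prime := fun p hp => hQ p (Finset.mem_filter.1 hp).1
  have hLp : ∀ p ∈ L, p.Prime := fun p hp => hQ p (Finset.mem_filter.1 hp).1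
  have h1 := h M x y (fun p hp => by
    rw [hM, Finset.mem_filter] at hp
    exact ⟨hQ p hp.1, hp.2⟩) hx hy
  have h2 : (pr M)⁻¹ ≤ Real.exp (2 * C) :=
    (ks_pr_inv_le_exp hMp).trans (Real.exp_le_exp.2 (by linarith only [h1]))
  have hdisj : Disjoint L M := by
    rw [Finset.disjoint_left]
    intro p hp hp'
    rw [hL, Finset.mem_filter] at hp
    rw [hM, Finset.mem_filter] at hp'
    linarith only [hp.2, hp'.2.1]
  have h3 : pr L * pr M ≤ pr (Qs.filter (fun p : ℕ => (p : ℝ) ≤ y)) := by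
    have h4 : pr (L ∪ M) = pr L * pr M := Finset.prod_union hdisj
    rw [← h4]
    refine ks_pr_mono (fun p hp => ?_) ?_
    · rcases Finset.mem_union.1 hp with hp | hp
      · exact hLp p hp
      · exact hMp p hp
    · intro p hp
      rw [Finset.mem_filter] at hp
      rw [Finset.mem_union, hL, hM, Finset.mem_filter, Finset.mem_filter]
      rcases lt_or_ge (p : ℝ) x with h | h
      · exact Or.inl ⟨hp.1, h⟩
      · exact Or.inr ⟨hp.1, h, hp.2⟩
  have hM0 := ks_pr_pos hMp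
  calc pr L = (pr M)⁻¹ * (pr L * pr M) := by
        field_simp
    _ ≤ (pr M)⁻¹ * pr (Qs.filter (fun p : ℕ => (p : ℝ) ≤ y)) :=
        mul_le_mul_of_nonneg_left h3 (inv_pos.2 hM0).le
    _ ≤ _ := mul_le_mul_of_nonneg_right h2
        (ks_pr_pos fun p hp => hQ p (Finset.mem_filter.1 hp).1).le

/-- the basic sieve: an interval of length `10 D` -/
theorem ks_base : ∃ C > 0, ∀ (Qs : Finset ℕ) (c : ℕ → ℤ) (c₀ D : ℝ) (Ks : Finset ℤ),
    (∀ p ∈ Qs, p.Prime) → 1 / 1024 ≤ D → (∀ k ∈ Ks, |(k : ℝ) - c₀| ≤ 5 * D) →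
    (∀ k ∈ Ks, ∀ p ∈ Qs, ¬ (p : ℤ) ∣ k - c p) →
    (Ks.card : ℝ) ≤ C * D * pr (Qs.filter (fun p : ℕ => (p : ℝ) ≤ D)) := by
  obtain ⟨C₁, s, hC₁, hs, hsv⟩ := Vale.Agent.P013.J.upper_sieve
  obtain ⟨C₂, hC₂, h2⟩ := ks_pr_ratio (K := 2 * s) (by linarith only [hs])
  obtain ⟨C₃, hC₃, h3⟩ := ks_pr_ratio (K := s) hs
  refine ⟨C₁ * 13 * C₂ + 1034 * C₃, by positivity, ?_⟩
  intro Qs c c₀ D Ks hQ hD hK hc
  have hD0 : 0 < D := by linarith only [hD]
  have hp0 : 0 < pr (Qs.filter (fun p : ℕ => (p : ℝ) ≤ D)) :=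
    ks_pr_pos fun p hp => hQ p (Finset.mem_filter.1 hp).1
  rcases lt_or_ge D ((2 : ℝ) ^ s) with hlt | hge
  · -- bounded range
    have h4 := h3 Qs 2 D hQ le_rfl hlt.le
    have h5 : Qs.filter (fun p : ℕ => (p : ℝ) < 2) = ∅ := by
      rw [Finset.filter_eq_empty_iff]
      intro p hp h
      have : (2 : ℝ) ≤ p := by exact_mod_cast (hQ p hp).two_le
      linarith only [h, this]
    rw [h5] at h4
    have h6 : pr ∅ = 1 := Finset.prod_empty
    rw [h6] at h4
    have hcard : (Ks.card : ℝ) ≤ 1034 * D := by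
      have hsub : Ks ⊆ Finset.Icc ⌈c₀ - 5 * D⌉ ⌊c₀ + 5 * D⌋ := by
        intro k hk
        have := abs_le.1 (hK k hk)
        rw [Finset.mem_Icc]
        exact ⟨Int.ceil_le.2 (by linarith only [this]), Int.le_floor.2 (by linarith only [this])⟩
      have h7 := Finset.card_le_card hsub
      rw [Int.card_Icc] at h7
      have h8 : (((⌊c₀ + 5 * D⌋ + 1 - ⌈c₀ - 5 * D⌉).toNat : ℤ) : ℝ) ≤ 10 * D + 1 := by
        rw [Int.toNat_eq_max]
        push_cast
        rw [max_le_iff]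
        refine ⟨?_, by linarith only [hD0]⟩
        have h9 := Int.floor_le (c₀ + 5 * D)
        have h10 := Int.le_ceil (c₀ - 5 * D)
        linarith only [h9, h10]
      have h9 : (Ks.card : ℝ) ≤ (((⌊c₀ + 5 * D⌋ + 1 - ⌈c₀ - 5 * D⌉).toNat : ℤ) : ℝ) := by
        exact_mod_cast h7
      linarith only [hD, h8, h9]
    calc (Ks.card : ℝ) ≤ 1034 * D * 1 := by linarith only [hcard]
      _ ≤ 1034 * D * (C₃ * pr (Qs.filter (fun p : ℕ => (p : ℝ) ≤ D))) :=
          mul_le_mul_of_nonneg_left h4 (by positivity)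
      _ ≤ _ := by
          have : 0 ≤ C₁ * 13 * C₂ * D * pr (Qs.filter (fun p : ℕ => (p : ℝ) ≤ D)) := by
            positivity
          linarith only [this]
  · -- the sieve
    have hs0 : 0 < s := by linarith only [hs]
    have hD1 : 2 ≤ D := by
      calc (2 : ℝ) = 2 ^ (1 : ℝ) := (Real.rpow_one 2).symm
        _ ≤ 2 ^ s := Real.rpow_le_rpow_of_exponent_le (by norm_num) hs
        _ ≤ D := hge
    set w : ℝ := D ^ (1 / s) with hw
    have hw0 : 0 < w := Real.rpow_pos_of_pos hD0 _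
    have hws : w ^ s = D := by
      rw [hw, ← Real.rpow_mul hD0.le, one_div, inv_mul_cancel₀ hs0.ne', Real.rpow_one]
    have hw2 : 2 ≤ w := by
      have : ((2 : ℝ) ^ s) ^ (1 / s) ≤ w := Real.rpow_le_rpow (by positivity) hge (by positivity)
      rwa [← Real.rpow_mul (by norm_num), mul_one_div_cancel hs0.ne', Real.rpow_one] at this
    set z := ⌊w⌋₊ with hz
    have hz2 : 2 ≤ z := Nat.le_floor (by exact_mod_cast hw2)
    have hz2' : (2 : ℝ) ≤ z := by exact_mod_cast hz2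
    have hzw : (z : ℝ) ≤ w := Nat.floor_le hw0.le
    have hwz : w < z + 1 := Nat.lt_floor_add_one w
    set N := ⌈12 * D⌉₊ with hN
    have hN1 : 12 * D ≤ N := Nat.le_ceil _
    have hN2 : (N : ℝ) ≤ 13 * D := by
      have := Nat.ceil_lt_add_one (by linarith only [hD1] : 0 ≤ 12 * D)
      linarith only [hD1, this]
    have hzs : (z : ℝ) ^ s ≤ N := by
      calc (z : ℝ) ^ s ≤ w ^ s := Real.rpow_le_rpow (by linarith only []) hzw hs0.le
        _ = D := hws
        _ ≤ N := by linarith only [hN1]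
    have hDz : D ≤ (z : ℝ) ^ (2 * s) := by
      calc D = w ^ s := hws.symm
        _ ≤ ((z : ℝ) ^ 2) ^ s := Real.rpow_le_rpow hw0.le (by nlinarith only [hz2', hwz]) hs0.le
        _ = (z : ℝ) ^ (2 * s) := by
            rw [← Real.rpow_natCast, ← Real.rpow_mul (by linarith only [])]
            norm_num
    have h5 := hsv z N ⌈c₀ - 5 * D⌉ (fun p => if p ∈ Qs then 1 else 0) Ks hz2 hzs
      (by
        intro k hk
        have := abs_le.1 (hK k hk)
        refine ⟨Int.ceil_le.2 (by linarith only [this]), ?_⟩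
        have h10 := Int.le_ceil (c₀ - 5 * D)
        have h11 : (k : ℝ) < ⌈c₀ - 5 * D⌉ + N := by linarith only [hD1, hN1, this, h10]
        exact_mod_cast h11)
      (by
        intro p hp
        have hpp : p.Prime := (Vale.Agent.P013.J.mem_PP.1 hp).2
        have h2p := hpp.two_le
        by_cases hpQ : p ∈ Qs
        · simp only [hpQ, if_true]
          refine ⟨by norm_num, by omega, ?_⟩
          have := Vale.Agent.P013.J.image_card_add p hpp.pos Ks {((c p : ℤ) : ZMod p)} (by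
            intro k hk h
            rw [Finset.mem_singleton, eq_comm, ZMod.intCast_eq_intCast_iff_dvd_sub] at h
            exact hc k hk p hpQ h)
          rwa [Finset.card_singleton] at this
        · simp only [hpQ, if_false]
          refine ⟨by norm_num, by omega, ?_⟩
          have := Vale.Agent.P013.J.image_card_add p hpp.pos Ks ∅ (by simp)
          rwa [Finset.card_empty] at this)
    have h6 : ∏ p ∈ Vale.Agent.P013.J.PP z, (1 - (((if p ∈ Qs then 1 else 0 : ℕ) : ℕ) : ℝ) / p) =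
        pr (Qs.filter (fun p : ℕ => (p : ℝ) < z)) := by
      unfold pr
      have h7 : Qs.filter (fun p : ℕ => (p : ℝ) < z) =
          (Vale.Agent.P013.J.PP z).filter (fun p => p ∈ Qs) := by
        ext p
        rw [Finset.mem_filter, Finset.mem_filter, Vale.Agent.P013.J.mem_PP, Nat.cast_lt]
        constructor
        · rintro ⟨h1, h2⟩; exact ⟨⟨h2, hQ p h1⟩, h1⟩
        · rintro ⟨⟨h1, _⟩, h3⟩; exact ⟨h3, h1⟩
      rw [h7, Finset.prod_filter]
      refine Finset.prod_congr rfl fun p _ => ?_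
      by_cases hpQ : p ∈ Qs <;> simp [hpQ]
    rw [h6] at h5
    have h7 := h2 Qs z D hQ hz2' hDz
    calc (Ks.card : ℝ) ≤ C₁ * N * pr (Qs.filter (fun p : ℕ => (p : ℝ) < z)) := h5
      _ ≤ C₁ * (13 * D) * (C₂ * pr (Qs.filter (fun p : ℕ => (p : ℝ) ≤ D))) := by
          refine mul_le_mul (mul_le_mul_of_nonneg_left hN2 hC₁.le) h7 ?_ (by positivity)
          exact (ks_pr_pos fun p hp => hQ p (Finset.mem_filter.1 hp).1).le
      _ ≤ _ := by
          have : 0 ≤ 1034 * C₃ * D * pr (Qs.filter (fun p : ℕ => (p : ℝ) ≤ D)) := by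
            positivity
          linarith only [this]

/-- sieve in an arithmetic progression -/
theorem ks_ap : ∃ C > 0, ∀ (Qs : Finset ℕ) (c : ℕ → ℤ) (c₀ D : ℝ) (Ks : Finset ℤ) (m : ℕ) (a : ℤ),
    (∀ p ∈ Qs, p.Prime ∧ ¬ p ∣ m) → 1 ≤ m → (m : ℝ) ^ 2 ≤ D →
    (∀ k ∈ Ks, |(k : ℝ) - c₀| ≤ 5 * D) → (∀ k ∈ Ks, (m : ℤ) ∣ k - a) →
    (∀ k ∈ Ks, ∀ p ∈ Qs, ¬ (p : ℤ) ∣ k - c p) →
    (Ks.card : ℝ) ≤ C * (D / m) * pr (Qs.filter (fun p : ℕ => (p : ℝ) ≤ D)) := by
  obtain ⟨C₁, hC₁, h1⟩ := ks_base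
  obtain ⟨C₂, hC₂, h2⟩ := ks_pr_ratio (K := 2) (by norm_num)
  refine ⟨C₁ * C₂, by positivity, ?_⟩
  intro Qs c c₀ D Ks m a hQ hm hmD hK ha hc
  have hm1 : (1 : ℝ) ≤ m := by exact_mod_cast hm
  have hm0 : (0 : ℝ) < m := by linarith only [hm1]
  have hmz : (m : ℤ) ≠ 0 := by exact_mod_cast (by omega : m ≠ 0)
  have hroot : ∀ p : ℕ, ∃ e : ℤ, p ∈ Qs → (p : ℤ) ∣ m * e - (c p - a) := by
    intro p
    by_cases hp : p ∈ Qs
    · have hco : IsCoprime (p : ℤ) (m : ℤ) := by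
        rw [Nat.isCoprime_iff_coprime]
        exact (Nat.Prime.coprime_iff_not_dvd (hQ p hp).1).2 (hQ p hp).2
      obtain ⟨x, y, hxy⟩ := hco
      refine ⟨y * (c p - a), fun _ => ⟨-(x * (c p - a)), ?_⟩⟩
      have : (m : ℤ) * (y * (c p - a)) - (c p - a) = (x * p + y * m - 1) * (c p - a) -
          x * p * (c p - a) := by ring
      rw [this, hxy]
      ring
    · exact ⟨0, fun h => absurd h hp⟩
  choose e he using hroot
  set φ : ℤ → ℤ := fun k => (k - a) / m with hφ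
  have hφS : ∀ k ∈ Ks, (m : ℤ) * φ k = k - a := fun k hk => Int.mul_ediv_cancel' (ha k hk)
  have hinj : Set.InjOn φ (Ks : Set ℤ) := by
    intro n hn n' hn' h
    have h1 := hφS n hn
    have h2 := hφS n' hn'
    rw [h] at h1
    linarith only [h1, h2]
  have hcard : (Ks.image φ).card = Ks.card := Finset.card_image_of_injOn hinj
  have hDm : (m : ℝ) ≤ D / m := by
    rw [le_div_iff₀ hm0]
    linarith only [hmD]
  have h3 := h1 Qs e ((c₀ - a) / m) (D / m) (Ks.image φ) (fun p hp => (hQ p hp).1) (by linarith only [hm1, hDm])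
    (by
      intro k' hk'
      obtain ⟨k, hk, rfl⟩ := Finset.mem_image.1 hk'
      have h4 := hK k hk
      have h5 : (m : ℝ) * (φ k : ℝ) = (k : ℝ) - a := by exact_mod_cast hφS k hk
      have h6 : (φ k : ℝ) - (c₀ - a) / m = ((k : ℝ) - c₀) / m := by
        field_simp
        linarith only [h5]
      rw [h6, abs_div, abs_of_pos hm0, ← mul_div_assoc]
      exact div_le_div_of_nonneg_right h4 hm0.le)
    (by
      intro k' hk' p hp hdvd
      obtain ⟨k, hk, rfl⟩ := Finset.mem_image.1 hk'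
      refine hc k hk p hp ?_
      have h4 := he p hp
      have h5 : k - c p = m * (φ k - e p) + (m * e p - (c p - a)) := by
        have := hφS k hk
        linear_combination -this
      rw [h5]
      exact dvd_add (Dvd.dvd.mul_left hdvd _) h4)
  rw [hcard] at h3
  have h4 : pr (Qs.filter (fun p : ℕ => (p : ℝ) ≤ D / m)) ≤
      C₂ * pr (Qs.filter (fun p : ℕ => (p : ℝ) ≤ D)) := by
    have h5 : D ≤ (max 2 (D / m)) ^ (2 : ℝ) := by
      rw [Real.rpow_two]
      have h6 : D ≤ (D / m) ^ 2 := by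
        have h7 : D = (D / m) * m := by field_simp
        calc D = (D / m) * m := h7
          _ ≤ (D / m) * (D / m) := mul_le_mul_of_nonneg_left hDm (by linarith only [hDm])
          _ = _ := by ring
      exact h6.trans (pow_le_pow_left₀ (by linarith only [hDm]) (le_max_right _ _) 2)
    have h6 := h2 Qs (max 2 (D / m)) D (fun p hp => (hQ p hp).1) (le_max_left _ _) h5
    refine le_trans ?_ h6
    refine ks_pr_mono (fun p hp => (hQ p (Finset.mem_filter.1 hp).1).1) ?_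
    intro p hp
    rw [Finset.mem_filter] at hp ⊢
    refine ⟨hp.1, ?_⟩
    have h7 : (2 : ℝ) ≤ p := by exact_mod_cast (hQ p hp.1).1.two_le
    rcases lt_max_iff.1 hp.2 with h8 | h8
    · linarith only [h7, h8]
    · exact h8.le
  calc (Ks.card : ℝ) ≤ C₁ * (D / m) * pr (Qs.filter (fun p : ℕ => (p : ℝ) ≤ D / m)) := h3
    _ ≤ C₁ * (D / m) * (C₂ * pr (Qs.filter (fun p : ℕ => (p : ℝ) ≤ D))) :=
        mul_le_mul_of_nonneg_left h4 (mul_nonneg hC₁.le (by linarith only [hDm]))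
    _ = _ := by ring

/-- pointwise bound of the weight -/
theorem ks_pointwise : ∃ C > 0, ∀ E : Finset ℕ, (∀ p ∈ E, p.Prime) →
    (pr E)⁻¹ ≤ C * (1 + ∑ p ∈ E, (p : ℝ) ^ (-(1 / 3 : ℝ))) := by
  obtain ⟨C₁, hC₁, hM⟩ := Vale.Agent.P013.sum_inv_prime_le
  refine ⟨Real.exp (2 * C₁ + 2) * 25, by positivity, ?_⟩
  intro E hE
  set A : ℝ := 1 + ∑ p ∈ E, (p : ℝ) ^ (-(1 / 3 : ℝ)) with hA
  have hA1 : 1 ≤ A := by
    have : 0 ≤ ∑ p ∈ E, (p : ℝ) ^ (-(1 / 3 : ℝ)) := Finset.sum_nonneg fun p _ => by positivity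
    linarith only [this]
  have hA0 : 0 < A := by linarith only [hA1]
  set n : ℕ := ⌈A ^ (3 / 2 : ℝ)⌉₊ + 2 with hn
  have hn1 : A ^ (3 / 2 : ℝ) ≤ n := by
    have := Nat.le_ceil (A ^ (3 / 2 : ℝ))
    rw [hn]; push_cast; linarith only [this]
  have hA32 : 1 ≤ A ^ (3 / 2 : ℝ) := Real.one_le_rpow hA1 (by norm_num)
  have hn2 : (n : ℝ) ≤ 4 * A ^ (3 / 2 : ℝ) := by
    have := Nat.ceil_lt_add_one (by positivity : 0 ≤ A ^ (3 / 2 : ℝ))
    rw [hn]; push_cast; linarith only [hA32, this]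
  have hn3 : 2 ≤ n := by omega
  have hn3' : (3 : ℝ) ≤ n := by
    have := Nat.le_ceil (A ^ (3 / 2 : ℝ))
    rw [hn]; push_cast; linarith only [hA32, this]
  have hlogn : 1 ≤ Real.log n := by
    rw [Real.le_log_iff_exp_le (by linarith only [hn3'])]
    have := Real.exp_one_lt_d9
    linarith only [hn3', this]
  have hlogn2 : Real.log n ≤ 5 * A ^ (1 / 2 : ℝ) := by
    have h1 : Real.log n ≤ Real.log 4 + 3 / 2 * Real.log A := by
      calc Real.log n ≤ Real.log (4 * A ^ (3 / 2 : ℝ)) := Real.log_le_log (by linarith only [hn3']) hn2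
        _ = _ := by rw [Real.log_mul (by norm_num) (by positivity), Real.log_rpow hA0]
    have h2 : Real.log A ≤ A ^ (1 / 2 : ℝ) / (1 / 2) := Real.log_le_rpow_div hA0.le (by norm_num)
    have h3 : Real.log 4 ≤ 2 := by
      have : Real.log 4 = 2 * Real.log 2 := by
        rw [show (4 : ℝ) = 2 ^ 2 by norm_num, Real.log_pow]; norm_num
      have := Real.log_two_lt_d9
      linarith
    have h4 : 1 ≤ A ^ (1 / 2 : ℝ) := Real.one_le_rpow hA1 (by norm_num)
    linarith only [h1, h2, h3, h4]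
  have hsum1 : ∑ p ∈ E.filter (fun p => p < n), 1 / (p : ℝ) ≤ Real.log (Real.log n) + C₁ := by
    refine le_trans ?_ (hM n hn3)
    refine Finset.sum_le_sum_of_subset_of_nonneg ?_ (fun p _ _ => by positivity)
    intro p hp
    rw [Finset.mem_filter] at hp ⊢
    exact ⟨Finset.mem_range.2 hp.2, hE p hp.1⟩
  have hsum2 : ∑ p ∈ E.filter (fun p => ¬ p < n), 1 / (p : ℝ) ≤ 1 := by
    have h1 : ∀ p ∈ E.filter (fun p => ¬ p < n), 1 / (p : ℝ) ≤
        A⁻¹ * (p : ℝ) ^ (-(1 / 3 : ℝ)) := by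
      intro p hp
      rw [Finset.mem_filter, not_lt] at hp
      have hp0 : (0 : ℝ) < p := by exact_mod_cast (hE p hp.1).pos
      have hpn : A ^ (3 / 2 : ℝ) ≤ p := hn1.trans (by exact_mod_cast hp.2)
      have h2 : A ≤ (p : ℝ) ^ (2 / 3 : ℝ) := by
        calc A = (A ^ (3 / 2 : ℝ)) ^ (2 / 3 : ℝ) := by
              rw [← Real.rpow_mul hA0.le]; norm_num
          _ ≤ _ := Real.rpow_le_rpow (by positivity) hpn (by norm_num)
      have h3 : 1 / (p : ℝ) = ((p : ℝ) ^ (2 / 3 : ℝ))⁻¹ * (p : ℝ) ^ (-(1 / 3 : ℝ)) := by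
        rw [← Real.rpow_neg hp0.le, ← Real.rpow_add hp0, one_div, ← Real.rpow_neg_one]
        norm_num
      rw [h3]
      exact mul_le_mul_of_nonneg_right (inv_anti₀ hA0 h2) (by positivity)
    calc ∑ p ∈ E.filter (fun p => ¬ p < n), 1 / (p : ℝ)
        ≤ ∑ p ∈ E.filter (fun p => ¬ p < n), A⁻¹ * (p : ℝ) ^ (-(1 / 3 : ℝ)) :=
          Finset.sum_le_sum h1
      _ = A⁻¹ * ∑ p ∈ E.filter (fun p => ¬ p < n), (p : ℝ) ^ (-(1 / 3 : ℝ)) := by
          rw [Finset.mul_sum]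
      _ ≤ A⁻¹ * A := by
          refine mul_le_mul_of_nonneg_left ?_ (by positivity)
          have : ∑ p ∈ E.filter (fun p => ¬ p < n), (p : ℝ) ^ (-(1 / 3 : ℝ)) ≤
              ∑ p ∈ E, (p : ℝ) ^ (-(1 / 3 : ℝ)) :=
            Finset.sum_le_sum_of_subset_of_nonneg (Finset.filter_subset _ _)
              (fun p _ _ => by positivity)
          linarith only [this]
      _ = 1 := inv_mul_cancel₀ hA0.ne'
  have hsum : ∑ p ∈ E, 1 / (p : ℝ) ≤ Real.log (Real.log n) + C₁ + 1 := by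
    rw [← Finset.sum_filter_add_sum_filter_not E (fun p => p < n)]
    linarith only [hsum1, hsum2]
  have hl0 : 0 < Real.log n := by linarith only [hlogn]
  calc (pr E)⁻¹ ≤ Real.exp (2 * ∑ p ∈ E, 1 / (p : ℝ)) := ks_pr_inv_le_exp hE
    _ ≤ Real.exp (2 * (Real.log (Real.log n) + C₁ + 1)) := Real.exp_le_exp.2 (by linarith only [hsum])
    _ = Real.exp (2 * C₁ + 2) * (Real.log n) ^ 2 := by
        have : 2 * (Real.log (Real.log n) + C₁ + 1) = (2 * C₁ + 2) +
          (Real.log (Real.log n) + Real.log (Real.log n)) := by ring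
        rw [this, Real.exp_add, Real.exp_add (Real.log (Real.log n)), Real.exp_log hl0, sq]
    _ ≤ Real.exp (2 * C₁ + 2) * (25 * A) := by
        refine mul_le_mul_of_nonneg_left ?_ (Real.exp_pos _).le
        have h1 : (Real.log n) ^ 2 ≤ (5 * A ^ (1 / 2 : ℝ)) ^ 2 :=
          pow_le_pow_left₀ hl0.le hlogn2 2
        have h2 : (5 * A ^ (1 / 2 : ℝ)) ^ 2 = 25 * A := by
          rw [mul_pow, ← Real.rpow_natCast (A ^ (1 / 2 : ℝ)), ← Real.rpow_mul hA0.le]
          norm_num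
        linarith only [h1, h2]
    _ = _ := by ring

/-- the sieve with the weights -/
theorem ks_core : ∃ C > 0, ∀ (Qs G : Finset ℕ) (c : ℕ → ℤ) (c₀ D : ℝ) (Ks : Finset ℤ),
    (∀ p ∈ Qs, p.Prime) → (∀ p ∈ G, p.Prime ∧ (p : ℝ) ≤ D) → Disjoint Qs G → 1 / 1024 ≤ D →
    (∀ k ∈ Ks, |(k : ℝ) - c₀| ≤ 5 * D) → (∀ k ∈ Ks, ∀ p ∈ Qs, ¬ (p : ℤ) ∣ k - c p) →
    ∑ k ∈ Ks, (pr (G.filter (fun p : ℕ => (p : ℤ) ∣ k - c p)))⁻¹ ≤
      C * D * pr (Qs.filter (fun p : ℕ => (p : ℝ) ≤ D)) := by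
  obtain ⟨C₁, hC₁, h1⟩ := ks_base
  obtain ⟨C₂, hC₂, h2⟩ := ks_sum_ratio (K := 2) (by norm_num)
  obtain ⟨C₃, hC₃, h3⟩ := ks_pointwise
  obtain ⟨C₄, hC₄, h4⟩ := ks_ap
  have hsm : Summable (fun n : ℕ => 1 / (n : ℝ) ^ (4 / 3 : ℝ)) :=
    Real.summable_one_div_nat_rpow.2 (by norm_num)
  set Z : ℝ := ∑' n : ℕ, 1 / (n : ℝ) ^ (4 / 3 : ℝ) with hZ
  have hZ0 : 0 ≤ Z := tsum_nonneg fun n => by positivity
  refine ⟨Real.exp (2 * C₂) * C₃ * (C₁ + C₄ * Z), by positivity, ?_⟩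
  intro Qs G c c₀ D Ks hQ hG hdis hD hK hc
  have hD0 : 0 < D := by linarith only [hD]
  set Pi₀ := pr (Qs.filter (fun p : ℕ => (p : ℝ) ≤ D)) with hPi₀
  have hPi₀0 : 0 < Pi₀ := ks_pr_pos fun p hp => hQ p (Finset.mem_filter.1 hp).1
  set Gs := G.filter (fun p : ℕ => (p : ℝ) ^ 2 ≤ D) with hGs
  set Gl := G.filter (fun p : ℕ => ¬ (p : ℝ) ^ 2 ≤ D) with hGl
  have hGp : ∀ p ∈ G, p.Prime := fun p hp => (hG p hp).1
  -- pointwise bound
  have hpt : ∀ k ∈ Ks, (pr (G.filter (fun p : ℕ => (p : ℤ) ∣ k - c p)))⁻¹ ≤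
      Real.exp (2 * C₂) * C₃ *
        (1 + ∑ p ∈ Gs, if (p : ℤ) ∣ k - c p then (p : ℝ) ^ (-(1 / 3 : ℝ)) else 0) := by
    intro k _
    set El := (G.filter (fun p : ℕ => (p : ℤ) ∣ k - c p)).filter
      (fun p : ℕ => ¬ (p : ℝ) ^ 2 ≤ D) with hEl
    set Es := (G.filter (fun p : ℕ => (p : ℤ) ∣ k - c p)).filter
      (fun p : ℕ => (p : ℝ) ^ 2 ≤ D) with hEs
    have hElp : ∀ p ∈ El, p.Prime := fun p hp =>
      hGp p (Finset.mem_filter.1 (Finset.mem_filter.1 hp).1).1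
    have hEsp : ∀ p ∈ Es, p.Prime := fun p hp =>
      hGp p (Finset.mem_filter.1 (Finset.mem_filter.1 hp).1).1
    have hsplit : pr (G.filter (fun p : ℕ => (p : ℤ) ∣ k - c p)) = pr Es * pr El :=
      (Finset.prod_filter_mul_prod_filter_not _ _ _).symm
    have hlarge : (pr El)⁻¹ ≤ Real.exp (2 * C₂) := by
      refine (ks_pr_inv_le_exp hElp).trans (Real.exp_le_exp.2 ?_)
      have := h2 El (max 2 (Real.sqrt D)) D (fun p hp => by
        have h5 := Finset.mem_filter.1 hp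
        have h6 := hG p (Finset.mem_filter.1 h5.1).1
        refine ⟨h6.1, ?_, h6.2⟩
        rw [max_le_iff]
        refine ⟨by exact_mod_cast h6.1.two_le, ?_⟩
        rw [Real.sqrt_le_left (Nat.cast_nonneg p)]
        exact (not_le.1 h5.2).le) (le_max_left _ _) (by
          rw [Real.rpow_two]
          calc D = (Real.sqrt D) ^ 2 := (Real.sq_sqrt hD0.le).symm
            _ ≤ _ := pow_le_pow_left₀ (Real.sqrt_nonneg _) (le_max_right _ _) 2)
      linarith only [this]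
    have hsmall := h3 Es hEsp
    have hEs' : Es = Gs.filter (fun p : ℕ => (p : ℤ) ∣ k - c p) := by
      rw [hEs, hGs, Finset.filter_filter, Finset.filter_filter]
      refine Finset.filter_congr fun p _ => ?_
      exact and_comm
    rw [hsplit, mul_inv, mul_comm]
    rw [mul_assoc]
    refine mul_le_mul hlarge ?_ (inv_pos.2 (ks_pr_pos hEsp)).le (Real.exp_pos _).le
    refine hsmall.trans (le_of_eq ?_)
    rw [hEs', Finset.sum_filter]
  have hcard := h1 Qs c c₀ D Ks hQ hD hK hc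
  have hap : ∀ p ∈ Gs, ((Ks.filter (fun k => (p : ℤ) ∣ k - c p)).card : ℝ) ≤
      C₄ * (D / p) * Pi₀ := by
    intro p hp
    rw [hGs, Finset.mem_filter] at hp
    have hpp := hGp p hp.1
    refine h4 Qs c c₀ D (Ks.filter (fun k => (p : ℤ) ∣ k - c p)) p (c p) ?_ hpp.one_le hp.2 ?_ ?_ ?_
    · intro r hr
      refine ⟨hQ r hr, fun hrp => ?_⟩
      have : r = p := (Nat.prime_dvd_prime_iff_eq (hQ r hr) hpp).1 hrp
      subst this
      exact Finset.disjoint_left.1 hdis hr hp.1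
    · exact fun k hk => hK k (Finset.mem_filter.1 hk).1
    · exact fun k hk => (Finset.mem_filter.1 hk).2
    · exact fun k hk => hc k (Finset.mem_filter.1 hk).1
  have hdbl : ∑ k ∈ Ks, ∑ p ∈ Gs, (if (p : ℤ) ∣ k - c p then (p : ℝ) ^ (-(1 / 3 : ℝ)) else 0) ≤
      C₄ * Z * D * Pi₀ := by
    rw [Finset.sum_comm]
    calc ∑ p ∈ Gs, ∑ k ∈ Ks, (if (p : ℤ) ∣ k - c p then (p : ℝ) ^ (-(1 / 3 : ℝ)) else 0)
        = ∑ p ∈ Gs, ((Ks.filter (fun k => (p : ℤ) ∣ k - c p)).card : ℝ) *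
            (p : ℝ) ^ (-(1 / 3 : ℝ)) := by
          refine Finset.sum_congr rfl fun p _ => ?_
          rw [← Finset.sum_filter, Finset.sum_const, nsmul_eq_mul]
      _ ≤ ∑ p ∈ Gs, C₄ * D * Pi₀ * (1 / (p : ℝ) ^ (4 / 3 : ℝ)) := by
          refine Finset.sum_le_sum fun p hp => ?_
          have hp0 : (0 : ℝ) < p := by
            exact_mod_cast (hGp p (Finset.mem_filter.1 hp).1).pos
          have h5 : 1 / (p : ℝ) ^ (4 / 3 : ℝ) = 1 / (p : ℝ) * (p : ℝ) ^ (-(1 / 3 : ℝ)) := by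
            rw [one_div, one_div, ← Real.rpow_neg hp0.le, ← Real.rpow_neg_one (p : ℝ),
              ← Real.rpow_add hp0]
            norm_num
          rw [h5]
          calc ((Ks.filter (fun k => (p : ℤ) ∣ k - c p)).card : ℝ) * (p : ℝ) ^ (-(1 / 3 : ℝ))
              ≤ (C₄ * (D / p) * Pi₀) * (p : ℝ) ^ (-(1 / 3 : ℝ)) :=
                mul_le_mul_of_nonneg_right (hap p hp) (by positivity)
            _ = _ := by ring
      _ = C₄ * D * Pi₀ * ∑ p ∈ Gs, (1 / (p : ℝ) ^ (4 / 3 : ℝ)) := by rw [Finset.mul_sum]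
      _ ≤ C₄ * D * Pi₀ * Z := by
          refine mul_le_mul_of_nonneg_left ?_ (by positivity)
          exact hsm.sum_le_tsum Gs (fun n _ => by positivity)
      _ = _ := by ring
  calc ∑ k ∈ Ks, (pr (G.filter (fun p : ℕ => (p : ℤ) ∣ k - c p)))⁻¹
      ≤ ∑ k ∈ Ks, Real.exp (2 * C₂) * C₃ *
        (1 + ∑ p ∈ Gs, if (p : ℤ) ∣ k - c p then (p : ℝ) ^ (-(1 / 3 : ℝ)) else 0) :=
        Finset.sum_le_sum hpt
    _ = Real.exp (2 * C₂) * C₃ * ((Ks.card : ℝ) +
        ∑ k ∈ Ks, ∑ p ∈ Gs, (if (p : ℤ) ∣ k - c p then (p : ℝ) ^ (-(1 / 3 : ℝ)) else 0)) := by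
        rw [← Finset.mul_sum, Finset.sum_add_distrib, Finset.sum_const, nsmul_eq_mul, mul_one]
    _ ≤ Real.exp (2 * C₂) * C₃ * (C₁ * D * Pi₀ + C₄ * Z * D * Pi₀) :=
        mul_le_mul_of_nonneg_left (add_le_add hcard hdbl) (by positivity)
    _ = _ := by ring

/-- few large primes divide a number which is not too large -/
theorem ks_large {Ps : Finset ℕ} {n : ℤ} {Y : ℝ} (h : ∀ p ∈ Ps, p.Prime ∧ Y < (p : ℝ) ∧
    (p : ℤ) ∣ n) (hY : 2 ≤ Y) (hn : n ≠ 0) (hl : Real.log |(n : ℝ)| ≤ 2 * Y) :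
    (pr Ps)⁻¹ ≤ Real.exp (4 / Real.log 2) := by
  have hl2 : 0 < Real.log 2 := Real.log_pos (by norm_num)
  have hY0 : 0 < Y := by linarith only [hY]
  refine (ks_pr_inv_le_exp fun p hp => (h p hp).1).trans (Real.exp_le_exp.2 ?_)
  have hdvd : ∏ p ∈ Ps, p ∣ n.natAbs := by
    refine Finset.prod_primes_dvd _ (fun p hp => (h p hp).1.prime) fun p hp => ?_
    exact Int.natCast_dvd.1 (h p hp).2.2
  have hle : ((∏ p ∈ Ps, p : ℕ) : ℝ) ≤ |(n : ℝ)| := by
    have h1 := Nat.le_of_dvd (Int.natAbs_pos.2 hn) hdvd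
    have h2 : ((n.natAbs : ℕ) : ℝ) = |(n : ℝ)| := by
      rw [Nat.cast_natAbs]
      push_cast
      rfl
    rw [← h2]
    exact_mod_cast h1
  have hlog : (Ps.card : ℝ) * Real.log 2 ≤ 2 * Y := by
    have h0 : (2 : ℝ) ^ Ps.card ≤ ((∏ p ∈ Ps, p : ℕ) : ℝ) := by
      push_cast
      rw [← Finset.prod_const]
      exact Finset.prod_le_prod (fun _ _ => by norm_num)
        (fun p hp => by exact_mod_cast (h p hp).1.two_le)
    have h1 := Real.log_le_log (by positivity) (h0.trans hle)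
    rw [Real.log_pow] at h1
    linarith only [hl, h1]
  have hsum : ∑ p ∈ Ps, 1 / (p : ℝ) ≤ Ps.card * (1 / Y) := by
    rw [← nsmul_eq_mul]
    refine Finset.sum_le_card_nsmul _ _ _ fun p hp => ?_
    exact one_div_le_one_div_of_le hY0 (h p hp).2.1.le
  have h3 : (Ps.card : ℝ) * (1 / Y) ≤ 2 / Real.log 2 := by
    rw [mul_one_div, div_le_div_iff₀ hY0 hl2]
    linarith only [hlog]
  have : 4 / Real.log 2 = 2 * (2 / Real.log 2) := by ring
  rw [this]
  linarith only [hsum, h3]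

/-- `n_k = B₁ B₂ k + v B₂ A₁ - u B₁ A₂` -/
theorem pv_sum : ∃ C > 0, ∀ (B₁ B₂ u v : ℕ) (A₁ A₂ : ℤ) (Pa Pb : Finset ℕ) (y W D c₀ : ℝ)
    (Ks : Finset ℤ), u.Coprime v → (∀ p ∈ Pa, p.Prime ∧ ¬ p ∣ B₁) → (∀ p ∈ Pb, p.Prime ∧ ¬ p ∣ B₂) →
    (∀ p ∈ Pa ∩ Pb, y < (p : ℝ)) → 2 ≤ y → 1 ≤ W → Real.log W ≤ y → 1 / 1024 ≤ D →
    (∀ k ∈ Ks, |(k : ℝ) - c₀| < 2 * D) →
    (∀ k ∈ Ks, (B₁ : ℤ) * B₂ * k + (v : ℤ) * B₂ * A₁ - (u : ℤ) * B₁ * A₂ ≠ 0 ∧
      |(((B₁ : ℤ) * B₂ * k + (v : ℤ) * B₂ * A₁ - (u : ℤ) * B₁ * A₂ : ℤ) : ℝ)| ≤ D * W ∧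
      (∀ p ∈ Pa, p ∣ u → ¬ (p : ℤ) ∣ (B₁ : ℤ) * k + ((v : ℤ) - u) * A₁) ∧
      (∀ p ∈ Pb, p ∣ v → ¬ (p : ℤ) ∣ (B₂ : ℤ) * k + ((v : ℤ) - u) * A₂)) →
    ∑ k ∈ Ks, (pr ((Pa ∩ Pb).filter (fun p : ℕ => ¬ p ∣ u ∧ ¬ p ∣ v ∧
        (p : ℤ) ∣ (B₁ : ℤ) * B₂ * k + (v : ℤ) * B₂ * A₁ - (u : ℤ) * B₁ * A₂)))⁻¹ ≤
      C * D * pr ((Pa.filter (fun p : ℕ => p ∣ u) ∪ Pb.filter (fun p : ℕ => p ∣ v)).filter
        (fun p : ℕ => (p : ℝ) ≤ D)) := by
  obtain ⟨C₁, hC₁, h1⟩ := ks_core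
  refine ⟨Real.exp (4 / Real.log 2) * C₁, by positivity, ?_⟩
  intro B₁ B₂ u v A₁ A₂ Pa Pb y W D c₀ Ks huv hPa hPb hy hy2 hW hWy hD hK hn
  have hD0 : 0 < D := by linarith only [hD]
  -- the classes
  have hcl : ∀ (p : ℕ) (b z : ℤ), p.Prime → ¬ (p : ℤ) ∣ b → ∃ x : ℤ, (p : ℤ) ∣ b * x + z := by
    intro p b z hp hb
    have hco : IsCoprime (p : ℤ) b := by
      rw [Int.isCoprime_iff_gcd_eq_one]
      have := (Nat.Prime.coprime_iff_not_dvd hp).2 (fun h => hb (Int.natCast_dvd.2 h))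
      exact this
    obtain ⟨x, w, hxw⟩ := hco
    refine ⟨-w * z, x * z, ?_⟩
    linear_combination (-z) * hxw
  have hc : ∃ c : ℕ → ℤ, ∀ p : ℕ,
      (p ∈ Pa → p ∣ u → (p : ℤ) ∣ (B₁ : ℤ) * c p + ((v : ℤ) - u) * A₁) ∧
      (p ∈ Pb → p ∣ v → (p : ℤ) ∣ (B₂ : ℤ) * c p + ((v : ℤ) - u) * A₂) ∧
      (p ∈ Pa → p ∈ Pb → ¬ p ∣ u → ¬ p ∣ v →
        (p : ℤ) ∣ (B₁ : ℤ) * B₂ * c p + ((v : ℤ) * B₂ * A₁ - (u : ℤ) * B₁ * A₂)) := by
    refine Classical.axiom_of_choice (r := fun (p : ℕ) (c : ℤ) =>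
      (p ∈ Pa → p ∣ u → (p : ℤ) ∣ (B₁ : ℤ) * c + ((v : ℤ) - u) * A₁) ∧
      (p ∈ Pb → p ∣ v → (p : ℤ) ∣ (B₂ : ℤ) * c + ((v : ℤ) - u) * A₂) ∧
      (p ∈ Pa → p ∈ Pb → ¬ p ∣ u → ¬ p ∣ v →
        (p : ℤ) ∣ (B₁ : ℤ) * B₂ * c + ((v : ℤ) * B₂ * A₁ - (u : ℤ) * B₁ * A₂))) ?_
    intro p
    have hnot : p.Prime → ¬ (p ∣ u ∧ p ∣ v) := fun hp h =>
      hp.one_lt.ne' (Nat.dvd_one.1 (huv ▸ Nat.dvd_gcd h.1 h.2))
    by_cases ha : p ∈ Pa ∧ p ∣ u
    · have hp := (hPa p ha.1).1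
      obtain ⟨x, hx⟩ := hcl p B₁ (((v : ℤ) - u) * A₁) hp
        (fun h => (hPa p ha.1).2 (Int.natCast_dvd_natCast.1 h))
      exact ⟨x, fun _ _ => hx, fun _ h => absurd ⟨ha.2, h⟩ (hnot hp),
        fun _ _ h => absurd ha.2 h⟩
    · by_cases hb : p ∈ Pb ∧ p ∣ v
      · have hp := (hPb p hb.1).1
        obtain ⟨x, hx⟩ := hcl p B₂ (((v : ℤ) - u) * A₂) hp
          (fun h => (hPb p hb.1).2 (Int.natCast_dvd_natCast.1 h))
        exact ⟨x, fun h h' => absurd ⟨h, h'⟩ ha, fun _ _ => hx,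
          fun _ _ _ h => absurd hb.2 h⟩
      · by_cases hab : p ∈ Pa ∧ p ∈ Pb
        · have hp := (hPb p hab.2).1
          have hnd : ¬ (p : ℤ) ∣ (B₁ : ℤ) * B₂ := by
            intro h
            rcases (Nat.prime_iff_prime_int.1 hp).dvd_or_dvd h with h | h
            · exact (hPa p hab.1).2 (Int.natCast_dvd_natCast.1 h)
            · exact (hPb p hab.2).2 (Int.natCast_dvd_natCast.1 h)
          obtain ⟨x, hx⟩ := hcl p ((B₁ : ℤ) * B₂) ((v : ℤ) * B₂ * A₁ - (u : ℤ) * B₁ * A₂) hp hnd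
          exact ⟨x, fun h h' => absurd ⟨h, h'⟩ ha, fun h h' => absurd ⟨h, h'⟩ hb,
            fun _ _ _ _ => hx⟩
        · exact ⟨0, fun h h' => absurd ⟨h, h'⟩ ha, fun h h' => absurd ⟨h, h'⟩ hb,
            fun h h' => absurd ⟨h, h'⟩ hab⟩
  obtain ⟨c, hc⟩ := hc
  set Qs := Pa.filter (fun p : ℕ => p ∣ u) ∪ Pb.filter (fun p : ℕ => p ∣ v) with hQs
  set G := (Pa ∩ Pb).filter (fun p : ℕ => ¬ p ∣ u ∧ ¬ p ∣ v ∧ (p : ℝ) ≤ D) with hG
  have hQp : ∀ p ∈ Qs, p.Prime := by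
    intro p hp
    rw [hQs, Finset.mem_union, Finset.mem_filter, Finset.mem_filter] at hp
    rcases hp with hp | hp
    · exact (hPa p hp.1).1
    · exact (hPb p hp.1).1
  have hGp : ∀ p ∈ G, p.Prime ∧ (p : ℝ) ≤ D := by
    intro p hp
    rw [hG, Finset.mem_filter, Finset.mem_inter] at hp
    exact ⟨(hPa p hp.1.1).1, hp.2.2.2⟩
  have hdis : Disjoint Qs G := by
    rw [Finset.disjoint_left]
    intro p hp hp'
    rw [hQs, Finset.mem_union, Finset.mem_filter, Finset.mem_filter] at hp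
    rw [hG, Finset.mem_filter] at hp'
    rcases hp with hp | hp
    · exact hp'.2.1 hp.2
    · exact hp'.2.2.1 hp.2
  have h2 := h1 Qs G c c₀ D Ks hQp hGp hdis hD (fun k hk => by
      have := hK k hk
      linarith only [hD0, this]) (fun k hk p hp hdvd => by
      rw [hQs, Finset.mem_union, Finset.mem_filter, Finset.mem_filter] at hp
      obtain ⟨-, -, hka, hkb⟩ := hn k hk
      rcases hp with hp | hp
      · refine hka p hp.1 hp.2 ?_
        have h3 := (hc p).1 hp.1 hp.2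
        have h4 : (B₁ : ℤ) * k + ((v : ℤ) - u) * A₁ = B₁ * (k - c p) +
            ((B₁ : ℤ) * c p + ((v : ℤ) - u) * A₁) := by ring
        rw [h4]
        exact dvd_add (Dvd.dvd.mul_left hdvd _) h3
      · refine hkb p hp.1 hp.2 ?_
        have h3 := (hc p).2.1 hp.1 hp.2
        have h4 : (B₂ : ℤ) * k + ((v : ℤ) - u) * A₂ = B₂ * (k - c p) +
            ((B₂ : ℤ) * c p + ((v : ℤ) - u) * A₂) := by ring
        rw [h4]
        exact dvd_add (Dvd.dvd.mul_left hdvd _) h3)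
  have h3 : ∀ k ∈ Ks, (pr ((Pa ∩ Pb).filter (fun p : ℕ => ¬ p ∣ u ∧ ¬ p ∣ v ∧
        (p : ℤ) ∣ (B₁ : ℤ) * B₂ * k + (v : ℤ) * B₂ * A₁ - (u : ℤ) * B₁ * A₂)))⁻¹ ≤
      Real.exp (4 / Real.log 2) * (pr (G.filter (fun p : ℕ => (p : ℤ) ∣ k - c p)))⁻¹ := by
    intro k hk
    obtain ⟨hn0, hnW, -, -⟩ := hn k hk
    set n : ℤ := (B₁ : ℤ) * B₂ * k + (v : ℤ) * B₂ * A₁ - (u : ℤ) * B₁ * A₂ with hndef
    set E := (Pa ∩ Pb).filter (fun p : ℕ => ¬ p ∣ u ∧ ¬ p ∣ v ∧ (p : ℤ) ∣ n) with hE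
    have hEp : ∀ p ∈ E, p.Prime := fun p hp =>
      (hPa p (Finset.mem_inter.1 (Finset.mem_filter.1 hp).1).1).1
    have hsplit : pr E = pr (E.filter (fun p : ℕ => (p : ℝ) ≤ D)) *
        pr (E.filter (fun p : ℕ => ¬ (p : ℝ) ≤ D)) :=
      (Finset.prod_filter_mul_prod_filter_not _ _ _).symm
    have hsm : (pr (E.filter (fun p : ℕ => (p : ℝ) ≤ D)))⁻¹ ≤
        (pr (G.filter (fun p : ℕ => (p : ℤ) ∣ k - c p)))⁻¹ := by
      refine inv_anti₀ (ks_pr_pos fun p hp => (hGp p (Finset.mem_filter.1 hp).1).1) ?_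
      refine ks_pr_mono (fun p hp => (hGp p (Finset.mem_filter.1 hp).1).1) ?_
      intro p hp
      rw [Finset.mem_filter, hE, Finset.mem_filter] at hp
      obtain ⟨⟨hp1, hpu, hpv, hpn⟩, hpD⟩ := hp
      rw [Finset.mem_filter, hG, Finset.mem_filter]
      refine ⟨⟨hp1, hpu, hpv, hpD⟩, ?_⟩
      rw [Finset.mem_inter] at hp1
      have hpp := (hPa p hp1.1).1
      have h4 := (hc p).2.2 hp1.1 hp1.2 hpu hpv
      have h5 : n - ((B₁ : ℤ) * B₂ * c p + ((v : ℤ) * B₂ * A₁ - (u : ℤ) * B₁ * A₂)) =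
          (B₁ : ℤ) * B₂ * (k - c p) := by rw [hndef]; ring
      have h6 := dvd_sub hpn h4
      rw [h5] at h6
      have hpz := Nat.prime_iff_prime_int.1 hpp
      rcases hpz.dvd_or_dvd h6 with h7 | h7
      · exfalso
        rcases hpz.dvd_or_dvd h7 with h8 | h8
        · exact (hPa p hp1.1).2 (Int.natCast_dvd_natCast.1 h8)
        · exact (hPb p hp1.2).2 (Int.natCast_dvd_natCast.1 h8)
      · exact h7
    have hlg : (pr (E.filter (fun p : ℕ => ¬ (p : ℝ) ≤ D)))⁻¹ ≤ Real.exp (4 / Real.log 2) := by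
      refine ks_large (n := n) (Y := max D y) (fun p hp => ?_) (hy2.trans (le_max_right _ _)) hn0 ?_
      · rw [Finset.mem_filter, hE, Finset.mem_filter] at hp
        exact ⟨(hPa p (Finset.mem_inter.1 hp.1.1).1).1,
          max_lt (not_le.1 hp.2) (hy p hp.1.1), hp.1.2.2.2⟩
      · have h4 : 0 < |(n : ℝ)| := abs_pos.2 (by exact_mod_cast hn0)
        calc Real.log |(n : ℝ)| ≤ Real.log (D * W) := Real.log_le_log h4 hnW
          _ = Real.log D + Real.log W := Real.log_mul hD0.ne' (by linarith only [hW])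
          _ ≤ D + y := by
              have := Real.log_le_sub_one_of_pos hD0
              linarith only [hWy, this]
          _ ≤ 2 * max D y := by
              have := le_max_left D y
              have := le_max_right D y
              linarith
    rw [hsplit, mul_inv, mul_comm]
    exact mul_le_mul hlg hsm (inv_pos.2 (ks_pr_pos fun p hp =>
      hEp p (Finset.mem_filter.1 hp).1)).le (Real.exp_pos _).le
  calc _ ≤ ∑ k ∈ Ks, Real.exp (4 / Real.log 2) *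
        (pr (G.filter (fun p : ℕ => (p : ℤ) ∣ k - c p)))⁻¹ := Finset.sum_le_sum h3
    _ = Real.exp (4 / Real.log 2) *
        ∑ k ∈ Ks, (pr (G.filter (fun p : ℕ => (p : ℤ) ∣ k - c p)))⁻¹ := by rw [Finset.mul_sum]
    _ ≤ Real.exp (4 / Real.log 2) * (C₁ * D * pr (Qs.filter (fun p : ℕ => (p : ℝ) ≤ D))) :=
        mul_le_mul_of_nonneg_left h2 (Real.exp_pos _).le
    _ = _ := by ring

end Vale.P028
end

section

/-!
# Anatomy bound (weighted version of `T1`)
-/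

namespace Vale.P028

open Finset

theorem LL_mul_le (T : ℝ) {a m : ℕ} (ha : a ≠ 0) (hm : m ≠ 0) : LL T (a * m) ≤ LL T a + LL T m := by
  classical
  unfold LL
  rw [Nat.primeFactors_mul ha hm, filter_union]
  have h1 := sum_union_inter (s₁ := a.primeFactors.filter (fun p : ℕ => T < (p : ℝ)))
    (s₂ := m.primeFactors.filter (fun p : ℕ => T < (p : ℝ))) (f := fun p : ℕ => 1 / (p : ℝ))
  have h2 : 0 ≤ ∑ p ∈ (a.primeFactors.filter (fun p : ℕ => T < (p : ℝ))) ∩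
      (m.primeFactors.filter (fun p : ℕ => T < (p : ℝ))), 1 / (p : ℝ) :=
    sum_nonneg fun p _ => by positivity
  linarith only [h1, h2]

theorem LL_mul_pow_le (T : ℝ) {a p : ℕ} (ha : a ≠ 0) (hp : p.Prime) (l : ℕ) :
    LL T (a * p ^ l) ≤ LL T a + l * (if T < (p : ℝ) then 1 / (p : ℝ) else 0) := by
  classical
  have hnn : 0 ≤ (if T < (p : ℝ) then 1 / (p : ℝ) else 0) := by split_ifs <;> positivity
  rcases Nat.eq_zero_or_pos l with rfl | hl
  · simp
  · refine (LL_mul_le T ha (pow_ne_zero _ hp.ne_zero)).trans ?_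
    have h1 : LL T (p ^ l) = if T < (p : ℝ) then 1 / (p : ℝ) else 0 := by
      unfold LL
      rw [Nat.primeFactors_prime_pow hl.ne' hp, filter_singleton]
      split_ifs <;> simp
    rw [h1]
    have h2 : (1 : ℝ) ≤ l := by exact_mod_cast hl
    linarith only [mul_nonneg (sub_nonneg.2 hnn) (sub_nonneg.2 h2)]

theorem sum_inv_sq_gt {T : ℝ} (hT : 2 ≤ T) (S : Finset ℕ) (hS : ∀ p ∈ S, T < (p : ℝ)) :
    ∑ p ∈ S, 1 / (p : ℝ) ^ 2 ≤ 2 / T := by
  classical
  set k : ℕ := ⌊T⌋₊ with hk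
  have hkT : (k : ℝ) ≤ T := Nat.floor_le (by linarith only [hT])
  have hkT1 : T < k + 1 := Nat.lt_floor_add_one T
  have hk0 : k ≠ 0 := by
    intro h
    rw [h] at hkT1
    norm_num at hkT1
    linarith only [hT, hkT1]
  set n : ℕ := max k (S.sup id) with hn
  have hsub : S ⊆ Ioc k n := by
    intro p hp
    rw [mem_Ioc]
    refine ⟨?_, (le_sup (f := id) hp).trans (le_max_right _ _)⟩
    have := hS p hp
    have h1 : (k : ℝ) < p := by linarith only [hkT, this]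
    exact_mod_cast h1
  have h1 : ∑ p ∈ S, 1 / (p : ℝ) ^ 2 ≤ ∑ i ∈ Ioc k n, ((i : ℝ) ^ 2)⁻¹ := by
    simp_rw [one_div]
    exact sum_le_sum_of_subset_of_nonneg hsub fun p _ _ => by positivity
  have h2 := sum_Ioc_inv_sq_le_sub (α := ℝ) hk0 (le_max_left k (S.sup id))
  rw [← hn] at h2
  have h3 : (0 : ℝ) ≤ (n : ℝ)⁻¹ := by positivity
  have h4 : (k : ℝ)⁻¹ ≤ 2 / T := by
    rw [inv_eq_one_div, div_le_div_iff₀ (by
      have : 0 < k := Nat.pos_of_ne_zero hk0
      exact_mod_cast this) (by linarith only [hT])]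
    linarith only [hT, hkT1]
  linarith only [h1, h2, h3, h4]

/-- moment bound -/
theorem LL_moment {T : ℝ} (hT : 2 ≤ T) (M : ℕ) :
    ∑ m ∈ Icc 1 M, Real.exp (T * LL T m) ≤ Real.exp 4 * M := by
  classical
  have hT0 : 0 < T := by linarith only [hT]
  set PM : Finset ℕ := (Icc 1 M).filter (fun p => p.Prime ∧ T < (p : ℝ)) with hPM
  have h1 : ∀ m ∈ Icc 1 M, Real.exp (T * LL T m) ≤
      ∑ s ∈ PM.powerset, if (∏ p ∈ s, p) ∣ m then ∏ p ∈ s, (2 * T / (p : ℝ)) else 0 := by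
    intro m hm
    rw [mem_Icc] at hm
    set Q := m.primeFactors.filter (fun p : ℕ => T < (p : ℝ)) with hQ
    have hQsub : Q ⊆ PM := by
      intro p hp
      rw [hQ, mem_filter] at hp
      rw [hPM, mem_filter, mem_Icc]
      have hpp := Nat.prime_of_mem_primeFactors hp.1
      exact ⟨⟨hpp.one_lt.le, (Nat.le_of_mem_primeFactors hp.1).trans hm.2⟩, hpp, hp.2⟩
    have e1 : Real.exp (T * LL T m) = ∏ p ∈ Q, Real.exp (T / p) := by
      unfold LL
      rw [← Real.exp_sum, mul_sum]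
      congr 1
      refine sum_congr rfl fun p _ => ?_
      ring
    rw [e1]
    have e2 : ∏ p ∈ Q, Real.exp (T / p) ≤ ∏ p ∈ Q, (1 + 2 * T / (p : ℝ)) := by
      refine prod_le_prod (fun p _ => (Real.exp_pos _).le) fun p hp => ?_
      rw [hQ, mem_filter] at hp
      have hp0 : (0 : ℝ) < p := by linarith only [hT, hp.2]
      have hx1 : T / p ≤ 1 := by
        rw [div_le_one hp0]
        exact hp.2.le
      have hx0 : 0 ≤ T / p := by positivity
      have h3 := Real.abs_exp_sub_one_sub_id_le (x := T / p) (by rw [abs_of_nonneg hx0]; exact hx1)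
      have h4 := (abs_le.mp h3).2
      have e : 2 * T / (p : ℝ) = 2 * (T / p) := by ring
      rw [e]
      nlinarith only [hx1, hx0, h4]
    refine e2.trans ?_
    rw [prod_one_add]
    rw [← sum_filter]
    apply sum_le_sum_of_subset_of_nonneg
    · intro s hs
      rw [mem_powerset] at hs
      rw [mem_filter, mem_powerset]
      refine ⟨hs.trans hQsub, ?_⟩
      have h5 : ∏ p ∈ s, p ∣ ∏ p ∈ m.primeFactors, p :=
        prod_dvd_prod_of_subset _ _ _ (hs.trans (filter_subset _ _))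
      exact h5.trans (Nat.prod_primeFactors_dvd m)
    · intro s _ _
      exact prod_nonneg fun p _ => by positivity
  have h2 : ∑ m ∈ Icc 1 M, Real.exp (T * LL T m) ≤
      ∑ s ∈ PM.powerset, (∏ p ∈ s, (2 * T / (p : ℝ))) * (M / ∏ p ∈ s, (p : ℝ)) := by
    refine (sum_le_sum h1).trans ?_
    rw [sum_comm]
    refine sum_le_sum fun s hs => ?_
    rw [mem_powerset] at hs
    rw [← sum_filter, sum_const, nsmul_eq_mul, mul_comm]
    have hs0 : 0 < ∏ p ∈ s, p := prod_pos fun p hp => by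
      have := (mem_filter.1 (hs hp)).2.1
      exact this.pos
    apply mul_le_mul_of_nonneg_left _ (prod_nonneg fun p _ => by positivity)
    have h6 : ((Icc 1 M).filter (fun m => (∏ p ∈ s, p) ∣ m)).card = M / ∏ p ∈ s, p := by
      have := Nat.Ioc_filter_dvd_card_eq_div M (∏ p ∈ s, p)
      rw [← this]
      congr 1
    rw [h6]
    refine Nat.cast_div_le.trans ?_
    rw [Nat.cast_prod]
  refine h2.trans ?_
  have h3 : ∑ s ∈ PM.powerset, (∏ p ∈ s, (2 * T / (p : ℝ))) * (M / ∏ p ∈ s, (p : ℝ)) =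
      M * ∏ p ∈ PM, (1 + 2 * T / (p : ℝ) ^ 2) := by
    rw [prod_one_add, mul_sum]
    refine sum_congr rfl fun s _ => ?_
    have : ∏ p ∈ s, (2 * T / (p : ℝ) ^ 2) = (∏ p ∈ s, (2 * T / (p : ℝ))) / ∏ p ∈ s, (p : ℝ) := by
      rw [← prod_div_distrib]
      refine prod_congr rfl fun p _ => ?_
      rw [div_div, sq]
    rw [this]
    ring
  rw [h3, mul_comm]
  apply mul_le_mul_of_nonneg_right _ (Nat.cast_nonneg _)
  calc ∏ p ∈ PM, (1 + 2 * T / (p : ℝ) ^ 2) ≤ ∏ p ∈ PM, Real.exp (2 * T / (p : ℝ) ^ 2) := by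
        refine prod_le_prod (fun p _ => by (clear * - hT; positivity)) fun p _ => ?_
        have := Real.add_one_le_exp (2 * T / (p : ℝ) ^ 2)
        linarith only [this]
    _ = Real.exp (∑ p ∈ PM, 2 * T / (p : ℝ) ^ 2) := (Real.exp_sum _ _).symm
    _ ≤ Real.exp 4 := by
        apply Real.exp_le_exp.mpr
        have h5 := sum_inv_sq_gt hT PM (fun p hp => (mem_filter.1 hp).2.2)
        have h6 : ∑ p ∈ PM, 2 * T / (p : ℝ) ^ 2 = 2 * T * ∑ p ∈ PM, 1 / (p : ℝ) ^ 2 := by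
          rw [mul_sum]
          refine sum_congr rfl fun p _ => ?_
          ring
        rw [h6]
        calc 2 * T * ∑ p ∈ PM, 1 / (p : ℝ) ^ 2 ≤ 2 * T * (2 / T) := by gcongr
          _ = 4 := by field_simp; norm_num

/-- growth rate of the kernel -/
noncomputable def bT (T : ℝ) (p : ℕ) : ℝ := if T < (p : ℝ) then Real.exp (T / p) / p else 1 / p

theorem bT_bounds {T : ℝ} (hT : 2 ≤ T) {p : ℕ} (hp : p.Prime) :
    1 / (p : ℝ) ≤ bT T p ∧ bT T p ≤ 3 / p ∧ bT T p ≤ 10 / 11 ∧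
      bT T p - 1 / p ≤ if T < (p : ℝ) then 2 * T / (p : ℝ) ^ 2 else 0 := by
  have hp0 : (0 : ℝ) < p := by exact_mod_cast hp.pos
  have hp2 : (2 : ℝ) ≤ p := by exact_mod_cast hp.two_le
  unfold bT
  split_ifs with h
  · have hT0 : 0 < T := by linarith
    have hx0 : 0 < T / p := by positivity
    have hx1 : T / p ≤ 1 := by
      rw [div_le_one hp0]; exact h.le
    have he1 : 1 ≤ Real.exp (T / p) := Real.one_le_exp hx0.le
    have he2 : Real.exp (T / p) ≤ Real.exp 1 := Real.exp_le_exp.mpr hx1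
    have he3 := Real.exp_one_lt_d9
    have hp3 : (3 : ℝ) ≤ p := by
      have : 2 < p := by exact_mod_cast (lt_of_le_of_lt hT h)
      exact_mod_cast this
    refine ⟨?_, ?_, ?_, ?_⟩
    · gcongr
    · gcongr; linarith only [he2, he3]
    · rw [div_le_iff₀ hp0]; linarith only [he2, he3, hp3]
    · have h3 := Real.abs_exp_sub_one_sub_id_le (x := T / p) (by
        rw [abs_of_nonneg hx0.le]; exact hx1)
      have h4 := (abs_le.mp h3).2
      have h5 : Real.exp (T / p) - 1 ≤ 2 * (T / p) := by nlinarith only [hx0, hx1, h4]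
      have e1 : Real.exp (T / p) / p - 1 / p = (Real.exp (T / p) - 1) / p := by ring
      have e2 : 2 * T / (p : ℝ) ^ 2 = 2 * (T / p) / p := by
        rw [sq]; field_simp
      rw [e1, e2]
      gcongr
  · refine ⟨le_rfl, ?_, ?_, by simp⟩
    · gcongr; norm_num
    · rw [div_le_iff₀ hp0]; linarith only [hp2]

/-- Markov -/
theorem LL_count {T I : ℝ} (hT : 2 ≤ T) {a : ℕ} (ha : 0 < a) (M : ℕ) (R : ℕ → Prop)
    [DecidablePred R] (hR : ∀ m, R m → I ≤ LL T (a * m)) :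
    (((Icc 1 M).filter R).card : ℝ) ≤
      Real.exp 4 * Real.exp (-(T * I)) * Real.exp (T * LL T a) * M := by
  have hT0 : 0 < T := by linarith only [hT]
  have h1 : (((Icc 1 M).filter R).card : ℝ) ≤
      ∑ m ∈ Icc 1 M, Real.exp (-(T * I)) * Real.exp (T * LL T a) * Real.exp (T * LL T m) := by
    rw [card_filter, Nat.cast_sum]
    refine sum_le_sum fun m hm => ?_
    split_ifs with h
    · rw [mem_Icc] at hm
      have h2 := hR m h
      have h3 := LL_mul_le T ha.ne' (show m ≠ 0 by omega)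
      rw [← Real.exp_add, ← Real.exp_add]
      push_cast
      apply Real.one_le_exp
      linarith only [mul_nonneg (sub_nonneg.2 hT) (sub_nonneg.2 h3), mul_nonneg (sub_nonneg.2 hT) (sub_nonneg.2 h2), h3, h2]
    · rw [Nat.cast_zero]
      positivity
  refine h1.trans ?_
  rw [← mul_sum]
  have h2 := LL_moment hT M
  calc Real.exp (-(T * I)) * Real.exp (T * LL T a) * ∑ m ∈ Icc 1 M, Real.exp (T * LL T m)
      ≤ Real.exp (-(T * I)) * Real.exp (T * LL T a) * (Real.exp 4 * M) := by gcongr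
    _ = _ := by ring

/-- the kernel -/
noncomputable def KT (θ T I : ℝ) (a b : ℕ) : ℝ :=
  (16 * (Real.exp 4 * Real.exp (-(T * I)) * Real.exp (T * LL T a)) / ((a : ℝ) * b)) ^ (1 - θ)

theorem KT_base {θ T I : ℝ} (hθ : 1 / 2 < θ) (hθ1 : θ < 1) (hT : 2 ≤ T) :
    BaseBound (fun u _ => I ≤ LL T u) θ (KT θ T I) := by
  classical
  intro a b ha hb ψ₁ ψ₂ f h s₁ s₂ N hs₁ hs₂ hf hh
  have ha' : (0 : ℝ) < a := by exact_mod_cast ha
  have hb' : (0 : ℝ) < b := by exact_mod_cast hb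
  have h1 := base_trick (fun u _ => I ≤ LL T u) hθ hθ1
    (Real.exp 4 * Real.exp (-(T * I)) * Real.exp (T * LL T a)) (by positivity) a b ha hb (by
      intro q₀ r₀ hq₀ hr₀ _
      have h2 := LL_count (I := I) hT ha q₀ (fun m => I ≤ LL T (a * m)) (fun m hm => hm)
      have h3 := card_filter_cl (fun _ : ℕ => I ≤ LL T (a * q₀)) r₀
      calc _ ≤ (Real.exp 4 * Real.exp (-(T * I)) * Real.exp (T * LL T a) * q₀) * r₀ :=
            mul_le_mul h2 h3 (by positivity) (by positivity)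
        _ = _ := by ring) ψ₁ ψ₂ f h s₁ s₂ N hs₁ hs₂ hf hh
  refine h1.trans (le_of_eq ?_)
  congr 1
  unfold KT
  rw [← Real.mul_rpow (by positivity) (by positivity)]
  congr 1
  field_simp

theorem KT_grow1 {θ T I : ℝ} (hθ1 : θ < 1) (hT : 2 ≤ T) {p : ℕ} (hp : p.Prime) (a b l : ℕ)
    (ha : 0 < a) (hb : 0 < b) :
    KT θ T I (a * p ^ l) b ≤ ((bT T p) ^ (1 - θ)) ^ l * KT θ T I a b := by
  have ha' : (0 : ℝ) < a := by exact_mod_cast ha
  have hb' : (0 : ℝ) < b := by exact_mod_cast hb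
  have hp' : (0 : ℝ) < p := by exact_mod_cast hp.pos
  have hT0 : 0 < T := by linarith only [hT]
  have hb0 : 0 < bT T p := lt_of_lt_of_le (by positivity) (bT_bounds hT hp).1
  have hl0 : 0 ≤ 1 - θ := by linarith only [hθ1]
  unfold KT
  rw [← Real.rpow_natCast, ← Real.rpow_mul hb0.le, mul_comm (1 - θ), Real.rpow_mul hb0.le,
    Real.rpow_natCast, ← Real.mul_rpow (by positivity) (by positivity)]
  apply Real.rpow_le_rpow (by positivity) _ hl0
  have h1 := LL_mul_pow_le T ha.ne' hp l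
  have h2 : Real.exp (T * LL T (a * p ^ l)) ≤ Real.exp (T * LL T a) *
      (Real.exp (T * (if T < (p : ℝ) then 1 / (p : ℝ) else 0))) ^ l := by
    rw [← Real.exp_nat_mul, ← Real.exp_add]
    apply Real.exp_le_exp.mpr
    linarith only [mul_nonneg (sub_nonneg.2 hT) (sub_nonneg.2 h1), h1]
  have h3 : Real.exp (T * (if T < (p : ℝ) then 1 / (p : ℝ) else 0)) = bT T p * p := by
    unfold bT
    split_ifs
    · rw [mul_one_div, div_mul_cancel₀ _ hp'.ne']
    · simp [hp'.ne']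
  rw [h3, mul_pow] at h2
  calc 16 * (Real.exp 4 * Real.exp (-(T * I)) * Real.exp (T * LL T (a * p ^ l))) /
        (((a * p ^ l : ℕ) : ℝ) * b)
      ≤ 16 * (Real.exp 4 * Real.exp (-(T * I)) * (Real.exp (T * LL T a) *
        (bT T p ^ l * (p : ℝ) ^ l))) / (((a * p ^ l : ℕ) : ℝ) * b) := by gcongr
    _ = bT T p ^ l * (16 * (Real.exp 4 * Real.exp (-(T * I)) * Real.exp (T * LL T a)) /
        ((a : ℝ) * b)) := by
        push_cast
        field_simp

theorem KT_grow2 {θ T I : ℝ} (hθ1 : θ < 1) (hT : 2 ≤ T) {p : ℕ} (hp : p.Prime) (a b l : ℕ)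
    (ha : 0 < a) (hb : 0 < b) :
    KT θ T I a (b * p ^ l) ≤ ((bT T p) ^ (1 - θ)) ^ l * KT θ T I a b := by
  have ha' : (0 : ℝ) < a := by exact_mod_cast ha
  have hb' : (0 : ℝ) < b := by exact_mod_cast hb
  have hp' : (0 : ℝ) < p := by exact_mod_cast hp.pos
  have hT0 : 0 < T := by linarith only [hT]
  have hb1 := (bT_bounds hT hp).1
  have hb0 : 0 < bT T p := lt_of_lt_of_le (by positivity) hb1
  have hl0 : 0 ≤ 1 - θ := by linarith only [hθ1]
  unfold KT
  rw [← Real.rpow_natCast, ← Real.rpow_mul hb0.le, mul_comm (1 - θ), Real.rpow_mul hb0.le,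
    Real.rpow_natCast, ← Real.mul_rpow (by positivity) (by positivity)]
  apply Real.rpow_le_rpow (by positivity) _ hl0
  have h1 : (1 / (p : ℝ)) ^ l ≤ bT T p ^ l := pow_le_pow_left₀ (by positivity) hb1 l
  calc 16 * (Real.exp 4 * Real.exp (-(T * I)) * Real.exp (T * LL T a)) /
        ((a : ℝ) * ((b * p ^ l : ℕ) : ℝ))
      = (1 / (p : ℝ)) ^ l * (16 * (Real.exp 4 * Real.exp (-(T * I)) * Real.exp (T * LL T a)) /
        ((a : ℝ) * b)) := by
        push_cast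
        rw [one_div, inv_pow]
        field_simp
    _ ≤ _ := by gcongr

theorem sum_eT (T : ℝ) (P : Finset ℕ) :
    ∑ p ∈ P, (if T < (p : ℝ) then 2 * T / (p : ℝ) ^ 2 else 0) =
      2 * T * ∑ p ∈ P.filter (fun p : ℕ => T < (p : ℝ)), 1 / (p : ℝ) ^ 2 := by
  rw [← sum_filter, mul_sum]
  refine sum_congr rfl fun p _ => ?_
  ring

theorem WT_cc {θ B₀ C b₂ M : ℝ} (hθ : 1 / 2 < θ) (hθ1 : θ < 1) (hC : 0 ≤ C)
    (hb₂1 : b₂ < 1) (hM : M = (1 + C) + (1 + b₂) / (1 - b₂))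
    (hMb : 1 ≤ (1 + b₂) / (1 - b₂)) {T : ℝ} (hT : 2 ≤ T) {p : ℕ} (hp : p.Prime)
    (h3 : 0 ≤ bT T p ^ (1 - θ)) (h4 : bT T p ^ (1 - θ) ≤ b₂) :
    (if bT T p ≤ B₀ then
      1 + 2 * (1 - θ) * (bT T p - 1 / p) + C * (bT T p) ^ (2 * θ)
      else (1 + bT T p ^ (1 - θ)) / (1 - bT T p ^ (1 - θ))) ≤
    (if 1 / (p : ℝ) ≤ B₀ / 3 then 1 + 9 * C * (1 / (p : ℝ)) ^ (2 * θ)
    else M) * Real.exp (if T < (p : ℝ) then 2 * T / (p : ℝ) ^ 2 else 0) := by
  obtain ⟨g1, g2, g3, g4⟩ := bT_bounds hT hp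
  have hp0 : (0 : ℝ) < p := by exact_mod_cast hp.pos
  have h6 : 0 < bT T p := lt_of_lt_of_le (by positivity) g1
  have he0 : (0 : ℝ) ≤ if T < (p : ℝ) then 2 * T / (p : ℝ) ^ 2 else 0 := by
    split_ifs
    · have : 0 < T := by linarith only [hT]
      positivity
    · exact le_rfl
  generalize (if T < (p : ℝ) then 2 * T / (p : ℝ) ^ 2 else 0) = e at g4 he0 ⊢
  have hexp1 := Real.add_one_le_exp e
  have hexp0 : 1 ≤ Real.exp e := Real.one_le_exp he0
  have hM0 : 1 ≤ M := by linarith only [hC, hM, hMb]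
  have hb1 : bT T p ^ (2 * θ) ≤ 1 := Real.rpow_le_one h6.le (by linarith only [g3]) (by linarith only [hθ])
  have hb9 : bT T p ^ (2 * θ) ≤ 9 * (1 / (p : ℝ)) ^ (2 * θ) := by
    calc bT T p ^ (2 * θ) ≤ (3 / (p : ℝ)) ^ (2 * θ) :=
          Real.rpow_le_rpow h6.le g2 (by linarith only [hθ])
      _ = (3 : ℝ) ^ (2 * θ) * (1 / (p : ℝ)) ^ (2 * θ) := by
          rw [← Real.mul_rpow (by norm_num) (by positivity)]
          congr 1
          ring
      _ ≤ (3 : ℝ) ^ (2 : ℝ) * (1 / (p : ℝ)) ^ (2 * θ) := by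
          gcongr
          · norm_num
          · linarith only [hθ1]
      _ = 9 * (1 / (p : ℝ)) ^ (2 * θ) := by norm_num
  have hdiff : 2 * (1 - θ) * (bT T p - 1 / p) ≤ e := by
    have h8 : 0 ≤ bT T p - 1 / (p : ℝ) := by linarith only [g1]
    linarith only [mul_nonneg (le_of_lt (sub_pos.2 hθ)) (sub_nonneg.2 g1), mul_nonneg (mul_self_nonneg (1 : ℝ)) (sub_nonneg.2 g4)]
  have hx9 : 0 ≤ (1 / (p : ℝ)) ^ (2 * θ) := by positivity
  by_cases h1 : 1 / (p : ℝ) ≤ B₀ / 3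
  · have h2 : bT T p ≤ B₀ := by
      refine g2.trans ?_
      have : 3 / (p : ℝ) = 3 * (1 / (p : ℝ)) := by ring
      rw [this]; linarith only [h1]
    rw [if_pos h2, if_pos h1]
    have h9 : C * bT T p ^ (2 * θ) ≤ C * (9 * (1 / (p : ℝ)) ^ (2 * θ)) :=
      mul_le_mul_of_nonneg_left hb9 hC
    have h10 : 0 ≤ 9 * C * (1 / (p : ℝ)) ^ (2 * θ) := by positivity
    nlinarith only [g1, g4, hexp1, hdiff, h9, h10]
  · rw [if_neg h1]
    by_cases h2 : bT T p ≤ B₀
    · rw [if_pos h2]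
      have h9 : C * bT T p ^ (2 * θ) ≤ C * 1 := mul_le_mul_of_nonneg_left hb1 hC
      nlinarith only [hC, hM, hMb, g1, g4, hexp1, hdiff, h9]
    · rw [if_neg h2]
      have h9 : (1 + bT T p ^ (1 - θ)) / (1 - bT T p ^ (1 - θ)) ≤ (1 + b₂) / (1 - b₂) := by
        apply div_le_div₀ <;> linarith only [h3, h4, hb₂1]
      nlinarith only [hC, hM, hMb, g1, g4, hexp1, h9]

theorem WT_prod {θ : ℝ} (hθ : 1 / 2 < θ) (hθ1 : θ < 1) :
    ∃ K > 0, ∀ T : ℝ, 2 ≤ T → ∃ c : ℕ → ℝ,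
      (∀ p : ℕ, p.Prime → 0 ≤ c p ∧ SP θ ((bT T p) ^ (1 - θ)) (1 / (p : ℝ)) (c p)) ∧
      ∀ P : Finset ℕ, (∀ p ∈ P, p.Prime) → ∏ p ∈ P, c p ≤ K := by
  classical
  obtain ⟨B₀, hB₀, C, hC, hB₀1, hSPs⟩ := SP_small hθ hθ1
  have hl0 : 0 < 1 - θ := by linarith only [hθ1]
  obtain ⟨b₂, hb₂⟩ : ∃ b₂ : ℝ, b₂ = (10 / 11 : ℝ) ^ (1 - θ) := ⟨_, rfl⟩
  have hb₂1 : b₂ < 1 := by rw [hb₂]; exact Real.rpow_lt_one (by norm_num) (by norm_num) hl0
  have hb₂0 : 0 < b₂ := by rw [hb₂]; positivity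
  obtain ⟨M, hM⟩ : ∃ M : ℝ, M = (1 + C) + (1 + b₂) / (1 - b₂) := ⟨_, rfl⟩
  have hMb : 1 ≤ (1 + b₂) / (1 - b₂) := by
    rw [le_div_iff₀ (by linarith only [hb₂1])]; linarith only [hb₂0]
  obtain ⟨K₀, hK₀, hprod⟩ := prod_bounded (θ := θ) (B₀ := B₀ / 3) (C := 9 * C) (M := M) hθ
    (by positivity) (by positivity) (by linarith only [hC, hM, hMb])
    (fun p => if 1 / (p : ℝ) ≤ B₀ / 3 then 1 + 9 * C * (1 / (p : ℝ)) ^ (2 * θ) else M) (by
      intro p _
      split_ifs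
      · positivity
      · linarith only [hC, hM, hMb]) (by
      intro p _ h
      rw [if_pos h]) (by
      intro p _ h
      rw [if_neg h])
  refine ⟨K₀ * Real.exp 4, by positivity, ?_⟩
  intro T hT
  have hT0 : 0 < T := by linarith only [hT]
  have hpinv : ∀ p : ℕ, p.Prime → 0 < 1 / (p : ℝ) ∧ 1 / (p : ℝ) ≤ 1 / 2 := by
    intro p hp
    have h2' : (2 : ℝ) ≤ p := by exact_mod_cast hp.two_le
    exact ⟨by positivity, one_div_le_one_div_of_le (by norm_num) h2'⟩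
  have hbpos : ∀ p : ℕ, p.Prime → 0 < bT T p := fun p hp =>
    (hpinv p hp).1.trans_le (bT_bounds hT hp).1
  have hBp : ∀ p : ℕ, p.Prime → 0 ≤ bT T p ^ (1 - θ) ∧ bT T p ^ (1 - θ) ≤ b₂ := by
    intro p hp
    rw [hb₂]
    exact ⟨Real.rpow_nonneg (hbpos p hp).le _,
      Real.rpow_le_rpow (hbpos p hp).le (bT_bounds hT hp).2.2.1 hl0.le⟩
  refine ⟨fun p => if bT T p ≤ B₀ then
    1 + 2 * (1 - θ) * (bT T p - 1 / p) + C * (bT T p) ^ (2 * θ)
    else (1 + bT T p ^ (1 - θ)) / (1 - bT T p ^ (1 - θ)), ?_, ?_⟩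
  · intro p hp
    obtain ⟨h1, h2⟩ := hpinv p hp
    obtain ⟨h3, h4⟩ := hBp p hp
    have g1 := (bT_bounds hT hp).1
    have hbp := hbpos p hp
    dsimp only
    by_cases h : bT T p ≤ B₀
    · rw [if_pos h]
      refine ⟨?_, hSPs (bT T p) (1 / (p : ℝ)) hbp h h1.le g1⟩
      have : 0 ≤ bT T p - 1 / (p : ℝ) := by linarith only [g1]
      (clear * - hθ1 g1 hC hbp; positivity)
    · rw [if_neg h]
      refine ⟨?_, SP_large hθ hθ1 h3 (lt_of_le_of_lt h4 hb₂1) h1.le (by linarith only [h2])⟩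
      apply div_nonneg <;> linarith only [h3, hb₂1, h4]
  · intro P hP
    have hcc : ∀ p ∈ P, (if bT T p ≤ B₀ then
        1 + 2 * (1 - θ) * (bT T p - 1 / p) + C * (bT T p) ^ (2 * θ)
        else (1 + bT T p ^ (1 - θ)) / (1 - bT T p ^ (1 - θ))) ≤
        (if 1 / (p : ℝ) ≤ B₀ / 3 then 1 + 9 * C * (1 / (p : ℝ)) ^ (2 * θ)
          else M) * Real.exp (if T < (p : ℝ) then 2 * T / (p : ℝ) ^ 2 else 0) :=
      fun p hp => WT_cc hθ hθ1 hC hb₂1 hM hMb hT (hP p hp) (hBp p (hP p hp)).1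
        (hBp p (hP p hp)).2
    refine (prod_le_prod ?_ hcc).trans ?_
    · intro p hp
      have h3 := (hBp p (hP p hp)).1
      have h4 := (hBp p (hP p hp)).2
      have g1 := (bT_bounds hT (hP p hp)).1
      have hbp := hbpos p (hP p hp)
      split_ifs
      · have : 0 ≤ bT T p - 1 / (p : ℝ) := by linarith only [g1]
        (clear * - hθ1 g1 hC hbp; positivity)
      · apply div_nonneg <;> linarith only [h3, hb₂1, h4]
    · rw [prod_mul_distrib, ← Real.exp_sum, sum_eT]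
      apply mul_le_mul (hprod P hP) _ (Real.exp_pos _).le hK₀.le
      apply Real.exp_le_exp.mpr
      have h2 := sum_inv_sq_gt hT (P.filter (fun p : ℕ => T < (p : ℝ)))
        (fun p hp => (mem_filter.1 hp).2)
      calc 2 * T * ∑ p ∈ P.filter (fun p : ℕ => T < (p : ℝ)), 1 / (p : ℝ) ^ 2
          ≤ 2 * T * (2 / T) := by gcongr
        _ = 4 := by field_simp; norm_num

theorem WT1 {θ : ℝ} (hθ : 1 / 2 < θ) (hθ1 : θ < 1) :
    ∃ C > 0, ∃ c > 0, ∀ (T I : ℝ), 2 ≤ T → 0 ≤ I →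
      ∀ (ψ₁ ψ₂ f h : ℕ → ℝ) (s₁ s₂ : ℝ) (N : ℕ), 0 < s₁ → 0 < s₂ →
      (∀ q, 0 ≤ ψ₁ q) → (∀ q, 0 ≤ ψ₂ q) →
      (∀ q, 0 ≤ f q ∧ f q ≤ ψ₁ q * (q.totient / q)) →
      (∀ r, 0 ≤ h r ∧ h r ≤ ψ₂ r * (r.totient / r)) →
      psum (fun q r => (cofac r q : ℝ) * ψ₁ q ≤ s₁ ∧ (cofac q r : ℝ) * ψ₂ r ≤ s₂ ∧
        I ≤ LL T (cofac q r)) N f h ≤
        C * Real.exp (-(c * T * I)) * (s₁ * s₂) ^ (1 - θ) *
          ((∑ q ∈ Icc 1 N, f q) * ∑ r ∈ Icc 1 N, h r) ^ θ := by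
  classical
  obtain ⟨K₀, hK₀, hprod⟩ := WT_prod hθ hθ1
  have hl0 : 0 < 1 - θ := by linarith only [hθ1]
  refine ⟨K₀ * (16 * Real.exp 4) ^ (1 - θ), by positivity, 1 - θ, hl0, ?_⟩
  intro T I hT hI ψ₁ ψ₂ f h s₁ s₂ N hs₁ hs₂ hψ₁ hψ₂ hf hh
  obtain ⟨c, hc, hcP⟩ := hprod T hT
  have hP : ∀ p ∈ (Icc 1 N).filter Nat.Prime, p.Prime := fun p hp => (mem_filter.1 hp).2
  have hF0 : 0 ≤ ∑ q ∈ Icc 1 N, f q := sum_nonneg fun q _ => (hf q).1
  have hH0 : 0 ≤ ∑ q ∈ Icc 1 N, h q := sum_nonneg fun q _ => (hh q).1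
  have hKT0 : ∀ a b, 0 ≤ KT θ T I a b := by
    intro a b
    unfold KT
    (clear * -; positivity)
  have hpinv : ∀ p : ℕ, p.Prime → 0 < 1 / (p : ℝ) ∧ 1 / (p : ℝ) < 1 := by
    intro p hp
    have h2' : (2 : ℝ) ≤ p := by exact_mod_cast hp.two_le
    refine ⟨by positivity, ?_⟩
    rw [div_lt_one (by linarith only [h2'])]
    linarith only [h2']
  have hL := theoremL (fun u _ => I ≤ LL T u) hθ hθ1 (KT θ T I) hKT0 (KT_base hθ hθ1 hT)
    ((Icc 1 N).filter Nat.Prime) hP (fun p => bT T p ^ (1 - θ)) (fun p => 1 / (p : ℝ)) c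
    (fun p hp => Real.rpow_nonneg ((hpinv p (hP p hp)).1.le.trans (bT_bounds hT (hP p hp)).1) _)
    (fun p hp => ⟨(hpinv p (hP p hp)).1.le, (hpinv p (hP p hp)).2⟩)
    (fun p hp => (hc p (hP p hp)).1)
    (fun p hp a b l ha hb => KT_grow1 hθ1 hT (hP p hp) a b l ha hb)
    (fun p hp a b l ha hb => KT_grow2 hθ1 hT (hP p hp) a b l ha hb)
    (fun p hp => (hc p (hP p hp)).2) 1 1 one_pos one_pos ψ₁ ψ₂ f h s₁ s₂ N hs₁ hs₂ hψ₁ hψ₂
    (fun q => ⟨(hf q).1, (hf q).2.trans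
      (mul_le_mul_of_nonneg_left (totient_weight_le _ hP q) (hψ₁ q))⟩)
    (fun q => ⟨(hh q).1, (hh q).2.trans
      (mul_le_mul_of_nonneg_left (totient_weight_le _ hP q) (hψ₂ q))⟩)
  have hmono : psum (fun q r => (cofac r q : ℝ) * ψ₁ q ≤ s₁ ∧ (cofac q r : ℝ) * ψ₂ r ≤ s₂ ∧
      I ≤ LL T (cofac q r)) N f h ≤
      Lam (fun u _ => I ≤ LL T u) ((Icc 1 N).filter Nat.Prime) 1 1 ψ₁ ψ₂ s₁ s₂ N f h := by
    unfold Lam
    refine psum_mono _ _ N f h f h (fun q => (hf q).1) (fun q => (hh q).1) ?_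
    intro q hq r hr hqr _
    refine ⟨⟨?_, ?_, ?_, ?_⟩, le_rfl⟩
    · intro p hp hpd
      rw [mem_Icc] at hq
      have h1 : p ∣ q := hpd.trans (Nat.gcd_dvd_left q r)
      have h2 : p ≤ q := Nat.le_of_dvd (by omega) h1
      simp only [mem_filter, mem_Icc]
      exact ⟨⟨hp.one_lt.le, by omega⟩, hp⟩
    · simpa using hqr.2.2
    · simpa using hqr.1
    · simpa using hqr.2.1
  refine hmono.trans (hL.trans ?_)
  have hK11 : KT θ T I 1 1 = (16 * Real.exp 4) ^ (1 - θ) * Real.exp (-((1 - θ) * T * I)) := by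
    unfold KT
    have h1 : LL T 1 = 0 := by
      unfold LL
      simp
    rw [h1, mul_zero, Real.exp_zero]
    have h2 : 16 * (Real.exp 4 * Real.exp (-(T * I)) * 1) / (((1 : ℕ) : ℝ) * ((1 : ℕ) : ℝ)) =
        (16 * Real.exp 4) * Real.exp (-(T * I)) := by
      push_cast
      ring
    rw [h2, Real.mul_rpow (by positivity) (by positivity), ← Real.exp_mul]
    congr 2
    ring
  rw [hK11]
  have hprodle := hcP _ hP
  have h2 : 0 ≤ (s₁ * s₂) ^ (1 - θ) := by positivity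
  have h3 : 0 ≤ ((∑ q ∈ Icc 1 N, f q) * ∑ r ∈ Icc 1 N, h r) ^ θ := by (clear * - hF0 hH0; positivity)
  have h4 : 0 ≤ (16 * Real.exp 4) ^ (1 - θ) * Real.exp (-((1 - θ) * T * I)) := by positivity
  generalize (∏ p ∈ (Icc 1 N).filter Nat.Prime, c p) = X1 at *
  generalize ((∑ q ∈ Icc 1 N, f q) * ∑ r ∈ Icc 1 N, h r) ^ θ = X3 at *
  generalize (s₁ * s₂) ^ (1 - θ) = X2 at *
  generalize (16 * Real.exp 4) ^ (1 - θ) = X4 at *
  generalize Real.exp (-((1 - θ) * T * I)) = X5 at *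
  calc X1 * X2 * (X4 * X5) * X3 = X1 * (X2 * (X4 * X5) * X3) := by ring
    _ ≤ K₀ * (X2 * (X4 * X5) * X3) := mul_le_mul_of_nonneg_right hprodle (by positivity)
    _ = K₀ * X4 * X5 * X2 * X3 := by ring

theorem WT1' {θ : ℝ} (hθ : 1 / 2 < θ) (hθ1 : θ < 1) :
    ∃ C > 0, ∃ c > 0, ∀ (T I : ℝ), 2 ≤ T → 0 ≤ I →
      ∀ (ψ f : ℕ → ℝ) (s : ℝ) (N : ℕ), 0 < s → (∀ q, 0 ≤ ψ q) →
      (∀ q, 0 ≤ f q ∧ f q ≤ ψ q * (q.totient / q)) →
      psum (fun q r => (cofac r q : ℝ) * ψ q ≤ s ∧ (cofac q r : ℝ) * ψ r ≤ s ∧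
        2 * I ≤ LL T (cofac q r * cofac r q)) N f f ≤
        C * Real.exp (-(c * T * I)) * s ^ (2 * (1 - θ)) * (∑ q ∈ Icc 1 N, f q) ^ (2 * θ) := by
  obtain ⟨C, hC, c, hc, hW⟩ := WT1 hθ hθ1
  refine ⟨2 * C, by positivity, c, hc, ?_⟩
  intro T I hT hI ψ f s N hs hψ hf
  have hf0 : ∀ q, 0 ≤ f q := fun q => (hf q).1
  have hF0 : 0 ≤ ∑ q ∈ Icc 1 N, f q := sum_nonneg fun q _ => hf0 q
  have h1 := hW T I hT hI ψ ψ f f s s N hs hs hψ hψ hf hf
  have e1 : (s * s) ^ (1 - θ) = s ^ (2 * (1 - θ)) := by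
    rw [← sq, ← Real.rpow_natCast, ← Real.rpow_mul hs.le]
    norm_num
  have e2 : ((∑ q ∈ Icc 1 N, f q) * ∑ r ∈ Icc 1 N, f r) ^ θ =
      (∑ q ∈ Icc 1 N, f q) ^ (2 * θ) := by
    rw [← sq, ← Real.rpow_natCast, ← Real.rpow_mul hF0]
    norm_num
  rw [e1, e2] at h1
  set R₁ : ℕ → ℕ → Prop := fun q r => (cofac r q : ℝ) * ψ q ≤ s ∧ (cofac q r : ℝ) * ψ r ≤ s ∧
        I ≤ LL T (cofac q r) with hR₁
  have hswap : psum (fun q r => R₁ r q) N f f = psum R₁ N f f := by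
    classical
    unfold psum
    rw [sum_comm]
    refine sum_congr rfl fun q _ => sum_congr rfl fun r _ => ?_
    rw [mul_comm]
  -- restrict to positive integers
  have hor : psum (fun q r => (cofac r q : ℝ) * ψ q ≤ s ∧ (cofac q r : ℝ) * ψ r ≤ s ∧
        2 * I ≤ LL T (cofac q r * cofac r q)) N f f ≤
      psum R₁ N f f + psum (fun q r => R₁ r q) N f f := by
    classical
    unfold psum
    rw [← sum_add_distrib]
    refine sum_le_sum fun q hq => ?_
    rw [← sum_add_distrib]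
    refine sum_le_sum fun r hr => ?_
    rw [mem_Icc] at hq hr
    have hnn : 0 ≤ f q * f r := mul_nonneg (hf0 q) (hf0 r)
    have hu : cofac q r ≠ 0 := (Nat.div_pos (Nat.gcd_le_left _ (by omega))
      (Nat.gcd_pos_of_pos_left _ (by omega))).ne'
    have hv : cofac r q ≠ 0 := (Nat.div_pos (Nat.gcd_le_left _ (by omega))
      (Nat.gcd_pos_of_pos_left _ (by omega))).ne'
    have hLL := LL_mul_le T hu hv
    by_cases h : (cofac r q : ℝ) * ψ q ≤ s ∧ (cofac q r : ℝ) * ψ r ≤ s ∧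
        2 * I ≤ LL T (cofac q r * cofac r q)
    · rw [if_pos h]
      obtain ⟨g1, g2, g3⟩ := h
      rcases le_or_gt I (LL T (cofac q r)) with g4 | g4
      · have : R₁ q r := ⟨g1, g2, g4⟩
        rw [if_pos this]
        split_ifs <;> linarith only [hnn]
      · have : R₁ r q := ⟨g2, g1, by linarith only [hLL, g3, g4]⟩
        rw [if_pos this]
        split_ifs <;> linarith only [hnn]
    · rw [if_neg h]
      split_ifs <;> linarith only [hnn]
  rw [hswap] at hor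
  linarith only [h1, hor]

end Vale.P028
end

section
attribute [-instance] ProperSMul.toContinuousSMul IsTopologicalTorsor.toContinuousSMul IdemSemiring.toCanonicallyOrderedAdd IdemSemiring.toMulLeftMono IdemSemiring.toMulRightMono AddQuantale.instAddLeftMono AddQuantale.instAddRightMono Quantale.instMulLeftMono Quantale.instMulRightMono FiniteDimensional.rclike_to_real IsScalarTower.complexToReal FiniteDimensional.complexToReal

/-!
# Anatomical factors
-/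

namespace Vale.P028

open Finset

/-- `t_j = 2^(2^j)` -/
noncomputable def tj (j : ℕ) : ℝ := (2 : ℝ) ^ (2 ^ j)

theorem tj_succ (j : ℕ) : tj (j + 1) = tj j ^ 2 := by
  unfold tj
  rw [← pow_mul, pow_succ]

theorem tj_ge_two (j : ℕ) : 2 ≤ tj j := by
  unfold tj
  calc (2 : ℝ) = 2 ^ 1 := by norm_num
    _ ≤ 2 ^ (2 ^ j) := pow_le_pow_right₀ (by norm_num) Nat.one_le_two_pow

theorem tj_ge (j : ℕ) : (2 : ℝ) ^ j ≤ tj j := by
  unfold tj
  exact pow_le_pow_right₀ (by norm_num) Nat.lt_two_pow_self.le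

theorem tj_mono {i j : ℕ} (h : i ≤ j) : tj i ≤ tj j := by
  unfold tj
  exact pow_le_pow_right₀ (by norm_num) (Nat.pow_le_pow_right (by norm_num) h)

theorem exp_le_tj (b : ℝ) : ∃ C > 0, ∀ j : ℕ, Real.exp (b * j) ≤ C * tj j := by
  obtain ⟨M, hM⟩ : ∃ M : ℕ, Real.exp b ≤ (2 : ℝ) ^ M := by
    obtain ⟨M, hM⟩ := pow_unbounded_of_one_lt (Real.exp b) (by norm_num : (1 : ℝ) < 2)
    exact ⟨M, hM.le⟩
  have hl : 0 < Real.log 2 := Real.log_pos (by norm_num)
  refine ⟨(M.factorial : ℝ) / (Real.log 2) ^ M, by positivity, ?_⟩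
  intro j
  have h1 : tj j = Real.exp (Real.log 2 * 2 ^ j) := by
    unfold tj
    rw [← Real.rpow_natCast 2 (2 ^ j), Real.rpow_def_of_pos (by norm_num)]
    push_cast
    rfl
  have h2 := Real.pow_div_factorial_le_exp (Real.log 2 * 2 ^ j) (by (clear * -; positivity)) M
  rw [← h1, mul_pow] at h2
  have h3 : Real.exp (b * j) ≤ ((2 : ℝ) ^ j) ^ M := by
    rw [mul_comm, Real.exp_nat_mul, ← pow_mul, mul_comm j M, pow_mul]
    exact pow_le_pow_left₀ (Real.exp_pos _).le hM j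
  have hlM : 0 < (Real.log 2) ^ M := by positivity
  have hf : (0 : ℝ) < M.factorial := by exact_mod_cast Nat.factorial_pos M
  calc Real.exp (b * j) ≤ ((2 : ℝ) ^ j) ^ M := h3
    _ = (M.factorial : ℝ) / (Real.log 2) ^ M *
        ((Real.log 2) ^ M * ((2 : ℝ) ^ j) ^ M / M.factorial) := by field_simp
    _ ≤ (M.factorial : ℝ) / (Real.log 2) ^ M * tj j := by (clear * - h2; gcongr)

theorem exp_tj_decay {c : ℝ} (hc : 0 < c) (b : ℝ) : ∃ C > 0, ∀ j : ℕ,
    Real.exp (b * j) * tj j * Real.exp (-(c * tj j)) ≤ C * (1 / 2 : ℝ) ^ j := by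
  obtain ⟨M, hM⟩ : ∃ M : ℕ, Real.exp b ≤ (2 : ℝ) ^ M := by
    obtain ⟨M, hM⟩ := pow_unbounded_of_one_lt (Real.exp b) (by norm_num : (1 : ℝ) < 2)
    exact ⟨M, hM.le⟩
  refine ⟨((M + 2).factorial : ℝ) / c ^ (M + 2), by (clear * - hc; positivity), ?_⟩
  intro j
  have ht0 : 0 < tj j := by linarith only [tj_ge_two j]
  have h2 := Real.pow_div_factorial_le_exp (c * tj j) (by (clear * - hc ht0; positivity)) (M + 2)
  have hf : (0 : ℝ) < (M + 2).factorial := by exact_mod_cast Nat.factorial_pos (M + 2)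
  have h3 : Real.exp (b * j) ≤ ((2 : ℝ) ^ j) ^ M := by
    rw [mul_comm, Real.exp_nat_mul, ← pow_mul, mul_comm j M, pow_mul]
    exact pow_le_pow_left₀ (Real.exp_pos _).le hM j
  have h4 : Real.exp (-(c * tj j)) ≤ (M + 2).factorial / (c * tj j) ^ (M + 2) := by
    rw [Real.exp_neg, inv_le_comm₀ (Real.exp_pos _) (by positivity), inv_div]
    exact h2
  have h5 := tj_ge j
  have h6 : ((2 : ℝ) ^ j) ^ M * tj j * (2 : ℝ) ^ j ≤ tj j ^ (M + 2) := by
    calc ((2 : ℝ) ^ j) ^ M * tj j * (2 : ℝ) ^ j ≤ (tj j) ^ M * tj j * tj j := by gcongr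
      _ = tj j ^ (M + 2) := by ring
  have h7 : ((2 : ℝ) ^ j) ^ M * tj j ≤ tj j ^ (M + 2) * (1 / 2 : ℝ) ^ j := by
    have h8 : (0 : ℝ) < 2 ^ j := by positivity
    rw [one_div, inv_pow, ← div_eq_mul_inv, le_div_iff₀ h8]
    exact h6
  calc Real.exp (b * j) * tj j * Real.exp (-(c * tj j))
      ≤ ((2 : ℝ) ^ j) ^ M * tj j * ((M + 2).factorial / (c * tj j) ^ (M + 2)) := by (clear * - h3 ht0 h4; gcongr)
    _ ≤ (tj j ^ (M + 2) * (1 / 2 : ℝ) ^ j) * ((M + 2).factorial / (c * tj j) ^ (M + 2)) := by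
        gcongr
    _ = _ := by
        rw [mul_pow]
        field_simp

theorem LL_anti {T T' : ℝ} (h : T ≤ T') (n : ℕ) : LL T' n ≤ LL T n := by
  unfold LL
  apply sum_le_sum_of_subset_of_nonneg
  · intro p hp
    rw [mem_filter] at hp ⊢
    exact ⟨hp.1, h.trans_lt hp.2⟩
  · intro p _ _
    positivity

theorem LL_eq_zero {T : ℝ} {n : ℕ} (h : (n : ℝ) ≤ T) : LL T n = 0 := by
  unfold LL
  rw [filter_eq_empty_iff.mpr, sum_empty]
  intro p hp hlt
  have := Nat.le_of_mem_primeFactors hp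
  have h2 : (p : ℝ) ≤ n := by exact_mod_cast this
  linarith only [h, hlt, h2]

/-- Mertens between `x` and `x ^ 2`. -/
theorem LL_step : ∃ C₁ > 0, ∀ (x : ℝ) (n : ℕ), 2 ≤ x → LL x n ≤ LL (x ^ 2) n + C₁ := by
  obtain ⟨C, hC, hM⟩ := Vale.Agent.P013.mertens_two
  have hl2 : 0 < Real.log 2 := Real.log_pos (by norm_num)
  refine ⟨Real.log 4 + C / Real.log 2, by
    have : 0 < Real.log 4 := Real.log_pos (by norm_num)
    (clear * - hC; positivity), ?_⟩
  intro x n hx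
  classical
  set a : ℕ := ⌊x⌋₊ with ha
  have ha2 : 2 ≤ a := Nat.le_floor (by exact_mod_cast hx)
  have hax : (a : ℝ) ≤ x := Nat.floor_le (by linarith only [hx])
  have hax1 : x < a + 1 := Nat.lt_floor_add_one x
  have ha2' : (2 : ℝ) ≤ a := by exact_mod_cast ha2
  have haz : a ≤ a ^ 4 := Nat.le_self_pow (by norm_num) a
  have h1 := hM a (a ^ 4) ha2 haz
  have hla : Real.log 2 ≤ Real.log a := Real.log_le_log (by norm_num) ha2'
  have h2 : Real.log (Real.log ((a ^ 4 : ℕ) : ℝ)) - Real.log (Real.log a) = Real.log 4 := by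
    push_cast
    rw [Real.log_pow, Real.log_mul (by norm_num) (by linarith only [hl2, hla])]
    push_cast
    ring
  have h3 : C / Real.log a ≤ C / Real.log 2 := by gcongr
  have h4 : LL x n - LL (x ^ 2) n ≤ ∑ p ∈ (Ico a (a ^ 4)).filter Nat.Prime, 1 / (p : ℝ) := by
    unfold LL
    have hxx : x ≤ x ^ 2 := by nlinarith only [hx]
    have e : n.primeFactors.filter (fun p : ℕ => x < (p : ℝ)) =
        n.primeFactors.filter (fun p : ℕ => x ^ 2 < (p : ℝ)) ∪
        (n.primeFactors.filter (fun p : ℕ => x < (p : ℝ) ∧ (p : ℝ) ≤ x ^ 2)) := by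
      ext p
      simp only [mem_filter, mem_union]
      constructor
      · rintro ⟨h, h'⟩
        rcases lt_or_ge (x ^ 2) (p : ℝ) with h'' | h''
        · exact Or.inl ⟨h, h''⟩
        · exact Or.inr ⟨h, h', h''⟩
      · rintro (⟨h, h'⟩ | ⟨h, h', h''⟩)
        · exact ⟨h, hxx.trans_lt h'⟩
        · exact ⟨h, h'⟩
    have hd : Disjoint (n.primeFactors.filter (fun p : ℕ => x ^ 2 < (p : ℝ)))
        (n.primeFactors.filter (fun p : ℕ => x < (p : ℝ) ∧ (p : ℝ) ≤ x ^ 2)) := by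
      rw [disjoint_filter]
      intro p _ h1 h2
      linarith only [h1, h2.2]
    rw [e, sum_union hd, add_sub_cancel_left]
    apply sum_le_sum_of_subset_of_nonneg
    · intro p hp
      rw [mem_filter] at hp ⊢
      obtain ⟨hp1, hp2, hp3⟩ := hp
      refine ⟨?_, Nat.prime_of_mem_primeFactors hp1⟩
      rw [mem_Ico]
      constructor
      · have : (a : ℝ) < p := by linarith only [hax, hp2]
        exact_mod_cast this.le
      · have h5 : (p : ℝ) < (a : ℝ) ^ 4 := by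
          have : x ^ 2 < ((a : ℝ) + 1) ^ 2 := by
            apply pow_lt_pow_left₀ hax1 (by linarith only [hx]) (by norm_num)
          have h6 : ((a : ℝ) + 1) ^ 2 ≤ (a : ℝ) ^ 4 := by
            have h7 : (a : ℝ) + 1 ≤ (a : ℝ) ^ 2 := by nlinarith only [ha2']
            calc ((a : ℝ) + 1) ^ 2 ≤ ((a : ℝ) ^ 2) ^ 2 := by (clear * - ha2 h7; gcongr)
              _ = (a : ℝ) ^ 4 := by ring
          linarith only [hp3, this, h6]
        exact_mod_cast h5
    · intro p _ _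
      (clear * -; positivity)
  linarith only [h1, h2, h3, h4]

theorem LL_steps {C₁ : ℝ} (hC₁ : 0 < C₁)
    (hstep : ∀ (x : ℝ) (n : ℕ), 2 ≤ x → LL x n ≤ LL (x ^ 2) n + C₁) (n i k : ℕ) :
    LL (tj i) n ≤ LL (tj (i + k)) n + k * C₁ := by
  induction k with
  | zero => simp
  | succ k ih =>
    have h1 := hstep (tj (i + k)) n (tj_ge_two _)
    rw [← tj_succ] at h1
    push_cast
    have : i + (k + 1) = i + k + 1 := by ring
    rw [this]
    linarith only [ih, h1]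

/-- dichotomy -/
theorem LL_dich {C₁ : ℝ} (hC₁ : 0 < C₁)
    (hstep : ∀ (x : ℝ) (n : ℕ), 2 ≤ x → LL x n ≤ LL (x ^ 2) n + C₁) {n J : ℕ}
    (hJ : (n : ℝ) ≤ tj J) (i : ℕ) :
    LL (tj i) n ≤ 10 ∨ ∃ j, i ≤ j ∧ j < J ∧ 10 ≤ LL (tj j) n ∧
      LL (tj i) n ≤ 10 + ((j : ℝ) + 1) * C₁ := by
  classical
  by_cases h : LL (tj i) n ≤ 10
  · exact Or.inl h
  · right
    push Not at h
    -- the largest `j` with `10 < LL (tj j) n`
    have hbd : ∀ j, 10 < LL (tj j) n → j < J := by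
      intro j hj
      by_contra hne
      push Not at hne
      have : LL (tj j) n = 0 := LL_eq_zero (hJ.trans (tj_mono hne))
      linarith only [hj, this]
    set T := (range J).filter (fun j => 10 < LL (tj j) n) with hT
    have hiT : i ∈ T := by
      rw [hT, mem_filter, mem_range]
      exact ⟨hbd i h, h⟩
    have hne : T.Nonempty := ⟨i, hiT⟩
    set j := T.max' hne with hj
    have hjT : j ∈ T := T.max'_mem hne
    have hij : i ≤ j := T.le_max' i hiT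
    rw [hT, mem_filter, mem_range] at hjT
    have hj1 : LL (tj (j + 1)) n ≤ 10 := by
      by_contra hlt
      push Not at hlt
      have : j + 1 ∈ T := by
        rw [hT, mem_filter, mem_range]
        exact ⟨hbd _ hlt, hlt⟩
      have := T.le_max' _ this
      omega
    refine ⟨j, hij, hjT.1, hjT.2.le, ?_⟩
    have h2 := LL_steps hC₁ hstep n i (j + 1 - i)
    have h3 : i + (j + 1 - i) = j + 1 := by omega
    rw [h3] at h2
    have h4 : ((j + 1 - i : ℕ) : ℝ) ≤ (j : ℝ) + 1 := by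
      have : ((j + 1 - i : ℕ) : ℝ) ≤ ((j + 1 : ℕ) : ℝ) := by exact_mod_cast Nat.sub_le _ _
      push_cast at this
      exact this
    linarith only [mul_nonneg (le_of_lt (sub_pos.2 hC₁)) (sub_nonneg.2 h4), h2, hj1]

theorem GT_le (D : ℝ) (n : ℕ) : GT D n ≤ Real.exp (2 * LL D n) := by
  unfold GT LL
  exact bs_prod_le_exp _ fun p hp => Nat.prime_of_mem_primeFactors (mem_filter.1 hp).1

theorem GG_le (n : ℕ) : GG n ≤ Real.exp (1 + 2 * LL 2 n) := by
  classical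
  unfold GG
  refine (bs_prod_le_exp _ fun p hp => Nat.prime_of_mem_primeFactors hp).trans ?_
  apply Real.exp_le_exp.mpr
  have h1 : ∑ p ∈ n.primeFactors, 1 / (p : ℝ) ≤ 1 / 2 + LL 2 n := by
    unfold LL
    rw [← sum_filter_add_sum_filter_not n.primeFactors (fun p : ℕ => (2 : ℝ) < (p : ℝ))]
    have h2 : ∑ p ∈ n.primeFactors.filter (fun p : ℕ => ¬ (2 : ℝ) < (p : ℝ)), 1 / (p : ℝ) ≤
        1 / 2 := by
      have hsub : n.primeFactors.filter (fun p : ℕ => ¬ (2 : ℝ) < (p : ℝ)) ⊆ {2} := by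
        intro p hp
        rw [mem_filter] at hp
        have hp2 := (Nat.prime_of_mem_primeFactors hp.1).two_le
        have hp3 : (p : ℝ) ≤ 2 := not_lt.mp hp.2
        have hp4 : p ≤ 2 := by exact_mod_cast hp3
        rw [mem_singleton]
        omega
      refine (sum_le_sum_of_subset_of_nonneg hsub fun p _ _ => by (clear * -; positivity)).trans ?_
      simp only [one_div, sum_singleton, Nat.cast_ofNat, Std.le_refl]
    linarith only [h2]
  linarith only [h1]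

theorem rpow_le_add_sq {F a : ℝ} (hF : 0 ≤ F) (ha : 1 ≤ a) (ha2 : a ≤ 2) : F ^ a ≤ F + F ^ 2 := by
  rcases le_or_gt F 1 with h | h
  · rcases hF.eq_or_lt with h0 | h0
    · rw [← h0, Real.zero_rpow (by linarith only [ha])]; simp
    · have : F ^ a ≤ F ^ (1 : ℝ) := Real.rpow_le_rpow_of_exponent_ge h0 h ha
      rw [Real.rpow_one] at this
      nlinarith only [this]
  · have : F ^ a ≤ F ^ (2 : ℝ) := Real.rpow_le_rpow_of_exponent_le h.le ha2
    rw [Real.rpow_two] at this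
    linarith only [h, this]

/-- the pairs with a large anatomy at the level `T` -/
def RJ (ψ : ℕ → ℝ) (s : ℝ) (j : ℕ) (q r : ℕ) : Prop :=
  (cofac r q : ℝ) * ψ q ≤ s ∧ (cofac q r : ℝ) * ψ r ≤ s ∧ 2 * 5 ≤ LL (tj j) (cofac q r * cofac r q)

theorem anat_level : ∃ C > 0, ∃ c > 0, ∀ (N : ℕ) (ψ f : ℕ → ℝ) (s : ℝ), 0 < s → (∀ q, 0 ≤ ψ q) →
    (∀ q, 0 ≤ f q ∧ f q ≤ ψ q * (q.totient / q)) → ∀ j : ℕ,
    psum (RJ ψ s j) N f f ≤ C * Real.exp (-(c * tj j)) * s ^ (1 / 2 : ℝ) *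
      ((∑ q ∈ Icc 1 N, f q) + (∑ q ∈ Icc 1 N, f q) ^ 2) := by
  obtain ⟨C, hC, c, hc, h⟩ := WT1' (θ := 3 / 4) (by norm_num) (by norm_num)
  refine ⟨C, hC, c * 5, by positivity, ?_⟩
  intro N ψ f s hs hψ hf j
  have hF0 : 0 ≤ ∑ q ∈ Icc 1 N, f q := sum_nonneg fun q _ => (hf q).1
  have h1 := h (tj j) 5 (tj_ge_two j) (by norm_num) ψ f s N hs hψ hf
  unfold RJ
  refine h1.trans ?_
  have e1 : (2 * (1 - 3 / 4) : ℝ) = 1 / 2 := by norm_num
  have e2 : -(c * tj j * 5) = -(c * 5 * tj j) := by ring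
  rw [e1, e2]
  have h2 : (∑ q ∈ Icc 1 N, f q) ^ (2 * (3 / 4) : ℝ) ≤
      (∑ q ∈ Icc 1 N, f q) + (∑ q ∈ Icc 1 N, f q) ^ 2 :=
    rpow_le_add_sq hF0 (by norm_num) (by norm_num)
  have h3 : 0 ≤ s ^ (1 / 2 : ℝ) := Real.rpow_nonneg hs.le _
  (clear * - h2 hC hs; gcongr)

theorem natCast_le_tj (n : ℕ) : (n : ℝ) ≤ tj n := by
  have h1 : (n : ℝ) ≤ 2 ^ n := by exact_mod_cast (Nat.lt_two_pow_self (n := n)).le
  exact h1.trans (tj_ge n)

theorem cofac_mul_le_sq {N q r : ℕ} (hq : q ∈ Icc 1 N) (hr : r ∈ Icc 1 N) :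
    ((cofac q r * cofac r q : ℕ) : ℝ) ≤ tj (N * N) := by
  rw [mem_Icc] at hq hr
  refine le_trans ?_ (natCast_le_tj _)
  have h1 : cofac q r ≤ N := (cofac_le r (by omega)).trans hq.2
  have h2 : cofac r q ≤ N := (cofac_le q (by omega)).trans hr.2
  exact_mod_cast Nat.mul_le_mul h1 h2

theorem sum_half_pow_le (J : ℕ) : ∑ j ∈ range J, (1 / 2 : ℝ) ^ j ≤ 2 := by
  have h := Summable.sum_le_tsum (range J) (fun j _ => by positivity) summable_geometric_two
  rw [tsum_geometric_two] at h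
  exact h

open Classical in
/-- exchange of summations -/
theorem kpv_pairs_le {N J : ℕ} {f : ℕ → ℝ} (hf : ∀ q, 0 ≤ f q) (G : ℕ → ℕ → ℝ) (E₀ : ℝ)
    (E : ℕ → ℝ) (R : ℕ → ℕ → ℕ → Prop)
    (h : ∀ q ∈ Icc 1 N, ∀ r ∈ Icc 1 N, G q r ≤ E₀ ∨ ∃ j ∈ range J, R j q r ∧ G q r ≤ E j)
    (hE₀ : 0 ≤ E₀) (hE : ∀ j, 0 ≤ E j) :
    ∑ q ∈ Icc 1 N, ∑ r ∈ Icc 1 N, f q * f r * G q r ≤
      E₀ * (∑ q ∈ Icc 1 N, f q) ^ 2 + ∑ j ∈ range J, E j * psum (R j) N f f := by
  have h1 : ∀ q ∈ Icc 1 N, ∀ r ∈ Icc 1 N, f q * f r * G q r ≤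
      E₀ * (f q * f r) + ∑ j ∈ range J, E j * (if R j q r then f q * f r else 0) := by
    intro q hq r hr
    have hnn : 0 ≤ f q * f r := mul_nonneg (hf q) (hf r)
    have hterm : ∀ j ∈ range J, 0 ≤ E j * (if R j q r then f q * f r else 0) := by
      intro j _
      refine mul_nonneg (hE j) ?_
      split_ifs
      · exact hnn
      · exact le_rfl
    rcases h q hq r hr with h2 | ⟨j, hj, hR, h2⟩
    · have := sum_nonneg hterm
      linarith only [mul_nonneg (sub_nonneg.2 hnn) (sub_nonneg.2 h2), this]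
    · have h3 := single_le_sum hterm hj
      rw [if_pos hR] at h3
      have h4 : 0 ≤ E₀ * (f q * f r) := by (clear * - hE₀ hnn; positivity)
      linarith only [mul_nonneg (sub_nonneg.2 hnn) (sub_nonneg.2 h2), h4, h3]
  calc ∑ q ∈ Icc 1 N, ∑ r ∈ Icc 1 N, f q * f r * G q r
      ≤ ∑ q ∈ Icc 1 N, ∑ r ∈ Icc 1 N, (E₀ * (f q * f r) +
        ∑ j ∈ range J, E j * (if R j q r then f q * f r else 0)) :=
        sum_le_sum fun q hq => sum_le_sum fun r hr => h1 q hq r hr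
    _ = _ := by
        simp_rw [sum_add_distrib]
        congr 1
        · rw [sq, sum_mul_sum, mul_sum]
          simp_rw [mul_sum]
        · unfold psum
          simp_rw [mul_sum]
          rw [sum_comm]
          rw [← sum_comm]
          conv_lhs =>
            enter [2, q]
            rw [sum_comm]
          rw [sum_comm]

/-- anatomy sum over all pairs -/
theorem anat_sum : ∃ C > 0, ∀ (N : ℕ) (ψ f : ℕ → ℝ), (∀ q, 0 ≤ ψ q) →
    (∀ q, 0 ≤ f q ∧ f q ≤ ψ q * (q.totient / q)) →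
    ∑ q ∈ Icc 1 N, ∑ r ∈ Icc 1 N, f q * f r *
      GT (max 2 (DD q r (ψ q) (ψ r))) (cofac q r * cofac r q) ≤
      C * ((∑ q ∈ Icc 1 N, f q) + (∑ q ∈ Icc 1 N, f q) ^ 2) := by
  obtain ⟨C₁, hC₁, hstep⟩ := LL_step
  obtain ⟨C, hC, c, hc, hlev⟩ := anat_level
  obtain ⟨C₂, hC₂, hdec⟩ := exp_tj_decay hc (2 * C₁)
  refine ⟨Real.exp (20 + 2 * C₁) + Real.exp (20 + 4 * C₁) * C * C₂ * 2, by (clear * - hC hC₂; positivity), ?_⟩
  intro N ψ f hψ hf
  have hf0 : ∀ q, 0 ≤ f q := fun q => (hf q).1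
  set F := ∑ q ∈ Icc 1 N, f q with hF
  have hF0 : 0 ≤ F := sum_nonneg fun q _ => hf0 q
  have hmain := kpv_pairs_le (N := N) (J := N * N) hf0
    (fun q r => GT (max 2 (DD q r (ψ q) (ψ r))) (cofac q r * cofac r q))
    (Real.exp (20 + 2 * C₁)) (fun j => Real.exp (20 + 4 * C₁) * Real.exp (2 * C₁ * j))
    (fun j => RJ ψ (tj j) j) (by
      intro q hq r hr
      have hq0 : 0 < q := by rw [mem_Icc] at hq; omega
      have hr0 : 0 < r := by rw [mem_Icc] at hr; omega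
      set D := DD q r (ψ q) (ψ r) with hD
      set D' := max 2 D with hD'
      set n := cofac q r * cofac r q with hn
      have hDv : (cofac r q : ℝ) * ψ q ≤ D := by
        rw [hD, DD_eq q r hq0]
        refine le_trans (le_of_eq ?_) (le_max_left _ _)
        rw [cofac, Nat.gcd_comm]
      have hDu : (cofac q r : ℝ) * ψ r ≤ D := by
        rw [hD, DD_eq q r hq0]
        exact le_max_right _ _
      -- the first index `i` with `D' ≤ tj i`
      have hex : ∃ i : ℕ, D' ≤ tj i := by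
        obtain ⟨i, hi⟩ := exists_nat_ge D'
        exact ⟨i, hi.trans (natCast_le_tj i)⟩
      classical
      set i := Nat.find hex with hi
      have hi1 : D' ≤ tj i := Nat.find_spec hex
      have h2D : 2 ≤ D' := le_max_left _ _
      have hi2 : tj i ≤ D' ^ 2 := by
        rcases Nat.eq_zero_or_pos i with h0 | h0
        · rw [h0]
          unfold tj
          norm_num
          nlinarith only [h2D]
        · have h1 : ¬ D' ≤ tj (i - 1) := Nat.find_min hex (by omega)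
          push Not at h1
          have h2 : i = (i - 1) + 1 := by omega
          rw [h2, tj_succ]
          have := tj_ge_two (i - 1)
          nlinarith only [h1, this]
      have hLi : LL D' n ≤ LL (tj i) n + C₁ := by
        have h1 := hstep D' n h2D
        have h2 := LL_anti hi2 n
        linarith only [h1, h2]
      have hGT := GT_le D' n
      rcases LL_dich hC₁ hstep (cofac_mul_le_sq hq hr) i with h10 | ⟨j, hij, hjJ, hj10, hjL⟩
      · left
        refine hGT.trans (Real.exp_le_exp.mpr ?_)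
        linarith only [hLi, h10]
      · right
        refine ⟨j, mem_range.mpr hjJ, ⟨?_, ?_, ?_⟩, ?_⟩
        · exact hDv.trans ((le_max_right _ _).trans (hi1.trans (tj_mono hij)))
        · exact hDu.trans ((le_max_right _ _).trans (hi1.trans (tj_mono hij)))
        · linarith only [hj10]
        · refine hGT.trans ?_
          rw [← Real.exp_add]
          apply Real.exp_le_exp.mpr
          linarith only [hLi, hjL]) (by positivity) (fun j => by positivity)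
  refine hmain.trans ?_
  have hsum : ∑ j ∈ range (N * N), (Real.exp (20 + 4 * C₁) * Real.exp (2 * C₁ * j)) *
      psum (RJ ψ (tj j) j) N f f ≤ Real.exp (20 + 4 * C₁) * C * C₂ * 2 * (F + F ^ 2) := by
    calc ∑ j ∈ range (N * N), (Real.exp (20 + 4 * C₁) * Real.exp (2 * C₁ * j)) *
        psum (RJ ψ (tj j) j) N f f
        ≤ ∑ j ∈ range (N * N), Real.exp (20 + 4 * C₁) * C * C₂ * (F + F ^ 2) *
          (1 / 2 : ℝ) ^ j := by
          apply sum_le_sum
          intro j _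
          have ht := tj_ge_two j
          have h1 := hlev N ψ f (tj j) (by linarith only [ht]) hψ hf j
          have h2 : (tj j) ^ (1 / 2 : ℝ) ≤ tj j := by
            calc (tj j) ^ (1 / 2 : ℝ) ≤ (tj j) ^ (1 : ℝ) :=
                  Real.rpow_le_rpow_of_exponent_le (by linarith only [ht]) (by norm_num)
              _ = tj j := Real.rpow_one _
          have h3 := hdec j
          have hFF : 0 ≤ F + F ^ 2 := by (clear * - hF0; positivity)
          calc (Real.exp (20 + 4 * C₁) * Real.exp (2 * C₁ * j)) * psum (RJ ψ (tj j) j) N f f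
              ≤ (Real.exp (20 + 4 * C₁) * Real.exp (2 * C₁ * j)) *
                (C * Real.exp (-(c * tj j)) * tj j * (F + F ^ 2)) := by
                have : psum (RJ ψ (tj j) j) N f f ≤
                    C * Real.exp (-(c * tj j)) * tj j * (F + F ^ 2) := by
                  refine h1.trans ?_
                  (clear * - h2 hC hF0; gcongr)
                (clear * - this; gcongr)
            _ = Real.exp (20 + 4 * C₁) * C * (F + F ^ 2) *
                (Real.exp (2 * C₁ * j) * tj j * Real.exp (-(c * tj j))) := by ring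
            _ ≤ Real.exp (20 + 4 * C₁) * C * (F + F ^ 2) * (C₂ * (1 / 2 : ℝ) ^ j) := by (clear * - h3 hC hF0; gcongr)
            _ = _ := by ring
      _ = Real.exp (20 + 4 * C₁) * C * C₂ * (F + F ^ 2) * ∑ j ∈ range (N * N), (1 / 2 : ℝ) ^ j := by
          rw [mul_sum]
      _ ≤ Real.exp (20 + 4 * C₁) * C * C₂ * (F + F ^ 2) * 2 := by
          have := sum_half_pow_le (N * N)
          (clear * - this hC hC₂ hF0; gcongr)
      _ = _ := by ring
  have h5 : Real.exp (20 + 2 * C₁) * F ^ 2 ≤ Real.exp (20 + 2 * C₁) * (F + F ^ 2) := by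
    gcongr
    linarith only [hF0]
  calc _ ≤ Real.exp (20 + 2 * C₁) * (F + F ^ 2) +
      Real.exp (20 + 4 * C₁) * C * C₂ * 2 * (F + F ^ 2) := add_le_add h5 hsum
    _ = _ := by ring

open Classical in
theorem wsum_pairs_le {N : ℕ} {f : ℕ → ℝ} (hf : ∀ q, 0 ≤ f q) (G : ℕ → ℕ → ℝ) (E₀ : ℝ)
    (T : Finset ℕ) (E : ℕ → ℝ) (R₀ : ℕ → ℕ → Prop) (R : ℕ → ℕ → ℕ → Prop)
    (h : ∀ q ∈ Icc 1 N, ∀ r ∈ Icc 1 N, R₀ q r →
      (G q r ≤ E₀ ∨ ∃ j ∈ T, R j q r ∧ G q r ≤ E j))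
    (hE₀ : 0 ≤ E₀) (hE : ∀ j, 0 ≤ E j) :
    wsum R₀ N f f G ≤
      E₀ * psum R₀ N f f + ∑ j ∈ T, E j * psum (R j) N f f := by
  have h1 : ∀ q ∈ Icc 1 N, ∀ r ∈ Icc 1 N, (if R₀ q r then f q * f r * G q r else 0) ≤
      E₀ * (if R₀ q r then f q * f r else 0) +
        ∑ j ∈ T, E j * (if R j q r then f q * f r else 0) := by
    intro q hq r hr
    have hnn : 0 ≤ f q * f r := mul_nonneg (hf q) (hf r)
    have hterm : ∀ j ∈ T, 0 ≤ E j * (if R j q r then f q * f r else 0) := by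
      intro j _
      refine mul_nonneg (hE j) ?_
      split_ifs
      · exact hnn
      · exact le_rfl
    have hs := sum_nonneg hterm
    by_cases hR₀ : R₀ q r
    · rw [if_pos hR₀, if_pos hR₀]
      rcases h q hq r hr hR₀ with h2 | ⟨j, hj, hR, h2⟩
      · nlinarith only [hs, hnn, h2]
      · have h3 := single_le_sum hterm hj
        rw [if_pos hR] at h3
        have h4 : 0 ≤ E₀ * (f q * f r) := by (clear * - hE₀ hnn; positivity)
        linarith only [mul_nonneg (sub_nonneg.2 hnn) (sub_nonneg.2 h2), h4, h3]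
    · rw [if_neg hR₀, if_neg hR₀, mul_zero, zero_add]
      exact hs
  unfold wsum
  calc ∑ q ∈ Icc 1 N, ∑ r ∈ Icc 1 N, (if R₀ q r then f q * f r * G q r else 0)
      ≤ ∑ q ∈ Icc 1 N, ∑ r ∈ Icc 1 N, (E₀ * (if R₀ q r then f q * f r else 0) +
        ∑ j ∈ T, E j * (if R j q r then f q * f r else 0)) :=
        sum_le_sum fun q hq => sum_le_sum fun r hr => h1 q hq r hr
    _ = _ := by
        simp_rw [sum_add_distrib]
        congr 1
        · unfold psum
          simp_rw [mul_sum]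
        · unfold psum
          simp_rw [mul_sum]
          conv_lhs =>
            enter [2, q]
            rw [sum_comm]
          rw [sum_comm]

/-- inserting the anatomical factor -/
theorem GG_transfer {η : ℝ} (hη : 0 < η) : ∃ C > 0, ∀ (R : ℕ → ℕ → Prop) (s : ℝ) (N : ℕ)
    (ψ f : ℕ → ℝ), 0 < s → s ≤ 1 / 1000 → (∀ q, 0 ≤ ψ q) →
    (∀ q, 0 ≤ f q ∧ f q ≤ ψ q * (q.totient / q)) →
    (∀ q r, R q r → (cofac r q : ℝ) * ψ q ≤ s ∧ (cofac q r : ℝ) * ψ r ≤ s) →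
    wsum R N f f (fun q r => GG (cofac q r * cofac r q)) ≤
      C * s ^ (-η) * psum R N f f +
        C * s ^ 2 * ((∑ q ∈ Icc 1 N, f q) + (∑ q ∈ Icc 1 N, f q) ^ 2) := by
  obtain ⟨C₁, hC₁, hstep⟩ := LL_step
  obtain ⟨C, hC, c, hc, hlev⟩ := anat_level
  obtain ⟨C₂, hC₂, hdec⟩ := exp_tj_decay (half_pos hc) (4 * C₁)
  obtain ⟨C₃, hC₃, hgrow⟩ := exp_le_tj (2 * C₁ / η)
  set K : ℝ := 4 / c with hK
  have hK0 : 0 < K := by positivity
  set A₁ : ℝ := Real.exp (21 + 2 * C₁) * (1 + (C₃ * K) ^ η) with hA₁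
  set A₂ : ℝ := Real.exp (21 + 2 * C₁) * C * C₂ * 2 with hA₂
  have hA₁0 : 0 < A₁ := by positivity
  have hA₂0 : 0 < A₂ := by positivity
  refine ⟨A₁ + A₂, by positivity, ?_⟩
  intro R s N ψ f hs hs1 hψ hf hR
  have hf0 : ∀ q, 0 ≤ f q := fun q => (hf q).1
  set F := ∑ q ∈ Icc 1 N, f q with hF
  have hF0 : 0 ≤ F := sum_nonneg fun q _ => hf0 q
  set L := Real.log (1 / s) with hL
  have hLs : L ≤ 1 / s := by
    have := Real.log_le_sub_one_of_pos (x := 1 / s) (by (clear * - hs; positivity))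
    linarith only [this]
  have hL0 : 0 < L := Real.log_pos (by
    rw [lt_div_iff₀ hs]
    linarith only [hs1])
  have hsη : s ^ (-η) = (1 / s) ^ η := by
    rw [Real.rpow_neg hs.le, one_div, Real.inv_rpow hs.le]
  have hsη1 : 1 ≤ s ^ (-η) := by
    rw [hsη]
    apply Real.one_le_rpow _ hη.le
    rw [le_div_iff₀ hs]
    linarith only [hs1]
  -- the index `i`
  have hex : ∃ i : ℕ, K * L ≤ tj i := by
    obtain ⟨i, hi⟩ := exists_nat_ge (K * L)
    exact ⟨i, hi.trans (natCast_le_tj i)⟩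
  classical
  set i := Nat.find hex with hi
  have hi1 : K * L ≤ tj i := Nat.find_spec hex
  have hEi : Real.exp (21 + 2 * (i * C₁)) ≤ A₁ * s ^ (-η) := by
    rcases Nat.eq_zero_or_pos i with h0 | h0
    · rw [h0]
      have h1 : Real.exp (21 + 2 * ((0 : ℕ) * C₁)) ≤ Real.exp (21 + 2 * C₁) := by
        apply Real.exp_le_exp.mpr
        push_cast
        linarith only [hC₁]
      have h2 : 1 ≤ 1 + (C₃ * K) ^ η := by
        have : 0 ≤ (C₃ * K) ^ η := by (clear * - hC₃ hc; positivity)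
        linarith only [this]
      calc Real.exp (21 + 2 * ((0 : ℕ) * C₁)) ≤ Real.exp (21 + 2 * C₁) * 1 * 1 := by
            linarith only [h1]
        _ ≤ Real.exp (21 + 2 * C₁) * (1 + (C₃ * K) ^ η) * s ^ (-η) := by (clear * - h2 hsη1 hC₃ hc; gcongr)
    · have h1 : ¬ K * L ≤ tj (i - 1) := Nat.find_min hex (by omega)
      push Not at h1
      have h2 : (i : ℝ) = ((i - 1 : ℕ) : ℝ) + 1 := by
        have : i = (i - 1) + 1 := by omega
        exact_mod_cast this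
      have h3 := hgrow (i - 1)
      have h4 : Real.exp (2 * C₁ * ((i - 1 : ℕ) : ℝ)) ≤ (C₃ * K) ^ η * s ^ (-η) := by
        have e : Real.exp (2 * C₁ * ((i - 1 : ℕ) : ℝ)) =
            (Real.exp (2 * C₁ / η * ((i - 1 : ℕ) : ℝ))) ^ η := by
          rw [← Real.exp_mul]
          congr 1
          (clear * - hη hC₁; field_simp)
        rw [e, hsη, ← Real.mul_rpow (by positivity) (by positivity)]
        apply Real.rpow_le_rpow (Real.exp_pos _).le _ hη.le
        calc Real.exp (2 * C₁ / η * ((i - 1 : ℕ) : ℝ)) ≤ C₃ * tj (i - 1) := h3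
          _ ≤ C₃ * (K * L) := by (clear * - h1 hC₃; gcongr)
          _ ≤ C₃ * (K * (1 / s)) := by (clear * - hLs hc hC₃; gcongr)
          _ = C₃ * K * (1 / s) := by ring
      calc Real.exp (21 + 2 * (i * C₁)) = Real.exp (21 + 2 * C₁) *
            Real.exp (2 * C₁ * ((i - 1 : ℕ) : ℝ)) := by
            rw [← Real.exp_add, h2]
            congr 1
            ring
        _ ≤ Real.exp (21 + 2 * C₁) * ((C₃ * K) ^ η * s ^ (-η)) := by (clear * - h4; gcongr)
        _ ≤ Real.exp (21 + 2 * C₁) * ((1 + (C₃ * K) ^ η) * s ^ (-η)) := by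
            gcongr
            linarith only []
        _ = _ := by rw [hA₁]; ring
  have hmain := wsum_pairs_le (N := N) hf0
    (fun q r => GG (cofac q r * cofac r q)) (A₁ * s ^ (-η))
    ((range (N * N)).filter (fun j => i ≤ j))
    (fun j => Real.exp (21 + 2 * C₁) * Real.exp (4 * C₁ * j))
    R (fun j => RJ ψ s j) (by
      intro q hq r hr hqr
      set n := cofac q r * cofac r q with hn
      have hGG := GG_le n
      have h2 : LL 2 n ≤ LL (tj i) n + i * C₁ := by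
        have h := LL_steps hC₁ hstep n 0 i
        have e0 : tj 0 = 2 := by unfold tj; norm_num
        rw [zero_add, e0] at h
        exact h
      rcases LL_dich hC₁ hstep (cofac_mul_le_sq hq hr) i with h10 | ⟨j, hij, hjJ, hj10, hjL⟩
      · left
        refine hGG.trans (le_trans (Real.exp_le_exp.mpr ?_) hEi)
        linarith only [h2, h10]
      · right
        refine ⟨j, mem_filter.mpr ⟨mem_range.mpr hjJ, hij⟩,
          ⟨(hR q r hqr).1, (hR q r hqr).2, ?_⟩, ?_⟩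
        · linarith only [hj10]
        · refine hGG.trans ?_
          rw [← Real.exp_add]
          apply Real.exp_le_exp.mpr
          have h3 : (i : ℝ) ≤ j := by exact_mod_cast hij
          linarith only [mul_nonneg (le_of_lt (sub_pos.2 hC₁)) (sub_nonneg.2 h3), hjL, h2]) (by (clear * - hC₃ hc hs; positivity)) (fun j => by positivity)
  refine hmain.trans ?_
  have hpR : 0 ≤ psum R N f f := psum_nonneg R N f f hf0 hf0
  have hFF : 0 ≤ F + F ^ 2 := by (clear * - hF0; positivity)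
  have hsum : ∑ j ∈ (range (N * N)).filter (fun j => i ≤ j),
      (Real.exp (21 + 2 * C₁) * Real.exp (4 * C₁ * j)) *
      psum (RJ ψ s j) N f f ≤ A₂ * s ^ 2 * (F + F ^ 2) := by
    calc ∑ j ∈ (range (N * N)).filter (fun j => i ≤ j),
        (Real.exp (21 + 2 * C₁) * Real.exp (4 * C₁ * j)) * psum (RJ ψ s j) N f f
        ≤ ∑ j ∈ (range (N * N)).filter (fun j => i ≤ j),
          Real.exp (21 + 2 * C₁) * C * C₂ * s ^ 2 * (F + F ^ 2) * (1 / 2 : ℝ) ^ j := by
          apply sum_le_sum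
          intro j hj
          rw [mem_filter] at hj
          have ht := tj_ge_two j
          have htj : K * L ≤ tj j := hi1.trans (tj_mono hj.2)
          have h1 := hlev N ψ f s hs hψ hf j
          have h2 : s ^ (1 / 2 : ℝ) ≤ 1 := Real.rpow_le_one hs.le (by linarith only [hs1]) (by norm_num)
          have h3 := hdec j
          have h4 : Real.exp (-(c * tj j)) ≤ Real.exp (-(c / 2 * tj j)) * s ^ 2 := by
            have e : s ^ 2 = Real.exp (-(2 * L)) := by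
              rw [hL, one_div, Real.log_inv]
              rw [show -(2 * -Real.log s) = ((2 : ℕ) : ℝ) * Real.log s by push_cast; ring,
                Real.exp_nat_mul, Real.exp_log hs]
            rw [e, ← Real.exp_add]
            apply Real.exp_le_exp.mpr
            have h5 : c / 2 * (K * L) ≤ c / 2 * tj j := by (clear * - htj hc; gcongr)
            have h6 : c / 2 * (K * L) = 2 * L := by
              rw [hK]; field_simp; ring
            linarith only [h5, h6]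
          have h5 : psum (RJ ψ s j) N f f ≤
              C * (Real.exp (-(c / 2 * tj j)) * s ^ 2) * 1 * (F + F ^ 2) := by
            refine h1.trans ?_
            (clear * - h4 hC h2 hs hF0; gcongr)
          have h6 : Real.exp (4 * C₁ * j) * Real.exp (-(c / 2 * tj j)) ≤
              C₂ * (1 / 2 : ℝ) ^ j := by
            refine le_trans ?_ h3
            have : Real.exp (4 * C₁ * j) * 1 ≤ Real.exp (4 * C₁ * j) * tj j := by
              gcongr
              linarith only [ht]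
            have h7 := (Real.exp_pos (-(c / 2 * tj j))).le
            nlinarith only [this, h7]
          calc (Real.exp (21 + 2 * C₁) * Real.exp (4 * C₁ * j)) * psum (RJ ψ s j) N f f
              ≤ (Real.exp (21 + 2 * C₁) * Real.exp (4 * C₁ * j)) *
                (C * (Real.exp (-(c / 2 * tj j)) * s ^ 2) * 1 * (F + F ^ 2)) := by (clear * - h5; gcongr)
            _ = Real.exp (21 + 2 * C₁) * C * s ^ 2 * (F + F ^ 2) *
                (Real.exp (4 * C₁ * j) * Real.exp (-(c / 2 * tj j))) := by ring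
            _ ≤ Real.exp (21 + 2 * C₁) * C * s ^ 2 * (F + F ^ 2) *
                (C₂ * (1 / 2 : ℝ) ^ j) := by (clear * - h6 hC hs hF0; gcongr)
            _ = _ := by ring
      _ ≤ ∑ j ∈ range (N * N),
          Real.exp (21 + 2 * C₁) * C * C₂ * s ^ 2 * (F + F ^ 2) * (1 / 2 : ℝ) ^ j := by
          apply sum_le_sum_of_subset_of_nonneg (filter_subset _ _)
          intro j _ _
          (clear * - hC hC₂ hs hF0; positivity)
      _ = Real.exp (21 + 2 * C₁) * C * C₂ * s ^ 2 * (F + F ^ 2) *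
          ∑ j ∈ range (N * N), (1 / 2 : ℝ) ^ j := by
          rw [mul_sum]
      _ ≤ Real.exp (21 + 2 * C₁) * C * C₂ * s ^ 2 * (F + F ^ 2) * 2 := by
          have := sum_half_pow_le (N * N)
          (clear * - this hC hC₂ hs hF0; gcongr)
      _ = _ := by rw [hA₂]; ring
  have h7 : A₁ * s ^ (-η) * psum R N f f ≤ (A₁ + A₂) * s ^ (-η) * psum R N f f := by
    gcongr
    linarith only [hA₂0]
  have h8 : A₂ * s ^ 2 * (F + F ^ 2) ≤ (A₁ + A₂) * s ^ 2 * (F + F ^ 2) := by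
    gcongr
    linarith only [hA₁0]
  exact add_le_add h7 (hsum.trans h8)

end Vale.P028
end

section

/-!
# Case B: large cofactors, `ψ` small, weights concentrated on `[X, X^9]`
-/

namespace Vale.P028

open Finset

/-- completely multiplicative function with values `mp p` -/
noncomputable def mm (mp : ℕ → ℝ) (n : ℕ) : ℝ := (n.primeFactorsList.map mp).prod

theorem mm_mul (mp : ℕ → ℝ) {a b : ℕ} (ha : a ≠ 0) (hb : b ≠ 0) :
    mm mp (a * b) = mm mp a * mm mp b := by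
  unfold mm
  rw [← List.prod_append, ← List.map_append]
  exact ((Nat.perm_primeFactorsList_mul ha hb).map mp).prod_eq

theorem mm_prime (mp : ℕ → ℝ) {p : ℕ} (hp : p.Prime) : mm mp p = mp p := by
  unfold mm
  rw [Nat.primeFactorsList_prime hp]
  simp

theorem mm_one (mp : ℕ → ℝ) : mm mp 1 = 1 := by
  unfold mm
  simp

theorem mm_mul_pow (mp : ℕ → ℝ) {a p : ℕ} (ha : a ≠ 0) (hp : p.Prime) (l : ℕ) :
    mm mp (a * p ^ l) = mm mp a * mp p ^ l := by
  induction l with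
  | zero => simp
  | succ l ih =>
    rw [pow_succ, ← mul_assoc, mm_mul mp (mul_ne_zero ha (pow_ne_zero _ hp.ne_zero)) hp.ne_zero,
      ih, mm_prime mp hp, pow_succ, mul_assoc]

theorem mm_ge_one (mp : ℕ → ℝ) (h : ∀ p : ℕ, p.Prime → 1 ≤ mp p) (n : ℕ) : 1 ≤ mm mp n := by
  unfold mm
  have h1 : ∀ t ∈ n.primeFactorsList.map mp, 1 ≤ t := by
    intro t ht
    rw [List.mem_map] at ht
    obtain ⟨p, hp, rfl⟩ := ht
    exact h p (Nat.prime_of_mem_primeFactorsList hp)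
  generalize n.primeFactorsList.map mp = l at h1
  induction l with
  | nil => simp
  | cons t l ih =>
    rw [List.prod_cons]
    have h2 := h1 t (by simp)
    have h3 := ih (fun u hu => h1 u (by simp [hu]))
    linarith only [mul_nonneg (sub_nonneg.2 h2) (sub_nonneg.2 h3), h3, h2]

theorem mm_ge_of_dvd (mp : ℕ → ℝ) (h : ∀ p : ℕ, p.Prime → 1 ≤ mp p) {n p : ℕ} (hn : n ≠ 0)
    (hp : p.Prime) (hpn : p ∣ n) : mp p ≤ mm mp n := by
  obtain ⟨m, rfl⟩ := hpn
  have hm : m ≠ 0 := right_ne_zero_of_mul hn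
  rw [mm_mul mp hp.ne_zero hm, mm_prime mp hp]
  have h1 := mm_ge_one mp h m
  have h2 := h p hp
  linarith only [mul_nonneg (sub_nonneg.2 h1) (sub_nonneg.2 h2), h1]

theorem mm_smooth (mp : ℕ → ℝ) {β : ℝ} {n : ℕ} (hn : n ≠ 0)
    (h : ∀ p : ℕ, p.Prime → p ∣ n → mp p = (p : ℝ) ^ β) : mm mp n = (n : ℝ) ^ β := by
  unfold mm
  have h1 : n.primeFactorsList.map mp = n.primeFactorsList.map (fun p : ℕ => ((p : ℝ)) ^ β) := by
    apply List.map_congr_left
    intro p hp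
    exact h p (Nat.prime_of_mem_primeFactorsList hp) (Nat.dvd_of_mem_primeFactorsList hp)
  rw [h1]
  have h2 : ∀ l : List ℕ, (l.map (fun p : ℕ => ((p : ℝ)) ^ β)).prod = ((l.prod : ℕ) : ℝ) ^ β := by
    intro l
    induction l with
    | nil => simp only [List.map_nil, List.prod_nil, Nat.cast_one, Real.one_rpow]
    | cons t l ih =>
      rw [List.map_cons, List.prod_cons, List.prod_cons, ih]
      rw [Nat.cast_mul, Real.mul_rpow (Nat.cast_nonneg _) (Nat.cast_nonneg _)]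
  rw [h2, Nat.prod_primeFactorsList hn]

/-- the multiplicative weights of case B -/
noncomputable def mpB (θ S y : ℝ) (p : ℕ) : ℝ :=
  if (p : ℝ) ≤ y then (p : ℝ) ^ ((1 - θ) / Real.log y) else S ^ (-(1 - θ))

/-- the majorant of case B -/
noncomputable def KB (θ S y : ℝ) (a b : ℕ) : ℝ :=
  (16 / ((a : ℝ) * b)) ^ (1 - θ) * S ^ (1 - θ) * (mm (mpB θ S y) a * mm (mpB θ S y) b)

theorem mpB_ge_one {θ S y : ℝ} (hθ1 : θ < 1) (hS : 0 < S) (hS1 : S ≤ 1) (hy : 1 < y) (p : ℕ)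
    (hp : p.Prime) : 1 ≤ mpB θ S y p := by
  unfold mpB
  have hl : 0 < Real.log y := Real.log_pos hy
  split_ifs with h
  · apply Real.one_le_rpow
    · exact_mod_cast hp.one_lt.le
    · exact div_nonneg (by linarith only [hθ1]) hl.le
  · exact Real.one_le_rpow_of_pos_of_le_one_of_nonpos hS hS1 (by linarith only [hθ1])

theorem KB_comm (θ S y : ℝ) (a b : ℕ) : KB θ S y a b = KB θ S y b a := by
  unfold KB
  rw [mul_comm (a : ℝ) b, mul_comm (mm (mpB θ S y) a)]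

theorem KB_nonneg {θ S y : ℝ} (hθ1 : θ < 1) (hS : 0 < S) (hS1 : S ≤ 1) (hy : 1 < y) (a b : ℕ) :
    0 ≤ KB θ S y a b := by
  have hma := mm_ge_one (mpB θ S y) (mpB_ge_one (θ := θ) hθ1 hS hS1 hy) a
  have hmb := mm_ge_one (mpB θ S y) (mpB_ge_one (θ := θ) hθ1 hS hS1 hy) b
  unfold KB
  (clear * - hS hma hmb; positivity)

theorem KB_grow {θ S y : ℝ} {p : ℕ} (hp : p.Prime)
    (a b l : ℕ) (ha : 0 < a) (hb : 0 < b) :
    KB θ S y (a * p ^ l) b = ((p : ℝ) ^ (-(1 - θ)) * mpB θ S y p) ^ l * KB θ S y a b := by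
  have ha' : (0 : ℝ) < a := by exact_mod_cast ha
  have hb' : (0 : ℝ) < b := by exact_mod_cast hb
  have hp' : (0 : ℝ) < p := by exact_mod_cast hp.pos
  unfold KB
  rw [mm_mul_pow (mpB θ S y) ha.ne' hp l]
  have h1 : (16 / (((a * p ^ l : ℕ) : ℝ) * b)) = (1 / (p : ℝ)) ^ l * (16 / ((a : ℝ) * b)) := by
    push_cast
    rw [one_div, inv_pow]
    (clear * - hb hp' ha; field_simp)
  rw [h1, Real.mul_rpow (by (clear * - hp'; positivity)) (by positivity)]
  have h2 : ((1 / (p : ℝ)) ^ l) ^ (1 - θ) = ((p : ℝ) ^ (-(1 - θ))) ^ l := by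
    rw [Real.rpow_neg hp'.le, one_div, inv_pow, inv_pow, Real.inv_rpow (by positivity),
      ← Real.rpow_natCast, ← Real.rpow_natCast, ← Real.rpow_mul hp'.le, ← Real.rpow_mul hp'.le,
      mul_comm]
  rw [h2, mul_pow]
  ring

/-- `b_p = (BqB p)^(1-θ)` -/
noncomputable def BqB (S y : ℝ) (p : ℕ) : ℝ :=
  if (p : ℝ) ≤ y then (p : ℝ) ^ (-1 + 1 / Real.log y) else 1 / (S * p)

noncomputable def xB (S y : ℝ) (p : ℕ) : ℝ :=
  if (p : ℝ) ≤ y then 1 / (p : ℝ) else 1 / (S * p)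

theorem BqB_eq {θ S y : ℝ} (hS : 0 < S) {p : ℕ} (hp : p.Prime) :
    (p : ℝ) ^ (-(1 - θ)) * mpB θ S y p = (BqB S y p) ^ (1 - θ) := by
  have hp' : (0 : ℝ) < p := by exact_mod_cast hp.pos
  unfold mpB BqB
  split_ifs with h
  · rw [← Real.rpow_add hp', ← Real.rpow_mul hp'.le]
    congr 1
    ring
  · rw [one_div, Real.inv_rpow (by positivity), Real.mul_rpow hS.le hp'.le,
      Real.rpow_neg hS.le, Real.rpow_neg hp'.le, mul_inv, mul_comm]

theorem BqB_bounds {S y : ℝ} (hy : 2 ≤ Real.log y) {p : ℕ} (hp : p.Prime)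
    (hpy : (p : ℝ) ≤ y) :
    1 / (p : ℝ) ≤ BqB S y p ∧ BqB S y p ≤ 1 / (p : ℝ) + 2 * (Real.log p / (p * Real.log y)) ∧
      BqB S y p ≤ 3 / (p : ℝ) ∧ BqB S y p ≤ (1 / 2 : ℝ) ^ (1 / 2 : ℝ) := by
  have hp' : (0 : ℝ) < p := by exact_mod_cast hp.pos
  have hp2 : (2 : ℝ) ≤ p := by exact_mod_cast hp.two_le
  have hly : 0 < Real.log y := by linarith only [hy]
  have hlp : 0 ≤ Real.log p := Real.log_nonneg (by linarith only [hp2])
  have hlpy : Real.log p ≤ Real.log y := Real.log_le_log hp' hpy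
  have h0 : BqB S y p = (p : ℝ) ^ (-1 + 1 / Real.log y) := by
    unfold BqB
    rw [if_pos hpy]
  set t : ℝ := Real.log p / Real.log y with ht
  have ht0 : 0 ≤ t := div_nonneg hlp hly.le
  have ht1 : t ≤ 1 := (div_le_one hly).2 hlpy
  have h1 : BqB S y p = Real.exp t / p := by
    rw [h0, Real.rpow_add hp', Real.rpow_neg_one, Real.rpow_def_of_pos hp', ht]
    rw [show Real.log p * (1 / Real.log y) = Real.log p / Real.log y by ring]
    (clear * - hp'; field_simp)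
  have hexp : Real.exp t ≤ 1 + 2 * t := by
    have h4 : |t| ≤ 1 := by rw [abs_of_nonneg ht0]; exact ht1
    have h5 := Real.abs_exp_sub_one_le h4
    rw [abs_of_nonneg ht0] at h5
    have h6 := le_abs_self (Real.exp t - 1)
    linarith only [h5, h6]
  refine ⟨?_, ?_, ?_, ?_⟩
  · rw [h1]
    have : 1 ≤ Real.exp t := Real.one_le_exp ht0
    (clear * - this hp'; gcongr)
  · rw [h1]
    calc Real.exp t / p ≤ (1 + 2 * t) / p := by (clear * - hexp hp'; gcongr)
      _ = 1 / (p : ℝ) + 2 * (Real.log p / (p * Real.log y)) := by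
        rw [ht]
        (clear * - hy hp'; field_simp)
  · rw [h1]
    have : Real.exp t ≤ 3 := by linarith only [ht1, hexp]
    (clear * - this hp'; gcongr)
  · rw [h0]
    have h3 : -1 + 1 / Real.log y ≤ -(1 / 2 : ℝ) := by
      have : 1 / Real.log y ≤ 1 / 2 := one_div_le_one_div_of_le (by norm_num) hy
      linarith only [this]
    calc (p : ℝ) ^ (-1 + 1 / Real.log y) ≤ (p : ℝ) ^ (-(1 / 2 : ℝ)) :=
          Real.rpow_le_rpow_of_exponent_le (by linarith only [hp2]) h3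
      _ ≤ (2 : ℝ) ^ (-(1 / 2 : ℝ)) :=
          Real.rpow_le_rpow_of_nonpos (by norm_num) hp2 (by norm_num)
      _ = (1 / 2 : ℝ) ^ (1 / 2 : ℝ) := by
          rw [Real.rpow_neg (by norm_num), one_div 2, Real.inv_rpow (by norm_num)]

open Classical in
/-- the constants of the single prime inequality in case B -/
noncomputable def cMB (θ B₀ C S y : ℝ) (p : ℕ) : ℝ :=
  if BqB S y p ≤ B₀ then 1 + 2 * (1 - θ) * (BqB S y p - xB S y p) + C * (BqB S y p) ^ (2 * θ)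
  else (1 + (BqB S y p) ^ (1 - θ)) / (1 - (BqB S y p) ^ (1 - θ))

theorem xB_le {S y : ℝ} (hS : 0 < S) (hy : 2 ≤ Real.log y) {p : ℕ} (hp : p.Prime) :
    0 < xB S y p ∧ xB S y p ≤ BqB S y p := by
  have hp' : (0 : ℝ) < p := by exact_mod_cast hp.pos
  by_cases h : (p : ℝ) ≤ y
  · have h1 := BqB_bounds (S := S) hy hp h
    have h2 : xB S y p = 1 / (p : ℝ) := by unfold xB; rw [if_pos h]
    rw [h2]
    exact ⟨by (clear * - hp'; positivity), h1.1⟩
  · unfold xB BqB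
    rw [if_neg h, if_neg h]
    exact ⟨by positivity, le_rfl⟩

theorem BqB_large {S y B₀ : ℝ} (hS : 0 < S) (hB₀ : 0 < B₀) (hy0 : 0 < y) (hSy : 1 ≤ S * y * B₀)
    {p : ℕ} (hpy : ¬ (p : ℝ) ≤ y) : BqB S y p ≤ B₀ ∧ BqB S y p = xB S y p := by
  have h1 : xB S y p = BqB S y p := by unfold xB BqB; rw [if_neg hpy, if_neg hpy]
  refine ⟨?_, h1.symm⟩
  unfold BqB
  rw [if_neg hpy]
  push Not at hpy
  have hp' : (0 : ℝ) < p := hy0.trans hpy
  rw [div_le_iff₀ (by positivity)]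
  calc 1 ≤ S * y * B₀ := hSy
    _ ≤ S * p * B₀ := by (clear * - hpy hS hB₀; gcongr)
    _ = B₀ * (S * p) := by ring

theorem SP_cB {θ B₀ C : ℝ} (hθ : 1 / 2 < θ) (hθ1 : θ < 1) (hB₀ : 0 < B₀)
    (hSPs : ∀ B x : ℝ, 0 < B → B ≤ B₀ → 0 ≤ x → x ≤ B →
      SP θ (B ^ (1 - θ)) x (1 + 2 * (1 - θ) * (B - x) + C * B ^ (2 * θ)))
    {S y : ℝ} (hS : 0 < S) (hy0 : 0 < y) (hy : 2 ≤ Real.log y) (hSy : 1 ≤ S * y * B₀)
    {p : ℕ} (hp : p.Prime) : SP θ ((BqB S y p) ^ (1 - θ)) (xB S y p) (cMB θ B₀ C S y p) := by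
  obtain ⟨hx0, hxB⟩ := xB_le hS hy hp
  have hB0 : 0 < BqB S y p := lt_of_lt_of_le hx0 hxB
  have hl0 : 0 < 1 - θ := by linarith only [hθ1]
  by_cases h : BqB S y p ≤ B₀
  · have h1 : cMB θ B₀ C S y p =
        1 + 2 * (1 - θ) * (BqB S y p - xB S y p) + C * (BqB S y p) ^ (2 * θ) := by
      unfold cMB
      rw [if_pos h]
    rw [h1]
    exact hSPs _ _ hB0 h hx0.le hxB
  · have h1 : cMB θ B₀ C S y p =
        (1 + (BqB S y p) ^ (1 - θ)) / (1 - (BqB S y p) ^ (1 - θ)) := by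
      unfold cMB
      rw [if_neg h]
    rw [h1]
    have hpy : (p : ℝ) ≤ y := by
      by_contra hne
      exact h (BqB_large hS hB₀ hy0 hSy hne).1
    have h2 := (BqB_bounds (S := S) hy hp hpy).2.2.2
    have h3 : BqB S y p < 1 := lt_of_le_of_lt h2 (Real.rpow_lt_one (by norm_num) (by norm_num)
      (by norm_num))
    exact SP_large hθ hθ1 (by (clear * - hB0; positivity)) (Real.rpow_lt_one hB0.le h3 hl0) hx0.le
      (hxB.trans h3.le)

theorem cB_nonneg {θ B₀ C : ℝ} (hθ1 : θ < 1) (hB₀ : 0 < B₀) (hC : 0 ≤ C)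
    {S y : ℝ} (hS : 0 < S) (hy0 : 0 < y) (hy : 2 ≤ Real.log y) (hSy : 1 ≤ S * y * B₀)
    {p : ℕ} (hp : p.Prime) : 0 ≤ cMB θ B₀ C S y p := by
  obtain ⟨hx0, hxB⟩ := xB_le hS hy hp
  have hB0 : 0 < BqB S y p := lt_of_lt_of_le hx0 hxB
  have hl0 : 0 < 1 - θ := by linarith only [hθ1]
  unfold cMB
  split_ifs with h
  · have : 0 ≤ BqB S y p - xB S y p := by linarith only [hxB]
    (clear * - hθ1 hxB hC hB0; positivity)
  · have hpy : (p : ℝ) ≤ y := by
      by_contra hne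
      exact h (BqB_large hS hB₀ hy0 hSy hne).1
    have h2 := (BqB_bounds (S := S) hy hp hpy).2.2.2
    have h3 : BqB S y p < 1 := lt_of_le_of_lt h2 (Real.rpow_lt_one (by norm_num) (by norm_num)
      (by norm_num))
    have h4 := Real.rpow_lt_one hB0.le h3 hl0
    have h5 : 0 ≤ (BqB S y p) ^ (1 - θ) := by positivity
    apply div_nonneg <;> linarith only [h4, h5]

theorem prod_cB {θ B₀ C : ℝ} (hθ : 1 / 2 < θ) (hθ1 : θ < 1) (hB₀ : 0 < B₀)
    (hC : 0 ≤ C) :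
    ∃ K > 0, ∀ S y : ℝ, 0 < S → S ≤ 1 → 0 < y → 2 ≤ Real.log y → 1 ≤ S * y * B₀ →
      S ^ (-(2 * θ)) ≤ y ^ (θ - 1 / 2) → ∀ P : Finset ℕ, (∀ p ∈ P, p.Prime) →
      ∏ p ∈ P, cMB θ B₀ C S y p ≤ K := by
  obtain ⟨C₁, hC₁, hsum⟩ := sum_log_div_prime_le
  have hl0 : 0 < 1 - θ := by linarith only [hθ1]
  set b₂ : ℝ := ((1 / 2 : ℝ) ^ (1 / 2 : ℝ)) ^ (1 - θ) with hb₂
  have hb₂0 : 0 < b₂ := by positivity
  have hb₂1 : b₂ < 1 := Real.rpow_lt_one (by positivity)
    (Real.rpow_lt_one (by norm_num) (by norm_num) (by norm_num)) hl0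
  set M : ℝ := (3 + C) + (1 + b₂) / (1 - b₂) with hM
  have hM₀ : 0 ≤ (1 + b₂) / (1 - b₂) := div_nonneg (by linarith only [hb₂0]) (by linarith only [hb₂1])
  have hM1 : 1 ≤ M := by linarith only [hC, hM₀]
  set n₀ : ℕ := ⌈3 / B₀⌉₊ with hn₀
  set C₃ : ℝ := C * 9 with hC₃
  set d₁ : ℕ → ℝ := fun n => if n < n₀ + 1 then Real.log M else 0 with hd₁
  set d₂ : ℕ → ℝ := fun n => C₃ * (1 / (n : ℝ) ^ (θ + 1 / 2)) with hd₂
  have hs₁ : Summable d₁ := by
    refine summable_of_ne_finset_zero (s := range (n₀ + 1)) ?_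
    intro n hn
    simp only [hd₁]
    rw [if_neg]
    simpa only [Order.lt_add_one_iff, not_le, mem_range] using hn
  have hs₂ : Summable d₂ := by
    refine Summable.mul_left _ ?_
    exact Real.summable_one_div_nat_rpow.2 (by linarith only [hθ])
  have hlogM : 0 ≤ Real.log M := Real.log_nonneg hM1
  have hd₁0 : ∀ n, 0 ≤ d₁ n := by
    intro n
    simp only [hd₁]
    split_ifs
    · exact hlogM
    · exact le_rfl
  have hC₃0 : 0 ≤ C₃ := by (clear * - hC; positivity)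
  have hd₂0 : ∀ n, 0 ≤ d₂ n := by
    intro n
    simp only [hd₂]
    (clear * - hC; positivity)
  have hs : Summable (fun n => d₁ n + d₂ n) := hs₁.add hs₂
  refine ⟨Real.exp (∑' n, (d₁ n + d₂ n) + 4 * (1 + C₁)), Real.exp_pos _, ?_⟩
  intro S y hS hS1 hy0 hy hSy hSy2 P hP
  have hly : 0 < Real.log y := by linarith only [hy]
  have hy1 : 1 ≤ y := by
    by_contra hne
    push Not at hne
    have := Real.log_neg hy0 hne
    linarith only [hy, this]
  set d₃ : ℕ → ℝ := fun n => if (n : ℝ) ≤ y then 4 * (Real.log n / (n * Real.log y)) else 0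
    with hd₃
  have hd₃0 : ∀ n, 0 ≤ d₃ n := by
    intro n
    simp only [hd₃]
    split_ifs
    · have : 0 ≤ Real.log n := Real.log_natCast_nonneg n
      (clear * - hy; positivity)
    · exact le_rfl
  have hle : ∀ p ∈ P, cMB θ B₀ C S y p ≤ Real.exp ((d₁ p + d₂ p) + d₃ p) := by
    intro p hp
    have hpp := hP p hp
    have hp0 : (0 : ℝ) < p := by exact_mod_cast hpp.pos
    have hp1 : (1 : ℝ) ≤ p := by exact_mod_cast hpp.one_lt.le
    obtain ⟨hx0, hxB⟩ := xB_le hS hy hpp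
    have hB0 : 0 < BqB S y p := lt_of_lt_of_le hx0 hxB
    by_cases hpy : (p : ℝ) ≤ y
    · obtain ⟨hb1, hb2, hb3, hb4⟩ := BqB_bounds (S := S) hy hpp hpy
      have hx1 : xB S y p = 1 / (p : ℝ) := by unfold xB; rw [if_pos hpy]
      have hBlt : BqB S y p < 1 := lt_of_le_of_lt hb4 (Real.rpow_lt_one (by norm_num)
        (by norm_num) (by norm_num))
      by_cases hn : p < n₀ + 1
      · have h3 : d₁ p = Real.log M := by
          simp only [hd₁]
          rw [if_pos hn]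
        have h4 : cMB θ B₀ C S y p ≤ M := by
          unfold cMB
          split_ifs with h
          · have h5 : (BqB S y p) ^ (2 * θ) ≤ 1 := Real.rpow_le_one hB0.le hBlt.le (by linarith only [hθ])
            have h6 : C * (BqB S y p) ^ (2 * θ) ≤ C := mul_le_of_le_one_right hC h5
            have h7 : 2 * (1 - θ) * (BqB S y p - xB S y p) ≤ 2 * 1 * 1 := by
              apply mul_le_mul _ _ (by linarith only [hxB]) (by norm_num)
              · linarith only [hθ]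
              · linarith only [hx0, hBlt]
            linarith only [hM₀, h6, h7]
          · have h5 : (BqB S y p) ^ (1 - θ) ≤ b₂ := Real.rpow_le_rpow hB0.le hb4 hl0.le
            have h6 : (1 + (BqB S y p) ^ (1 - θ)) / (1 - (BqB S y p) ^ (1 - θ)) ≤
                (1 + b₂) / (1 - b₂) := by
              apply div_le_div₀ <;> linarith only [h5, hb₂0, hb₂1]
            linarith only [hC, h6]
        calc cMB θ B₀ C S y p ≤ M := h4
          _ = Real.exp (Real.log M) := (Real.exp_log (by linarith only [hC, hM₀])).symm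
          _ ≤ Real.exp ((d₁ p + d₂ p) + d₃ p) := by
            apply Real.exp_le_exp.2
            rw [h3]
            linarith only [hd₂0 p, hd₃0 p]
      · push Not at hn
        have h1 : BqB S y p ≤ B₀ := by
          refine hb3.trans ?_
          rw [div_le_iff₀ hp0]
          have h2 : 3 / B₀ ≤ n₀ := Nat.le_ceil _
          have h3 : (n₀ : ℝ) ≤ p := by
            have : n₀ ≤ p := by omega
            exact_mod_cast this
          have h4 : 3 / B₀ ≤ p := h2.trans h3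
          rw [div_le_iff₀ hB₀] at h4
          linarith only [h4]
        have h2 : cMB θ B₀ C S y p =
            1 + 2 * (1 - θ) * (BqB S y p - xB S y p) + C * (BqB S y p) ^ (2 * θ) := by
          unfold cMB
          rw [if_pos h1]
        have h3 : C * (BqB S y p) ^ (2 * θ) ≤ d₂ p := by
          simp only [hd₂, hC₃]
          rw [mul_assoc]
          refine mul_le_mul_of_nonneg_left ?_ hC
          calc (BqB S y p) ^ (2 * θ) ≤ (3 / (p : ℝ)) ^ (2 * θ) :=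
                Real.rpow_le_rpow hB0.le hb3 (by linarith only [hθ])
            _ = (3 : ℝ) ^ (2 * θ) * (1 / (p : ℝ) ^ (2 * θ)) := by
                rw [Real.div_rpow (by norm_num) hp0.le]
                ring
            _ ≤ (3 : ℝ) ^ (2 : ℝ) * (1 / (p : ℝ) ^ (θ + 1 / 2)) := by
                apply mul_le_mul
                · exact Real.rpow_le_rpow_of_exponent_le (by norm_num) (by linarith only [hθ1])
                · apply one_div_le_one_div_of_le (by (clear * - hp0; positivity))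
                  exact Real.rpow_le_rpow_of_exponent_le hp1 (by linarith only [hθ])
                · (clear * - hp0; positivity)
                · positivity
            _ = 9 * (1 / (p : ℝ) ^ (θ + 1 / 2)) := by norm_num
        have h4 : 2 * (1 - θ) * (BqB S y p - xB S y p) ≤ d₃ p := by
          simp only [hd₃]
          rw [if_pos hpy, hx1]
          have h5 : 0 ≤ Real.log p / (p * Real.log y) := by
            have : 0 ≤ Real.log p := Real.log_natCast_nonneg p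
            (clear * - hp0 hy; positivity)
          calc 2 * (1 - θ) * (BqB S y p - 1 / (p : ℝ))
              ≤ 2 * 1 * (2 * (Real.log p / (p * Real.log y))) := by
                apply mul_le_mul _ _ (by linarith only [hb1]) (by norm_num)
                · linarith only [hθ]
                · linarith only [hb2]
            _ = 4 * (Real.log p / (p * Real.log y)) := by ring
        have h5 := Real.add_one_le_exp ((d₁ p + d₂ p) + d₃ p)
        have h6 := hd₁0 p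
        rw [h2]
        linarith only [h3, h4, h5, h6]
    · obtain ⟨h1, h2⟩ := BqB_large hS hB₀ hy0 hSy hpy
      have h3 : cMB θ B₀ C S y p = 1 + C * (BqB S y p) ^ (2 * θ) := by
        unfold cMB
        rw [if_pos h1, h2]
        ring
      have h4 : C * (BqB S y p) ^ (2 * θ) ≤ d₂ p := by
        simp only [hd₂, hC₃]
        rw [mul_assoc]
        refine mul_le_mul_of_nonneg_left ?_ hC
        have h5 : BqB S y p = 1 / (S * p) := by unfold BqB; rw [if_neg hpy]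
        push Not at hpy
        have h6 : y ^ (θ - 1 / 2) ≤ (p : ℝ) ^ (θ - 1 / 2) :=
          Real.rpow_le_rpow hy0.le hpy.le (by linarith only [hθ])
        have h7 : (p : ℝ) ^ (2 * θ) = (p : ℝ) ^ (θ + 1 / 2) * (p : ℝ) ^ (θ - 1 / 2) := by
          rw [← Real.rpow_add hp0]
          congr 1
          ring
        have hA : 0 < (p : ℝ) ^ (θ + 1 / 2) := by (clear * - hp0; positivity)
        have hB : 0 < (p : ℝ) ^ (θ - 1 / 2) := by (clear * - hp0; positivity)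
        calc (BqB S y p) ^ (2 * θ) = S ^ (-(2 * θ)) * (1 / (p : ℝ) ^ (2 * θ)) := by
              rw [h5, one_div, Real.inv_rpow (by (clear * - hS hp0; positivity)), Real.mul_rpow hS.le hp0.le,
                Real.rpow_neg hS.le, mul_inv, one_div]
          _ ≤ (p : ℝ) ^ (θ - 1 / 2) * (1 / (p : ℝ) ^ (2 * θ)) := by
              refine mul_le_mul_of_nonneg_right (hSy2.trans h6) (by (clear * - hp0; positivity))
          _ = 1 * (1 / (p : ℝ) ^ (θ + 1 / 2)) := by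
              rw [h7]
              (clear * - hp0; field_simp)
          _ ≤ 9 * (1 / (p : ℝ) ^ (θ + 1 / 2)) := by
              refine mul_le_mul_of_nonneg_right (by norm_num) (by (clear * - hp0; positivity))
      have h5 := Real.add_one_le_exp ((d₁ p + d₂ p) + d₃ p)
      have h6 := hd₁0 p
      have h7 := hd₃0 p
      rw [h3]
      linarith only [h4, h5, h6, h7]
  have hsum3 : ∑ p ∈ P, d₃ p ≤ 4 * (1 + C₁) := by
    have h1 : ∑ p ∈ P, d₃ p = ∑ p ∈ P.filter (fun p : ℕ => (p : ℝ) ≤ y), 4 * (Real.log p / (p * Real.log y)) := by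
      rw [sum_filter]
    rw [h1]
    have hyf : 1 ≤ ⌊y⌋₊ := Nat.one_le_iff_ne_zero.2 (Nat.floor_pos.2 hy1).ne'
    have h2 : (P.filter (fun p : ℕ => (p : ℝ) ≤ y)) ⊆ (Icc 1 ⌊y⌋₊).filter Nat.Prime := by
      intro p hp
      rw [mem_filter] at hp ⊢
      rw [mem_Icc]
      exact ⟨⟨(hP p hp.1).one_lt.le, Nat.le_floor hp.2⟩, hP p hp.1⟩
    have h3 : ∑ p ∈ P.filter (fun p : ℕ => (p : ℝ) ≤ y), 4 * (Real.log p / (p * Real.log y)) ≤
        ∑ p ∈ (Icc 1 ⌊y⌋₊).filter Nat.Prime, 4 * (Real.log p / (p * Real.log y)) := by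
      refine sum_le_sum_of_subset_of_nonneg h2 ?_
      intro p _ _
      have : 0 ≤ Real.log p := Real.log_natCast_nonneg p
      (clear * - hy; positivity)
    refine h3.trans ?_
    have h4 : ∑ p ∈ (Icc 1 ⌊y⌋₊).filter Nat.Prime, 4 * (Real.log p / (p * Real.log y)) =
        4 / Real.log y * ∑ p ∈ (Icc 1 ⌊y⌋₊).filter Nat.Prime, Real.log p / p := by
      rw [mul_sum]
      refine sum_congr rfl fun p hp => ?_
      have hpp : (0 : ℝ) < p := by exact_mod_cast (mem_filter.1 hp).2.pos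
      (clear * - hy hpp; field_simp)
    rw [h4]
    have h5 := hsum ⌊y⌋₊ hyf
    have h6 : Real.log (⌊y⌋₊ : ℝ) ≤ Real.log y :=
      Real.log_le_log (by exact_mod_cast hyf) (Nat.floor_le hy0.le)
    calc 4 / Real.log y * ∑ p ∈ (Icc 1 ⌊y⌋₊).filter Nat.Prime, Real.log p / p
        ≤ 4 / Real.log y * (Real.log y + C₁) :=
          mul_le_mul_of_nonneg_left (by linarith only [h5, h6]) (by (clear * - hy; positivity))
      _ = 4 * (1 + C₁ / Real.log y) := by (clear * - hy hC₁; field_simp)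
      _ ≤ 4 * (1 + C₁) := by
          have : C₁ / Real.log y ≤ C₁ := div_le_self hC₁ (by linarith only [hy])
          linarith only [this]
  calc ∏ p ∈ P, cMB θ B₀ C S y p ≤ ∏ p ∈ P, Real.exp ((d₁ p + d₂ p) + d₃ p) :=
        prod_le_prod (fun p hp => cB_nonneg hθ1 hB₀ hC hS hy0 hy hSy (hP p hp)) hle
    _ = Real.exp (∑ p ∈ P, ((d₁ p + d₂ p) + d₃ p)) := (Real.exp_sum _ _).symm
    _ ≤ Real.exp (∑' n, (d₁ n + d₂ n) + 4 * (1 + C₁)) := by
        apply Real.exp_le_exp.2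
        rw [sum_add_distrib]
        have h1 : ∑ p ∈ P, (d₁ p + d₂ p) ≤ ∑' n, (d₁ n + d₂ n) :=
          hs.sum_le_tsum P (fun n _ => add_nonneg (hd₁0 n) (hd₂0 n))
        linarith only [hsum3, h1]

theorem one_sub_sum_le_prod (Q : Finset ℕ) (x : ℕ → ℝ) (hx : ∀ p ∈ Q, 0 ≤ x p ∧ x p ≤ 1) :
    1 - ∑ p ∈ Q, x p ≤ ∏ p ∈ Q, (1 - x p) := by
  classical
  induction Q using Finset.induction_on with
  | empty => simp
  | insert a Q ha ih =>
    rw [sum_insert ha, prod_insert ha]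
    have h1 := ih (fun p hp => hx p (mem_insert_of_mem hp))
    have h2 := hx a (mem_insert_self a Q)
    have h3 : ∏ p ∈ Q, (1 - x p) ≤ 1 := by
      refine prod_le_one ?_ ?_
      · intro p hp
        have := hx p (mem_insert_of_mem hp)
        linarith
      · intro p hp
        have := hx p (mem_insert_of_mem hp)
        linarith
    nlinarith only [h1, h2, h3]

theorem card_primeFactors_le {q : ℕ} (hq : 0 < q) :
    (q.primeFactors.card : ℝ) ≤ 2 * Real.log q := by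
  have h1 : 2 ^ q.primeFactors.card ≤ q := by
    calc 2 ^ q.primeFactors.card = ∏ _p ∈ q.primeFactors, 2 := by simp
      _ ≤ ∏ p ∈ q.primeFactors, p := by
          refine prod_le_prod' fun p hp => ?_
          exact (Nat.prime_of_mem_primeFactors hp).two_le
      _ ≤ q := Nat.le_of_dvd hq (Nat.prod_primeFactors_dvd q)
  have h2 : ((2 : ℝ) ^ q.primeFactors.card) ≤ q := by exact_mod_cast h1
  have h3 := Real.log_le_log (by positivity) h2
  rw [Real.log_pow] at h3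
  have h4 : (1 / 2 : ℝ) ≤ Real.log 2 := by
    have := Real.log_two_gt_d9
    (clear * - this; linarith)
  have h5 : (0 : ℝ) ≤ q.primeFactors.card := by (clear * -; positivity)
  nlinarith only [h3, h4]

theorem weightB {S y : ℝ} (hS : 0 < S) (hy0 : 0 < y) (hS1 : 1 ≤ S * y) {q : ℕ} (hq : 0 < q)
    (hSy : 4 * Real.log q ≤ S * y) (P : Finset ℕ) (hP : ∀ p ∈ P, p.Prime) :
    ((q.totient : ℝ) / q) ≤ 2 * ∏ p ∈ P with p ∣ q, (1 - xB S y p) := by
  refine (totient_weight_le P hP q).trans ?_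
  set Q : Finset ℕ := P.filter (fun p => p ∣ q) with hQ
  have hQp : ∀ p ∈ Q, p.Prime := fun p hp => hP p (mem_filter.1 hp).1
  have hQd : ∀ p ∈ Q, p ∣ q := fun p hp => (mem_filter.1 hp).2
  rw [← prod_filter_mul_prod_filter_not Q (fun p : ℕ => (p : ℝ) ≤ y) (fun p => 1 - 1 / (p : ℝ)),
    ← prod_filter_mul_prod_filter_not Q (fun p : ℕ => (p : ℝ) ≤ y) (fun p => 1 - xB S y p)]
  have h1 : ∏ p ∈ Q.filter (fun p : ℕ => (p : ℝ) ≤ y), (1 - 1 / (p : ℝ)) =
      ∏ p ∈ Q.filter (fun p : ℕ => (p : ℝ) ≤ y), (1 - xB S y p) := by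
    refine prod_congr rfl fun p hp => ?_
    unfold xB
    rw [if_pos (mem_filter.1 hp).2]
  have hinv : ∀ p ∈ Q, 0 ≤ 1 / (p : ℝ) ∧ 1 / (p : ℝ) ≤ 1 := by
    intro p hp
    have hp1 : (1 : ℝ) ≤ p := by exact_mod_cast (hQp p hp).one_lt.le
    refine ⟨by (clear * - hp1; positivity), ?_⟩
    rw [div_le_one (by linarith only [hp1])]
    exact hp1
  have h2 : ∏ p ∈ Q.filter (fun p : ℕ => ¬ (p : ℝ) ≤ y), (1 - 1 / (p : ℝ)) ≤ 1 := by
    refine prod_le_one ?_ ?_
    · intro p hp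
      have := hinv p (mem_filter.1 hp).1
      linarith only [this]
    · intro p hp
      have := hinv p (mem_filter.1 hp).1
      linarith only [this]
  have h3 : 0 ≤ ∏ p ∈ Q.filter (fun p : ℕ => (p : ℝ) ≤ y), (1 - xB S y p) := by
    rw [← h1]
    refine prod_nonneg fun p hp => ?_
    have := hinv p (mem_filter.1 hp).1
    linarith only [this]
  have hx : ∀ p ∈ Q.filter (fun p : ℕ => ¬ (p : ℝ) ≤ y), 0 ≤ xB S y p ∧ xB S y p ≤ 1 / (S * y) := by
    intro p hp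
    have h4 := (mem_filter.1 hp).2
    unfold xB
    rw [if_neg h4]
    push Not at h4
    have hp0 : (0 : ℝ) < p := hy0.trans h4
    refine ⟨by (clear * - hS hp0; positivity), ?_⟩
    apply one_div_le_one_div_of_le (by positivity)
    (clear * - h4 hS; gcongr)
  have hone : 1 / (S * y) ≤ 1 := by
    rw [div_le_one (by positivity)]
    exact hS1
  have h4 := one_sub_sum_le_prod (Q.filter (fun p : ℕ => ¬ (p : ℝ) ≤ y)) (xB S y)
    (fun p hp => ⟨(hx p hp).1, (hx p hp).2.trans hone⟩)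
  have h5 : ∑ p ∈ Q.filter (fun p : ℕ => ¬ (p : ℝ) ≤ y), xB S y p ≤ 1 / 2 := by
    calc ∑ p ∈ Q.filter (fun p : ℕ => ¬ (p : ℝ) ≤ y), xB S y p
        ≤ (Q.filter (fun p : ℕ => ¬ (p : ℝ) ≤ y)).card • (1 / (S * y)) :=
          sum_le_card_nsmul _ _ _ fun p hp => (hx p hp).2
      _ = ((Q.filter (fun p : ℕ => ¬ (p : ℝ) ≤ y)).card : ℝ) * (1 / (S * y)) := by
          rw [nsmul_eq_mul]
      _ ≤ (2 * Real.log q) * (1 / (S * y)) := by
          refine mul_le_mul_of_nonneg_right ?_ (by positivity)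
          refine le_trans ?_ (card_primeFactors_le hq)
          refine Nat.cast_le.2 (card_le_card ?_)
          intro p hp
          have h6 := (mem_filter.1 hp).1
          exact Nat.mem_primeFactors.2 ⟨hQp p h6, hQd p h6, hq.ne'⟩
      _ ≤ 1 / 2 := by
          rw [mul_one_div, div_le_div_iff₀ (by positivity) (by norm_num)]
          linarith only [hSy]
  rw [h1]
  have h6 : 1 / 2 ≤ ∏ p ∈ Q.filter (fun p : ℕ => ¬ (p : ℝ) ≤ y), (1 - xB S y p) := by linarith only [h4, h5]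
  calc (∏ p ∈ Q.filter (fun p : ℕ => (p : ℝ) ≤ y), (1 - xB S y p)) *
        ∏ p ∈ Q.filter (fun p : ℕ => ¬ (p : ℝ) ≤ y), (1 - 1 / (p : ℝ))
      ≤ (∏ p ∈ Q.filter (fun p : ℕ => (p : ℝ) ≤ y), (1 - xB S y p)) * 1 :=
        mul_le_mul_of_nonneg_left h2 h3
    _ ≤ (∏ p ∈ Q.filter (fun p : ℕ => (p : ℝ) ≤ y), (1 - xB S y p)) *
        (2 * ∏ p ∈ Q.filter (fun p : ℕ => ¬ (p : ℝ) ≤ y), (1 - xB S y p)) :=
        mul_le_mul_of_nonneg_left (by linarith only [h4, h5]) h3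
    _ = _ := by ring

theorem numB1 {E A ε₁ δ : ℝ} (hE : E = 2 / ε₁) (hε₁ : 0 < ε₁) (hδ : 0 < δ) (hA0 : 0 < A)
    {X s : ℝ} (hX : Real.exp (Real.exp (max 4 ((2 * A) ^ (1 / δ)))) ≤ X)
    (hs : (18 * Real.log X) ^ (-1 / ε₁) ≤ s) :
    1 ≤ X ∧ 4 ≤ Real.log (Real.log X) ∧ Real.log X = Real.exp (Real.log (Real.log X)) ∧
    36 ≤ Real.log X ∧ 0 < s ∧ -(E * Real.log (Real.log X)) ≤ Real.log s ∧
    2 * A * (Real.log (Real.log X)) ^ 2 ≤ (Real.log (Real.log X)) ^ (2 + δ) := by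
  set l₀ : ℝ := max 4 ((2 * A) ^ (1 / δ)) with hl₀
  set L : ℝ := Real.log X with hL
  set l : ℝ := Real.log L with hl
  have hX0 : 0 < X := lt_of_lt_of_le (Real.exp_pos _) hX
  have hLge : Real.exp l₀ ≤ L := by
    rw [hL, Real.le_log_iff_exp_le hX0]
    exact hX
  have hL0 : 0 < L := lt_of_lt_of_le (Real.exp_pos _) hLge
  have hlge : l₀ ≤ l := by
    rw [hl, Real.le_log_iff_exp_le hL0]
    exact hLge
  have hl4 : 4 ≤ l := (le_max_left _ _).trans hlge
  have hl1 : 1 ≤ l := by linarith only [hl4]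
  have hLe : L = Real.exp l := (Real.exp_log hL0).symm
  have hX1 : 1 ≤ X := by
    have : 1 ≤ Real.exp (Real.exp l₀) := Real.one_le_exp (Real.exp_pos _).le
    linarith only [hX, this]
  have hlδ : 2 * A ≤ l ^ δ := by
    have h1 : (2 * A) ^ (1 / δ) ≤ l := (le_max_right _ _).trans hlge
    have h2 : ((2 * A) ^ (1 / δ)) ^ δ ≤ l ^ δ := Real.rpow_le_rpow (by positivity) h1 hδ.le
    rw [← Real.rpow_mul (by positivity)] at h2
    rw [show 1 / δ * δ = 1 by field_simp, Real.rpow_one] at h2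
    exact h2
  have hl2δ : 2 * A * l ^ 2 ≤ l ^ (2 + δ) := by
    rw [Real.rpow_add (by linarith only [hl4])]
    have : l ^ (2 : ℝ) = l ^ 2 := by norm_num
    rw [this, mul_comm]
    exact mul_le_mul_of_nonneg_left hlδ (sq_nonneg l)
  have h36 : 36 ≤ L := by
    have h2 : Real.exp 4 ≤ L := by rw [hLe]; exact Real.exp_le_exp.2 hl4
    have h3 : Real.exp 4 = (Real.exp 1) ^ 4 := by rw [← Real.exp_nat_mul]; norm_num
    have h4 : (2.7 : ℝ) ≤ Real.exp 1 := by
      have := Real.exp_one_gt_d9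
      linarith only [this]
    have h5 : (2.7 : ℝ) ^ 4 ≤ (Real.exp 1) ^ 4 := pow_le_pow_left₀ (by norm_num) h4 4
    rw [← h3] at h5
    norm_num at h5
    linarith only [h2, h5]
  have hsE : Real.exp (-(E * l)) ≤ s := by
    refine le_trans ?_ hs
    have h1 : 18 * L ≤ L ^ 2 := by nlinarith only [h36]
    have h2 : (L ^ 2) ^ (-1 / ε₁) ≤ (18 * L) ^ (-1 / ε₁) :=
      Real.rpow_le_rpow_of_nonpos (by (clear * - hL0; positivity)) h1
        (div_nonpos_of_nonpos_of_nonneg (by norm_num) hε₁.le)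
    refine le_trans (le_of_eq ?_) h2
    rw [Real.rpow_def_of_pos (by positivity), Real.log_pow]
    congr 1
    rw [hE, ← hl]
    push_cast
    field_simp
  have hs0 : 0 < s := lt_of_lt_of_le (Real.exp_pos _) hsE
  have hlogs : -(E * l) ≤ Real.log s := by
    rw [Real.le_log_iff_exp_le hs0]
    exact hsE
  exact ⟨hX1, hl4, hLe, h36, hs0, hlogs, hl2δ⟩

end Vale.P028
end

section

/-!
# Core estimate: one of the cofactors is `≥ exp (A (log log X) log (1/s))`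
-/

namespace Vale.P028

open Finset

theorem numC1 {E ε₁ : ℝ} (hE : E = 2 / ε₁) (hε₁ : 0 < ε₁)
    {X s : ℝ} (hX : Real.exp (Real.exp 4) ≤ X)
    (hs : (18 * Real.log X) ^ (-1 / ε₁) ≤ s) :
    1 ≤ X ∧ 4 ≤ Real.log (Real.log X) ∧ Real.log X = Real.exp (Real.log (Real.log X)) ∧
    36 ≤ Real.log X ∧ 0 < s ∧ -(E * Real.log (Real.log X)) ≤ Real.log s := by
  have h := numB1 (A := 1 / 4) (δ := 1) hE hε₁ one_pos (by (clear * -; norm_num)) (X := X) (s := s) (by
    refine le_trans (le_of_eq ?_) hX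
    congr 2
    norm_num) hs
  obtain ⟨h1, h2, h3, h4, h5, h6, -⟩ := h
  exact ⟨h1, h2, h3, h4, h5, h6⟩

end Vale.P028
end

section
attribute [-instance] ProperSMul.toContinuousSMul IsTopologicalTorsor.toContinuousSMul IdemSemiring.toCanonicallyOrderedAdd IdemSemiring.toMulLeftMono IdemSemiring.toMulRightMono AddQuantale.instAddLeftMono AddQuantale.instAddRightMono Quantale.instMulLeftMono Quantale.instMulRightMono FiniteDimensional.rclike_to_real IsScalarTower.complexToReal FiniteDimensional.complexToReal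

/-!
# Dyadic summation with summable losses, and the levels argument for a general hypothesis `H`
-/

namespace Vale.P028

open Finset

/-- level index: `3^i ≤ log q < 3^(i+1)` -/
noncomputable def lv (q : ℕ) : ℕ := ⌊Real.logb 3 (Real.log q)⌋₊

theorem lv_spec {q : ℕ} (hq : 3 ≤ q) :
    (3 : ℝ) ^ lv q ≤ Real.log q ∧ Real.log q < (3 : ℝ) ^ (lv q + 1) := by
  have h1 : 1 < Real.log q := by
    have h2 : Real.exp 1 < 3 := lt_trans Real.exp_one_lt_d9 (by norm_num)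
    rw [Real.lt_log_iff_exp_lt (by positivity)]
    refine h2.trans_le ?_
    exact_mod_cast hq
  have h0 : 0 < Real.log q := by linarith only [h1]
  have h3 : 0 ≤ Real.logb 3 (Real.log q) := Real.logb_nonneg (by norm_num) h1.le
  constructor
  · have := Nat.floor_le h3
    rw [← Real.rpow_natCast, ← Real.le_logb_iff_rpow_le (by norm_num) h0]
    exact this
  · have := Nat.lt_floor_add_one (Real.logb 3 (Real.log q))
    rw [← Real.rpow_natCast, ← Real.logb_lt_iff_lt_rpow (by norm_num) h0]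
    push_cast
    exact this

end Vale.P028
end

section

/-!
# Block bounds for the improved main theorem
-/

namespace Vale.P028

open Finset

theorem tot_le_one (q : ℕ) : (q.totient : ℝ) / q ≤ 1 := by
  rcases Nat.eq_zero_or_pos q with h | h
  · subst h; simp only [Nat.totient_zero, CharP.cast_eq_zero, div_zero, zero_le_one]
  · rw [div_le_one (by exact_mod_cast h)]
    exact_mod_cast Nat.totient_le q

theorem tot_nonneg (q : ℕ) : 0 ≤ (q.totient : ℝ) / q := by positivity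

/-- the hard range of `t = log (1/s)` -/
theorem hard_range {ε₁ M t : ℝ} (hε₁ : 0 < ε₁) (ht : 0 < t) (h : Real.exp (ε₁ * t) < M * t) :
    0 < M ∧ t ≤ 2 / ε₁ * Real.log (2 * M / ε₁) := by
  have hM : 0 < M := by
    by_contra hne
    push Not at hne
    have h1 : M * t ≤ 0 := mul_nonpos_of_nonpos_of_nonneg hne ht.le
    linarith only [h, h1, Real.exp_pos (ε₁ * t)]
  refine ⟨hM, ?_⟩
  have h1 : ε₁ * t / 2 + 1 ≤ Real.exp (ε₁ * t / 2) := Real.add_one_le_exp _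
  have h2 : Real.exp (ε₁ * t) = Real.exp (ε₁ * t / 2) * Real.exp (ε₁ * t / 2) := by
    rw [← Real.exp_add]
    congr 1
    ring
  have h3 : Real.exp (ε₁ * t / 2) * (ε₁ * t / 2) ≤ Real.exp (ε₁ * t) := by
    rw [h2]
    exact mul_le_mul_of_nonneg_left (by linarith only [h1]) (Real.exp_pos _).le
  have h4 : Real.exp (ε₁ * t / 2) < 2 * M / ε₁ := by
    rw [lt_div_iff₀ hε₁]
    have h5 : Real.exp (ε₁ * t / 2) * (ε₁ * t / 2) < M * t := lt_of_le_of_lt h3 h
    have h6 : (Real.exp (ε₁ * t / 2) * ε₁) * t < (2 * M) * t := by linarith only [h, h3]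
    exact lt_of_mul_lt_mul_right h6 ht.le
  have h5 : ε₁ * t / 2 < Real.log (2 * M / ε₁) := by
    rw [Real.lt_log_iff_exp_lt (by positivity)]
    exact h4
  calc t = 2 / ε₁ * (ε₁ * t / 2) := by field_simp
    _ ≤ 2 / ε₁ * Real.log (2 * M / ε₁) := mul_le_mul_of_nonneg_left h5.le (by positivity)

theorem log_inv_ge_one {s : ℝ} (hs : 0 < s) (hs4 : s ≤ 1 / 4) : 1 ≤ Real.log (1 / s) := by
  have h1 : Real.log 4 ≤ Real.log (1 / s) := by
    apply Real.log_le_log (by norm_num)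
    rw [le_div_iff₀ hs]
    linarith
  have h2 : Real.log 4 = 2 * Real.log 2 := by
    rw [show (4 : ℝ) = 2 ^ 2 by norm_num, Real.log_pow]
    norm_num
  have := Real.log_two_gt_d9
  linarith only [h1, h2, this]

theorem rpow_neg_eq_exp {s ε₁ : ℝ} (hs : 0 < s) :
    s ^ (-ε₁) = Real.exp (ε₁ * Real.log (1 / s)) := by
  rw [Real.rpow_def_of_pos hs, one_div, Real.log_inv]
  congr 1
  ring

theorem geom_half {c : ℝ} (hc : 0 < c) (J : ℕ) :
    ∑ j ∈ range J, ((1 / 2 : ℝ) ^ c) ^ j ≤ (1 - (1 / 2 : ℝ) ^ c)⁻¹ := by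
  have hc1 : (1 / 2 : ℝ) ^ c < 1 := Real.rpow_lt_one (by (clear * -; norm_num)) (by norm_num) hc
  have hc0 : 0 < (1 / 2 : ℝ) ^ c := Real.rpow_pos_of_pos (by norm_num) _
  rw [← tsum_geometric_of_lt_one hc0.le hc1]
  exact (summable_geometric_of_lt_one hc0.le hc1).sum_le_tsum _ (fun j _ => by positivity)

theorem half_pow_rpow (c : ℝ) (j : ℕ) :
    ((1 / 2 : ℝ) ^ j) ^ (1 + c) = ((1 / 2 : ℝ) ^ c) ^ j * (1 / 2 : ℝ) ^ j := by
  have hs0 : (0 : ℝ) < (1 / 2 : ℝ) ^ j := by positivity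
  rw [Real.rpow_add hs0, Real.rpow_one, ← Real.rpow_natCast, ← Real.rpow_natCast,
    ← Real.rpow_mul (by norm_num), ← Real.rpow_mul (by norm_num), mul_comm (j : ℝ) c, mul_comm]

end Vale.P028
end

section
attribute [-instance] ProperSMul.toContinuousSMul IsTopologicalTorsor.toContinuousSMul IdemSemiring.toCanonicallyOrderedAdd IdemSemiring.toMulLeftMono IdemSemiring.toMulRightMono AddQuantale.instAddLeftMono AddQuantale.instAddRightMono Quantale.instMulLeftMono Quantale.instMulRightMono FiniteDimensional.rclike_to_real IsScalarTower.complexToReal FiniteDimensional.complexToReal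

/-!
# Unbalanced pairs
-/

namespace Vale.P028

open Finset

/-- unbalanced pairs -/
theorem typeU : ∃ C > 0, ∀ (s : ℝ) (N : ℕ) (ψ f : ℕ → ℝ), 0 < s → s ≤ 1 → (∀ q, 0 ≤ ψ q) →
    (∀ q, 0 ≤ f q ∧ f q ≤ ψ q * (q.totient / q)) →
    psum (UB ψ s) N f f ≤
      C * s ^ (7 / 5 : ℝ) * ((∑ q ∈ Icc 1 N, f q) + (∑ q ∈ Icc 1 N, f q) ^ 2) := by
  obtain ⟨C, hC, hT⟩ := T1 (θ := 8 / 15) (by norm_num) (by norm_num)
  refine ⟨2 * C, by positivity, ?_⟩
  intro s N ψ f hs hs1 hψ hf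
  have hf0 : ∀ q, 0 ≤ f q := fun q => (hf q).1
  set F := ∑ q ∈ Icc 1 N, f q with hF
  have hF0 : 0 ≤ F := sum_nonneg fun q _ => hf0 q
  have h1 := hT ψ ψ f f (s ^ 2) s N (by positivity) hs hψ hψ hf hf
  have h2 := hT ψ ψ f f s (s ^ 2) N hs (by positivity) hψ hψ hf hf
  have e1 : (s ^ 2 * s) ^ (1 - 8 / 15 : ℝ) = s ^ (7 / 5 : ℝ) := by
    rw [show s ^ 2 * s = s ^ (3 : ℝ) by
      rw [show (3 : ℝ) = ((3 : ℕ) : ℝ) by norm_num, Real.rpow_natCast]; ring]
    rw [← Real.rpow_mul hs.le]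
    norm_num
  have e2 : (s * s ^ 2) ^ (1 - 8 / 15 : ℝ) = s ^ (7 / 5 : ℝ) := by
    rw [mul_comm]; exact e1
  have e3 : (F * F) ^ (8 / 15 : ℝ) ≤ F + F ^ 2 := by
    rw [show F * F = F ^ (2 : ℝ) by rw [Real.rpow_two]; ring, ← Real.rpow_mul hF0]
    exact rpow_le_add_sq hF0 (by norm_num) (by norm_num)
  rw [e1] at h1
  rw [e2] at h2
  have h3 := psum_or_le (UB ψ s)
    (fun q r => (cofac r q : ℝ) * ψ q ≤ s ^ 2 ∧ (cofac q r : ℝ) * ψ r ≤ s)
    (fun q r => (cofac r q : ℝ) * ψ q ≤ s ∧ (cofac q r : ℝ) * ψ r ≤ s ^ 2) N f f hf0 hf0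
    (by
      intro q r h
      obtain ⟨a, b, c | c⟩ := h
      · exact Or.inl ⟨c, b⟩
      · exact Or.inr ⟨a, c⟩)
  have hs7 : 0 ≤ s ^ (7 / 5 : ℝ) := Real.rpow_nonneg hs.le _
  have h4 : C * s ^ (7 / 5 : ℝ) * (F * F) ^ (8 / 15 : ℝ) ≤ C * s ^ (7 / 5 : ℝ) * (F + F ^ 2) := by
    (clear * - e3 hC hs; gcongr)
  calc psum (UB ψ s) N f f ≤ _ := h3
    _ ≤ C * s ^ (7 / 5 : ℝ) * (F + F ^ 2) + C * s ^ (7 / 5 : ℝ) * (F + F ^ 2) :=
        add_le_add (h1.trans h4) (h2.trans h4)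
    _ = _ := by ring

/-- the numerical fact behind the hard range -/
theorem hard_num {A δ ε₁ : ℝ} (hA : 0 < A) (hδ : 0 < δ) (hε₁ : 0 < ε₁) :
    ∃ l₀ : ℝ, 1 ≤ l₀ ∧ ∀ l t : ℝ, l₀ ≤ l → 1 ≤ t → Real.exp (ε₁ * t) < A * l * t →
      A * l * t + t + 1 ≤ l ^ (1 + δ) := by
  set κ : ℝ := (2 * A / ε₁) ^ (δ / 2) / (δ / 2) with hκ
  have hκ0 : 0 < κ := by (clear * - hA hε₁ hδ; positivity)
  set C₆ : ℝ := (A + 1) * (2 / ε₁ * κ) + 1 with hC₆
  have hC₆0 : 0 < C₆ := by positivity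
  refine ⟨max 1 (C₆ ^ (2 / δ)), le_max_left _ _, ?_⟩
  intro l t hlge ht1 h
  have hl1 : 1 ≤ l := (le_max_left _ _).trans hlge
  have hl2 : C₆ ≤ l ^ (δ / 2) := by
    have h1 : C₆ ^ (2 / δ) ≤ l := (le_max_right _ _).trans hlge
    have h2 : (C₆ ^ (2 / δ)) ^ (δ / 2) ≤ l ^ (δ / 2) :=
      Real.rpow_le_rpow (by positivity) h1 (by positivity)
    rw [← Real.rpow_mul hC₆0.le] at h2
    rw [show 2 / δ * (δ / 2) = 1 by (clear * - hδ; field_simp), Real.rpow_one] at h2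
    exact h2
  obtain ⟨hM, ht⟩ := hard_range hε₁ (by linarith only [ht1]) h
  have hlogM : Real.log (2 * (A * l) / ε₁) ≤ κ * l ^ (δ / 2) := by
    have h3 := Real.log_le_rpow_div (x := 2 * (A * l) / ε₁) (ε := δ / 2) (by (clear * - hA hl1 hε₁; positivity))
      (by positivity)
    refine h3.trans (le_of_eq ?_)
    rw [hκ, show 2 * (A * l) / ε₁ = (2 * A / ε₁) * l by ring,
      Real.mul_rpow (by positivity) (by positivity)]
    ring
  have ht2 : t ≤ 2 / ε₁ * κ * l ^ (δ / 2) := by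
    calc t ≤ 2 / ε₁ * Real.log (2 * (A * l) / ε₁) := ht
      _ ≤ 2 / ε₁ * (κ * l ^ (δ / 2)) := mul_le_mul_of_nonneg_left hlogM (by positivity)
      _ = _ := by ring
  have hlδ1 : 1 ≤ l ^ (δ / 2) := Real.one_le_rpow hl1 (by positivity)
  have hpow : l ^ (1 + δ) = l * (l ^ (δ / 2) * l ^ (δ / 2)) := by
    rw [← Real.rpow_add (by linarith only [hl1]), ← Real.rpow_one_add' (by linarith only [hl1]) (by positivity)]
    congr 1
    ring
  have h4 : A * l * t + t ≤ (A + 1) * l * t := by nlinarith only [ht1, hl1]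
  have h5 : (A + 1) * l * t ≤ (A + 1) * l * (2 / ε₁ * κ * l ^ (δ / 2)) :=
    mul_le_mul_of_nonneg_left ht2 (by (clear * - hA hl1; positivity))
  have h6 : (1 : ℝ) ≤ l * l ^ (δ / 2) := by nlinarith only [hA, hC₆0, ht1, hl2, h4, h5]
  have h7 : C₆ * (l * l ^ (δ / 2)) ≤ l ^ (δ / 2) * (l * l ^ (δ / 2)) :=
    mul_le_mul_of_nonneg_right hl2 (by (clear * - hl1; positivity))
  have h8 : C₆ * (l * l ^ (δ / 2)) = (A + 1) * l * (2 / ε₁ * κ * l ^ (δ / 2)) +
      l * l ^ (δ / 2) := by rw [hC₆]; ring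
  rw [hpow]
  linarith only [h4, h5, h6, h7]

/-- the near part -/
theorem near_part : ∃ C ε₁ : ℝ, 0 < C ∧ 0 < ε₁ ∧ ∀ (γ s : ℝ), 0 < s → s ≤ 1 / 1000 →
    ∀ (N : ℕ) (ψ f : ℕ → ℝ), (∀ q, 0 ≤ f q ∧ f q ≤ ψ q) →
      psum (fun q r => Rel γ ψ s q r ∧ Far γ s (cofac q r) (cofac r q) ∧
          cofac q r ≤ ⌊Real.exp (s ^ (-ε₁))⌋₊ ∧ cofac r q ≤ ⌊Real.exp (s ^ (-ε₁))⌋₊) N f f ≤
        C * s ^ (1 + 1 / 64 : ℝ) * ((∑ q ∈ Icc 1 N, f q) + (∑ q ∈ Icc 1 N, f q) ^ 2) := by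
  obtain ⟨C₁, hC₁, k, hk, hnear⟩ := nearG
  obtain ⟨ε₁, hε⟩ : ∃ ε₁ : ℝ, ε₁ = 1 / (64 * (k + 1)) := ⟨_, rfl⟩
  have hε₁ : 0 < ε₁ := by rw [hε]; (clear * - hk; positivity)
  have hkε : k * ε₁ ≤ 1 / 64 := by
    rw [hε, mul_one_div, div_le_iff₀ (by (clear * - hk; positivity))]
    linarith only []
  refine ⟨C₁ * 2 ^ k, ε₁, by positivity, hε₁, ?_⟩
  intro γ s hs hs3 N ψ f hf
  set F : ℝ := ∑ q ∈ Icc 1 N, f q with hFdef
  have hf0 : ∀ q, 0 ≤ f q := fun q => (hf q).1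
  have hF0 : 0 ≤ F := sum_nonneg fun q _ => hf0 q
  have hs1 : s ≤ 1 := by linarith only [hs3]
  set V : ℕ := ⌊Real.exp (s ^ (-ε₁))⌋₊ with hV
  have hsε0 : 0 ≤ s ^ (-ε₁) := Real.rpow_nonneg hs.le _
  have hsε1 : 1 ≤ s ^ (-ε₁) := Real.one_le_rpow_of_pos_of_le_one_of_nonpos hs hs1 (by linarith only [hε₁])
  have hV1 : 1 ≤ V := by
    apply Nat.le_floor
    rw [Nat.cast_one]
    exact Real.one_le_exp hsε0
  have hVle : (V : ℝ) ≤ Real.exp (s ^ (-ε₁)) := Nat.floor_le (Real.exp_pos _).le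
  have hlogV : Real.log V ≤ s ^ (-ε₁) := by
    rw [Real.log_le_iff_le_exp (by exact_mod_cast hV1)]
    exact hVle
  have hlogV0 : 0 ≤ Real.log V := Real.log_natCast_nonneg V
  have h1 := hnear γ s hs hs3 V N ψ f hV1 hf
  have h2 : (1 + Real.log V) ^ k ≤ 2 ^ k * s ^ (-(1 / 64) : ℝ) := by
    calc (1 + Real.log V) ^ k ≤ (2 * s ^ (-ε₁)) ^ k := by
          apply Real.rpow_le_rpow (by linarith only [hlogV0]) (by linarith only [hsε1, hlogV]) hk
      _ = 2 ^ k * s ^ (-(k * ε₁)) := by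
          rw [Real.mul_rpow (by norm_num) hsε0, ← Real.rpow_mul hs.le]
          congr 2
          ring
      _ ≤ 2 ^ k * s ^ (-(1 / 64) : ℝ) := by
          apply mul_le_mul_of_nonneg_left _ (by positivity)
          exact Real.rpow_le_rpow_of_exponent_ge hs hs1 (by linarith only [hkε])
  have h3 : s ^ (-(1 / 64) : ℝ) * s ^ (33 / 32 : ℝ) = s ^ (1 + 1 / 64 : ℝ) := by
    rw [← Real.rpow_add hs]
    (clear * -; norm_num)
  have h4 : F ^ (33 / 32 : ℝ) ≤ F + F ^ 2 := rpow_le_add_sq hF0 (by norm_num) (by norm_num)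
  have h5 : 0 ≤ s ^ (33 / 32 : ℝ) := Real.rpow_nonneg hs.le _
  have h6 : 0 ≤ s ^ (-(1 / 64) : ℝ) := Real.rpow_nonneg hs.le _
  have h7 : (0 : ℝ) ≤ 2 ^ k := by positivity
  have h8 : 0 ≤ F ^ (33 / 32 : ℝ) := Real.rpow_nonneg hF0 _
  calc _ ≤ C₁ * (1 + Real.log V) ^ k * s ^ (33 / 32 : ℝ) * F ^ (33 / 32 : ℝ) := h1
    _ ≤ C₁ * (2 ^ k * s ^ (-(1 / 64) : ℝ)) * s ^ (33 / 32 : ℝ) * (F + F ^ 2) := by (clear * - h2 hC₁ hs h4 hF0; gcongr)
    _ = C₁ * 2 ^ k * (s ^ (-(1 / 64) : ℝ) * s ^ (33 / 32 : ℝ)) * (F + F ^ 2) := by ring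
    _ = C₁ * 2 ^ k * s ^ (1 + 1 / 64 : ℝ) * (F + F ^ 2) := by rw [h3]

/-- the size of the cofactors in class I -/
theorem classI_size {ψ : ℕ → ℝ} (hψ : ∀ q, 0 ≤ ψ q) {q r : ℕ} {s l δ : ℝ}
    (hψq : ψ q ≤ Real.exp (-l ^ (1 + δ))) (hψr : ψ r ≤ Real.exp (-l ^ (1 + δ)))
    (hmax : s / 2 < max ((cofac r q : ℝ) * ψ q) ((cofac q r : ℝ) * ψ r)) :
    s / 2 * Real.exp (l ^ (1 + δ)) ≤ max (cofac q r : ℝ) (cofac r q : ℝ) := by
  set m : ℝ := max (cofac q r : ℝ) (cofac r q : ℝ) with hm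
  have hm1 : (cofac q r : ℝ) ≤ m := le_max_left _ _
  have hm2 : (cofac r q : ℝ) ≤ m := le_max_right _ _
  have hm0 : 0 ≤ m := le_trans (Nat.cast_nonneg _) hm1
  have h5 : max ((cofac r q : ℝ) * ψ q) ((cofac q r : ℝ) * ψ r) ≤
      m * Real.exp (-l ^ (1 + δ)) := by
    refine max_le ?_ ?_
    · exact mul_le_mul hm2 hψq (hψ q) hm0
    · exact mul_le_mul hm1 hψr (hψ r) hm0
  have h6 : s / 2 ≤ m * Real.exp (-l ^ (1 + δ)) := hmax.le.trans h5
  calc s / 2 * Real.exp (l ^ (1 + δ))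
      ≤ (m * Real.exp (-l ^ (1 + δ))) * Real.exp (l ^ (1 + δ)) :=
        mul_le_mul_of_nonneg_right h6 (Real.exp_pos _).le
    _ = m := by
        rw [mul_assoc, ← Real.exp_add, neg_add_cancel, Real.exp_zero, mul_one]

/-- far pairs, class I (from the far theorem) -/
theorem typeA_of_core {δ : ℝ} (hδ : 0 < δ)
    (hcore : ∀ ε₁ : ℝ, 0 < ε₁ → ∃ θ c A C X₀ : ℝ, 1 / 2 < θ ∧ θ < 1 ∧ 0 < c ∧ 0 < A ∧ 0 < C ∧
      ∀ γ X s V₀ : ℝ, X₀ ≤ X → (18 * Real.log X) ^ (-1 / ε₁) ≤ s → s ≤ 1 / 1000 →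
        Real.exp (A * Real.log (Real.log X) * Real.log (1 / s)) ≤ V₀ →
      ∀ (N : ℕ) (ψ f : ℕ → ℝ), (∀ q, 0 ≤ ψ q) →
        (∀ q, 0 ≤ f q ∧ f q ≤ ψ q * (q.totient / q)) →
        (∀ q, f q ≠ 0 → X ≤ q ∧ (q : ℝ) ≤ X ^ 9) →
        psum (fun q r => Rel γ ψ s q r ∧ Far γ s (cofac q r) (cofac r q) ∧
          V₀ ≤ max (cofac q r : ℝ) (cofac r q : ℝ)) N f f ≤
        C * s ^ (1 + c) * (∑ q ∈ Icc 1 N, f q) ^ (2 * θ)) :
    ∃ C c X₀ : ℝ, 0 < C ∧ 0 < c ∧
      ∀ γ X s : ℝ, X₀ ≤ X → 0 < s → s ≤ 1 / 1000 →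
      ∀ (N : ℕ) (ψ f : ℕ → ℝ), (∀ q, 0 ≤ ψ q) →
        (∀ q, 0 ≤ f q ∧ f q ≤ ψ q * (q.totient / q)) →
        (∀ q, f q ≠ 0 → X ≤ q ∧ (q : ℝ) ≤ X ^ 9 ∧
          ψ q ≤ Real.exp (-(Real.log (Real.log X)) ^ (1 + δ))) →
        psum (TA γ ψ s) N f f ≤
          C * s ^ (1 + c) * ((∑ q ∈ Icc 1 N, f q) + (∑ q ∈ Icc 1 N, f q) ^ 2) := by
  classical
  obtain ⟨C₁, ε₁, hC₁, hε₁, hnear⟩ := near_part
  obtain ⟨θ, c₂, A, C₂, X₀, hθ, hθ1, hc₂, hA, hC₂, hB⟩ := hcore ε₁ hε₁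
  obtain ⟨l₀, hl₀1, hl₀⟩ := hard_num hA hδ hε₁
  refine ⟨C₁ + C₂, min (1 / 64) c₂, max (max X₀ 3) (Real.exp (Real.exp l₀)),
    by positivity, lt_min (by norm_num) hc₂, ?_⟩
  intro γ X s hX hs hs3 N ψ f hψ hf hsupp
  have hX3 : 3 ≤ X := ((le_max_right _ _).trans (le_max_left _ _)).trans hX
  have hX0' : X₀ ≤ X := ((le_max_left _ _).trans (le_max_left _ _)).trans hX
  have hXe : Real.exp (Real.exp l₀) ≤ X := (le_max_right _ _).trans hX
  have hXpos : 0 < X := by linarith only [hX3]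
  have hlogX : 0 < Real.log X := Real.log_pos (by linarith only [hX3])
  have hLge : Real.exp l₀ ≤ Real.log X := by
    rw [Real.le_log_iff_exp_le hXpos]
    exact hXe
  have hlge : l₀ ≤ Real.log (Real.log X) := by
    rw [Real.le_log_iff_exp_le ((Real.exp_pos _).trans_le hLge)]
    exact hLge
  set F : ℝ := ∑ q ∈ Icc 1 N, f q with hFdef
  have hf0 : ∀ q, 0 ≤ f q := fun q => (hf q).1
  have hF0 : 0 ≤ F := sum_nonneg fun q _ => hf0 q
  have hFF : 0 ≤ F + F ^ 2 := by (clear * - hF0; positivity)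
  have hfψ : ∀ q, f q ≤ ψ q := by
    intro q
    refine (hf q).2.trans ?_
    calc ψ q * (q.totient / q) ≤ ψ q * 1 := by
          gcongr
          · exact hψ q
          · exact tot_le_one q
      _ = ψ q := mul_one _
  have hs1 : s ≤ 1 := by linarith only [hs3]
  have hs4 : s ≤ 1 / 4 := by linarith only [hs3]
  obtain ⟨c, hc⟩ : ∃ c, c = min (1 / 64) c₂ := ⟨_, rfl⟩
  rw [← hc]
  have hcc1 : c ≤ 1 / 64 := by rw [hc]; exact min_le_left _ _
  have hcc2 : c ≤ c₂ := by rw [hc]; exact min_le_right _ _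
  have hp0 : 0 ≤ s ^ (1 + c) := (Real.rpow_pos_of_pos hs _).le
  have hp1 : s ^ (1 + 1 / 64 : ℝ) ≤ s ^ (1 + c) :=
    Real.rpow_le_rpow_of_exponent_ge hs hs1 (by linarith only [hcc1])
  have hp2 : s ^ (1 + c₂) ≤ s ^ (1 + c) :=
    Real.rpow_le_rpow_of_exponent_ge hs hs1 (by linarith only [hcc2])
  -- the near part
  obtain ⟨V, hV⟩ : ∃ V : ℕ, V = ⌊Real.exp (s ^ (-ε₁))⌋₊ := ⟨_, rfl⟩
  have hnearpart : psum (fun q r => Rel γ ψ s q r ∧ Far γ s (cofac q r) (cofac r q) ∧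
          cofac q r ≤ V ∧ cofac r q ≤ V) N f f ≤ C₁ * s ^ (1 + c) * (F + F ^ 2) := by
    rw [hV]
    refine (hnear γ s hs hs3 N ψ f (fun q => ⟨hf0 q, hfψ q⟩)).trans ?_
    (clear * - hp1 hC₁ hF0; gcongr)
  have hC₂0 : 0 ≤ C₂ * s ^ (1 + c) * (F + F ^ 2) := by (clear * - hC₂ hs hF0; positivity)
  -- near + far
  have hsplit : ∀ V₀ : ℝ, (∀ q r, f q ≠ 0 → f r ≠ 0 → TA γ ψ s q r → ¬ (cofac q r ≤ V ∧
      cofac r q ≤ V) → V₀ ≤ max (cofac q r : ℝ) (cofac r q : ℝ)) →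
      psum (TA γ ψ s) N f f ≤
      psum (fun q r => Rel γ ψ s q r ∧ Far γ s (cofac q r) (cofac r q) ∧
          cofac q r ≤ V ∧ cofac r q ≤ V) N f f +
      psum (fun q r => Rel γ ψ s q r ∧ Far γ s (cofac q r) (cofac r q) ∧
          V₀ ≤ max (cofac q r : ℝ) (cofac r q : ℝ)) N f f := by
    intro V₀ hV₀
    have h1 : psum (TA γ ψ s) N f f ≤ psum (fun q r => TA γ ψ s q r ∧ f q ≠ 0 ∧ f r ≠ 0) N f f := by
      apply psum_mono _ _ _ _ _ _ _ hf0 hf0
      rintro q _ r _ hR hne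
      exact ⟨⟨hR, left_ne_zero_of_mul hne, right_ne_zero_of_mul hne⟩, le_rfl⟩
    refine h1.trans ?_
    apply psum_or_le _ _ _ _ _ _ hf0 hf0
    rintro q r ⟨hR, hq, hr⟩
    by_cases h : cofac q r ≤ V ∧ cofac r q ≤ V
    · exact Or.inl ⟨hR.1, hR.2.1, h⟩
    · exact Or.inr ⟨hR.1, hR.2.1, hV₀ q r hq hr hR h⟩
  have hfin : ∀ Y Z : ℝ, Y ≤ C₁ * s ^ (1 + c) * (F + F ^ 2) →
      Z ≤ C₂ * s ^ (1 + c) * (F + F ^ 2) →
      Y + Z ≤ (C₁ + C₂) * s ^ (1 + c) * (F + F ^ 2) := by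
    intro Y Z hY hZ
    calc Y + Z ≤ _ := add_le_add hY hZ
      _ = _ := by ring
  have hVlt : ∀ n : ℕ, ¬ n ≤ V → Real.exp (s ^ (-ε₁)) ≤ n := by
    intro n hn
    push Not at hn
    rw [hV] at hn
    exact (Nat.lt_of_floor_lt hn).le
  rcases le_or_gt ((18 * Real.log X) ^ (-1 / ε₁)) s with hcase | hcase
  · have hcore' : ∀ V₀, Real.exp (A * Real.log (Real.log X) * Real.log (1 / s)) ≤ V₀ →
            psum (fun q r => Rel γ ψ s q r ∧ Far γ s (cofac q r) (cofac r q) ∧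
              V₀ ≤ max (cofac q r : ℝ) (cofac r q : ℝ)) N f f ≤
              C₂ * s ^ (1 + c) * (F + F ^ 2) := by
      intro V₀ hV₀
      have h4 : F ^ (2 * θ) ≤ F + F ^ 2 := rpow_le_add_sq hF0 (by linarith only [hθ]) (by linarith only [hθ1])
      have h5 : 0 ≤ F ^ (2 * θ) := Real.rpow_nonneg hF0 _
      calc _ ≤ C₂ * s ^ (1 + c₂) * F ^ (2 * θ) :=
            hB γ X s V₀ hX0' hcase hs3 hV₀ N ψ f hψ hf
              (fun q hq => ⟨(hsupp q hq).1, (hsupp q hq).2.1⟩)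
        _ ≤ C₂ * s ^ (1 + c) * (F + F ^ 2) := by (clear * - hp2 hC₂ h4 hF0 hs; gcongr)
    rcases lt_or_ge (s ^ (-ε₁)) (A * Real.log (Real.log X) * Real.log (1 / s)) with h | h
    · -- the hard range
      have ht1 := log_inv_ge_one hs hs4
      rw [rpow_neg_eq_exp hs] at h
      have hmain := hl₀ _ _ hlge ht1 h
      have hV0 : Real.exp (A * Real.log (Real.log X) * Real.log (1 / s)) ≤
          s / 2 * Real.exp (Real.log (Real.log X) ^ (1 + δ)) := by
        have h4 : s / 2 * Real.exp (Real.log (Real.log X) ^ (1 + δ)) =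
            Real.exp (Real.log s - Real.log 2 + Real.log (Real.log X) ^ (1 + δ)) := by
          rw [Real.exp_add, Real.exp_sub, Real.exp_log hs, Real.exp_log (by norm_num)]
        rw [h4]
        apply Real.exp_le_exp.2
        have h5 : Real.log s = -Real.log (1 / s) := by
          rw [one_div, Real.log_inv, neg_neg]
        have hlog2 : Real.log 2 ≤ 1 := by
          have := Real.log_two_lt_d9
          linarith only [this]
        linarith only [hmain, h5, hlog2]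
      exact (hsplit _ (fun q r hq hr hTA _ =>
        classI_size hψ (hsupp q hq).2.2 (hsupp r hr).2.2 hTA.2.2)).trans
        (hfin _ _ hnearpart (hcore' _ hV0))
    · refine (hsplit (Real.exp (s ^ (-ε₁))) ?_).trans
        (hfin _ _ hnearpart (hcore' _ (Real.exp_le_exp.2 h)))
      intro q r _ _ _ hnot
      rw [not_and_or] at hnot
      rcases hnot with h' | h'
      · exact (hVlt _ h').trans (le_max_left _ _)
      · exact (hVlt _ h').trans (le_max_right _ _)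
  · have hA' : 18 * Real.log X ≤ s ^ (-ε₁) := by
      have hA0 : 0 < 18 * Real.log X := by positivity
      have h2 : ((18 * Real.log X) ^ (-1 / ε₁)) ^ (-ε₁) ≤ s ^ (-ε₁) :=
        Real.rpow_le_rpow_of_nonpos hs hcase.le (by linarith only [hε₁])
      rw [← Real.rpow_mul hA0.le] at h2
      have e : -1 / ε₁ * -ε₁ = 1 := by field_simp
      rwa [e, Real.rpow_one] at h2
    have hbound : ∀ q r : ℕ, f q ≠ 0 → cofac q r ≤ V := by
      intro q r hq
      obtain ⟨_, h3, _⟩ := hsupp q hq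
      have h4 : (cofac q r : ℝ) ≤ q := by exact_mod_cast Nat.div_le_self _ _
      have h5 : X ^ 9 = Real.exp (9 * Real.log X) := by
        rw [mul_comm, Real.exp_mul, Real.exp_log hXpos]
        norm_cast
      rw [h5] at h3
      rw [hV]
      apply Nat.le_floor
      refine h4.trans (h3.trans (Real.exp_le_exp.mpr ?_))
      linarith only [hlogX, hA']
    have hmono : psum (TA γ ψ s) N f f ≤
        psum (fun q r => Rel γ ψ s q r ∧ Far γ s (cofac q r) (cofac r q) ∧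
          cofac q r ≤ V ∧ cofac r q ≤ V) N f f := by
      apply psum_mono _ _ _ _ _ _ _ hf0 hf0
      rintro q _ r _ hR hne
      exact ⟨⟨hR.1, hR.2.1, hbound q r (left_ne_zero_of_mul hne),
        hbound r q (right_ne_zero_of_mul hne)⟩, le_rfl⟩
    have h1 := hfin _ 0 hnearpart hC₂0
    rw [add_zero] at h1
    exact hmono.trans h1

end Vale.P028
end

section

/-!
# Upper bound sieve with weights (class II)
-/

namespace Vale.P028

open Finset

/-- upper bound sieve with weights. -/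
theorem SV : ∃ C > 0, ∀ (P G : Finset ℕ) (c : ℕ → ℤ) (D : ℝ) (a : ℤ), 2 ≤ D →
    (∀ p ∈ P, p.Prime ∧ (p : ℝ) ≤ D) → (∀ p ∈ G, p.Prime ∧ (p : ℝ) ≤ D) → Disjoint P G →
    ∑ t ∈ (Icc a (a + ⌈8 * D⌉)).filter (fun t => ∀ p : ℕ, p ∈ P → ¬ (p : ℤ) ∣ t - c p),
      ∏ p ∈ G.filter (fun p : ℕ => (p : ℤ) ∣ t - c p), (1 - 1 / (p : ℝ))⁻¹ ≤
      C * D * ∏ p ∈ P, (1 - 1 / (p : ℝ)) := by
  obtain ⟨C, hC, h⟩ := ks_core
  refine ⟨C, hC, ?_⟩
  intro P G c D a hD hP hG hdis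
  have h1 := h P G c (a + 4 * D) D
    ((Icc a (a + ⌈8 * D⌉)).filter (fun t => ∀ p : ℕ, p ∈ P → ¬ (p : ℤ) ∣ t - c p))
    (fun p hp => (hP p hp).1) hG hdis (by linarith) (by
      intro k hk
      have hk' := (Finset.mem_filter.1 hk).1
      rw [Finset.mem_Icc] at hk'
      have h2 : (a : ℝ) ≤ k := by exact_mod_cast hk'.1
      have h3 : (k : ℝ) ≤ a + ⌈8 * D⌉ := by exact_mod_cast hk'.2
      have h4 := Int.ceil_lt_add_one (8 * D)
      rw [abs_le]
      constructor <;> linarith) (by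
      intro k hk p hp
      exact (Finset.mem_filter.1 hk).2 p hp)
  have h2 : P.filter (fun p : ℕ => (p : ℝ) ≤ D) = P :=
    Finset.filter_true_of_mem fun p hp => (hP p hp).2
  rw [h2] at h1
  refine le_trans (le_of_eq ?_) h1
  refine Finset.sum_congr rfl fun t _ => ?_
  unfold pr
  rw [Finset.prod_inv_distrib]

end Vale.P028
end
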