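import Mathlib
import Vale.Agent.P028.Bd3.B1
import Vale.Agent.P028.Bd3.B3
import Vale.Agent.P028.Bd3.B4
import Vale.Agent.P028.Bd3.B2

set_option linter.all false

section

set_option linter.all false

/-!
# `(pr Ps)⁻¹` is bounded when `Ps` consists of primes `> y` dividing one `n ≠ 0`
-/

namespace Vale.P028

open Finset

theorem pr_inv_eq (Ps : Finset ℕ) : (pr Ps)⁻¹ = ∏ p ∈ Ps, (1 - 1 / (p : ℝ))⁻¹ := by
  unfold pr
  rw [prod_inv_distrib]

/-- the factor is bounded for a single `n ≠ 0` -/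
theorem pr_inv_le : ∃ C > 0, ∀ (Ps : Finset ℕ) (n : ℤ) (y W : ℝ), (∀ p ∈ Ps, p.Prime ∧
    y < (p : ℝ) ∧ (p : ℤ) ∣ n) → 2 ≤ y → 1 ≤ W → Real.log W ≤ y → n ≠ 0 → |(n : ℝ)| ≤ W →
    (pr Ps)⁻¹ ≤ C := by
  refine ⟨Real.exp 4, Real.exp_pos _, ?_⟩
  intro Ps n y W hPs hy hW hlW hn hnW
  have hn0 : 0 < n.natAbs := Int.natAbs_pos.2 hn
  have hcast : ((n.natAbs : ℕ) : ℝ) = |(n : ℝ)| := by
    rw [Nat.cast_natAbs, Int.cast_abs]
  rw [pr_inv_eq]
  refine (bs_prod_le_exp Ps fun p hp => (hPs p hp).1).trans ?_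
  apply Real.exp_le_exp.2
  have h1 : ∑ p ∈ Ps, 1 / (p : ℝ) ≤
      ∑ p ∈ n.natAbs.primeFactors.filter (fun p : ℕ => y < (p : ℝ)), 1 / (p : ℝ) := by
    refine sum_le_sum_of_subset_of_nonneg ?_ fun p _ _ => by positivity
    intro p hp
    obtain ⟨h1, h2, h3⟩ := hPs p hp
    rw [mem_filter, Nat.mem_primeFactors]
    exact ⟨⟨h1, Int.natCast_dvd.1 h3, hn0.ne'⟩, h2⟩
  have h2 := bs_sum_large hn0 hy
  have h3 : 2 * Real.log (n.natAbs : ℝ) / y ≤ 2 := by
    rw [div_le_iff₀ (by linarith), hcast]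
    have : Real.log |(n : ℝ)| ≤ Real.log W := by
      apply Real.log_le_log _ hnW
      rw [← hcast]
      exact_mod_cast hn0
    linarith
  linarith

end Vale.P028
end

section
attribute [-instance] ProperSMul.toContinuousSMul IsTopologicalTorsor.toContinuousSMul IdemSemiring.toCanonicallyOrderedAdd IdemSemiring.toMulLeftMono IdemSemiring.toMulRightMono AddQuantale.instAddLeftMono AddQuantale.instAddRightMono Quantale.instMulLeftMono Quantale.instMulRightMono FiniteDimensional.rclike_to_real IsScalarTower.complexToReal FiniteDimensional.complexToReal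

/-!
# The bound for one pair, split according to the sheets
-/

namespace Vale.P028

open Finset MeasureTheory

theorem Bq_pos (γ x : ℝ) : 0 < Bq γ x := Bsel_pos _ _ _

theorem Bq_one_le (γ x : ℝ) : (1 : ℝ) ≤ Bq γ x := by exact_mod_cast Bq_pos γ x

theorem KK_one_le (γ x : ℝ) : 1 ≤ KK γ x := le_max_left _ _

theorem Aq_coprime (γ x : ℝ) : IsCoprime (Bq γ x : ℤ) (Aq γ x) :=
  Bsel_coprime (by (clear * -; norm_num))

theorem abs_Aq_sub (γ x : ℝ) : |(Bq γ x : ℝ) * γ - Aq γ x| = distInt ((Bq γ x : ℝ) * γ) := rfl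

theorem dist_le_KK (γ : ℝ) {x : ℝ} (hx : 0 < x) : distInt ((Bq γ x : ℝ) * γ) ≤ KK γ x * x := by
  have h1 : distInt ((Bq γ x : ℝ) * γ) / x ≤ KK γ x := le_max_right _ _
  rwa [div_le_iff₀ hx] at h1

theorem yK_gt_two (γ x : ℝ) : 2 < yK γ x := by
  unfold yK
  have h1 : 1 < 2 * (Bq γ x : ℝ) * KK γ x := by
    have := Bq_one_le γ x
    have := KK_one_le γ x
    nlinarith
  have := Real.log_pos h1
  linarith only [this]

/-- `W = 4 B₁ K₁ B₂ K₂` -/
noncomputable def WW (γ x x' : ℝ) : ℝ := 4 * Bq γ x * KK γ x * (Bq γ x' * KK γ x')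

theorem WW_ge_one (γ x x' : ℝ) : 1 ≤ WW γ x x' := by
  unfold WW
  have h1 := Bq_one_le γ x
  have h2 := KK_one_le γ x
  have h3 := Bq_one_le γ x'
  have h4 := KK_one_le γ x'
  have h5 : 1 ≤ (Bq γ x : ℝ) * KK γ x := by linarith [mul_nonneg (sub_nonneg.2 h1) (sub_nonneg.2 h2), h1]
  have h6 : 1 ≤ (Bq γ x' : ℝ) * KK γ x' := by nlinarith only [h3, h4]
  calc (1 : ℝ) ≤ 4 * (1 * 1) := by norm_num
    _ ≤ 4 * (((Bq γ x : ℝ) * KK γ x) * ((Bq γ x' : ℝ) * KK γ x')) := by gcongr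
    _ = _ := by ring

theorem log_WW_le (γ x x' : ℝ) : Real.log (WW γ x x') ≤ max (yK γ x) (yK γ x') := by
  have h1 := Bq_one_le γ x
  have h2 := KK_one_le γ x
  have h3 := Bq_one_le γ x'
  have h4 := KK_one_le γ x'
  have e : WW γ x x' = (2 * Bq γ x * KK γ x) * (2 * Bq γ x' * KK γ x') := by
    unfold WW; ring
  rw [e, Real.log_mul (by (clear * - h1 h2; positivity)) (by (clear * - h3 h4; positivity))]
  have h5 : yK γ x = 2 + 2 * Real.log (2 * Bq γ x * KK γ x) := rfl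
  have h6 : yK γ x' = 2 + 2 * Real.log (2 * Bq γ x' * KK γ x') := rfl
  have h7 := le_max_left (yK γ x) (yK γ x')
  have h8 := le_max_right (yK γ x) (yK γ x')
  linarith only [h5, h6, h7, h8]

theorem nk_abs_le (γ : ℝ) {q r : ℕ} (hq : 0 < q) {x x' : ℝ} (hx : 0 < x) (hx' : 0 < x') {k : ℤ}
    (h : Sh γ x x' q r k) :
    |((nk γ x x' (cofac q r) (cofac r q) k : ℤ) : ℝ)| ≤ DD q r x x' * WW γ x x' := by
  obtain ⟨h1, -⟩ := h
  set u := cofac q r with hu
  set v := cofac r q with hv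
  set D := DD q r x x' with hD
  have hDe : D = max ((v : ℝ) * x) ((u : ℝ) * x') := DD_eq' hq x x'
  have hDv : (v : ℝ) * x ≤ D := by rw [hDe]; exact le_max_left _ _
  have hDu : (u : ℝ) * x' ≤ D := by rw [hDe]; exact le_max_right _ _
  have hB₁ := Bq_one_le γ x
  have hK₁ := KK_one_le γ x
  have hB₂ := Bq_one_le γ x'
  have hK₂ := KK_one_le γ x'
  set B₁ : ℝ := (Bq γ x : ℝ) with hB₁d
  set B₂ : ℝ := (Bq γ x' : ℝ) with hB₂d
  have hA₁ := dist_le_KK γ hx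
  have hA₂ := dist_le_KK γ hx'
  rw [← abs_Aq_sub] at hA₁ hA₂
  set A₁ : ℝ := (Aq γ x : ℝ) with hA₁d
  set A₂ : ℝ := (Aq γ x' : ℝ) with hA₂d
  set K₁ := KK γ x
  set K₂ := KK γ x'
  have hu0 : (0 : ℝ) ≤ u := Nat.cast_nonneg _
  have hv0 : (0 : ℝ) ≤ v := Nat.cast_nonneg _
  have hD0 : 0 ≤ D := le_trans (by (clear * - hx; positivity)) hDv
  have e : ((nk γ x x' u v k : ℤ) : ℝ) = B₁ * B₂ * ((k : ℝ) - ((u : ℝ) - v) * γ) -
      v * B₂ * (B₁ * γ - A₁) + u * B₁ * (B₂ * γ - A₂) := by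
    unfold nk
    push_cast
    ring
  rw [e]
  have t1 : |B₁ * B₂ * ((k : ℝ) - ((u : ℝ) - v) * γ)| ≤ B₁ * B₂ * (2 * D) := by
    rw [abs_mul, abs_of_nonneg (by (clear * - hB₁ hB₂; positivity))]
    (clear * - h1 hB₁ hB₂; gcongr)
  have t2 : |v * B₂ * (B₁ * γ - A₁)| ≤ B₂ * K₁ * D := by
    rw [abs_mul, abs_of_nonneg (by (clear * - hB₂; positivity))]
    calc (v : ℝ) * B₂ * |B₁ * γ - A₁| ≤ v * B₂ * (K₁ * x) := by (clear * - hA₁ hB₂; gcongr)
      _ = B₂ * K₁ * (v * x) := by ring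
      _ ≤ B₂ * K₁ * D := by (clear * - hDv hB₂ hK₁; gcongr)
  have t3 : |u * B₁ * (B₂ * γ - A₂)| ≤ B₁ * K₂ * D := by
    rw [abs_mul, abs_of_nonneg (by (clear * - hB₁; positivity))]
    calc (u : ℝ) * B₁ * |B₂ * γ - A₂| ≤ u * B₁ * (K₂ * x') := by (clear * - hA₂ hB₁; gcongr)
      _ = B₁ * K₂ * (u * x') := by ring
      _ ≤ B₁ * K₂ * D := by (clear * - hDu hB₁ hK₂; gcongr)
  have t4 : |B₁ * B₂ * ((k : ℝ) - ((u : ℝ) - v) * γ) -
      v * B₂ * (B₁ * γ - A₁) + u * B₁ * (B₂ * γ - A₂)| ≤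
      B₁ * B₂ * (2 * D) + B₂ * K₁ * D + B₁ * K₂ * D := by
    refine (abs_add_le _ _).trans (add_le_add ?_ t3)
    exact (abs_sub _ _).trans (add_le_add t1 t2)
  refine t4.trans ?_
  have hBB : 1 ≤ B₁ * B₂ := by nlinarith only [hB₁, hB₂]
  have hKK : 1 ≤ K₁ * K₂ := by nlinarith only [hK₁, hK₂]
  have f1 : B₁ * B₂ * (2 * D) ≤ 2 * (B₁ * B₂ * (K₁ * K₂)) * D := by
    have : B₁ * B₂ * 1 ≤ B₁ * B₂ * (K₁ * K₂) := by (clear * - hKK hB₁ hB₂; gcongr)
    linarith only [mul_nonneg (sub_nonneg.2 hD0) (sub_nonneg.2 this)]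
  have f2 : B₂ * K₁ * D ≤ (B₁ * B₂ * (K₁ * K₂)) * D := by
    have : B₂ * K₁ ≤ B₁ * B₂ * (K₁ * K₂) := by
      calc B₂ * K₁ = (1 * B₂) * (K₁ * 1) := by ring
        _ ≤ (B₁ * B₂) * (K₁ * K₂) := by (clear * - hB₁ hB₂ hK₂ hK₁; gcongr)
    (clear * - this hD0; gcongr)
  have f3 : B₁ * K₂ * D ≤ (B₁ * B₂ * (K₁ * K₂)) * D := by
    have : B₁ * K₂ ≤ B₁ * B₂ * (K₁ * K₂) := by
      calc B₁ * K₂ = (B₁ * 1) * (1 * K₂) := by ring
        _ ≤ (B₁ * B₂) * (K₁ * K₂) := by (clear * - hB₂ hB₁ hK₁ hK₂; gcongr)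
    (clear * - this hD0; gcongr)
  have f4 : D * WW γ x x' = 4 * (B₁ * B₂ * (K₁ * K₂)) * D := by
    unfold WW
    ring
  rw [f4]
  linarith only [f1, f2, f3]

theorem Sh_class {γ : ℝ} {q r : ℕ} (hq : 0 < q) {x x' : ℝ} {k : ℤ} (h : Sh γ x x' q r k) :
    (∀ p ∈ PK γ x q, p ∣ cofac q r → ¬ (p : ℤ) ∣ (Bq γ x : ℤ) * k +
      ((cofac r q : ℤ) - cofac q r) * Aq γ x) ∧
    (∀ p ∈ PK γ x' r, p ∣ cofac r q → ¬ (p : ℤ) ∣ (Bq γ x' : ℤ) * k +
      ((cofac r q : ℤ) - cofac q r) * Aq γ x') := by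
  obtain ⟨-, al, be, hal, hbe, hk⟩ := h
  have hcop := cofac_coprime (r := r) hq
  constructor
  · intro p hp hpu hdvd
    have hpp := (mem_PK hp).1
    have hpp' := Nat.prime_iff_prime_int.mp hpp
    have hpv : ¬ p ∣ cofac r q := fun h' =>
      hpp.one_lt.ne' (Nat.eq_one_of_dvd_coprimes hcop hpu h')
    have hpu' : (p : ℤ) ∣ (cofac q r : ℤ) := by exact_mod_cast hpu
    have h1 : (Bq γ x : ℤ) * k + ((cofac r q : ℤ) - cofac q r) * Aq γ x =
        (cofac r q : ℤ) * (al * Bq γ x + Aq γ x) -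
          (cofac q r : ℤ) * (Bq γ x * be + Aq γ x) := by
      rw [hk]; ring
    rw [h1] at hdvd
    have h2 : (p : ℤ) ∣ (cofac r q : ℤ) * (al * Bq γ x + Aq γ x) :=
      (dvd_sub_left (dvd_mul_of_dvd_left hpu' _)).mp hdvd
    rcases hpp'.dvd_or_dvd h2 with h3 | h3
    · exact hpv (by exact_mod_cast h3)
    · exact hal p hp h3
  · intro p hp hpv hdvd
    have hpp := (mem_PK hp).1
    have hpp' := Nat.prime_iff_prime_int.mp hpp
    have hpu : ¬ p ∣ cofac q r := fun h' =>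
      hpp.one_lt.ne' (Nat.eq_one_of_dvd_coprimes hcop h' hpv)
    have hpv' : (p : ℤ) ∣ (cofac r q : ℤ) := by exact_mod_cast hpv
    have h1 : (Bq γ x' : ℤ) * k + ((cofac r q : ℤ) - cofac q r) * Aq γ x' =
        (cofac r q : ℤ) * (al * Bq γ x' + Aq γ x') -
          (cofac q r : ℤ) * (be * Bq γ x' + Aq γ x') := by
      rw [hk]; ring
    rw [h1] at hdvd
    have h2 : (p : ℤ) ∣ (cofac q r : ℤ) * (be * Bq γ x' + Aq γ x') :=
      (dvd_sub_right (dvd_mul_of_dvd_left hpv' _)).mp hdvd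
    rcases hpp'.dvd_or_dvd h2 with h3 | h3
    · exact hpu (by exact_mod_cast h3)
    · exact hbe p hp h3

theorem nk_inj {γ x x' : ℝ} {u v : ℕ} {k k' : ℤ} (h : nk γ x x' u v k = nk γ x x' u v k') :
    k = k' := by
  unfold nk at h
  have h1 : (Bq γ x : ℤ) * Bq γ x' * k = (Bq γ x : ℤ) * Bq γ x' * k' := by linarith only [h]
  have h2 : (Bq γ x : ℤ) * Bq γ x' ≠ 0 := by
    have := Bq_pos γ x
    have := Bq_pos γ x'
    (clear u v k k' h h1; positivity)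
  exact mul_left_cancel₀ h2 h1

/-- the primes of `Fk` for the sheet with `nk = 0` -/
noncomputable def F0 (γ x x' : ℝ) (q r : ℕ) : Finset ℕ :=
  (PK γ x q ∩ PK γ x' r).filter (fun p : ℕ => ¬ p ∣ cofac q r ∧ ¬ p ∣ cofac r q)

/-- the product of the inverse factors over the primes dividing the cofactors -/
noncomputable def GU (γ x x' : ℝ) (q r : ℕ) : ℝ :=
  (pr ((PK γ x q).filter (fun p => p ∣ cofac q r)))⁻¹ *
    (pr ((PK γ x' r).filter (fun p => p ∣ cofac r q)))⁻¹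

theorem GU_pos {γ x x' : ℝ} {q r : ℕ} : 0 < GU γ x x' q r := by
  unfold GU
  have h1 : 0 < pr ((PK γ x q).filter (fun p => p ∣ cofac q r)) :=
    pr_pos fun p hp => PK_prime p (mem_filter.mp hp).1
  have h2 : 0 < pr ((PK γ x' r).filter (fun p => p ∣ cofac r q)) :=
    pr_pos fun p hp => PK_prime p (mem_filter.mp hp).1
  positivity

/-- union of the primes dividing the cofactors -/
noncomputable def Uu (γ x x' : ℝ) (q r : ℕ) : Finset ℕ :=
  (PK γ x q).filter (fun p : ℕ => p ∣ cofac q r) ∪ (PK γ x' r).filter (fun p : ℕ => p ∣ cofac r q)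

theorem Uu_mem {γ x x' : ℝ} {q r : ℕ} (hq : 0 < q) (hr : 0 < r) {p : ℕ} (hp : p ∈ Uu γ x x' q r) :
    p.Prime ∧ (2 : ℝ) < p ∧ p ∈ (cofac q r * cofac r q).primeFactors := by
  have hu : 0 < cofac q r := cofac_pos r hq
  have hv : 0 < cofac r q := cofac_pos q hr
  unfold Uu at hp
  rw [mem_union, mem_filter, mem_filter] at hp
  rcases hp with ⟨h1, h2⟩ | ⟨h1, h2⟩
  · obtain ⟨a, b, c, d⟩ := mem_PK h1
    refine ⟨a, (yK_gt_two γ x).trans c, ?_⟩
    rw [Nat.mem_primeFactors]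
    exact ⟨a, dvd_mul_of_dvd_left h2 _, by positivity⟩
  · obtain ⟨a, b, c, d⟩ := mem_PK h1
    refine ⟨a, (yK_gt_two γ x').trans c, ?_⟩
    rw [Nat.mem_primeFactors]
    exact ⟨a, dvd_mul_of_dvd_right h2 _, by positivity⟩

theorem GU_eq {γ x x' : ℝ} {q r : ℕ} (hq : 0 < q) : GU γ x x' q r = (pr (Uu γ x x' q r))⁻¹ := by
  unfold GU Uu
  rw [pr_union, mul_inv]
  rw [disjoint_left]
  intro p hp hp'
  rw [mem_filter] at hp hp'
  have hcop := cofac_coprime (r := r) hq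
  exact (mem_PK hp.1).1.one_lt.ne' (Nat.eq_one_of_dvd_coprimes hcop hp.2 hp'.2)

theorem GG_eq (n : ℕ) : GG n = (pr n.primeFactors)⁻¹ := by
  unfold GG pr
  rw [prod_inv_distrib]

theorem GT_eq (D : ℝ) (n : ℕ) :
    GT D n = (pr (n.primeFactors.filter (fun p : ℕ => D < (p : ℝ))))⁻¹ := by
  unfold GT pr
  rw [prod_inv_distrib]

theorem pr_inv_mono {A B : Finset ℕ} (hAB : A ⊆ B) (hB : ∀ p ∈ B, p.Prime) :
    (pr A)⁻¹ ≤ (pr B)⁻¹ :=
  inv_anti₀ (pr_pos hB) (pr_anti hAB hB)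

theorem GU_le_GG {γ x x' : ℝ} {q r : ℕ} (hq : 0 < q) (hr : 0 < r) :
    GU γ x x' q r ≤ GG (cofac q r * cofac r q) := by
  rw [GU_eq hq, GG_eq]
  exact pr_inv_mono (fun p hp => (Uu_mem hq hr hp).2.2) fun p hp =>
    Nat.prime_of_mem_primeFactors hp

theorem GU_le_GT {γ x x' : ℝ} {q r : ℕ} (hq : 0 < q) (hr : 0 < r) (D : ℝ) :
    GU γ x x' q r * pr ((Uu γ x x' q r).filter (fun p : ℕ => (p : ℝ) ≤ D)) ≤
      GT (max 2 D) (cofac q r * cofac r q) := by
  have hU : ∀ p ∈ Uu γ x x' q r, p.Prime := fun p hp => (Uu_mem hq hr hp).1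
  rw [GU_eq hq, GT_eq]
  have e := pr_filter_mul (Uu γ x x' q r) (fun p : ℕ => (p : ℝ) ≤ D)
  have h1 : 0 < pr ((Uu γ x x' q r).filter (fun p : ℕ => (p : ℝ) ≤ D)) :=
    pr_pos fun p hp => hU p (mem_filter.mp hp).1
  have h2 : (pr (Uu γ x x' q r))⁻¹ * pr ((Uu γ x x' q r).filter (fun p : ℕ => (p : ℝ) ≤ D)) =
      (pr ((Uu γ x x' q r).filter (fun p : ℕ => ¬ (p : ℝ) ≤ D)))⁻¹ := by
    rw [← e, mul_inv]
    (clear * - h1; field_simp)
  rw [h2]
  apply pr_inv_mono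
  · intro p hp
    rw [mem_filter] at hp ⊢
    obtain ⟨_, h3, h4⟩ := Uu_mem hq hr hp.1
    exact ⟨h4, max_lt h3 (not_le.mp hp.2)⟩
  · intro p hp
    exact Nat.prime_of_mem_primeFactors (mem_filter.mp hp).1

open Classical in
/-- the bound for one pair, split -/
theorem pair_two : ∃ C > 0, ∀ (γ : ℝ) (q r : ℕ) (x x' : ℝ), 0 < q → 0 < r → 0 < x →
    0 < x' → x ≤ 1 / 2 → x' ≤ 1 / 2 →
    wK γ x q * wK γ x' r *
      volume.real (GS γ q x (AK γ x q) ∩ GS γ r x' (AK γ x' r) ∩ Set.Ioc 0 1) ≤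
      (if 1 / 1024 ≤ DD q r x x' then
        C * ((q.totient : ℝ) / q * x * ((r.totient : ℝ) / r * x') *
          GT (max 2 (DD q r x x')) (cofac q r * cofac r q)) else 0) +
      (if DD q r x x' < 1 / 1024 ∧ ∃ k, Sh γ x x' q r k ∧
          nk γ x x' (cofac q r) (cofac r q) k ≠ 0 then
        C * ((q.totient : ℝ) / q * x * ((r.totient : ℝ) / r * x') *
          GG (cofac q r * cofac r q) / DD q r x x') else 0) +
      (if ∃ k, Sh γ x x' q r k ∧ nk γ x x' (cofac q r) (cofac r q) k = 0 then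
        16 * ((q.totient : ℝ) / q * x * ((r.totient : ℝ) / r * x') / DD q r x x') *
          GU γ x x' q r * (pr (F0 γ x x' q r))⁻¹ else 0) := by
  obtain ⟨C₁, hC₁, hpv⟩ := pv_sum
  obtain ⟨C₂, hC₂, hinv⟩ := pr_inv_le
  refine ⟨16 * C₁ + 16 * C₂, by positivity, ?_⟩
  intro γ q r x x' hq hr hx hx' hx2 hx2'
  have hone := pair_one γ hq hr hx hx' hx2 hx2'
  have hD0 : 0 < DD q r x x' := DD_pos hq hr hx
  set D := DD q r x x' with hD
  set u := cofac q r with hu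
  set v := cofac r q with hv
  have hu0 : 0 < u := cofac_pos r hq
  have hv0 : 0 < v := cofac_pos q hr
  have hμ : 0 < (q.totient : ℝ) / q * x := mul_pos (totient_ratio_pos hq) hx
  have hμ' : 0 < (r.totient : ℝ) / r * x' := mul_pos (totient_ratio_pos hr) hx'
  set M : ℝ := (q.totient : ℝ) / q * x * ((r.totient : ℝ) / r * x') with hM
  have hM0 : 0 < M := mul_pos hμ hμ'
  have hGU0 : 0 < GU γ x x' q r := GU_pos
  have hFp : ∀ k, ∀ p ∈ Fk γ x x' q r k, p.Prime := fun k p hp =>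
    PK_prime p (mem_inter.mp (mem_filter.mp hp).1).1
  have hFk0 : ∀ k, 0 ≤ (pr (Fk γ x x' q r k))⁻¹ := fun k => inv_nonneg.mpr (pr_pos (hFp k)).le
  have hyy : ∀ p ∈ PK γ x q ∩ PK γ x' r, max (yK γ x) (yK γ x') < (p : ℝ) := by
    intro p hp
    rw [mem_inter] at hp
    exact max_lt (mem_PK hp.1).2.2.1 (mem_PK hp.2).2.2.1
  have hy2 : 2 ≤ max (yK γ x) (yK γ x') := (yK_gt_two γ x).le.trans (le_max_left _ _)
  -- split of the sum over the sheets
  set Ks := Shs γ x x' q r with hKs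
  have hsplit : ∑ k ∈ Ks, (pr (Fk γ x x' q r k))⁻¹ =
      ∑ k ∈ Ks.filter (fun k => nk γ x x' u v k ≠ 0), (pr (Fk γ x x' q r k))⁻¹ +
      ∑ k ∈ Ks.filter (fun k => ¬ nk γ x x' u v k ≠ 0), (pr (Fk γ x x' q r k))⁻¹ :=
    (sum_filter_add_sum_filter_not _ _ _).symm
  have hzero : ∑ k ∈ Ks.filter (fun k => ¬ nk γ x x' u v k ≠ 0), (pr (Fk γ x x' q r k))⁻¹ ≤
      if ∃ k, Sh γ x x' q r k ∧ nk γ x x' u v k = 0 then (pr (F0 γ x x' q r))⁻¹ else 0 := by
    by_cases hex : ∃ k, Sh γ x x' q r k ∧ nk γ x x' u v k = 0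
    · rw [if_pos hex]
      obtain ⟨k₀, hk₀, hk₀'⟩ := hex
      have h1 : Ks.filter (fun k => ¬ nk γ x x' u v k ≠ 0) ⊆ {k₀} := by
        intro k hk
        rw [mem_filter, not_not] at hk
        rw [mem_singleton]
        exact nk_inj (hk.2.trans hk₀'.symm)
      refine (sum_le_sum_of_subset_of_nonneg h1 fun k _ _ => hFk0 k).trans ?_
      rw [sum_singleton]
      apply pr_inv_mono
      · intro p hp
        unfold Fk at hp
        unfold F0
        rw [mem_filter] at hp ⊢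
        exact ⟨hp.1, hp.2.1, hp.2.2.1⟩
      · intro p hp
        exact PK_prime p (mem_inter.mp (mem_filter.mp hp).1).1
    · rw [if_neg hex]
      apply le_of_eq
      apply sum_eq_zero
      intro k hk
      rw [mem_filter, not_not, mem_Shs] at hk
      exact absurd ⟨k, hk.1, hk.2⟩ hex
  have hnz1 : 1 / 1024 ≤ D → GU γ x x' q r *
      ∑ k ∈ Ks.filter (fun k => nk γ x x' u v k ≠ 0), (pr (Fk γ x x' q r k))⁻¹ ≤
      C₁ * D * GT (max 2 D) (u * v) := by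
    intro hD1
    have h1 := hpv (Bq γ x) (Bq γ x') u v (Aq γ x) (Aq γ x') (PK γ x q) (PK γ x' r)
      (max (yK γ x) (yK γ x')) (WW γ x x') D (((u : ℝ) - v) * γ)
      (Ks.filter (fun k => nk γ x x' u v k ≠ 0)) (cofac_coprime hq)
      (fun p hp => ⟨(mem_PK hp).1, (mem_PK hp).2.2.2⟩)
      (fun p hp => ⟨(mem_PK hp).1, (mem_PK hp).2.2.2⟩) hyy hy2 (WW_ge_one γ x x')
      (log_WW_le γ x x') hD1
      (by
        intro k hk
        rw [mem_filter, mem_Shs] at hk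
        exact hk.1.1)
      (by
        intro k hk
        rw [mem_filter, mem_Shs] at hk
        obtain ⟨h2, h3⟩ := Sh_class hq hk.1
        exact ⟨hk.2, nk_abs_le γ hq hx hx' hk.1, h2, h3⟩)
    have h2 := GU_le_GT (γ := γ) (x := x) (x' := x') hq hr D
    have h3 : ∑ k ∈ Ks.filter (fun k => nk γ x x' u v k ≠ 0), (pr (Fk γ x x' q r k))⁻¹ ≤
        C₁ * D * pr ((Uu γ x x' q r).filter (fun p : ℕ => (p : ℝ) ≤ D)) := h1
    calc GU γ x x' q r *
        ∑ k ∈ Ks.filter (fun k => nk γ x x' u v k ≠ 0), (pr (Fk γ x x' q r k))⁻¹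
        ≤ GU γ x x' q r *
          (C₁ * D * pr ((Uu γ x x' q r).filter (fun p : ℕ => (p : ℝ) ≤ D))) := by (clear * - h3 hGU0; gcongr)
      _ = C₁ * D * (GU γ x x' q r *
          pr ((Uu γ x x' q r).filter (fun p : ℕ => (p : ℝ) ≤ D))) := by ring
      _ ≤ C₁ * D * GT (max 2 D) (u * v) := by (clear * - h2 hC₁ hD0; gcongr)
  have hnz2 : D < 1 / 1024 →
      ∑ k ∈ Ks.filter (fun k => nk γ x x' u v k ≠ 0), (pr (Fk γ x x' q r k))⁻¹ ≤
      if ∃ k, Sh γ x x' q r k ∧ nk γ x x' u v k ≠ 0 then C₂ else 0 := by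
    intro hD1
    by_cases hex : ∃ k, Sh γ x x' q r k ∧ nk γ x x' u v k ≠ 0
    · rw [if_pos hex]
      obtain ⟨k₀, hk₀, hk₀'⟩ := hex
      have h1 : Ks.filter (fun k => nk γ x x' u v k ≠ 0) ⊆ {k₀} := by
        intro k hk
        rw [mem_filter, mem_Shs] at hk
        rw [mem_singleton]
        have h2 := hk.1.1
        have h3 := hk₀.1
        rw [abs_lt] at h2 h3
        have h4 : |(k : ℝ) - k₀| < 1 := by
          rw [abs_lt]
          constructor <;> linarith only [hD1, h2.1, h3.2, h2.2, h3.1]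
        have h5 : |k - k₀| < 1 := by exact_mod_cast h4
        rw [Int.abs_lt_one_iff] at h5
        omega
      refine (sum_le_sum_of_subset_of_nonneg h1 fun k _ _ => hFk0 k).trans ?_
      rw [sum_singleton]
      have h6 := nk_abs_le γ hq hx hx' hk₀
      have hW1 := WW_ge_one γ x x'
      exact hinv (Fk γ x x' q r k₀) (nk γ x x' u v k₀) (max (yK γ x) (yK γ x')) (WW γ x x')
        (fun p hp => ⟨hFp k₀ p hp, hyy p (mem_filter.mp hp).1, (mem_filter.mp hp).2.2.2⟩)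
        hy2 hW1 (log_WW_le γ x x') hk₀' (h6.trans (by nlinarith only [hD1, hW1]))
    · rw [if_neg hex]
      apply le_of_eq
      apply sum_eq_zero
      intro k hk
      rw [mem_filter, mem_Shs] at hk
      exact absurd ⟨k, hk.1, hk.2⟩ hex
  have hone' : wK γ x q * wK γ x' r *
      volume.real (GS γ q x (AK γ x q) ∩ GS γ r x' (AK γ x' r) ∩ Set.Ioc 0 1) ≤
      16 * (M / D) * (GU γ x x' q r * ∑ k ∈ Ks, (pr (Fk γ x x' q r k))⁻¹) := by
    refine hone.trans (le_of_eq ?_)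
    unfold GU
    ring
  refine hone'.trans ?_
  rw [hsplit, mul_add, mul_add]
  have hMD : 0 < 16 * (M / D) := by (clear * - hq hx hr hx' hD0; positivity)
  have hpart0 : 16 * (M / D) * (GU γ x x' q r *
      ∑ k ∈ Ks.filter (fun k => ¬ nk γ x x' u v k ≠ 0), (pr (Fk γ x x' q r k))⁻¹) ≤
      (if ∃ k, Sh γ x x' q r k ∧ nk γ x x' u v k = 0 then
        16 * (M / D) * GU γ x x' q r * (pr (F0 γ x x' q r))⁻¹ else 0) := by
    calc _ ≤ 16 * (M / D) * (GU γ x x' q r * (if ∃ k, Sh γ x x' q r k ∧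
          nk γ x x' u v k = 0 then (pr (F0 γ x x' q r))⁻¹ else 0)) := by (clear * - hzero hGU0 hq hx hr hx' hD0; gcongr)
      _ = _ := by
          split_ifs
          · ring
          · ring
  have hpart1 : 16 * (M / D) * (GU γ x x' q r *
      ∑ k ∈ Ks.filter (fun k => nk γ x x' u v k ≠ 0), (pr (Fk γ x x' q r k))⁻¹) ≤
      (if 1 / 1024 ≤ D then (16 * C₁ + 16 * C₂) * (M * GT (max 2 D) (u * v)) else 0) +
      (if D < 1 / 1024 ∧ ∃ k, Sh γ x x' q r k ∧ nk γ x x' u v k ≠ 0 then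
        (16 * C₁ + 16 * C₂) * (M * GG (u * v) / D) else 0) := by
    have hGT0 : 0 ≤ GT (max 2 D) (u * v) := by
      rw [GT_eq]
      exact inv_nonneg.mpr (pr_pos fun p hp =>
        Nat.prime_of_mem_primeFactors (mem_filter.mp hp).1).le
    have hGG0 : 0 ≤ GG (u * v) := by
      rw [GG_eq]
      exact inv_nonneg.mpr (pr_pos fun p hp => Nat.prime_of_mem_primeFactors hp).le
    rcases le_or_gt (1 / 1024) D with h1 | h1
    · rw [if_pos h1, if_neg (fun h => absurd h.1 (not_lt.mpr h1)), add_zero]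
      calc _ ≤ 16 * (M / D) * (C₁ * D * GT (max 2 D) (u * v)) := by
            have := hnz1 h1
            (clear * - this hq hx hr hx' hD0; gcongr)
        _ = 16 * C₁ * (M * GT (max 2 D) (u * v)) := by
            (clear * - hD0 hC₁ hM0; field_simp)
        _ ≤ (16 * C₁ + 16 * C₂) * (M * GT (max 2 D) (u * v)) := by
            gcongr
            linarith only [hC₂]
    · rw [if_neg (not_le.mpr h1), zero_add]
      have h2 := hnz2 h1
      by_cases hex : ∃ k, Sh γ x x' q r k ∧ nk γ x x' u v k ≠ 0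
      · rw [if_pos ⟨h1, hex⟩]
        rw [if_pos hex] at h2
        have h3 : GU γ x x' q r ≤ GG (u * v) := GU_le_GG hq hr
        calc _ ≤ 16 * (M / D) * (GG (u * v) * C₂) := by
              have hs0 : 0 ≤ ∑ k ∈ Ks.filter (fun k => nk γ x x' u v k ≠ 0),
                  (pr (Fk γ x x' q r k))⁻¹ := sum_nonneg fun k _ => hFk0 k
              (clear * - h3 h2 hs0 hGG0 hq hx hr hx' hD0; gcongr)
          _ = 16 * C₂ * (M * GG (u * v) / D) := by ring
          _ ≤ (16 * C₁ + 16 * C₂) * (M * GG (u * v) / D) := by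
              gcongr
              linarith only [hC₁]
      · rw [if_neg (fun h => hex h.2)]
        rw [if_neg hex] at h2
        have h3 : 0 ≤ 16 * (M / D) * GU γ x x' q r := by (clear * - hq hx hr hx' hD0 hGU0; positivity)
        nlinarith only [h2, h3]
  exact add_le_add hpart1 hpart0

end Vale.P028
end

section

/-!
# Structure of the exceptional sheets
-/

namespace Vale.P028

open Finset MeasureTheory

/-- pairs at a small distance with an active sheet `nk ≠ 0` are far or unbalanced -/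
theorem far_or_unbal {γ s : ℝ} {ψ : ℕ → ℝ} {q r : ℕ} {k : ℤ} (hq : 0 < q) (hr : 0 < r)
    (hs : 0 < s) (hs1 : s ≤ 1 / 1024)
    (hD1 : DD q r (ψ q) (ψ r) ≤ s) (hD2 : s / 2 < DD q r (ψ q) (ψ r))
    (hk : Sh γ (ψ q) (ψ r) q r k) (hne : nk γ (ψ q) (ψ r) (cofac q r) (cofac r q) k ≠ 0) :
    TA γ ψ s q r ∨ UB ψ s q r := by
  set u := cofac q r with hu
  set v := cofac r q with hv
  have hu0 : 0 < u := cofac_pos r hq
  have hv0 : 0 < v := cofac_pos q hr
  have hDe : DD q r (ψ q) (ψ r) = max ((v : ℝ) * ψ q) ((u : ℝ) * ψ r) := DD_eq' hq _ _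
  rw [hDe] at hD1 hD2
  have hvx : (v : ℝ) * ψ q ≤ s := (le_max_left _ _).trans hD1
  have hux : (u : ℝ) * ψ r ≤ s := (le_max_right _ _).trans hD1
  obtain ⟨hk1, al, be, hal, hbe, hkk⟩ := hk
  rw [hDe] at hk1
  have hk2 : |(k : ℝ) - ((u : ℝ) - v) * γ| < 2 * s := by linarith only [hD1, hk1]
  have hs3 : s ≤ 1 / 1000 := by linarith only [hs1]
  -- `u ≠ v`
  have huv : u ≠ v := by
    intro h
    have hqr := eq_of_cofac_eq h
    subst hqr
    have h1 : u = 1 := cofac_self hq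
    have h2 : v = 1 := cofac_self hq
    rw [h1, h2] at hk2
    have h3 : |(k : ℝ)| < 1 := by
      norm_num at hk2
      linarith only [hs1, hk2]
    have h4 : |k| < 1 := by exact_mod_cast h3
    rw [Int.abs_lt_one_iff] at h4
    apply hne
    unfold nk
    rw [h1, h2, h4]
    push_cast
    ring
  by_cases hub : (v : ℝ) * ψ q ≤ s ^ 2 ∨ (u : ℝ) * ψ r ≤ s ^ 2
  · exact Or.inr ⟨hvx, hux, hub⟩
  left
  push Not at hub
  have hdist : distInt (((u : ℝ) - v) * γ) < 2 * s := by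
    refine lt_of_le_of_lt (distInt_le_abs_sub' _ k) ?_
    rw [abs_sub_comm]
    exact hk2
  refine ⟨⟨huv, hvx, hux, hdist⟩, ?_, hD2⟩
  by_contra hF
  unfold Far at hF
  push Not at hF
  obtain ⟨B, hB, hlt⟩ := hF
  have hβ0 : 0 ≤ distInt ((B : ℝ) * γ) := abs_nonneg _
  have hBR : (0 : ℝ) < B := by exact_mod_cast hB.1.1
  have h1 : 4 * distInt ((B : ℝ) * γ) * v < 1 :=
    lt_of_le_of_lt (mul_le_mul_of_nonneg_left (le_max_right _ _) (by (clear * - hβ0; positivity))) hlt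
  have h2 : 4 * distInt ((B : ℝ) * γ) * u < 1 :=
    lt_of_le_of_lt (mul_le_mul_of_nonneg_left (le_max_left _ _) (by (clear * - hβ0; positivity))) hlt
  have e1 : Bq γ (ψ q) = B := Bsel_eq_of_near hs hs1 (by norm_num) hv0 hB h1 hvx hub.1.le
  have e2 : Bq γ (ψ r) = B := Bsel_eq_of_near hs hs1 (by norm_num) hu0 hB h2 hux hub.2.le
  have e3 : Aq γ (ψ q) = Anum γ B := by unfold Aq; rw [e1]
  have e4 : Aq γ (ψ r) = Anum γ B := by unfold Aq; rw [e2]
  apply hne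
  have hmul := hB.mul_le hs hs3
  -- the integer `m = B k + (v - u) A` vanishes
  have hm : (B : ℤ) * k + ((v : ℤ) - u) * Anum γ B = 0 := by
    have h3 : (((B : ℤ) * k + ((v : ℤ) - u) * Anum γ B : ℤ) : ℝ) =
        B * ((k : ℝ) - ((u : ℝ) - v) * γ) + ((u : ℝ) - v) * ((B : ℝ) * γ - Anum γ B) := by
      push_cast
      ring
    have h4 : |(((B : ℤ) * k + ((v : ℤ) - u) * Anum γ B : ℤ) : ℝ)| < 1 := by
      rw [h3]
      have h5 : |(B : ℝ) * ((k : ℝ) - ((u : ℝ) - v) * γ)| ≤ 1 / 8 := by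
        rw [abs_mul, abs_of_pos hBR]
        calc (B : ℝ) * |(k : ℝ) - ((u : ℝ) - v) * γ| ≤ B * (2 * s) := by (clear * - hk2 hBR; gcongr)
          _ = 2 * (s * B) := by ring
          _ ≤ 1 / 8 := by linarith only [hmul]
      have h6 : |((u : ℝ) - v) * ((B : ℝ) * γ - Anum γ B)| ≤ 1 / 4 := by
        rw [abs_mul]
        have h7 : |(B : ℝ) * γ - Anum γ B| = distInt ((B : ℝ) * γ) := rfl
        rw [h7]
        have h8 : |(u : ℝ) - v| ≤ max (u : ℝ) v := by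
          have hu' : (0 : ℝ) ≤ u := Nat.cast_nonneg _
          have hv' : (0 : ℝ) ≤ v := Nat.cast_nonneg _
          rw [abs_le]
          constructor
          · have := le_max_right (u : ℝ) v
            linarith only [this]
          · have := le_max_left (u : ℝ) v
            linarith only [this]
        calc |(u : ℝ) - v| * distInt ((B : ℝ) * γ) ≤ max (u : ℝ) v * distInt ((B : ℝ) * γ) := by
              (clear * - h8 hβ0; gcongr)
          _ ≤ 1 / 4 := by linarith only [hlt]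
      calc _ ≤ 1 / 8 + 1 / 4 := (abs_add_le _ _).trans (add_le_add h5 h6)
        _ < 1 := by norm_num
    have h5 : |(B : ℤ) * k + ((v : ℤ) - u) * Anum γ B| < 1 := by exact_mod_cast h4
    rwa [Int.abs_lt_one_iff] at h5
  unfold nk
  rw [e1, e2, e3, e4]
  have : (B : ℤ) * B * k + (v : ℤ) * B * Anum γ B - (u : ℤ) * B * Anum γ B =
      B * ((B : ℤ) * k + ((v : ℤ) - u) * Anum γ B) := by ring
  rw [this, hm, mul_zero]

/-- exact sheets with the same denominator -/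
theorem exact_same {γ : ℝ} {x x' : ℝ} {q r : ℕ} {k : ℤ} (hq : 0 < q) (hr : 0 < r)
    (hB : Bq γ x = Bq γ x') (hk : Sh γ x x' q r k)
    (h0 : nk γ x x' (cofac q r) (cofac r q) k = 0) :
    ((PK γ x q).filter (fun p => p ∣ cofac q r) = ∅ ∧
      (PK γ x' r).filter (fun p => p ∣ cofac r q) = ∅) ∧
    ((gpf (cofac q r) : ℝ) ≤ yK γ x ∧ (gpf (cofac r q) : ℝ) ≤ yK γ x') ∧
    (q ≠ r → (Bq γ x : ℝ) ≤ max (cofac q r : ℝ) (cofac r q) ∧
      distInt ((Bq γ x : ℝ) * γ) < 2 * DD q r x x') := by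
  set u := cofac q r with hu
  set v := cofac r q with hv
  have hu0 : 0 < u := cofac_pos r hq
  have hv0 : 0 < v := cofac_pos q hr
  have hcop : Nat.Coprime u v := cofac_coprime hq
  obtain ⟨hk1, al, be, hal, hbe, hkk⟩ := hk
  have hA : Aq γ x' = Aq γ x := by unfold Aq; rw [hB]
  have hco := Aq_coprime γ x
  set B := Bq γ x with hBd
  set A := Aq γ x with hAd
  have hB0 : 0 < B := Bq_pos γ x
  have hB0' : (B : ℤ) ≠ 0 := by exact_mod_cast hB0.ne'
  have h1 : (B : ℤ) * k + ((v : ℤ) - u) * A = 0 := by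
    unfold nk at h0
    rw [← hB, hA, ← hBd, ← hAd] at h0
    have h2 : (B : ℤ) * ((B : ℤ) * k + ((v : ℤ) - u) * A) = 0 := by
      rw [← h0]; ring
    rcases mul_eq_zero.mp h2 with h3 | h3
    · exact absurd h3 hB0'
    · exact h3
  -- `v (al B + A) = u (be B + A)`
  have h2 : (v : ℤ) * (al * B + A) = (u : ℤ) * (be * B + A) := by
    rw [hkk] at h1
    linear_combination h1
  have hcopZ : IsCoprime (u : ℤ) (v : ℤ) := Nat.isCoprime_iff_coprime.mpr hcop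
  have h3 : (u : ℤ) ∣ al * B + A := by
    apply hcopZ.dvd_of_dvd_mul_left
    rw [h2]
    exact dvd_mul_right _ _
  have h4 : (v : ℤ) ∣ be * B + A := by
    apply hcopZ.symm.dvd_of_dvd_mul_left
    rw [← h2]
    exact dvd_mul_right _ _
  -- primes of `u`
  have hpu : ∀ p : ℕ, p.Prime → p ∣ u → p ∉ PK γ x q ∧ ¬ p ∣ B := by
    intro p hp hpu
    have hd : (p : ℤ) ∣ al * B + A := dvd_trans (by exact_mod_cast hpu) h3
    refine ⟨fun h => hal p h hd, fun hpB => ?_⟩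
    have hpB' : (p : ℤ) ∣ (B : ℤ) := by exact_mod_cast hpB
    have hpA : (p : ℤ) ∣ A := (dvd_add_right (dvd_mul_of_dvd_right hpB' _)).mp hd
    have := hco.isUnit_of_dvd' hpB' hpA
    exact (Nat.prime_iff_prime_int.mp hp).not_isUnit this
  have hpv : ∀ p : ℕ, p.Prime → p ∣ v → p ∉ PK γ x' r ∧ ¬ p ∣ B := by
    intro p hp hpv
    have hd : (p : ℤ) ∣ be * B + A := dvd_trans (by exact_mod_cast hpv) h4
    refine ⟨fun h => hbe p h (by rw [← hB, hA]; exact hd), fun hpB => ?_⟩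
    have hpB' : (p : ℤ) ∣ (B : ℤ) := by exact_mod_cast hpB
    have hpA : (p : ℤ) ∣ A := (dvd_add_right (dvd_mul_of_dvd_right hpB' _)).mp hd
    have := hco.isUnit_of_dvd' hpB' hpA
    exact (Nat.prime_iff_prime_int.mp hp).not_isUnit this
  have hgpf : ∀ (n : ℕ) (y : ℝ), 0 ≤ y → (∀ p : ℕ, p.Prime → p ∣ n → n ≠ 0 → (p : ℝ) ≤ y) →
      (gpf n : ℝ) ≤ y := by
    intro n y hy h
    unfold gpf
    rcases n.primeFactors.eq_empty_or_nonempty with he | hne
    · rw [he]; simpa only [sup_empty, Nat.bot_eq_zero, CharP.cast_eq_zero] using hy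
    · obtain ⟨p, hp, hpe⟩ := exists_mem_eq_sup _ hne id
      rw [hpe]
      rw [Nat.mem_primeFactors] at hp
      exact h p hp.1 hp.2.1 hp.2.2
  refine ⟨⟨?_, ?_⟩, ⟨?_, ?_⟩, ?_⟩
  · rw [filter_eq_empty_iff]
    intro p hp hpu'
    exact (hpu p (PK_prime p hp) hpu').1 hp
  · rw [filter_eq_empty_iff]
    intro p hp hpv'
    exact (hpv p (PK_prime p hp) hpv').1 hp
  · apply hgpf _ _ (by linarith only [yK_gt_two γ x])
    intro p hp hpd _
    obtain ⟨h5, h6⟩ := hpu p hp hpd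
    by_contra hlt
    push Not at hlt
    apply h5
    unfold PK
    rw [mem_filter, Nat.mem_primeFactors]
    exact ⟨⟨hp, hpd.trans (cofac_dvd q r), hq.ne'⟩, hlt, h6⟩
  · apply hgpf _ _ (by linarith only [yK_gt_two γ x'])
    intro p hp hpd _
    obtain ⟨h5, h6⟩ := hpv p hp hpd
    by_contra hlt
    push Not at hlt
    apply h5
    unfold PK
    rw [mem_filter, Nat.mem_primeFactors]
    exact ⟨⟨hp, hpd.trans (cofac_dvd r q), hr.ne'⟩, hlt, by rw [← hB]; exact h6⟩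
  · intro hqr
    have huv : u ≠ v := fun h => hqr (eq_of_cofac_eq h)
    have hdvd : (B : ℤ) ∣ (u : ℤ) - v := by
      apply hco.dvd_of_dvd_mul_right
      exact ⟨k, by linear_combination (-1 : ℤ) * h1⟩
    obtain ⟨m, hm⟩ := hdvd
    have hm0 : m ≠ 0 := by
      rintro rfl
      rw [mul_zero] at hm
      apply huv
      have : (u : ℤ) = v := by linarith only [hm]
      exact_mod_cast this
    have hmR : (1 : ℝ) ≤ |(m : ℝ)| := by
      rw [← Int.cast_abs]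
      exact_mod_cast Int.one_le_abs hm0
    have hBR : (0 : ℝ) < B := by exact_mod_cast hB0
    have hmR' : ((u : ℝ) - v) = B * m := by exact_mod_cast hm
    constructor
    · have h5 : (B : ℝ) ≤ |(u : ℝ) - v| := by
        rw [hmR', abs_mul, abs_of_pos hBR]
        nlinarith only [hmR]
      refine h5.trans ?_
      have hu' : (0 : ℝ) ≤ u := Nat.cast_nonneg _
      have hv' : (0 : ℝ) ≤ v := Nat.cast_nonneg _
      rw [abs_le]
      constructor
      · have := le_max_right (u : ℝ) v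
        linarith only [this]
      · have := le_max_left (u : ℝ) v
        linarith only [this]
    · -- `k = m A`
      have hkm : k = m * A := by
        have h6 : (B : ℤ) * (k - m * A) = 0 := by
          have : (u : ℤ) - v = B * m := hm
          linear_combination h1 + A * this
        rcases mul_eq_zero.mp h6 with h7 | h7
        · exact absurd h7 hB0'
        · linarith only [h7]
      have h6 : (k : ℝ) - ((u : ℝ) - v) * γ = -(m * ((B : ℝ) * γ - A)) := by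
        rw [hmR', hkm]
        push_cast
        ring
      rw [h6, abs_neg, abs_mul] at hk1
      have h7 : |(B : ℝ) * γ - A| = distInt ((B : ℝ) * γ) := rfl
      rw [h7] at hk1
      have h8 : 0 ≤ distInt ((B : ℝ) * γ) := abs_nonneg _
      have h9 : 1 * distInt ((B : ℝ) * γ) ≤ |(m : ℝ)| * distInt ((B : ℝ) * γ) :=
        mul_le_mul_of_nonneg_right hmR h8
      linarith only [hk1, h9]

/-- exact sheets with different denominators -/
theorem exact_diff {γ : ℝ} {x x' : ℝ} {q r : ℕ} {k : ℤ}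
    (h0 : nk γ x x' (cofac q r) (cofac r q) k = 0) :
    Bq γ x' / Nat.gcd (Bq γ x) (Bq γ x') ∣ cofac q r ∧
    Bq γ x / Nat.gcd (Bq γ x') (Bq γ x) ∣ cofac r q := by
  set u := cofac q r with hu
  set v := cofac r q with hv
  have hco := Aq_coprime γ x
  have hco' := Aq_coprime γ x'
  unfold nk at h0
  set B := Bq γ x with hBd
  set B' := Bq γ x' with hBd'
  set A := Aq γ x with hAd
  set A' := Aq γ x' with hAd'
  have hB0 : 0 < B := Bq_pos γ x
  have hB0' : 0 < B' := Bq_pos γ x'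
  constructor
  · have h1 : (B' : ℤ) ∣ (u : ℤ) * B * A' := ⟨B * k + v * A, by linear_combination (-1 : ℤ) * h0⟩
    have h2 : (B' : ℤ) ∣ (u : ℤ) * B := hco'.dvd_of_dvd_mul_right h1
    have h3 : B' ∣ u * B := by exact_mod_cast h2
    have hg : 0 < Nat.gcd B B' := Nat.gcd_pos_of_pos_left _ hB0
    have h4 : B' / Nat.gcd B B' ∣ u * (B / Nat.gcd B B') := by
      rw [← Nat.mul_div_assoc _ (Nat.gcd_dvd_left B B')]
      exact Nat.div_dvd_div (Nat.gcd_dvd_right B B') h3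
    exact (Nat.coprime_div_gcd_div_gcd hg).symm.dvd_of_dvd_mul_right h4
  · have h1 : (B : ℤ) ∣ (v : ℤ) * B' * A := ⟨-(B' * k) + u * A', by linear_combination h0⟩
    have h2 : (B : ℤ) ∣ (v : ℤ) * B' := hco.dvd_of_dvd_mul_right h1
    have h3 : B ∣ v * B' := by exact_mod_cast h2
    have hg : 0 < Nat.gcd B' B := Nat.gcd_pos_of_pos_left _ hB0'
    have h4 : B / Nat.gcd B' B ∣ v * (B' / Nat.gcd B' B) := by
      rw [← Nat.mul_div_assoc _ (Nat.gcd_dvd_left B' B)]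
      exact Nat.div_dvd_div (Nat.gcd_dvd_right B' B) h3
    exact (Nat.coprime_div_gcd_div_gcd hg).symm.dvd_of_dvd_mul_right h4

/-- the value of the residual kernel -/
noncomputable def resK (q r : ℕ) : ℝ :=
  Real.exp (-(gpf (cofac q r * cofac r q) : ℝ) / 16) *
    ((cofac q r : ℝ) * (cofac r q : ℝ)) ^ (-(1 / 8) : ℝ)

theorem resK_nonneg (q r : ℕ) : 0 ≤ resK q r := by
  unfold resK
  (clear * -; positivity)

theorem F0_le {γ x x' : ℝ} {q r : ℕ} (hq : 0 < q) (hr : 0 < r) :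
    (q.totient : ℝ) / q ≤ pr (F0 γ x x' q r) ∧ (r.totient : ℝ) / r ≤ pr (F0 γ x x' q r) := by
  constructor
  · apply totient_ratio_le hq
    intro p hp
    unfold F0 at hp
    rw [mem_filter, mem_inter] at hp
    exact PK_subset γ x q hp.1.1
  · apply totient_ratio_le hr
    intro p hp
    unfold F0 at hp
    rw [mem_filter, mem_inter] at hp
    exact PK_subset γ x' r hp.1.2

theorem F0_pos (γ x x' : ℝ) (q r : ℕ) : 0 < pr (F0 γ x x' q r) :=
  pr_pos fun p hp => PK_prime p (mem_inter.mp (mem_filter.mp hp).1).1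

/-- exact sheets with the same denominator: the bound -/
theorem term_same {γ x x' : ℝ} {q r : ℕ} {k : ℤ} (hq : 0 < q) (hr : 0 < r) (hx : 0 < x)
    (hx' : 0 < x') (hqr : q = r → x = x')
    (hB : Bq γ x = Bq γ x') (hk : Sh γ x x' q r k)
    (h0 : nk γ x x' (cofac q r) (cofac r q) k = 0) :
    16 * ((q.totient : ℝ) / q * x * ((r.totient : ℝ) / r * x') / DD q r x x') *
      GU γ x x' q r * (pr (F0 γ x x' q r))⁻¹ ≤
      128 * (Real.sqrt (((q.totient : ℝ) / q * x) * ((r.totient : ℝ) / r * x')) * resK q r) := by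
  obtain ⟨⟨he1, he2⟩, ⟨hg1, hg2⟩, hne⟩ := exact_same hq hr hB hk h0
  have hGU : GU γ x x' q r = 1 := by
    unfold GU
    rw [he1, he2]
    simp only [pr, one_div, prod_empty, inv_one, mul_one]
  rw [hGU, mul_one]
  have hD0 : 0 < DD q r x x' := DD_pos hq hr hx
  obtain ⟨hf1, hf2⟩ := F0_le (γ := γ) (x := x) (x' := x') hq hr
  have hF0 := F0_pos γ x x' q r
  have ht1 := totient_ratio_pos hq
  have ht2 := totient_ratio_pos hr
  set a : ℝ := (q.totient : ℝ) / q with ha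
  set b : ℝ := (r.totient : ℝ) / r with hb
  set P : ℝ := pr (F0 γ x x' q r) with hP
  set D : ℝ := DD q r x x' with hD
  -- `a b / P ≤ sqrt (a b)`
  have h1 : Real.sqrt (a * b) ≤ P := by
    rw [Real.sqrt_le_left hF0.le, sq]
    exact mul_le_mul hf1 hf2 ht2.le hF0.le
  have h2 : a * b * P⁻¹ ≤ Real.sqrt (a * b) := by
    rw [← div_eq_mul_inv, div_le_iff₀ hF0]
    calc a * b = Real.sqrt (a * b) * Real.sqrt (a * b) :=
          (Real.mul_self_sqrt (by positivity)).symm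
      _ ≤ Real.sqrt (a * b) * P := by (clear * - h1 hq hr; gcongr)
  have h3 : Real.sqrt (a * x * (b * x')) = Real.sqrt (a * b) * Real.sqrt (x * x') := by
    rw [← Real.sqrt_mul (by positivity)]
    congr 1
    ring
  have h4 : Real.sqrt (x * x') * Real.sqrt (x * x') = x * x' := Real.mul_self_sqrt (by positivity)
  have hu0 : 0 < cofac q r := cofac_pos r hq
  have hv0 : 0 < cofac r q := cofac_pos q hr
  have h5 : Real.sqrt (x * x') / D ≤ 8 * resK q r := by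
    by_cases h : q = r
    · have hxx := hqr h
      subst h
      subst hxx
      have h6 : D = x := by
        rw [hD, DD_eq' hq, cofac_self hq]
        simp
      have h7 : resK q q = 1 := by
        unfold resK
        rw [cofac_self hq]
        simp only [gpf, mul_one, Nat.primeFactors_one, sup_empty, Nat.bot_eq_zero, CharP.cast_eq_zero, neg_zero, zero_div, Real.exp_zero, Nat.cast_one, one_div, Real.one_rpow]
      rw [h6, h7, Real.sqrt_mul_self hx.le, div_self hx.ne']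
      norm_num
    · obtain ⟨hm, hβ⟩ := hne h
      set β : ℝ := distInt ((Bq γ x : ℝ) * γ) with hβd
      set b' : ℝ := max β (min x x') with hb'
      have hb'0 : 0 < b' := lt_max_of_lt_right (lt_min hx hx')
      have hDv : (cofac r q : ℝ) * x ≤ D := by rw [hD, DD_eq' hq]; exact le_max_left _ _
      have hDu : (cofac q r : ℝ) * x' ≤ D := by rw [hD, DD_eq' hq]; exact le_max_right _ _
      have hv1 : (1 : ℝ) ≤ cofac r q := by exact_mod_cast hv0
      have hb'D : b' ≤ 2 * D := by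
        apply max_le hβ.le
        calc min x x' ≤ x := min_le_left _ _
          _ ≤ (cofac r q : ℝ) * x := by linarith only [mul_nonneg (le_of_lt (sub_pos.2 hx)) (sub_nonneg.2 hv1)]
          _ ≤ 2 * D := by linarith only [hD0, hDv]
      have hK1 : KK γ x ≤ max 1 (1 / (x / b')) := by
        unfold KK
        apply max_le (le_max_left _ _)
        refine le_trans ?_ (le_max_right _ _)
        rw [one_div_div]
        have : β ≤ b' := le_max_left _ _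
        (clear * - this hx; gcongr)
      have hK2 : KK γ x' ≤ max 1 (1 / (x' / b')) := by
        unfold KK
        apply max_le (le_max_left _ _)
        refine le_trans ?_ (le_max_right _ _)
        rw [one_div_div, ← hB]
        have : β ≤ b' := le_max_left _ _
        (clear * - this hx'; gcongr)
      have hBq := Bq_one_le γ x
      have hK1' := KK_one_le γ x
      have hK2' := KK_one_le γ x'
      have hy1 : yK γ x ≤ 2 + 2 * Real.log (2 * Bq γ x * max 1 (1 / (x / b'))) := by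
        unfold yK
        have : Real.log (2 * Bq γ x * KK γ x) ≤
            Real.log (2 * Bq γ x * max 1 (1 / (x / b'))) := by
          apply Real.log_le_log (by (clear * - hBq hK1'; positivity))
          (clear * - hK1 hBq; gcongr)
        linarith only [this]
      have hy2 : yK γ x' ≤ 2 + 2 * Real.log (2 * Bq γ x * max 1 (1 / (x' / b'))) := by
        unfold yK
        rw [← hB]
        have : Real.log (2 * Bq γ x * KK γ x') ≤
            Real.log (2 * Bq γ x * max 1 (1 / (x' / b'))) := by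
          apply Real.log_le_log (by (clear * - hBq hK2'; positivity))
          (clear * - hK2 hBq; gcongr)
        linarith only [this]
      have h6 := resid_bound (B := Bq γ x) (u := cofac q r) (v := cofac r q) (x := x / b')
        (x' := x' / b') (M := D / b') (Bq_pos γ x) hu0 hv0 hm (by (clear * - hx hx'; positivity)) (by (clear * - hx' hx; positivity))
        rfl rfl (by rw [← mul_div_assoc]; (clear * - hDv hx hx'; gcongr)) (by rw [← mul_div_assoc]; (clear * - hDu hx hx'; gcongr))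
        (by rw [div_le_div_iff₀ (by norm_num) hb'0]; linarith only [hb'D]) (hg1.trans hy1) (hg2.trans hy2)
      have h7 : Real.sqrt (x / b' * (x' / b')) = Real.sqrt (x * x') / b' := by
        rw [show x / b' * (x' / b') = x * x' / (b' * b') by (clear * - hx' hb'0 hx; field_simp),
          Real.sqrt_div (by positivity), Real.sqrt_mul_self hb'0.le]
      rw [h7] at h6
      have h8 : Real.sqrt (x * x') / b' / (D / b') = Real.sqrt (x * x') / D := by
        (clear * - hb'0 hD0 hx hx'; field_simp)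
      rw [h8] at h6
      exact h6
  calc 16 * (a * x * (b * x') / D) * P⁻¹ = 16 * (x * x') * (a * b * P⁻¹) / D := by ring
    _ ≤ 16 * (x * x') * Real.sqrt (a * b) / D := by (clear * - h2 hx hx' hD0; gcongr)
    _ = 16 * Real.sqrt (a * b) * (x * x' / D) := by ring
    _ = 16 * Real.sqrt (a * b) * (Real.sqrt (x * x') * (Real.sqrt (x * x') / D)) := by
        rw [← mul_div_assoc (Real.sqrt (x * x')), h4]
    _ = 16 * (Real.sqrt (a * b) * Real.sqrt (x * x')) * (Real.sqrt (x * x') / D) := by ring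
    _ ≤ 16 * (Real.sqrt (a * b) * Real.sqrt (x * x')) * (8 * resK q r) := by (clear * - h5 hq hr hx hx'; gcongr)
    _ = 128 * (Real.sqrt (a * x * (b * x')) * resK q r) := by rw [h3]; ring

/-- exact sheets with different denominators: the bound -/
theorem term_diff {γ x x' : ℝ} {q r : ℕ} (hq : 0 < q) (hr : 0 < r) (hx : 0 < x)
    (hx' : 0 < x') :
    16 * ((q.totient : ℝ) / q * x * ((r.totient : ℝ) / r * x') / DD q r x x') *
      GU γ x x' q r * (pr (F0 γ x x' q r))⁻¹ ≤ 16 * (x * x' / DD q r x x') := by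
  have hD0 : 0 < DD q r x x' := DD_pos hq hr hx
  have hF0 := F0_pos γ x x' q r
  have ht1 := totient_ratio_pos hq
  have ht2 := totient_ratio_pos hr
  have hPa : 0 < pr ((PK γ x q).filter (fun p => p ∣ cofac q r)) :=
    pr_pos fun p hp => PK_prime p (mem_filter.mp hp).1
  have hPb : 0 < pr ((PK γ x' r).filter (fun p => p ∣ cofac r q)) :=
    pr_pos fun p hp => PK_prime p (mem_filter.mp hp).1
  have h1 : (q.totient : ℝ) / q ≤ pr ((PK γ x q).filter (fun p => p ∣ cofac q r)) *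
      pr (F0 γ x x' q r) := by
    rw [← pr_union]
    · apply totient_ratio_le hq
      intro p hp
      rw [mem_union] at hp
      rcases hp with hp | hp
      · exact PK_subset γ x q (mem_filter.mp hp).1
      · unfold F0 at hp
        rw [mem_filter, mem_inter] at hp
        exact PK_subset γ x q hp.1.1
    · rw [disjoint_left]
      intro p hp hp'
      unfold F0 at hp'
      rw [mem_filter] at hp hp'
      exact hp'.2.1 hp.2
  have h2 : (r.totient : ℝ) / r ≤ pr ((PK γ x' r).filter (fun p => p ∣ cofac r q)) := by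
    apply totient_ratio_le hr
    intro p hp
    exact PK_subset γ x' r (mem_filter.mp hp).1
  unfold GU
  set a : ℝ := (q.totient : ℝ) / q with ha
  set b : ℝ := (r.totient : ℝ) / r with hb
  set P : ℝ := pr (F0 γ x x' q r) with hP
  set D : ℝ := DD q r x x' with hD
  set G₁ : ℝ := pr ((PK γ x q).filter (fun p => p ∣ cofac q r)) with hG₁
  set G₂ : ℝ := pr ((PK γ x' r).filter (fun p => p ∣ cofac r q)) with hG₂
  have h3 : a * b * (G₁⁻¹ * G₂⁻¹) * P⁻¹ ≤ 1 := by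
    have : a * b ≤ (G₁ * P) * G₂ := mul_le_mul h1 h2 ht2.le (by (clear * - hPa hF0; positivity))
    calc a * b * (G₁⁻¹ * G₂⁻¹) * P⁻¹ ≤ ((G₁ * P) * G₂) * (G₁⁻¹ * G₂⁻¹) * P⁻¹ := by (clear * - this hPa hPb hF0; gcongr)
      _ = 1 := by (clear * - hPa hF0 hPb; field_simp)
  calc 16 * (a * x * (b * x') / D) * (G₁⁻¹ * G₂⁻¹) * P⁻¹
      = 16 * (x * x' / D) * (a * b * (G₁⁻¹ * G₂⁻¹) * P⁻¹) := by ring
    _ ≤ 16 * (x * x' / D) * 1 := by gcongr
    _ = _ := mul_one _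

open Classical in
/-- the final bound for one pair -/
theorem pair_three : ∃ C > 0, ∀ (γ : ℝ) (ψ : ℕ → ℝ) (q r : ℕ), 0 < q → 0 < r → 0 < ψ q →
    0 < ψ r → ψ q ≤ 1 / 2 → ψ r ≤ 1 / 2 →
    wK γ (ψ q) q * wK γ (ψ r) r * volume.real (GK γ ψ q ∩ GK γ ψ r ∩ Set.Ioc 0 1) ≤
      C * ((q.totient : ℝ) / q * ψ q * ((r.totient : ℝ) / r * ψ r) *
          GT (max 2 (DD q r (ψ q) (ψ r))) (cofac q r * cofac r q)) +
      (if DD q r (ψ q) (ψ r) < 1 / 1024 ∧ (∀ s, 0 < s → s ≤ 1 / 1024 →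
          DD q r (ψ q) (ψ r) ≤ s → s / 2 < DD q r (ψ q) (ψ r) → TA γ ψ s q r ∨ UB ψ s q r) then
        C * ((q.totient : ℝ) / q * ψ q * ((r.totient : ℝ) / r * ψ r) *
          GG (cofac q r * cofac r q) / DD q r (ψ q) (ψ r)) else 0) +
      128 * (Real.sqrt (((q.totient : ℝ) / q * ψ q) * ((r.totient : ℝ) / r * ψ r)) *
        resK q r) +
      (if Bq γ (ψ q) < Bq γ (ψ r) ∧ Bq γ (ψ r) / Nat.gcd (Bq γ (ψ q)) (Bq γ (ψ r)) ∣ cofac q r then
        16 * (ψ q * ψ r / DD q r (ψ q) (ψ r)) else 0) +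
      (if Bq γ (ψ r) < Bq γ (ψ q) ∧ Bq γ (ψ q) / Nat.gcd (Bq γ (ψ r)) (Bq γ (ψ q)) ∣ cofac r q then
        16 * (ψ q * ψ r / DD q r (ψ q) (ψ r)) else 0) := by
  obtain ⟨C, hC, h2⟩ := pair_two
  refine ⟨C, hC, ?_⟩
  intro γ ψ q r hq hr hψq hψr hq2 hr2
  have hD0 : 0 < DD q r (ψ q) (ψ r) := DD_pos hq hr hψq
  have hμ : 0 < (q.totient : ℝ) / q * ψ q := mul_pos (totient_ratio_pos hq) hψq
  have hμ' : 0 < (r.totient : ℝ) / r * ψ r := mul_pos (totient_ratio_pos hr) hψr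
  have hGT0 : 0 ≤ GT (max 2 (DD q r (ψ q) (ψ r))) (cofac q r * cofac r q) := by
    rw [GT_eq]
    exact inv_nonneg.mpr (pr_pos fun p hp =>
      Nat.prime_of_mem_primeFactors (mem_filter.mp hp).1).le
  have hGG0 : 0 ≤ GG (cofac q r * cofac r q) := by
    rw [GG_eq]
    exact inv_nonneg.mpr (pr_pos fun p hp => Nat.prime_of_mem_primeFactors hp).le
  have hres := resK_nonneg q r
  refine (h2 γ q r (ψ q) (ψ r) hq hr hψq hψr hq2 hr2).trans ?_
  have t1 : (if 1 / 1024 ≤ DD q r (ψ q) (ψ r) then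
        C * ((q.totient : ℝ) / q * ψ q * ((r.totient : ℝ) / r * ψ r) *
          GT (max 2 (DD q r (ψ q) (ψ r))) (cofac q r * cofac r q)) else 0) ≤
      C * ((q.totient : ℝ) / q * ψ q * ((r.totient : ℝ) / r * ψ r) *
          GT (max 2 (DD q r (ψ q) (ψ r))) (cofac q r * cofac r q)) := by
    split_ifs
    · exact le_rfl
    · (clear * - hC hq hψq hr hψr hGT0; positivity)
  have t2 : (if DD q r (ψ q) (ψ r) < 1 / 1024 ∧ ∃ k, Sh γ (ψ q) (ψ r) q r k ∧
          nk γ (ψ q) (ψ r) (cofac q r) (cofac r q) k ≠ 0 then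
        C * ((q.totient : ℝ) / q * ψ q * ((r.totient : ℝ) / r * ψ r) *
          GG (cofac q r * cofac r q) / DD q r (ψ q) (ψ r)) else 0) ≤
      (if DD q r (ψ q) (ψ r) < 1 / 1024 ∧ (∀ s, 0 < s → s ≤ 1 / 1024 →
          DD q r (ψ q) (ψ r) ≤ s → s / 2 < DD q r (ψ q) (ψ r) → TA γ ψ s q r ∨ UB ψ s q r) then
        C * ((q.totient : ℝ) / q * ψ q * ((r.totient : ℝ) / r * ψ r) *
          GG (cofac q r * cofac r q) / DD q r (ψ q) (ψ r)) else 0) := by
    by_cases h : DD q r (ψ q) (ψ r) < 1 / 1024 ∧ ∃ k, Sh γ (ψ q) (ψ r) q r k ∧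
          nk γ (ψ q) (ψ r) (cofac q r) (cofac r q) k ≠ 0
    · rw [if_pos h]
      obtain ⟨h3, k, hk, hk'⟩ := h
      rw [if_pos ⟨h3, fun s hs hs1 hs2 hs3 => far_or_unbal hq hr hs hs1 hs2 hs3 hk hk'⟩]
    · rw [if_neg h]
      split_ifs
      · (clear * - hC hq hψq hr hψr hGG0 hD0; positivity)
      · exact le_rfl
  have hd1 : 0 ≤ (if Bq γ (ψ q) < Bq γ (ψ r) ∧
      Bq γ (ψ r) / Nat.gcd (Bq γ (ψ q)) (Bq γ (ψ r)) ∣ cofac q r then
        16 * (ψ q * ψ r / DD q r (ψ q) (ψ r)) else 0) := by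
    split_ifs
    · (clear * - hψq hψr hD0; positivity)
    · exact le_rfl
  have hd2 : 0 ≤ (if Bq γ (ψ r) < Bq γ (ψ q) ∧
      Bq γ (ψ q) / Nat.gcd (Bq γ (ψ r)) (Bq γ (ψ q)) ∣ cofac r q then
        16 * (ψ q * ψ r / DD q r (ψ q) (ψ r)) else 0) := by
    split_ifs
    · (clear * - hψq hψr hD0; positivity)
    · exact le_rfl
  have hsq : 0 ≤ 128 * (Real.sqrt (((q.totient : ℝ) / q * ψ q) * ((r.totient : ℝ) / r * ψ r)) *
        resK q r) := by (clear * - hq hψq hr hψr hres; positivity)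
  have t3 : (if ∃ k, Sh γ (ψ q) (ψ r) q r k ∧
        nk γ (ψ q) (ψ r) (cofac q r) (cofac r q) k = 0 then
        16 * ((q.totient : ℝ) / q * ψ q * ((r.totient : ℝ) / r * ψ r) / DD q r (ψ q) (ψ r)) *
          GU γ (ψ q) (ψ r) q r * (pr (F0 γ (ψ q) (ψ r) q r))⁻¹ else 0) ≤
      128 * (Real.sqrt (((q.totient : ℝ) / q * ψ q) * ((r.totient : ℝ) / r * ψ r)) *
        resK q r) +
      (if Bq γ (ψ q) < Bq γ (ψ r) ∧ Bq γ (ψ r) / Nat.gcd (Bq γ (ψ q)) (Bq γ (ψ r)) ∣ cofac q r then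
        16 * (ψ q * ψ r / DD q r (ψ q) (ψ r)) else 0) +
      (if Bq γ (ψ r) < Bq γ (ψ q) ∧ Bq γ (ψ q) / Nat.gcd (Bq γ (ψ r)) (Bq γ (ψ q)) ∣ cofac r q then
        16 * (ψ q * ψ r / DD q r (ψ q) (ψ r)) else 0) := by
    by_cases h : ∃ k, Sh γ (ψ q) (ψ r) q r k ∧
        nk γ (ψ q) (ψ r) (cofac q r) (cofac r q) k = 0
    · rw [if_pos h]
      obtain ⟨k, hk, hk0⟩ := h
      rcases lt_trichotomy (Bq γ (ψ q)) (Bq γ (ψ r)) with hlt | heq | hgt
      · obtain ⟨h3, -⟩ := exact_diff hk0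
        have h4 := term_diff (γ := γ) hq hr hψq hψr
        rw [if_pos ⟨hlt, h3⟩]
        linarith only [h4, hsq, hd2]
      · have h4 := term_same hq hr hψq hψr (fun h => by rw [h]) heq hk hk0
        linarith only [hd1, hd2, h4]
      · obtain ⟨-, h3⟩ := exact_diff hk0
        have h4 := term_diff (γ := γ) hq hr hψq hψr
        rw [if_pos (⟨hgt, h3⟩ : Bq γ (ψ r) < Bq γ (ψ q) ∧
          Bq γ (ψ q) / Nat.gcd (Bq γ (ψ r)) (Bq γ (ψ q)) ∣ cofac r q)]
        linarith only [hd1, hsq, h4]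
    · rw [if_neg h]
      linarith only [hd1, hd2, hsq]
  linarith only [t1, t2, t3]

end Vale.P028
end

section

set_option linter.all false

/-!
# `T1` for a general set of allowed pairs of cofactors with small density
-/

namespace Vale.P028

open Finset

open Classical in
/-- base case for a general set of allowed pairs. -/
theorem kg_base (Ω : ℕ → ℕ → Prop) {θ : ℝ} (hθ : 1 / 2 < θ) (hθ1 : θ < 1)
    {S y : ℝ} (hS0 : 0 < S) (hS1 : S ≤ 1) (hy : 1 < y)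
    (hdens : ∀ a b : ℕ, 0 < a → 0 < b → (a : ℝ) ≤ S ^ (-Real.log y) →
      (b : ℝ) ≤ S ^ (-Real.log y) → ∀ q₀ r₀ : ℕ, 0 < q₀ → 0 < r₀ → Ω (a * q₀) (b * r₀) →
      (((Icc 1 q₀).filter (fun m => Ω (a * m) (b * r₀))).card : ℝ) *
        (((Icc 1 r₀).filter (fun n => Ω (a * q₀) (b * n))).card : ℝ) ≤ S * q₀ * r₀) :
    BaseBound Ω θ (KB θ S y) := by
  classical
  have hl0 : 0 < 1 - θ := by linarith only [hθ1]
  have hly : 0 < Real.log y := Real.log_pos hy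
  intro a b ha hb ψ₁ ψ₂ f h s₁ s₂ N hs₁ hs₂ hf hh
  have ha' : (0 : ℝ) < a := by exact_mod_cast ha
  have hb' : (0 : ℝ) < b := by exact_mod_cast hb
  have hF0 : 0 ≤ ∑ q ∈ Icc 1 N, f q := sum_nonneg fun q _ => (hf q).1
  have hH0 : 0 ≤ ∑ q ∈ Icc 1 N, h q := sum_nonneg fun q _ => (hh q).1
  have hm1 := mpB_ge_one (θ := θ) hθ1 hS0 hS1 hy
  have hma := mm_ge_one (mpB θ S y) hm1 a
  have hmb := mm_ge_one (mpB θ S y) hm1 b
  have hab : 0 < (a : ℝ) * b := by (clear * - ha hb; positivity)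
  by_cases hcase : 1 ≤ S ^ (1 - θ) * (mm (mpB θ S y) a * mm (mpB θ S y) b)
  · have h1 := base_trick Ω hθ hθ1 1 zero_le_one a b ha hb (by
      intro q₀ r₀ hq₀ hr₀ _
      rw [one_mul]
      refine mul_le_mul ?_ ?_ (by (clear * -; positivity)) (by (clear * - hq₀; positivity))
      · exact card_filter_cl _ _
      · exact card_filter_cl _ _) ψ₁ ψ₂ f h s₁ s₂ N hs₁ hs₂ hf hh
    refine h1.trans ?_
    refine mul_le_mul_of_nonneg_right ?_ (by (clear * - hF0 hH0; positivity))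
    unfold KB
    have h2 : (16 * s₁ * s₂ * 1 / ((a : ℝ) * b)) ^ (1 - θ) =
        (s₁ * s₂) ^ (1 - θ) * (16 / ((a : ℝ) * b)) ^ (1 - θ) := by
      rw [← Real.mul_rpow (by (clear * - hs₁ hs₂; positivity)) (by positivity)]
      congr 1
      (clear * - hb ha hs₂ hs₁; field_simp)
    rw [h2]
    have h3 : 0 ≤ (s₁ * s₂) ^ (1 - θ) * (16 / ((a : ℝ) * b)) ^ (1 - θ) := by positivity
    calc (s₁ * s₂) ^ (1 - θ) * (16 / ((a : ℝ) * b)) ^ (1 - θ)
        ≤ (s₁ * s₂) ^ (1 - θ) * (16 / ((a : ℝ) * b)) ^ (1 - θ) *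
          (S ^ (1 - θ) * (mm (mpB θ S y) a * mm (mpB θ S y) b)) :=
          le_mul_of_one_le_right h3 hcase
      _ = _ := by ring
  · push Not at hcase
    have hSl : 0 < S ^ (1 - θ) := by positivity
    have hprod : mm (mpB θ S y) a * mm (mpB θ S y) b < S ^ (-(1 - θ)) := by
      rw [Real.rpow_neg hS0.le]
      rw [mul_comm] at hcase
      rw [lt_inv_comm₀ (by (clear * - hma hmb; positivity)) hSl]
      rw [lt_inv_comm₀ hSl (by (clear * - hma hmb; positivity)), ← one_div, lt_div_iff₀ hSl]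
      exact hcase
    -- each of `a`, `b` is `y`-smooth and `≤ Z`
    have hsm : ∀ n m : ℕ, 0 < n → 1 ≤ mm (mpB θ S y) m →
        mm (mpB θ S y) n * mm (mpB θ S y) m < S ^ (-(1 - θ)) → (n : ℝ) ≤ S ^ (-Real.log y) := by
      intro n m hn hm hlt
      have hn' : (0 : ℝ) < n := by exact_mod_cast hn
      have hmn := mm_ge_one (mpB θ S y) hm1 n
      have h1 : mm (mpB θ S y) n < S ^ (-(1 - θ)) := by linarith only [mul_nonneg (sub_nonneg.2 hm) (sub_nonneg.2 hmn), hlt, hm]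
      have h2 : ∀ p : ℕ, p.Prime → p ∣ n →
          mpB θ S y p = (p : ℝ) ^ ((1 - θ) / Real.log y) := by
        intro p hp hpn
        have h3 := mm_ge_of_dvd (mpB θ S y) hm1 hn.ne' hp hpn
        by_contra hne
        have h4 : mpB θ S y p = S ^ (-(1 - θ)) := by
          unfold mpB at hne ⊢
          by_cases h5 : (p : ℝ) ≤ y
          · rw [if_pos h5] at hne
            exact absurd rfl hne
          · rw [if_neg h5]
        rw [h4] at h3
        linarith only [h1, h3]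
      have h3 := mm_smooth (mpB θ S y) hn.ne' h2
      rw [h3] at h1
      have h4 : ((n : ℝ) ^ ((1 - θ) / Real.log y)) ^ (Real.log y / (1 - θ)) <
          (S ^ (-(1 - θ))) ^ (Real.log y / (1 - θ)) :=
        Real.rpow_lt_rpow (by (clear * - hn; positivity)) h1 (div_pos hly hl0)
      rw [← Real.rpow_mul hn'.le, ← Real.rpow_mul hS0.le] at h4
      have h5 : (1 - θ) / Real.log y * (Real.log y / (1 - θ)) = 1 := by
        (clear * - hl0 hly; field_simp)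
      have h6 : -(1 - θ) * (Real.log y / (1 - θ)) = -Real.log y := by
        (clear * - hl0 hly; field_simp)
      rw [h5, h6, Real.rpow_one] at h4
      exact h4.le
    have haZ := hsm a b ha hmb hprod
    have hbZ := hsm b a hb hma (by rw [mul_comm]; exact hprod)
    have h1 := base_trick Ω hθ hθ1 S hS0.le a b ha hb (by
      intro q₀ r₀ hq₀ hr₀ hΩ
      exact hdens a b ha hb haZ hbZ q₀ r₀ hq₀ hr₀ hΩ)
      ψ₁ ψ₂ f h s₁ s₂ N hs₁ hs₂ hf hh
    refine h1.trans ?_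
    refine mul_le_mul_of_nonneg_right ?_ (by (clear * - hF0 hH0; positivity))
    unfold KB
    have h2 : (16 * s₁ * s₂ * S / ((a : ℝ) * b)) ^ (1 - θ) =
        (s₁ * s₂) ^ (1 - θ) * ((16 / ((a : ℝ) * b)) ^ (1 - θ) * S ^ (1 - θ)) := by
      rw [← Real.mul_rpow (by (clear * - ha hb; positivity)) (by positivity),
        ← Real.mul_rpow (by positivity) (by positivity)]
      congr 1
      (clear * - hb ha hS0 hs₂ hs₁; field_simp)
    rw [h2]
    refine mul_le_mul_of_nonneg_left ?_ (by positivity)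
    refine le_mul_of_one_le_right (by positivity) ?_
    linarith only [mul_nonneg (sub_nonneg.2 hma) (sub_nonneg.2 hmb), hmb, hma]

open Classical in
/-- `T1` for pairs whose cofactors lie in a set `Ω` of density `≤ S` along all lines. -/
theorem T1gen {θ : ℝ} (hθ : 1 / 2 < θ) (hθ1 : θ < 1) :
    ∃ B₀ > 0, ∃ C > 0, ∀ (Ω : ℕ → ℕ → Prop) (S y : ℝ), 0 < S → S ≤ 1 → 0 < y →
      2 ≤ Real.log y → 1 ≤ S * y * B₀ → 1 ≤ S * y → S ^ (-(2 * θ)) ≤ y ^ (θ - 1 / 2) →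
      (∀ a b : ℕ, 0 < a → 0 < b → (a : ℝ) ≤ S ^ (-Real.log y) →
        (b : ℝ) ≤ S ^ (-Real.log y) → ∀ q₀ r₀ : ℕ, 0 < q₀ → 0 < r₀ → Ω (a * q₀) (b * r₀) →
        (((Icc 1 q₀).filter (fun m => Ω (a * m) (b * r₀))).card : ℝ) *
          (((Icc 1 r₀).filter (fun n => Ω (a * q₀) (b * n))).card : ℝ) ≤ S * q₀ * r₀) →
      ∀ (ψ₁ ψ₂ f h : ℕ → ℝ) (s₁ s₂ : ℝ) (N : ℕ), 0 < s₁ → 0 < s₂ →
        (∀ q, 0 ≤ ψ₁ q) → (∀ q, 0 ≤ ψ₂ q) →
        (∀ q, 0 ≤ f q ∧ f q ≤ ψ₁ q * (q.totient / q)) →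
        (∀ r, 0 ≤ h r ∧ h r ≤ ψ₂ r * (r.totient / r)) →
        (∀ q : ℕ, f q ≠ 0 → 0 < q ∧ 4 * Real.log q ≤ S * y) →
        (∀ q : ℕ, h q ≠ 0 → 0 < q ∧ 4 * Real.log q ≤ S * y) →
        psum (fun q r => Ω (cofac q r) (cofac r q) ∧ (cofac r q : ℝ) * ψ₁ q ≤ s₁ ∧
          (cofac q r : ℝ) * ψ₂ r ≤ s₂) N f h ≤
        C * (s₁ * s₂ * S) ^ (1 - θ) * ((∑ q ∈ Icc 1 N, f q) * ∑ r ∈ Icc 1 N, h r) ^ θ := by
  obtain ⟨B₀, hB₀, C, hC, hB₀1, hSPs⟩ := SP_small hθ hθ1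
  obtain ⟨K₀, hK₀, hprod⟩ := prod_cB (C := C) hθ hθ1 hB₀ hC
  refine ⟨B₀, hB₀, K₀ * 64 ^ (1 - θ), by (clear * - hK₀; positivity), ?_⟩
  intro Ω S y hS0 hS1 hy0 hly hn1 hn2 hn3 hdens ψ₁ ψ₂ f h s₁ s₂ N hs₁ hs₂ hψ₁ hψ₂ hf hh hsf hsh
  have hy1 : 1 < y := by
    by_contra hne
    push Not at hne
    have := Real.log_nonpos hy0.le hne
    linarith only [hly, this]
  have hbase := kg_base Ω hθ hθ1 hS0 hS1 hy1 hdens
  have hl0 : 0 < 1 - θ := by linarith only [hθ1]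
  set P : Finset ℕ := (Icc 1 N).filter Nat.Prime with hPdef
  have hP : ∀ p ∈ P, p.Prime := fun p hp => (mem_filter.1 hp).2
  have hxlt : ∀ p : ℕ, p.Prime → xB S y p < 1 := by
    intro p hp
    obtain ⟨h1, h2⟩ := xB_le hS0 hly hp
    by_cases hpy : (p : ℝ) ≤ y
    · have h3 := (BqB_bounds (S := S) hly hp hpy).2.2.2
      have h4 : ((1 / 2 : ℝ)) ^ (1 / 2 : ℝ) < 1 :=
        Real.rpow_lt_one (by norm_num) (by norm_num) (by norm_num)
      linarith only [h2, h3, h4]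
    · have h3 := (BqB_large hS0 hB₀ hy0 hn1 hpy).1
      linarith only [hB₀1, h2, h3]
  have hB0 : ∀ p : ℕ, p.Prime → 0 ≤ (BqB S y p) ^ (1 - θ) := by
    intro p hp
    obtain ⟨h1, h2⟩ := xB_le hS0 hly hp
    exact Real.rpow_nonneg (by linarith only [h1, h2]) _
  have hg : ∀ p : ℕ, p.Prime → ∀ a b l : ℕ, 0 < a → 0 < b →
      KB θ S y (a * p ^ l) b ≤ ((BqB S y p) ^ (1 - θ)) ^ l * KB θ S y a b := by
    intro p hp a b l ha hb
    rw [KB_grow hp a b l ha hb, BqB_eq hS0 hp]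
  have hF0 : 0 ≤ ∑ q ∈ Icc 1 N, f q := sum_nonneg fun q _ => (hf q).1
  have hH0 : 0 ≤ ∑ q ∈ Icc 1 N, h q := sum_nonneg fun q _ => (hh q).1
  have hw : ∀ (ψ f : ℕ → ℝ), (∀ q, 0 ≤ ψ q) → (∀ q, 0 ≤ f q ∧ f q ≤ ψ q * (q.totient / q)) →
      (∀ q : ℕ, f q ≠ 0 → 0 < q ∧ 4 * Real.log q ≤ S * y) →
      ∀ q, 0 ≤ f q ∧ f q ≤ (2 * ψ q) * ∏ p ∈ P with p ∣ q, (1 - xB S y p) := by
    intro ψ f hψ hf hsupp q
    refine ⟨(hf q).1, ?_⟩
    have hprod0 : 0 ≤ ∏ p ∈ P with p ∣ q, (1 - xB S y p) := by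
      refine prod_nonneg fun p hp => ?_
      have := hxlt p (hP p (mem_filter.1 hp).1)
      linarith only [this]
    by_cases h0 : f q = 0
    · rw [h0]
      have := hψ q
      (clear * - this hprod0; positivity)
    · obtain ⟨hq, hq4⟩ := hsupp q h0
      have h1 := weightB hS0 hy0 hn2 hq hq4 P hP
      calc f q ≤ ψ q * (q.totient / q) := (hf q).2
        _ ≤ ψ q * (2 * ∏ p ∈ P with p ∣ q, (1 - xB S y p)) :=
            mul_le_mul_of_nonneg_left h1 (hψ q)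
        _ = (2 * ψ q) * ∏ p ∈ P with p ∣ q, (1 - xB S y p) := by ring
  have hL := theoremL Ω hθ hθ1 (KB θ S y)
    (fun a b => KB_nonneg hθ1 hS0 hS1 hy1 a b) hbase P hP
    (fun p => (BqB S y p) ^ (1 - θ)) (xB S y) (cMB θ B₀ C S y)
    (fun p hp => hB0 p (hP p hp))
    (fun p hp => ⟨(xB_le hS0 hly (hP p hp)).1.le, hxlt p (hP p hp)⟩)
    (fun p hp => cB_nonneg hθ1 hB₀ hC hS0 hy0 hly hn1 (hP p hp))
    (fun p hp a b l ha hb => hg p (hP p hp) a b l ha hb)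
    (fun p hp a b l ha hb => by
      rw [KB_comm _ _ _ a, KB_comm _ _ _ a b]
      exact hg p (hP p hp) b a l hb ha)
    (fun p hp => SP_cB hθ hθ1 hB₀ hSPs hS0 hy0 hly hn1 (hP p hp))
    1 1 one_pos one_pos (fun q => 2 * ψ₁ q) (fun q => 2 * ψ₂ q) f h (2 * s₁) (2 * s₂) N
    (by positivity) (by positivity) (fun q => by have := hψ₁ q; (clear * - this; positivity))
    (fun q => by have := hψ₂ q; (clear * - this; positivity)) (hw ψ₁ f hψ₁ hf hsf) (hw ψ₂ h hψ₂ hh hsh)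
  have hmono : psum (fun q r => Ω (cofac q r) (cofac r q) ∧ (cofac r q : ℝ) * ψ₁ q ≤ s₁ ∧
          (cofac q r : ℝ) * ψ₂ r ≤ s₂) N f h ≤
      Lam Ω P 1 1 (fun q => 2 * ψ₁ q) (fun q => 2 * ψ₂ q) (2 * s₁) (2 * s₂) N f h := by
    unfold Lam
    refine psum_mono _ _ N f h f h (fun q => (hf q).1) (fun q => (hh q).1) ?_
    intro q hq r hr hqr hne
    obtain ⟨hr1, hr2, hr3⟩ := hqr
    refine ⟨⟨?_, ?_, ?_, ?_⟩, le_rfl⟩
    · intro p hp hpd
      rw [mem_Icc] at hq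
      have h1 : p ∣ q := hpd.trans (Nat.gcd_dvd_left q r)
      have h2 : p ≤ q := Nat.le_of_dvd (by omega) h1
      simp only [hPdef, mem_filter, mem_Icc]
      exact ⟨⟨hp.one_lt.le, by omega⟩, hp⟩
    · rw [one_mul, one_mul]
      exact hr1
    · push_cast
      linarith only [hr2]
    · push_cast
      linarith only [hr3]
  refine hmono.trans (hL.trans ?_)
  have hK11 : KB θ S y 1 1 = (16 : ℝ) ^ (1 - θ) * S ^ (1 - θ) := by
    unfold KB
    rw [mm_one]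
    norm_num
  rw [hK11]
  have hpr := hprod S y hS0 hS1 hy0 hly hn1 hn3 P hP
  have hall : (2 * s₁ * (2 * s₂)) ^ (1 - θ) * ((16 : ℝ) ^ (1 - θ) * S ^ (1 - θ)) =
      64 ^ (1 - θ) * (s₁ * s₂ * S) ^ (1 - θ) := by
    rw [← Real.mul_rpow (by positivity) (by positivity),
      ← Real.mul_rpow (by (clear * - hs₁ hs₂; positivity)) (by positivity),
      ← Real.mul_rpow (by positivity) (by (clear * - hs₁ hs₂ hS0; positivity))]
    congr 1
    ring
  have hX0 : 0 ≤ (2 * s₁ * (2 * s₂)) ^ (1 - θ) * ((16 : ℝ) ^ (1 - θ) * S ^ (1 - θ)) *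
      ((∑ q ∈ Icc 1 N, f q) * ∑ r ∈ Icc 1 N, h r) ^ θ := by (clear * - hs₁ hs₂ hS0 hF0 hH0; positivity)
  calc (∏ p ∈ P, cMB θ B₀ C S y p) * (2 * s₁ * (2 * s₂)) ^ (1 - θ) *
        ((16 : ℝ) ^ (1 - θ) * S ^ (1 - θ)) *
        ((∑ q ∈ Icc 1 N, f q) * ∑ r ∈ Icc 1 N, h r) ^ θ
      = (∏ p ∈ P, cMB θ B₀ C S y p) * ((2 * s₁ * (2 * s₂)) ^ (1 - θ) *
        ((16 : ℝ) ^ (1 - θ) * S ^ (1 - θ)) *
        ((∑ q ∈ Icc 1 N, f q) * ∑ r ∈ Icc 1 N, h r) ^ θ) := by ring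
    _ ≤ K₀ * ((2 * s₁ * (2 * s₂)) ^ (1 - θ) *
        ((16 : ℝ) ^ (1 - θ) * S ^ (1 - θ)) *
        ((∑ q ∈ Icc 1 N, f q) * ∑ r ∈ Icc 1 N, h r) ^ θ) :=
        mul_le_mul_of_nonneg_right hpr hX0
    _ = K₀ * 64 ^ (1 - θ) * (s₁ * s₂ * S) ^ (1 - θ) *
        ((∑ q ∈ Icc 1 N, f q) * ∑ r ∈ Icc 1 N, h r) ^ θ := by
        rw [hall]
        ring

end Vale.P028
end

section
attribute [-instance] ProperSMul.toContinuousSMul IsTopologicalTorsor.toContinuousSMul IdemSemiring.toCanonicallyOrderedAdd IdemSemiring.toMulLeftMono IdemSemiring.toMulRightMono AddQuantale.instAddLeftMono AddQuantale.instAddRightMono Quantale.instMulLeftMono Quantale.instMulRightMono FiniteDimensional.rclike_to_real IsScalarTower.complexToReal FiniteDimensional.complexToReal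

set_option linter.all false

/-!
# Core estimate for far pairs, all real `γ`
-/

namespace Vale.P028

open Finset

/-- numerical conditions of the core estimate -/
theorem kcore_num {B₀ ε₁ : ℝ} (hB₀ : 0 < B₀) (hε₁ : 0 < ε₁) :
    ∃ A X₀ : ℝ, 0 < A ∧ ∀ X s : ℝ, X₀ ≤ X → (18 * Real.log X) ^ (-1 / ε₁) ≤ s → s ≤ 1 / 1000 →
      1 ≤ X ∧ 0 < s ∧ ∃ y : ℝ, 0 < y ∧ 2 ≤ Real.log y ∧ ∀ S : ℝ, s ≤ S → S ≤ 1 →
        1 ≤ S * y * B₀ ∧ 1 ≤ S * y ∧
        S ^ (-(2 * (501 / 1000 : ℝ))) ≤ y ^ ((501 / 1000 : ℝ) - 1 / 2) ∧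
        (∀ q : ℕ, 0 < q → (q : ℝ) ≤ X ^ 9 → 4 * Real.log q ≤ S * y) ∧
        1 ≤ S ^ (-Real.log y) ∧
        ∀ V₀ : ℝ, Real.exp (A * Real.log (Real.log X) * Real.log (1 / s)) ≤ V₀ →
        (S ^ (-Real.log y) / s) ^ 16 ≤ V₀ := by
  have hE0 : 0 < 2 / ε₁ := by positivity
  obtain ⟨E, hE⟩ : ∃ E, E = 2 / ε₁ := ⟨_, rfl⟩
  rw [← hE] at hE0
  obtain ⟨C₄, hC₄⟩ : ∃ C₄, C₄ = 1100 * E + |Real.log B₀| + 5 := ⟨_, rfl⟩
  have hC₄0 : 0 < C₄ := by rw [hC₄]; (clear * - hE0; positivity)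
  obtain ⟨A, hA⟩ : ∃ A, A = 16 * (C₄ + 1) := ⟨_, rfl⟩
  have hA0 : 0 < A := by rw [hA]; positivity
  refine ⟨A, Real.exp (Real.exp 4), hA0, ?_⟩
  intro X s hX hs hs'
  obtain ⟨hX1, hl4, hLe, h36, hs0, hlogs⟩ := numC1 hE hε₁ hX hs
  generalize hl : Real.log (Real.log X) = l at hl4 hLe hlogs ⊢
  have hly : Real.log (Real.exp (C₄ * l)) = C₄ * l := Real.log_exp _
  have hEl : 0 ≤ E * l := by (clear * - hE0 hl4; positivity)
  have hBl : |Real.log B₀| ≤ |Real.log B₀| * l :=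
    le_mul_of_one_le_right (abs_nonneg _) (by linarith only [hl4])
  have hC4l : C₄ * l = 1100 * (E * l) + |Real.log B₀| * l + 5 * l := by rw [hC₄]; ring
  have hB₀l : 0 ≤ |Real.log B₀| * l := by (clear * - hl4; positivity)
  have ht1 : 1 ≤ Real.log (1 / s) := by
    have h1 : Real.log 4 ≤ Real.log (1 / s) := by
      apply Real.log_le_log (by norm_num)
      rw [le_div_iff₀ hs0]
      linarith only [hs']
    have h2 : Real.log 4 = 2 * Real.log 2 := by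
      rw [show (4 : ℝ) = 2 ^ 2 by norm_num, Real.log_pow]
      norm_num
    have := Real.log_two_gt_d9
    linarith only [h1, h2, this]
  have hlogt : Real.log s = -Real.log (1 / s) := by
    rw [one_div, Real.log_inv, neg_neg]
  refine ⟨hX1, hs0, Real.exp (C₄ * l), Real.exp_pos _, by rw [hly]; linarith only [hl4, hlogs, hC4l, hB₀l, ht1, hlogt], ?_⟩
  intro S hSs hS1
  have hS0 : 0 < S := lt_of_lt_of_le hs0 hSs
  have hlogSs : Real.log s ≤ Real.log S := Real.log_le_log hs0 hSs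
  have hlogS0 : Real.log S ≤ 0 := Real.log_nonpos hS0.le hS1
  have hlogS : -(E * l) ≤ Real.log S := hlogs.trans hlogSs
  have hSy5 : Real.exp (5 * l) ≤ S * Real.exp (C₄ * l) := by
    calc Real.exp (5 * l) ≤ Real.exp (Real.log S + C₄ * l) := by
          apply Real.exp_le_exp.2
          linarith only [hlogs, hC4l, hB₀l, ht1, hlogt, hlogSs]
      _ = S * Real.exp (C₄ * l) := by rw [Real.exp_add, Real.exp_log hS0]
  have hZ : S ^ (-Real.log (Real.exp (C₄ * l))) = Real.exp (-Real.log S * (C₄ * l)) := by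
    rw [Real.rpow_def_of_pos hS0, hly]
    congr 1
    ring
  have hZs : Real.exp (-Real.log S * (C₄ * l)) / s =
      Real.exp (-Real.log S * (C₄ * l) - Real.log s) := by
    rw [Real.exp_sub, Real.exp_log hs0]
  refine ⟨?_, ?_, ?_, ?_, ?_, ?_⟩
  · calc (1 : ℝ) ≤ Real.exp (Real.log S + C₄ * l + Real.log B₀) := by
          apply Real.one_le_exp
          have := neg_abs_le (Real.log B₀)
          linarith only [hl4, hlogs, hBl, hC4l, ht1, hlogt, hlogSs, this]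
      _ = S * Real.exp (C₄ * l) * B₀ := by
          rw [Real.exp_add, Real.exp_add, Real.exp_log hS0, Real.exp_log hB₀]
  · refine le_trans ?_ hSy5
    exact Real.one_le_exp (by linarith only [hl4])
  · rw [Real.rpow_def_of_pos hS0, Real.rpow_def_of_pos (Real.exp_pos _), hly]
    apply Real.exp_le_exp.2
    linarith only [hl4, hlogs, hC4l, hB₀l, ht1, hlogt, hlogSs]
  · intro q hq hqX
    refine le_trans ?_ hSy5
    have hq' : (0 : ℝ) < q := by exact_mod_cast hq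
    have h1 := Real.log_le_log hq' hqX
    rw [Real.log_pow] at h1
    push_cast at h1
    have h2 : Real.exp (5 * l) = (Real.log X) ^ 5 := by
      rw [hLe, ← Real.exp_nat_mul]
      norm_num
    rw [h2]
    have h3 : 36 * Real.log X ≤ (Real.log X) ^ 2 := by nlinarith only [h36]
    have h4 : (Real.log X) ^ 2 ≤ (Real.log X) ^ 5 := pow_le_pow_right₀ (by linarith only [h36]) (by norm_num)
    linarith only [h1, h3, h4]
  · rw [hZ]
    apply Real.one_le_exp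
    have : 0 ≤ C₄ * l := by positivity
    nlinarith only [hl4, hEl, hC4l, hB₀l, hlogS0]
  · intro V₀ hV₀
    refine le_trans ?_ hV₀
    rw [hZ, hZs, ← Real.exp_nat_mul]
    apply Real.exp_le_exp.2
    have h1 : -Real.log S * (C₄ * l) ≤ Real.log (1 / s) * (C₄ * l) := by
      have : 0 ≤ C₄ * l := by positivity
      refine mul_le_mul_of_nonneg_right ?_ this
      linarith only [hlogt, hlogSs]
    have h2 : Real.log (1 / s) ≤ l * Real.log (1 / s) :=
      le_mul_of_one_le_left (by linarith only [ht1]) (by linarith only [hl4])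
    rw [hA, hlogt]
    push_cast
    linarith only [h2, h1]

/-- the minimal very good denominator divides much of `a` -/
def KBadn (γ W t : ℝ) (a : ℕ) : Prop :=
  ∃ Bs : ℕ, Pst γ W Bs ∧ (∀ b < Bs, ¬ Pst γ W b) ∧ 1 < t ^ 4 * Bs ∧
    t * Bs ≤ ((Nat.gcd a Bs : ℕ) : ℝ)

theorem KBadn_mono {γ W t : ℝ} {a b : ℕ} (hab : a ∣ b) (hb : 0 < b) (h : KBadn γ W t a) :
    KBadn γ W t b := by
  obtain ⟨Bs, h1, h2, h3, h4⟩ := h
  refine ⟨Bs, h1, h2, h3, h4.trans ?_⟩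
  have h5 : Nat.gcd a Bs ∣ Nat.gcd b Bs := Nat.gcd_dvd_gcd_of_dvd_left Bs hab
  have h6 : 0 < Nat.gcd b Bs := Nat.gcd_pos_of_pos_left _ hb
  exact_mod_cast Nat.le_of_dvd h6 h5

open Classical in
theorem kc_psum_cover (R R₁ R₂ R₃ : ℕ → ℕ → Prop) (N : ℕ) (f : ℕ → ℝ) (hf : ∀ q, 0 ≤ f q)
    (h : ∀ q r, R q r → R₁ q r ∨ R₂ q r ∨ R₃ q r) :
    psum R N f f ≤ psum R₁ N f f + psum R₂ N f f + psum R₃ N f f := by
  unfold psum
  rw [← sum_add_distrib, ← sum_add_distrib]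
  refine sum_le_sum fun q _ => ?_
  rw [← sum_add_distrib, ← sum_add_distrib]
  refine sum_le_sum fun r _ => ?_
  have hff : 0 ≤ f q * f r := mul_nonneg (hf q) (hf r)
  have h1 : 0 ≤ (if R₁ q r then f q * f r else 0) := by split_ifs <;> simp [hff]
  have h2 : 0 ≤ (if R₂ q r then f q * f r else 0) := by split_ifs <;> simp [hff]
  have h3 : 0 ≤ (if R₃ q r then f q * f r else 0) := by split_ifs <;> simp [hff]
  by_cases hR : R q r
  · rw [if_pos hR]
    rcases h q r hR with h4 | h4 | h4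
    · rw [if_pos h4]
      linarith only [h2, h3]
    · rw [if_pos h4]
      linarith only [h1, h3]
    · rw [if_pos h4]
      linarith only [h1, h2]
  · rw [if_neg hR]
    linarith only [h1, h2, h3]

open Classical in
theorem kc_psum_union (R : ℕ → ℕ → Prop) (T : Finset ℕ) (R' : ℕ → ℕ → ℕ → Prop) (N : ℕ)
    (f : ℕ → ℝ) (hf : ∀ q, 0 ≤ f q)
    (h : ∀ q r, R q r → ∃ d ∈ T, R' d q r) :
    psum R N f f ≤ ∑ d ∈ T, psum (R' d) N f f := by
  unfold psum
  rw [sum_comm (s := T)]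
  refine sum_le_sum fun q _ => ?_
  rw [sum_comm (s := T)]
  refine sum_le_sum fun r _ => ?_
  have hff : 0 ≤ f q * f r := mul_nonneg (hf q) (hf r)
  have h2 : ∀ d ∈ T, 0 ≤ (if R' d q r then f q * f r else 0) := by
    intro d _
    split_ifs
    · exact hff
    · exact le_rfl
  by_cases hR : R q r
  · rw [if_pos hR]
    obtain ⟨d, hd, hRd⟩ := h q r hR
    refine le_trans ?_ (single_le_sum h2 hd)
    rw [if_pos hRd]
  · rw [if_neg hR]
    exact sum_nonneg h2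

open Classical in
theorem kc_psum_symm (R : ℕ → ℕ → Prop) (N : ℕ) (f : ℕ → ℝ) :
    psum R N f f = psum (fun q r => R r q) N f f := by
  unfold psum
  rw [sum_comm]
  refine sum_congr rfl fun q _ => sum_congr rfl fun r _ => ?_
  rw [mul_comm]

open Classical in
theorem kc_psum_empty (R : ℕ → ℕ → Prop) (N : ℕ) (f : ℕ → ℝ) (h : ∀ q r, ¬ R q r) :
    psum R N f f = 0 := by
  unfold psum
  refine sum_eq_zero fun q _ => sum_eq_zero fun r _ => ?_
  rw [if_neg (h q r)]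

/-- number of large divisors -/
theorem kc_card_div {B : ℕ} (hB : 0 < B) {t : ℝ} (ht : 0 < t) :
    ((B.divisors.filter (fun d : ℕ => t * B ≤ (d : ℝ))).card : ℝ) ≤ 1 / t := by
  have hBR : (0 : ℝ) < B := by exact_mod_cast hB
  have h1 : (B.divisors.filter (fun d : ℕ => t * B ≤ (d : ℝ))).card ≤
      (Icc 1 ⌊1 / t⌋₊).card := by
    refine card_le_card_of_injOn (fun d => B / d) ?_ ?_
    · intro d hd
      have hd' : d ∈ B.divisors.filter (fun d : ℕ => t * B ≤ (d : ℝ)) := hd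
      rw [mem_filter, Nat.mem_divisors] at hd'
      obtain ⟨⟨hdB, _⟩, hdt⟩ := hd'
      have hd0 : 0 < d := Nat.pos_of_dvd_of_pos hdB hB
      have hdR : (0 : ℝ) < d := by exact_mod_cast hd0
      have h2 : 0 < B / d := Nat.div_pos (Nat.le_of_dvd hB hdB) hd0
      rw [coe_Icc, Set.mem_Icc]
      refine ⟨h2, Nat.le_floor ?_⟩
      rw [Nat.cast_div hdB hdR.ne', div_le_div_iff₀ hdR ht]
      linarith only [hdt]
    · intro d hd e he hde
      have hd' : d ∈ B.divisors.filter (fun d : ℕ => t * B ≤ (d : ℝ)) := hd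
      have he' : e ∈ B.divisors.filter (fun d : ℕ => t * B ≤ (d : ℝ)) := he
      rw [mem_filter, Nat.mem_divisors] at hd' he'
      simp only at hde
      have h2 : B / (B / d) = d := Nat.div_div_self hd'.1.1 hB.ne'
      have h3 : B / (B / e) = e := Nat.div_div_self he'.1.1 hB.ne'
      rw [← h2, ← h3, hde]
  rw [Nat.card_Icc, Nat.add_sub_cancel] at h1
  have h2 : ((B.divisors.filter (fun d : ℕ => t * B ≤ (d : ℝ))).card : ℝ) ≤
      (⌊1 / t⌋₊ : ℝ) := by exact_mod_cast h1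
  exact h2.trans (Nat.floor_le (by positivity))

open Classical in
/-- pairs whose first cofactor shares a large factor with the special denominator -/
theorem kc_bad_pairs {θ C₂ : ℝ} (hθ : 1 / 2 < θ) (hθ1 : θ < 1) (hC₂ : 0 < C₂)
    (hT : ∀ (d₁ d₂ : ℕ), 0 < d₁ → 0 < d₂ → ∀ (ψ₁ ψ₂ f h : ℕ → ℝ) (s₁ s₂ : ℝ) (N : ℕ),
      0 < s₁ → 0 < s₂ → (∀ q, 0 ≤ ψ₁ q) → (∀ q, 0 ≤ ψ₂ q) →
      (∀ q, 0 ≤ f q ∧ f q ≤ ψ₁ q * (q.totient / q)) →
      (∀ r, 0 ≤ h r ∧ h r ≤ ψ₂ r * (r.totient / r)) →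
      psum (fun q r => d₁ ∣ cofac q r ∧ d₂ ∣ cofac r q ∧ (cofac r q : ℝ) * ψ₁ q ≤ s₁ ∧
          (cofac q r : ℝ) * ψ₂ r ≤ s₂) N f h ≤
        C₂ * (s₁ * s₂) ^ (1 - θ) * ((∑ q ∈ Icc 1 N, f q) * ∑ r ∈ Icc 1 N, h r) ^ θ *
          (((d₁ : ℝ) ^ (-(1 - θ))) * ((d₂ : ℝ) ^ (-(1 - θ)))))
    {γ W t s : ℝ} (ht : 0 < t) (ht1 : t < 1) (hs : 0 < s) (N : ℕ) (ψ f : ℕ → ℝ)
    (hψ : ∀ q, 0 ≤ ψ q) (hf : ∀ q, 0 ≤ f q ∧ f q ≤ ψ q * (q.totient / q)) :
    psum (fun q r => KBadn γ W t (cofac q r) ∧ (cofac r q : ℝ) * ψ q ≤ s ∧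
        (cofac q r : ℝ) * ψ r ≤ s) N f f ≤
      C₂ * (s * s) ^ (1 - θ) * ((∑ q ∈ Icc 1 N, f q) * ∑ r ∈ Icc 1 N, f r) ^ θ *
        ((1 / t) * (t ^ 3) ^ (1 - θ)) := by
  have hl0 : 0 < 1 - θ := by linarith only [hθ1]
  have hF0 : 0 ≤ ∑ q ∈ Icc 1 N, f q := sum_nonneg fun q _ => (hf q).1
  set X : ℝ := C₂ * (s * s) ^ (1 - θ) * ((∑ q ∈ Icc 1 N, f q) * ∑ r ∈ Icc 1 N, f r) ^ θ
    with hX
  have hX0 : 0 ≤ X := by (clear * - hC₂ hs hF0; positivity)
  by_cases hex : ∃ Bs : ℕ, Pst γ W Bs ∧ (∀ b < Bs, ¬ Pst γ W b) ∧ 1 < t ^ 4 * Bs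
  · obtain ⟨Bs, hP, hmin, ht4⟩ := hex
    have hBs0 : 0 < Bs := hP.1
    have hBsR : (0 : ℝ) < Bs := by exact_mod_cast hBs0
    have huniq : ∀ B' : ℕ, Pst γ W B' → (∀ b < B', ¬ Pst γ W b) → B' = Bs := by
      intro B' h1 h2
      rcases lt_trichotomy B' Bs with h | h | h
      · exact absurd h1 (hmin B' h)
      · exact h
      · exact absurd hP (h2 Bs h)
    set T := Bs.divisors.filter (fun d : ℕ => t * Bs ≤ (d : ℝ)) with hTdef
    have h1 : psum (fun q r => KBadn γ W t (cofac q r) ∧ (cofac r q : ℝ) * ψ q ≤ s ∧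
        (cofac q r : ℝ) * ψ r ≤ s) N f f ≤
        ∑ d ∈ T, psum (fun q r => d ∣ cofac q r ∧ 1 ∣ cofac r q ∧ (cofac r q : ℝ) * ψ q ≤ s ∧
          (cofac q r : ℝ) * ψ r ≤ s) N f f := by
      refine kc_psum_union _ T (fun d q r => d ∣ cofac q r ∧ 1 ∣ cofac r q ∧
        (cofac r q : ℝ) * ψ q ≤ s ∧ (cofac q r : ℝ) * ψ r ≤ s) N f (fun q => (hf q).1) ?_
      intro q r hc
      obtain ⟨⟨B', hB1, hB2, hB3, hB4⟩, hc2, hc3⟩ := hc
      have hB' := huniq B' hB1 hB2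
      rw [hB'] at hB4
      refine ⟨Nat.gcd (cofac q r) Bs, ?_, Nat.gcd_dvd_left _ _, one_dvd _, hc2, hc3⟩
      rw [hTdef, mem_filter, Nat.mem_divisors]
      exact ⟨⟨Nat.gcd_dvd_right _ _, hBs0.ne'⟩, hB4⟩
    refine h1.trans ?_
    have h2 : ∀ d ∈ T, psum (fun q r => d ∣ cofac q r ∧ 1 ∣ cofac r q ∧
        (cofac r q : ℝ) * ψ q ≤ s ∧ (cofac q r : ℝ) * ψ r ≤ s) N f f ≤
        X * (t ^ 3) ^ (1 - θ) := by
      intro d hd
      rw [hTdef, mem_filter, Nat.mem_divisors] at hd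
      obtain ⟨⟨hdB, _⟩, hdt⟩ := hd
      have hd0 : 0 < d := Nat.pos_of_dvd_of_pos hdB hBs0
      have hdR : (0 : ℝ) < d := by exact_mod_cast hd0
      have h3 := hT d 1 hd0 one_pos ψ ψ f f s s N hs hs hψ hψ hf hf
      rw [Nat.cast_one, Real.one_rpow, mul_one] at h3
      refine h3.trans ?_
      refine mul_le_mul_of_nonneg_left ?_ hX0
      rw [Real.rpow_neg hdR.le, ← Real.inv_rpow hdR.le]
      refine Real.rpow_le_rpow (by (clear * - hd0; positivity)) ?_ hl0.le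
      rw [inv_le_comm₀ hdR (by positivity)]
      refine le_trans ?_ hdt
      rw [inv_le_iff_one_le_mul₀ (by positivity)]
      calc (1 : ℝ) ≤ t ^ 4 * Bs := ht4.le
        _ = t * Bs * t ^ 3 := by ring
    calc ∑ d ∈ T, psum (fun q r => d ∣ cofac q r ∧ 1 ∣ cofac r q ∧
        (cofac r q : ℝ) * ψ q ≤ s ∧ (cofac q r : ℝ) * ψ r ≤ s) N f f
        ≤ ∑ _d ∈ T, X * (t ^ 3) ^ (1 - θ) := sum_le_sum h2
      _ = (T.card : ℝ) * (X * (t ^ 3) ^ (1 - θ)) := by rw [sum_const, nsmul_eq_mul]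
      _ ≤ (1 / t) * (X * (t ^ 3) ^ (1 - θ)) := by
          have := kc_card_div hBs0 ht
          have h5 : 0 ≤ X * (t ^ 3) ^ (1 - θ) := by (clear * - hC₂ hs hF0 ht; positivity)
          exact mul_le_mul_of_nonneg_right this h5
      _ = _ := by ring
  · have h1 : psum (fun q r => KBadn γ W t (cofac q r) ∧ (cofac r q : ℝ) * ψ q ≤ s ∧
        (cofac q r : ℝ) * ψ r ≤ s) N f f = 0 := by
      refine kc_psum_empty _ N f ?_
      rintro q r ⟨⟨Bs, hB1, hB2, hB3, -⟩, -⟩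
      exact hex ⟨Bs, hB1, hB2, hB3⟩
    rw [h1]
    (clear * - hC₂ hs hF0 ht; positivity)

/-- the allowed pairs of cofactors -/
def OmG (γ V₀ W t s : ℝ) (u v : ℕ) : Prop :=
  V₀ ≤ max (u : ℝ) v ∧ distInt (((u : ℝ) - v) * γ) < 2 * s ∧ Far γ s u v ∧
    ¬ KBadn γ W t u ∧ ¬ KBadn γ W t v

theorem Far_comm {γ s : ℝ} {u v : ℕ} (h : Far γ s u v) : Far γ s v u := by
  intro B hB
  rw [max_comm]
  exact h B hB

theorem OmG_comm {γ V₀ W t s : ℝ} {u v : ℕ} (h : OmG γ V₀ W t s u v) : OmG γ V₀ W t s v u := by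
  obtain ⟨h1, h2, h3, h4, h5⟩ := h
  refine ⟨by rwa [max_comm], ?_, Far_comm h3, h5, h4⟩
  rw [show ((v : ℝ) - u) * γ = -(((u : ℝ) - v) * γ) by ring, nb_distInt_neg]
  exact h2

open Classical in
theorem kc_row {γ s t Z W V₀ : ℝ} (ht : 0 < t) (hst : t ^ 16 = s) (hs1 : s ≤ 1 / 1000)
    (hZ : 1 ≤ Z) (hW : (Z / s) ^ 4 ≤ W) (hWV : W ^ 4 = V₀) {a b : ℕ} (ha : 0 < a)
    (haZ : (a : ℝ) ≤ Z) {q₀ r₀ : ℕ} (hq₀ : 0 < q₀) (hle : b * r₀ ≤ a * q₀)
    (hΩ : OmG γ V₀ W t s (a * q₀) (b * r₀)) :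
    (((Icc 1 q₀).filter (fun m => OmG γ V₀ W t s (a * m) (b * r₀))).card : ℝ) ≤
      min 1 (70 * t) * q₀ := by
  obtain ⟨h1, h2, h3, h4, h5⟩ := hΩ
  have hmax : max ((a * q₀ : ℕ) : ℝ) ((b * r₀ : ℕ) : ℝ) = (a : ℝ) * q₀ := by
    rw [max_eq_left (by exact_mod_cast hle)]
    push_cast
    ring
  have hsub : (Icc 1 q₀).filter (fun m => OmG γ V₀ W t s (a * m) (b * r₀)) ⊆
      (Icc 1 q₀).filter (fun m : ℕ => distInt ((a : ℝ) * m * γ - (b : ℝ) * r₀ * γ) < 2 * s) := by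
    intro m hm
    rw [mem_filter] at hm ⊢
    refine ⟨hm.1, ?_⟩
    have h6 := hm.2.2.1
    have e : (((a * m : ℕ) : ℝ) - ((b * r₀ : ℕ) : ℝ)) * γ =
        (a : ℝ) * m * γ - (b : ℝ) * r₀ * γ := by
      push_cast
      ring
    rwa [e] at h6
  have hc1 : (((Icc 1 q₀).filter (fun m => OmG γ V₀ W t s (a * m) (b * r₀))).card : ℝ) ≤
      70 * t * q₀ := by
    refine le_trans (by exact_mod_cast card_le_card hsub) (kc_dens ht hst hs1 hZ hW a q₀
      ((b : ℝ) * r₀ * γ) ha haZ ?_ ?_ ?_)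
    · rw [hWV, ← hmax]
      exact h1
    · intro B hB
      have h6 := h3 B hB
      rwa [hmax] at h6
    · intro Bs hB1 hB2 hB3
      by_contra hne
      push Not at hne
      exact h4 (KBadn_mono (Dvd.intro _ rfl) (Nat.mul_pos ha hq₀) ⟨Bs, hB1, hB2, hB3, hne⟩)
  have hc2 : (((Icc 1 q₀).filter (fun m => OmG γ V₀ W t s (a * m) (b * r₀))).card : ℝ) ≤
      1 * q₀ := by
    rw [one_mul]
    exact card_filter_cl _ _
  rcases min_choice 1 (70 * t) with h | h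
  · rw [h]; exact hc2
  · rw [h]; exact hc1

theorem coreG {ε₁ : ℝ} (hε₁ : 0 < ε₁) :
    ∃ θ c A C X₀ : ℝ, 1 / 2 < θ ∧ θ < 1 ∧ 0 < c ∧ 0 < A ∧ 0 < C ∧
      ∀ γ X s V₀ : ℝ, X₀ ≤ X → (18 * Real.log X) ^ (-1 / ε₁) ≤ s → s ≤ 1 / 1000 →
        Real.exp (A * Real.log (Real.log X) * Real.log (1 / s)) ≤ V₀ →
      ∀ (N : ℕ) (ψ f : ℕ → ℝ), (∀ q, 0 ≤ ψ q) →
        (∀ q, 0 ≤ f q ∧ f q ≤ ψ q * (q.totient / q)) →
        (∀ q, f q ≠ 0 → X ≤ q ∧ (q : ℝ) ≤ X ^ 9) →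
        psum (fun q r => Rel γ ψ s q r ∧ Far γ s (cofac q r) (cofac r q) ∧
          V₀ ≤ max (cofac q r : ℝ) (cofac r q : ℝ)) N f f ≤
        C * s ^ (1 + c) * (∑ q ∈ Icc 1 N, f q) ^ (2 * θ) := by
  classical
  have hθ : (1 / 2 : ℝ) < 501 / 1000 := by norm_num
  have hθ1 : (501 / 1000 : ℝ) < 1 := by norm_num
  obtain ⟨B₀, hB₀, C₁, hC₁, hT1⟩ := T1gen hθ hθ1
  obtain ⟨C₂, hC₂, hT2⟩ := T1_dvd hθ hθ1
  obtain ⟨A, X₀, hA, hnum⟩ := kcore_num hB₀ hε₁
  refine ⟨501 / 1000, 1 / 64, A, C₁ * 70 + 2 * C₂, X₀, hθ, hθ1, by norm_num, hA, by (clear * - hC₁ hC₂; positivity), ?_⟩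
  intro γ X s V₀ hX hsX hs' hV₀ N ψ f hψ hf hsupp
  obtain ⟨hX1, hs, y, hy0, hly, hnum'⟩ := hnum X s hX hsX hs'
  set t : ℝ := s ^ (1 / 16 : ℝ) with ht
  have ht0 : 0 < t := by (clear * - hs; positivity)
  have hst : t ^ 16 = s := by
    rw [ht, ← Real.rpow_natCast, ← Real.rpow_mul hs.le]
    norm_num
  have ht1 : t < 1 := Real.rpow_lt_one hs.le (by linarith only [hs']) (by norm_num)
  have hst' : s ≤ t := by
    rw [← hst]
    calc t ^ 16 ≤ t ^ 1 := pow_le_pow_of_le_one ht0.le ht1.le (by norm_num)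
      _ = t := pow_one t
  set S : ℝ := min 1 (70 * t) with hS
  have hsS : s ≤ S := le_min (by linarith only [hs']) (by linarith only [ht0, hst'])
  have hS1 : S ≤ 1 := min_le_left _ _
  have hS0 : 0 < S := lt_of_lt_of_le hs hsS
  obtain ⟨hn1, hn2, hn3, hn4, hn5, hn6⟩ := hnum' S hsS hS1
  have hn7 := hn6 V₀ hV₀
  set Z : ℝ := S ^ (-Real.log y) with hZ
  have hV0 : 0 < V₀ := lt_of_lt_of_le (Real.exp_pos _) hV₀
  set W : ℝ := V₀ ^ (1 / 4 : ℝ) with hW
  have hW4 : W ^ 4 = V₀ := by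
    rw [hW, ← Real.rpow_natCast, ← Real.rpow_mul hV0.le]
    norm_num
  have hWZ : (Z / s) ^ 4 ≤ W := by
    have h1 : ((Z / s) ^ 16) ^ (1 / 4 : ℝ) ≤ V₀ ^ (1 / 4 : ℝ) :=
      Real.rpow_le_rpow (by (clear * - hs; positivity)) hn7 (by norm_num)
    have h2 : ((Z / s) ^ 16) ^ (1 / 4 : ℝ) = (Z / s) ^ 4 := by
      have h3 : 0 ≤ Z / s := by (clear * - hs; positivity)
      rw [← Real.rpow_natCast (Z / s) 16, ← Real.rpow_mul h3,
        show ((16 : ℕ) : ℝ) * (1 / 4) = ((4 : ℕ) : ℝ) by norm_num, Real.rpow_natCast]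
    rwa [h2] at h1
  have hF0 : 0 ≤ ∑ q ∈ Icc 1 N, f q := sum_nonneg fun q _ => (hf q).1
  have hsupp' : ∀ q : ℕ, f q ≠ 0 → 0 < q ∧ 4 * Real.log q ≤ S * y := by
    intro q hq
    obtain ⟨h1, h2⟩ := hsupp q hq
    have h3 : 0 < q := by
      rcases Nat.eq_zero_or_pos q with rfl | h
      · simp only [CharP.cast_eq_zero] at h1
        linarith only [hX1, h1]
      · exact h
    exact ⟨h3, hn4 q h3 h2⟩
  -- the main part
  have hmain := hT1 (OmG γ V₀ W t s) S y hS0 hS1 hy0 hly hn1 hn2 hn3 (by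
    intro a b ha hb haZ hbZ q₀ r₀ hq₀ hr₀ hΩ
    rcases le_total (b * r₀) (a * q₀) with h | h
    · have h1 := kc_row ht0 hst hs' hn5 hWZ hW4 ha haZ hq₀ h hΩ
      have h2 : (((Icc 1 r₀).filter (fun n => OmG γ V₀ W t s (a * q₀) (b * n))).card : ℝ) ≤
          r₀ := card_filter_cl _ _
      calc _ ≤ (S * q₀) * r₀ := mul_le_mul h1 h2 (by (clear * -; positivity)) (by (clear * - hs hq₀; positivity))
        _ = S * q₀ * r₀ := by ring
    · have h1 := kc_row ht0 hst hs' hn5 hWZ hW4 hb hbZ hr₀ h (OmG_comm hΩ)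
      have h2 : (((Icc 1 q₀).filter (fun m => OmG γ V₀ W t s (a * m) (b * r₀))).card : ℝ) ≤
          q₀ := card_filter_cl _ _
      have h3 : ((Icc 1 r₀).filter (fun n => OmG γ V₀ W t s (a * q₀) (b * n))) =
          (Icc 1 r₀).filter (fun n => OmG γ V₀ W t s (b * n) (a * q₀)) := by
        refine filter_congr fun n _ => ⟨fun h => OmG_comm h, fun h => OmG_comm h⟩
      rw [h3]
      calc _ ≤ (q₀ : ℝ) * (S * r₀) := mul_le_mul h2 h1 (by (clear * -; positivity)) (by (clear * - hq₀; positivity))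
        _ = S * q₀ * r₀ := by ring) ψ ψ f f s s N hs hs hψ hψ hf hf hsupp' hsupp'
  have hbad := kc_bad_pairs (γ := γ) (W := W) hθ hθ1 hC₂ hT2 ht0 ht1 hs N ψ f hψ hf
  -- the second bad part, by symmetry
  have hbad' : psum (fun q r => KBadn γ W t (cofac r q) ∧ (cofac r q : ℝ) * ψ q ≤ s ∧
        (cofac q r : ℝ) * ψ r ≤ s) N f f =
      psum (fun q r => KBadn γ W t (cofac q r) ∧ (cofac r q : ℝ) * ψ q ≤ s ∧
        (cofac q r : ℝ) * ψ r ≤ s) N f f := by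
    rw [kc_psum_symm]
    congr 1
    funext q r
    rw [eq_iff_iff]
    constructor
    · rintro ⟨h1, h2, h3⟩
      exact ⟨h1, h3, h2⟩
    · rintro ⟨h1, h2, h3⟩
      exact ⟨h1, h3, h2⟩
  have hsplit : psum (fun q r => Rel γ ψ s q r ∧ Far γ s (cofac q r) (cofac r q) ∧
          V₀ ≤ max (cofac q r : ℝ) (cofac r q : ℝ)) N f f ≤
      psum (fun q r => OmG γ V₀ W t s (cofac q r) (cofac r q) ∧
          (cofac r q : ℝ) * ψ q ≤ s ∧ (cofac q r : ℝ) * ψ r ≤ s) N f f +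
      psum (fun q r => KBadn γ W t (cofac q r) ∧ (cofac r q : ℝ) * ψ q ≤ s ∧
        (cofac q r : ℝ) * ψ r ≤ s) N f f +
      psum (fun q r => KBadn γ W t (cofac r q) ∧ (cofac r q : ℝ) * ψ q ≤ s ∧
        (cofac q r : ℝ) * ψ r ≤ s) N f f := by
    refine kc_psum_cover _ _ _ _ N f (fun q => (hf q).1) ?_
    rintro q r ⟨⟨hr1, hr2, hr3, hr4⟩, hfar, hmax⟩
    by_cases hb1 : KBadn γ W t (cofac q r)
    · exact Or.inr (Or.inl ⟨hb1, hr2, hr3⟩)
    · by_cases hb2 : KBadn γ W t (cofac r q)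
      · exact Or.inr (Or.inr ⟨hb2, hr2, hr3⟩)
      · exact Or.inl ⟨⟨hmax, hr4, hfar, hb1, hb2⟩, hr2, hr3⟩
  refine hsplit.trans ?_
  rw [hbad']
  have hFF : ((∑ q ∈ Icc 1 N, f q) * ∑ r ∈ Icc 1 N, f r) ^ (501 / 1000 : ℝ) =
      (∑ q ∈ Icc 1 N, f q) ^ (2 * (501 / 1000 : ℝ)) := by
    rw [← sq, ← Real.rpow_natCast, ← Real.rpow_mul hF0]
    norm_num
  rw [hFF] at hmain hbad
  set F : ℝ := (∑ q ∈ Icc 1 N, f q) ^ (2 * (501 / 1000 : ℝ)) with hF
  have hFnn : 0 ≤ F := by (clear * - hF0; positivity)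
  -- numerics
  have e1 : (s * s * S) ^ (1 - (501 / 1000 : ℝ)) ≤ 70 * s ^ (1 + 1 / 64 : ℝ) := by
    have h1 : s * s * S ≤ 70 * (s ^ (2 + 1 / 16 : ℝ)) := by
      calc s * s * S ≤ s * s * (70 * t) := by
            have : S ≤ 70 * t := min_le_right _ _
            (clear * - this hs; gcongr)
        _ = 70 * (s ^ (2 + 1 / 16 : ℝ)) := by
            rw [Real.rpow_add hs, ht]
            have : s ^ (2 : ℝ) = s * s := by
              rw [show (2 : ℝ) = ((2 : ℕ) : ℝ) by norm_num, Real.rpow_natCast]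
              ring
            rw [this]
            ring
    calc (s * s * S) ^ (1 - (501 / 1000 : ℝ)) ≤ (70 * (s ^ (2 + 1 / 16 : ℝ))) ^ (1 - (501 / 1000 : ℝ)) :=
          Real.rpow_le_rpow (by (clear * - hs; positivity)) h1 (by norm_num)
      _ = 70 ^ (1 - (501 / 1000 : ℝ)) * (s ^ (2 + 1 / 16 : ℝ)) ^ (1 - (501 / 1000 : ℝ)) :=
          Real.mul_rpow (by norm_num) (by positivity)
      _ ≤ 70 ^ (1 : ℝ) * s ^ (1 + 1 / 64 : ℝ) := by
          refine mul_le_mul ?_ ?_ (by positivity) (by positivity)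
          · exact Real.rpow_le_rpow_of_exponent_le (by norm_num) (by norm_num)
          · rw [← Real.rpow_mul hs.le]
            exact Real.rpow_le_rpow_of_exponent_ge hs (by linarith only [hs']) (by norm_num)
      _ = 70 * s ^ (1 + 1 / 64 : ℝ) := by rw [Real.rpow_one]
  have e2 : (s * s) ^ (1 - (501 / 1000 : ℝ)) * ((1 / t) * (t ^ 3) ^ (1 - (501 / 1000 : ℝ))) ≤
      s ^ (1 + 1 / 64 : ℝ) := by
    have h1 : (s * s) ^ (1 - (501 / 1000 : ℝ)) = s ^ (998 / 1000 : ℝ) := by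
      rw [← sq, ← Real.rpow_natCast, ← Real.rpow_mul hs.le]
      norm_num
    have h2 : (1 / t) * (t ^ 3) ^ (1 - (501 / 1000 : ℝ)) = s ^ (497 / 16000 : ℝ) := by
      rw [← Real.rpow_natCast t 3, ← Real.rpow_mul ht0.le, one_div, ← Real.rpow_neg_one t,
        ← Real.rpow_add ht0, ht, ← Real.rpow_mul hs.le]
      norm_num
    rw [h1, h2, ← Real.rpow_add hs]
    exact Real.rpow_le_rpow_of_exponent_ge hs (by linarith only [hs']) (by norm_num)
  have e3 : C₁ * (s * s * S) ^ (1 - (501 / 1000 : ℝ)) * F ≤ C₁ * (70 * s ^ (1 + 1 / 64 : ℝ)) * F := by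
    (clear * - e1 hC₁ hF0; gcongr)
  have e4 : C₂ * (s * s) ^ (1 - (501 / 1000 : ℝ)) * F *
      ((1 / t) * (t ^ 3) ^ (1 - (501 / 1000 : ℝ))) ≤ C₂ * s ^ (1 + 1 / 64 : ℝ) * F := by
    calc C₂ * (s * s) ^ (1 - (501 / 1000 : ℝ)) * F *
        ((1 / t) * (t ^ 3) ^ (1 - (501 / 1000 : ℝ)))
        = C₂ * ((s * s) ^ (1 - (501 / 1000 : ℝ)) *
          ((1 / t) * (t ^ 3) ^ (1 - (501 / 1000 : ℝ)))) * F := by ring
      _ ≤ C₂ * s ^ (1 + 1 / 64 : ℝ) * F := by (clear * - e2 hC₂ hF0; gcongr)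
  calc _ ≤ C₁ * (70 * s ^ (1 + 1 / 64 : ℝ)) * F + C₂ * s ^ (1 + 1 / 64 : ℝ) * F +
        C₂ * s ^ (1 + 1 / 64 : ℝ) * F := by
        have h1 := hmain.trans e3
        have h2 := hbad.trans e4
        linarith only [hmain, hbad, e3, e4]
    _ = (C₁ * 70 + 2 * C₂) * s ^ (1 + 1 / 64 : ℝ) * F := by ring

end Vale.P028
end

section

/-!
# Far pairs, class I
-/

namespace Vale.P028

open Finset

/-- far pairs, class I -/
theorem typeA_one {δ : ℝ} (hδ : 0 < δ) :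
    ∃ C c X₀ : ℝ, 0 < C ∧ 0 < c ∧
      ∀ γ X s : ℝ, X₀ ≤ X → 0 < s → s ≤ 1 / 1000 →
      ∀ (N : ℕ) (ψ f : ℕ → ℝ), (∀ q, 0 ≤ ψ q) →
        (∀ q, 0 ≤ f q ∧ f q ≤ ψ q * (q.totient / q)) →
        (∀ q, f q ≠ 0 → X ≤ q ∧ (q : ℝ) ≤ X ^ 9 ∧
          ψ q ≤ Real.exp (-(Real.log (Real.log X)) ^ (1 + δ))) →
        psum (TA γ ψ s) N f f ≤
          C * s ^ (1 + c) * ((∑ q ∈ Icc 1 N, f q) + (∑ q ∈ Icc 1 N, f q) ^ 2) :=
  typeA_of_core hδ fun _ h => coreG h

end Vale.P028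
end

section
attribute [-instance] ProperSMul.toContinuousSMul IsTopologicalTorsor.toContinuousSMul IdemSemiring.toCanonicallyOrderedAdd IdemSemiring.toMulLeftMono IdemSemiring.toMulRightMono AddQuantale.instAddLeftMono AddQuantale.instAddRightMono Quantale.instMulLeftMono Quantale.instMulRightMono FiniteDimensional.rclike_to_real IsScalarTower.complexToReal FiniteDimensional.complexToReal

/-!
# Pairs at a small distance
-/

namespace Vale.P028

open Finset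

theorem small_level {δ : ℝ} (hδ : 0 < δ) :
    ∃ C c X₀ : ℝ, 0 < C ∧ 0 < c ∧
      ∀ γ X s : ℝ, X₀ ≤ X → 0 < s → s ≤ 1 / 1000 →
      ∀ (N : ℕ) (ψ f : ℕ → ℝ), (∀ q, 0 ≤ ψ q) →
        (∀ q, 0 ≤ f q ∧ f q ≤ ψ q * (q.totient / q)) →
        (∀ q, f q ≠ 0 → X ≤ q ∧ (q : ℝ) ≤ X ^ 9 ∧
          ψ q ≤ Real.exp (-(Real.log (Real.log X)) ^ (1 + δ))) →
        wsum (TA γ ψ s) N f f (fun q r => GG (cofac q r * cofac r q)) +
          wsum (UB ψ s) N f f (fun q r => GG (cofac q r * cofac r q)) ≤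
          C * s ^ (1 + c) * ((∑ q ∈ Icc 1 N, f q) + (∑ q ∈ Icc 1 N, f q) ^ 2) := by
  obtain ⟨C₁, c₁, X₁, hC₁, hc₁, hTA⟩ := typeA_one hδ
  obtain ⟨C₂, hC₂, hUB⟩ := typeU
  obtain ⟨C₃, hC₃, hG1⟩ := GG_transfer (half_pos hc₁)
  obtain ⟨C₄, hC₄, hG2⟩ := GG_transfer (η := 1 / 5) (by norm_num)
  obtain ⟨c, hc⟩ : ∃ c : ℝ, c = min (c₁ / 2) (1 / 5) := ⟨_, rfl⟩
  have hc0 : 0 < c := by rw [hc]; exact lt_min (half_pos hc₁) (by norm_num)
  have hcc1 : c ≤ c₁ / 2 := by rw [hc]; exact min_le_left _ _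
  have hcc2 : c ≤ 1 / 5 := by rw [hc]; exact min_le_right _ _
  refine ⟨C₃ * C₁ + C₃ + (C₄ * C₂ + C₄), c, X₁, by (clear * - hC₃ hC₁ hC₄ hC₂; positivity), hc0, ?_⟩
  intro γ X s hX hs hs3 N ψ f hψ hf hsupp
  set F : ℝ := ∑ q ∈ Icc 1 N, f q with hFdef
  have hf0 : ∀ q, 0 ≤ f q := fun q => (hf q).1
  have hF0 : 0 ≤ F := sum_nonneg fun q _ => hf0 q
  have hFF : 0 ≤ F + F ^ 2 := by (clear * - hF0; positivity)
  have hs1 : s ≤ 1 := by linarith only [hs3]
  have hp : 0 ≤ s ^ (1 + c) := Real.rpow_nonneg hs.le _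
  have hs2 : s ^ 2 ≤ s ^ (1 + c) := by
    rw [← Real.rpow_two]
    exact Real.rpow_le_rpow_of_exponent_ge hs hs1 (by linarith only [hcc2])
  have h1 := hG1 (TA γ ψ s) s N ψ f hs hs3 hψ hf (fun q r h => ⟨h.1.2.1, h.1.2.2.1⟩)
  have h2 := hG2 (UB ψ s) s N ψ f hs hs3 hψ hf (fun q r h => ⟨h.1, h.2.1⟩)
  have h3 := hTA γ X s hX hs hs3 N ψ f hψ hf hsupp
  have h4 := hUB s N ψ f hs hs1 hψ hf
  have e1 : s ^ (-(c₁ / 2)) * s ^ (1 + c₁) ≤ s ^ (1 + c) := by
    rw [← Real.rpow_add hs]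
    exact Real.rpow_le_rpow_of_exponent_ge hs hs1 (by linarith only [hcc1])
  have e2 : s ^ (-(1 / 5) : ℝ) * s ^ (7 / 5 : ℝ) ≤ s ^ (1 + c) := by
    rw [← Real.rpow_add hs]
    exact Real.rpow_le_rpow_of_exponent_ge hs hs1 (by linarith only [hcc2])
  have hq1 : 0 ≤ s ^ (-(c₁ / 2)) := Real.rpow_nonneg hs.le _
  have hq2 : 0 ≤ s ^ (-(1 / 5) : ℝ) := Real.rpow_nonneg hs.le _
  have f1 : wsum (TA γ ψ s) N f f (fun q r => GG (cofac q r * cofac r q)) ≤
      (C₃ * C₁ + C₃) * s ^ (1 + c) * (F + F ^ 2) := by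
    calc _ ≤ C₃ * s ^ (-(c₁ / 2)) * psum (TA γ ψ s) N f f + C₃ * s ^ 2 * (F + F ^ 2) := h1
      _ ≤ C₃ * s ^ (-(c₁ / 2)) * (C₁ * s ^ (1 + c₁) * (F + F ^ 2)) +
          C₃ * s ^ (1 + c) * (F + F ^ 2) := by (clear * - h3 hC₃ hs hs2 hF0; gcongr)
      _ = C₃ * C₁ * (s ^ (-(c₁ / 2)) * s ^ (1 + c₁)) * (F + F ^ 2) +
          C₃ * s ^ (1 + c) * (F + F ^ 2) := by ring
      _ ≤ C₃ * C₁ * s ^ (1 + c) * (F + F ^ 2) + C₃ * s ^ (1 + c) * (F + F ^ 2) := by (clear * - e1 hC₃ hC₁ hF0; gcongr)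
      _ = _ := by ring
  have f2 : wsum (UB ψ s) N f f (fun q r => GG (cofac q r * cofac r q)) ≤
      (C₄ * C₂ + C₄) * s ^ (1 + c) * (F + F ^ 2) := by
    calc _ ≤ C₄ * s ^ (-(1 / 5) : ℝ) * psum (UB ψ s) N f f + C₄ * s ^ 2 * (F + F ^ 2) := h2
      _ ≤ C₄ * s ^ (-(1 / 5) : ℝ) * (C₂ * s ^ (7 / 5 : ℝ) * (F + F ^ 2)) +
          C₄ * s ^ (1 + c) * (F + F ^ 2) := by (clear * - h4 hC₄ hs hs2 hF0; gcongr)
      _ = C₄ * C₂ * (s ^ (-(1 / 5) : ℝ) * s ^ (7 / 5 : ℝ)) * (F + F ^ 2) +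
          C₄ * s ^ (1 + c) * (F + F ^ 2) := by ring
      _ ≤ C₄ * C₂ * s ^ (1 + c) * (F + F ^ 2) + C₄ * s ^ (1 + c) * (F + F ^ 2) := by (clear * - e2 hC₄ hC₂ hF0; gcongr)
      _ = _ := by ring
  calc _ ≤ (C₃ * C₁ + C₃) * s ^ (1 + c) * (F + F ^ 2) +
      (C₄ * C₂ + C₄) * s ^ (1 + c) * (F + F ^ 2) := add_le_add f1 f2
    _ = _ := by ring

theorem exists_dyadic {D : ℝ} (hD : 0 < D) (hD1 : D ≤ 1) :
    ∃ j : ℕ, D ≤ (1 / 2 : ℝ) ^ j ∧ (1 / 2 : ℝ) ^ j / 2 < D := by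
  have hex : ∃ j : ℕ, (1 / 2 : ℝ) ^ (j + 1) < D := by
    obtain ⟨n, hn⟩ := exists_pow_lt_of_lt_one hD (by norm_num : (1 / 2 : ℝ) < 1)
    refine ⟨n, lt_of_le_of_lt ?_ hn⟩
    exact pow_le_pow_of_le_one (by norm_num) (by norm_num) (Nat.le_succ n)
  classical
  refine ⟨Nat.find hex, ?_, ?_⟩
  · rcases Nat.eq_zero_or_pos (Nat.find hex) with h | h
    · rw [h, pow_zero]; exact hD1
    · have h1 : ¬ (1 / 2 : ℝ) ^ ((Nat.find hex - 1) + 1) < D := Nat.find_min hex (by omega)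
      have h2 : Nat.find hex - 1 + 1 = Nat.find hex := by omega
      rw [h2] at h1
      exact not_lt.mp h1
  · have h1 := Nat.find_spec hex
    rw [pow_succ] at h1
    linarith only [h1]

/-- the relation of the small pairs -/
def SmallRel (γ : ℝ) (ψ : ℕ → ℝ) (q r : ℕ) : Prop :=
  DD q r (ψ q) (ψ r) < 1 / 1024 ∧ ∀ s, 0 < s → s ≤ 1 / 1024 →
    DD q r (ψ q) (ψ r) ≤ s → s / 2 < DD q r (ψ q) (ψ r) → TA γ ψ s q r ∨ UB ψ s q r

theorem GG_nonneg (n : ℕ) : 0 ≤ GG n := by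
  unfold GG
  refine prod_nonneg fun p hp => inv_nonneg.mpr ?_
  have hp2 : (2 : ℝ) ≤ p := by exact_mod_cast (Nat.prime_of_mem_primeFactors hp).two_le
  have h1 : 1 / (p : ℝ) ≤ 1 / 2 := one_div_le_one_div_of_le (by norm_num) hp2
  linarith only [h1]

theorem DD_pos'' {q r : ℕ} (hq : 0 < q) (hr : 0 < r) {x x' : ℝ} (hx : 0 < x) :
    0 < DD q r x x' := by
  have hg0 : (0 : ℝ) < Nat.gcd q r := by exact_mod_cast Nat.gcd_pos_of_pos_left _ hq
  have hrR : (0 : ℝ) < r := by exact_mod_cast hr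
  rw [DD]
  apply div_pos _ hg0
  exact lt_max_of_lt_left (mul_pos hrR hx)

open Classical in
theorem small_sum {δ : ℝ} (hδ : 0 < δ) : ∃ C X₀ : ℝ, 0 < C ∧
    ∀ γ X : ℝ, X₀ ≤ X → ∀ (N : ℕ) (ψ f : ℕ → ℝ), (∀ q, 0 ≤ ψ q) →
      (∀ q, 0 ≤ f q ∧ f q ≤ ψ q * (q.totient / q)) →
      (∀ q, f q ≠ 0 → X ≤ q ∧ (q : ℝ) ≤ X ^ 9 ∧
        ψ q ≤ Real.exp (-(Real.log (Real.log X)) ^ (1 + δ))) →
      wsum (SmallRel γ ψ) N f f
        (fun q r => GG (cofac q r * cofac r q) / DD q r (ψ q) (ψ r)) ≤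
        C * ((∑ q ∈ Icc 1 N, f q) + (∑ q ∈ Icc 1 N, f q) ^ 2) := by
  obtain ⟨C, c, X₀, hC, hc, hlev⟩ := small_level hδ
  have hc1 : (1 / 2 : ℝ) ^ c < 1 := Real.rpow_lt_one (by norm_num) (by norm_num) hc
  refine ⟨2 * C * (1 - (1 / 2 : ℝ) ^ c)⁻¹, X₀, ?_, ?_⟩
  · have : 0 < 1 - (1 / 2 : ℝ) ^ c := by linarith only [hc1]
    positivity
  intro γ X hX N ψ f hψ hf hsupp
  set F : ℝ := ∑ q ∈ Icc 1 N, f q with hFdef
  have hf0 : ∀ q, 0 ≤ f q := fun q => (hf q).1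
  have hF0 : 0 ≤ F := sum_nonneg fun q _ => hf0 q
  have hFF : 0 ≤ F + F ^ 2 := by (clear * - hF0; positivity)
  -- the dyadic index
  have hj : ∀ q r : ℕ, ∃ j : ℕ, 0 < DD q r (ψ q) (ψ r) → DD q r (ψ q) (ψ r) ≤ 1 →
      DD q r (ψ q) (ψ r) ≤ (1 / 2 : ℝ) ^ j ∧ (1 / 2 : ℝ) ^ j / 2 < DD q r (ψ q) (ψ r) := by
    intro q r
    by_cases h : 0 < DD q r (ψ q) (ψ r) ∧ DD q r (ψ q) (ψ r) ≤ 1
    · obtain ⟨j, hj⟩ := exists_dyadic h.1 h.2
      exact ⟨j, fun _ _ => hj⟩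
    · exact ⟨0, fun h1 h2 => absurd ⟨h1, h2⟩ h⟩
  choose j hj using hj
  set J : ℕ := (Icc 1 N ×ˢ Icc 1 N).sup (fun p => j p.1 p.2) + 1 with hJ
  have hjJ : ∀ q ∈ Icc 1 N, ∀ r ∈ Icc 1 N, j q r < J := by
    intro q hq r hr
    have hm : ((q, r) : ℕ × ℕ) ∈ Icc 1 N ×ˢ Icc 1 N := mem_product.mpr ⟨hq, hr⟩
    have h1 := Finset.le_sup (f := fun p : ℕ × ℕ => j p.1 p.2) hm
    simp only at h1
    omega
  set G : ℕ → ℕ → ℝ := fun q r => GG (cofac q r * cofac r q) with hG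
  have hG0 : ∀ q r, 0 ≤ G q r := fun q r => GG_nonneg _
  -- pointwise
  have hpt : ∀ q ∈ Icc 1 N, ∀ r ∈ Icc 1 N,
      (if SmallRel γ ψ q r then f q * f r * (G q r / DD q r (ψ q) (ψ r)) else 0) ≤
      ∑ i ∈ (range J).filter (fun i => 10 ≤ i), 2 * (2 : ℝ) ^ i *
        ((if TA γ ψ ((1 / 2 : ℝ) ^ i) q r then f q * f r * G q r else 0) +
          (if UB ψ ((1 / 2 : ℝ) ^ i) q r then f q * f r * G q r else 0)) := by
    intro q hq r hr
    have hq0 : 0 < q := by rw [mem_Icc] at hq; omega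
    have hr0 : 0 < r := by rw [mem_Icc] at hr; omega
    have hnn : 0 ≤ f q * f r := mul_nonneg (hf0 q) (hf0 r)
    have hfG : 0 ≤ f q * f r * G q r := mul_nonneg hnn (hG0 q r)
    have hterm : ∀ i ∈ (range J).filter (fun i => 10 ≤ i), 0 ≤ 2 * (2 : ℝ) ^ i *
        ((if TA γ ψ ((1 / 2 : ℝ) ^ i) q r then f q * f r * G q r else 0) +
          (if UB ψ ((1 / 2 : ℝ) ^ i) q r then f q * f r * G q r else 0)) := by
      intro i _
      apply mul_nonneg (by positivity)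
      apply add_nonneg <;> split_ifs <;> first | exact hfG | exact le_rfl
    have hs := sum_nonneg hterm
    by_cases hR : SmallRel γ ψ q r
    · rw [if_pos hR]
      by_cases hne : f q * f r = 0
      · rw [hne, zero_mul]
        rw [hne] at hs
        exact hs
      · have hfq : f q ≠ 0 := left_ne_zero_of_mul hne
        have hψq : 0 < ψ q := by
          rcases (hψ q).eq_or_lt with h | h
          · exfalso
            apply hfq
            have := (hf q).2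
            rw [← h, zero_mul] at this
            linarith only [this, hf0 q]
          · exact h
        have hD0 : 0 < DD q r (ψ q) (ψ r) := DD_pos'' hq0 hr0 hψq
        obtain ⟨hR1, hR2⟩ := hR
        obtain ⟨h1, h2⟩ := hj q r hD0 (by linarith only [hR1])
        have hs0 : (0 : ℝ) < (1 / 2 : ℝ) ^ (j q r) := by positivity
        have hj10 : 10 ≤ j q r := by
          by_contra hlt
          push Not at hlt
          have h3 : (1 / 2 : ℝ) ^ 9 ≤ (1 / 2 : ℝ) ^ (j q r) :=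
            pow_le_pow_of_le_one (by norm_num) (by norm_num) (by omega)
          have h4 : (1 / 2 : ℝ) ^ 9 = 1 / 512 := by norm_num
          rw [h4] at h3
          linarith only [hR1, h2, h3]
        have hs1024 : (1 / 2 : ℝ) ^ (j q r) ≤ 1 / 1024 := by
          have h3 : (1 / 2 : ℝ) ^ (j q r) ≤ (1 / 2 : ℝ) ^ 10 :=
            pow_le_pow_of_le_one (by norm_num) (by norm_num) hj10
          have h4 : (1 / 2 : ℝ) ^ 10 = 1 / 1024 := by norm_num
          rw [h4] at h3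
          exact h3
        have hmem : j q r ∈ (range J).filter (fun i => 10 ≤ i) := by
          rw [mem_filter, mem_range]
          exact ⟨hjJ q hq r hr, hj10⟩
        have h3 := single_le_sum hterm hmem
        refine le_trans ?_ h3
        have h4 : f q * f r * G q r ≤
            (if TA γ ψ ((1 / 2 : ℝ) ^ (j q r)) q r then f q * f r * G q r else 0) +
            (if UB ψ ((1 / 2 : ℝ) ^ (j q r)) q r then f q * f r * G q r else 0) := by
          rcases hR2 _ hs0 hs1024 h1 h2 with h | h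
          · rw [if_pos h]
            have : 0 ≤ (if UB ψ ((1 / 2 : ℝ) ^ (j q r)) q r then f q * f r * G q r else 0) := by
              split_ifs
              · exact hfG
              · exact le_rfl
            linarith only [this]
          · rw [if_pos h]
            have : 0 ≤ (if TA γ ψ ((1 / 2 : ℝ) ^ (j q r)) q r then f q * f r * G q r else 0) := by
              split_ifs
              · exact hfG
              · exact le_rfl
            linarith only [this]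
        have h5 : 1 / DD q r (ψ q) (ψ r) ≤ 2 * (2 : ℝ) ^ (j q r) := by
          rw [div_le_iff₀ hD0]
          have h6 : (2 : ℝ) ^ (j q r) * (1 / 2 : ℝ) ^ (j q r) = 1 := by
            rw [← mul_pow]; norm_num
          have h7 : (2 : ℝ) ^ (j q r) * ((1 / 2 : ℝ) ^ (j q r) / 2) ≤
              (2 : ℝ) ^ (j q r) * DD q r (ψ q) (ψ r) := by (clear * - h2; gcongr)
          linarith only [h7, h6]
        calc f q * f r * (G q r / DD q r (ψ q) (ψ r))
            = (1 / DD q r (ψ q) (ψ r)) * (f q * f r * G q r) := by ring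
          _ ≤ 2 * (2 : ℝ) ^ (j q r) * (f q * f r * G q r) := by (clear * - h5 hfG; gcongr)
          _ ≤ _ := by (clear * - h4; gcongr)
    · rw [if_neg hR]
      exact hs
  calc wsum (SmallRel γ ψ) N f f
        (fun q r => GG (cofac q r * cofac r q) / DD q r (ψ q) (ψ r))
      ≤ ∑ q ∈ Icc 1 N, ∑ r ∈ Icc 1 N, ∑ i ∈ (range J).filter (fun i => 10 ≤ i),
        2 * (2 : ℝ) ^ i *
        ((if TA γ ψ ((1 / 2 : ℝ) ^ i) q r then f q * f r * G q r else 0) +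
          (if UB ψ ((1 / 2 : ℝ) ^ i) q r then f q * f r * G q r else 0)) := by
        unfold wsum
        exact sum_le_sum fun q hq => sum_le_sum fun r hr => hpt q hq r hr
    _ = ∑ i ∈ (range J).filter (fun i => 10 ≤ i), 2 * (2 : ℝ) ^ i *
        (wsum (TA γ ψ ((1 / 2 : ℝ) ^ i)) N f f G + wsum (UB ψ ((1 / 2 : ℝ) ^ i)) N f f G) := by
        unfold wsum
        simp_rw [mul_add, mul_sum]
        conv_lhs =>
          enter [2, q]
          rw [sum_comm]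
        rw [sum_comm]
        refine sum_congr rfl fun i _ => ?_
        simp_rw [sum_add_distrib]
    _ ≤ ∑ i ∈ (range J).filter (fun i => 10 ≤ i), 2 * (2 : ℝ) ^ i *
        (C * ((1 / 2 : ℝ) ^ i) ^ (1 + c) * (F + F ^ 2)) := by
        apply sum_le_sum
        intro i hi
        rw [mem_filter] at hi
        have hs0 : (0 : ℝ) < (1 / 2 : ℝ) ^ i := by positivity
        have hs3 : (1 / 2 : ℝ) ^ i ≤ 1 / 1000 := by
          have h3 : (1 / 2 : ℝ) ^ i ≤ (1 / 2 : ℝ) ^ 10 :=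
            pow_le_pow_of_le_one (by norm_num) (by norm_num) hi.2
          have h4 : (1 / 2 : ℝ) ^ 10 = 1 / 1024 := by norm_num
          rw [h4] at h3
          linarith only [h3]
        have := hlev γ X ((1 / 2 : ℝ) ^ i) hX hs0 hs3 N ψ f hψ hf hsupp
        (clear * - this; gcongr)
    _ = ∑ i ∈ (range J).filter (fun i => 10 ≤ i), 2 * C * (F + F ^ 2) * ((1 / 2 : ℝ) ^ c) ^ i := by
        apply sum_congr rfl
        intro i _
        rw [half_pow_rpow]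
        have h6 : (2 : ℝ) ^ i * (1 / 2 : ℝ) ^ i = 1 := by
          rw [← mul_pow]; norm_num
        linear_combination (2 * C * (F + F ^ 2) * ((1 / 2 : ℝ) ^ c) ^ i) * h6
    _ ≤ ∑ i ∈ range J, 2 * C * (F + F ^ 2) * ((1 / 2 : ℝ) ^ c) ^ i := by
        apply sum_le_sum_of_subset_of_nonneg (filter_subset _ _)
        intro i _ _
        have : (0 : ℝ) ≤ (1 / 2 : ℝ) ^ c := by positivity
        (clear * - hC hF0; positivity)
    _ = 2 * C * (F + F ^ 2) * ∑ i ∈ range J, ((1 / 2 : ℝ) ^ c) ^ i := by rw [mul_sum]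
    _ ≤ 2 * C * (F + F ^ 2) * (1 - (1 / 2 : ℝ) ^ c)⁻¹ := by
        have := geom_half hc J
        (clear * - this hC hF0; gcongr)
    _ = _ := by ring

end Vale.P028
end

section
attribute [-instance] ProperSMul.toContinuousSMul IsTopologicalTorsor.toContinuousSMul IdemSemiring.toCanonicallyOrderedAdd IdemSemiring.toMulLeftMono IdemSemiring.toMulRightMono AddQuantale.instAddLeftMono AddQuantale.instAddRightMono Quantale.instMulLeftMono Quantale.instMulRightMono FiniteDimensional.rclike_to_real IsScalarTower.complexToReal FiniteDimensional.complexToReal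

/-!
# One level, class I
-/

namespace Vale.P028

open Finset MeasureTheory

theorem DD_comm (q r : ℕ) (x y : ℝ) : DD q r x y = DD r q y x := by
  unfold DD
  rw [Nat.gcd_comm, max_comm]

/-- the relation of the pairs with different denominators -/
def BadRel (γ : ℝ) (ψ : ℕ → ℝ) (q r : ℕ) : Prop :=
  Bq γ (ψ q) < Bq γ (ψ r) ∧ (Bq γ (ψ r) / Nat.gcd (Bq γ (ψ q)) (Bq γ (ψ r))) ∣ cofac q r

open Classical in
/-- one level, with a function vanishing outside of the level -/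
theorem level_aux {δ : ℝ} (hδ : 0 < δ) : ∃ C X₀ : ℝ, 0 < C ∧
    ∀ (γ X : ℝ) (ψ : ℕ → ℝ) (S : Finset ℕ) (N : ℕ), X₀ ≤ X → S ⊆ Icc 1 N →
      (∀ q, q ∉ S → ψ q = 0) →
      (∀ q ∈ S, X ≤ q ∧ (q : ℝ) ≤ X ^ 3 ∧ 0 < ψ q ∧
        ψ q ≤ Real.exp (-(Real.log (Real.log X)) ^ (1 + δ))) →
      ∑ q ∈ S, ∑ r ∈ S, wK γ (ψ q) q * wK γ (ψ r) r *
        volume.real (GK γ ψ q ∩ GK γ ψ r ∩ Set.Ioc 0 1) ≤
      C * ((∑ q ∈ Icc 1 N, (q.totient : ℝ) / q * ψ q) +
        (∑ q ∈ Icc 1 N, (q.totient : ℝ) / q * ψ q) ^ 2) := by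
  obtain ⟨C₀, hC₀, hpair⟩ := pair_three
  obtain ⟨C₁, hC₁, hanat⟩ := anat_sum
  obtain ⟨C₂, X₂, hC₂, hsmall⟩ := small_sum hδ
  obtain ⟨C₃, hC₃, hres⟩ := resid
  obtain ⟨C₄, X₄, hC₄, hbad⟩ := bad_sum hδ
  obtain ⟨c, hc, X₅, htot⟩ := totient_lower
  refine ⟨C₀ * C₁ + C₀ * C₂ + 128 * C₃ + 32 / c ^ 2 * C₄,
    max (max X₂ X₄) (max X₅ (Real.exp (Real.exp 1))), by (clear * - hC₀ hC₁ hC₂ hC₃ hc hC₄; positivity), ?_⟩
  intro γ X ψ S N hX hSN hψ0 hS
  have hX2 : X₂ ≤ X := ((le_max_left _ _).trans (le_max_left _ _)).trans hX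
  have hX4 : X₄ ≤ X := ((le_max_right _ _).trans (le_max_left _ _)).trans hX
  have hX5 : X₅ ≤ X := ((le_max_left _ _).trans (le_max_right _ _)).trans hX
  have hXe : Real.exp (Real.exp 1) ≤ X := ((le_max_right _ _).trans (le_max_right _ _)).trans hX
  have hXpos : 0 < X := (Real.exp_pos _).trans_le hXe
  have hX1 : 1 ≤ X := le_trans (Real.one_le_exp (Real.exp_pos _).le) hXe
  have hlog : Real.exp 1 ≤ Real.log X := (Real.le_log_iff_exp_le hXpos).mpr hXe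
  have hl1 : 1 ≤ Real.log (Real.log X) :=
    (Real.le_log_iff_exp_le ((Real.exp_pos _).trans_le hlog)).mpr hlog
  have hψ : ∀ q, 0 ≤ ψ q := by
    intro q
    by_cases h : q ∈ S
    · exact (hS q h).2.2.1.le
    · rw [hψ0 q h]
  set f : ℕ → ℝ := fun q => (q.totient : ℝ) / q * ψ q with hf
  have hf0 : ∀ q, 0 ≤ f q := fun q => mul_nonneg (by (clear * -; positivity)) (hψ q)
  have hfψ : ∀ q, 0 ≤ f q ∧ f q ≤ ψ q * (q.totient / q) :=
    fun q => ⟨hf0 q, le_of_eq (mul_comm _ _)⟩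
  have hfS : ∀ q, f q ≠ 0 → q ∈ S := by
    intro q h
    by_contra hne
    apply h
    simp only [hf, hψ0 q hne, mul_zero]
  have hX39 : X ^ 3 ≤ X ^ 9 := pow_le_pow_right₀ hX1 (by norm_num)
  set F : ℝ := ∑ q ∈ Icc 1 N, f q with hF
  have hF0 : 0 ≤ F := sum_nonneg fun q _ => hf0 q
  have hFF : 0 ≤ F + F ^ 2 := by (clear * - hF0; positivity)
  have hpos : ∀ q ∈ S, 0 < q := by
    intro q hq
    have := hSN hq
    rw [mem_Icc] at this
    omega
  have hhalf : ∀ q ∈ S, ψ q ≤ 1 / 2 := by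
    intro q hq
    refine (hS q hq).2.2.2.trans ?_
    have h1 : 1 ≤ Real.log (Real.log X) ^ (1 + δ) := Real.one_le_rpow hl1 (by linarith only [hδ])
    calc Real.exp (-Real.log (Real.log X) ^ (1 + δ)) ≤ Real.exp (-1) :=
          Real.exp_le_exp.mpr (by linarith only [h1])
      _ ≤ 1 / 2 := by
          rw [Real.exp_neg, one_div]
          apply inv_anti₀ (by norm_num)
          have := Real.exp_one_gt_d9
          linarith only [this]
  -- pointwise bound, everything expressed by `f`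
  set R₁ : ℕ → ℕ → Prop := SmallRel γ ψ with hR₁
  set R₂ : ℕ → ℕ → Prop := BadRel γ ψ with hR₂
  set ℓ : ℝ := Real.log (Real.log X) with hℓ
  have hpt : ∀ q ∈ S, ∀ r ∈ S, wK γ (ψ q) q * wK γ (ψ r) r *
        volume.real (GK γ ψ q ∩ GK γ ψ r ∩ Set.Ioc 0 1) ≤
      C₀ * (f q * f r * GT (max 2 (DD q r (ψ q) (ψ r))) (cofac q r * cofac r q)) +
      C₀ * (if R₁ q r then f q * f r * (GG (cofac q r * cofac r q) / DD q r (ψ q) (ψ r))
        else 0) +
      128 * (Real.sqrt (f q * f r) * resK q r) +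
      16 / c ^ 2 * (if R₂ q r then f q * f r * (ℓ ^ 2 / DD q r (ψ q) (ψ r)) else 0) +
      16 / c ^ 2 * (if R₂ r q then f q * f r * (ℓ ^ 2 / DD q r (ψ q) (ψ r)) else 0) := by
    intro q hq r hr
    have hq0 := hpos q hq
    have hr0 := hpos r hr
    obtain ⟨hq1, hq2, hq3, hq4⟩ := hS q hq
    obtain ⟨hr1, hr2, hr3, hr4⟩ := hS r hr
    have h1 := hpair γ ψ q r hq0 hr0 hq3 hr3 (hhalf q hq) (hhalf r hr)
    have hD0 : 0 < DD q r (ψ q) (ψ r) := DD_pos hq0 hr0 hq3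
    have htq := htot X hX5 q hq0 (hq2.trans hX39)
    have htr := htot X hX5 r hr0 (hr2.trans hX39)
    rw [← hℓ] at htq htr
    have hψψ : ψ q * ψ r ≤ 1 / c ^ 2 * (f q * f r * ℓ ^ 2) := by
      have hcl : 0 < c / ℓ := by (clear * - hc hl1; positivity)
      have h2 : ψ q * (c / ℓ) ≤ f q := by
        simp only [hf]
        rw [mul_comm]
        (clear * - htq hq3; gcongr)
      have h3 : ψ r * (c / ℓ) ≤ f r := by
        simp only [hf]
        rw [mul_comm]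
        (clear * - htr hr3; gcongr)
      have h4 : (ψ q * (c / ℓ)) * (ψ r * (c / ℓ)) ≤ f q * f r :=
        mul_le_mul h2 h3 (by (clear * - hr3 hc hl1; positivity)) (hf0 q)
      have h5 : ψ q * ψ r = 1 / c ^ 2 * ((ψ q * (c / ℓ)) * (ψ r * (c / ℓ)) * ℓ ^ 2) := by
        (clear * - hc hl1 hr3 hq3; field_simp)
      rw [h5]
      (clear * - h4 hl1 hc; gcongr)
    have h6 : 16 * (ψ q * ψ r / DD q r (ψ q) (ψ r)) ≤
        16 / c ^ 2 * (f q * f r * (ℓ ^ 2 / DD q r (ψ q) (ψ r))) := by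
      calc 16 * (ψ q * ψ r / DD q r (ψ q) (ψ r))
          ≤ 16 * (1 / c ^ 2 * (f q * f r * ℓ ^ 2) / DD q r (ψ q) (ψ r)) := by (clear * - hψψ hD0; gcongr)
        _ = _ := by ring
    refine h1.trans ?_
    refine add_le_add (add_le_add (add_le_add (add_le_add le_rfl ?_) le_rfl) ?_) ?_
    · rw [hR₁]
      unfold SmallRel
      split_ifs with h
      · apply le_of_eq
        simp only [hf]
        ring
      · simp
    · rw [hR₂]
      unfold BadRel
      split_ifs with h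
      · exact h6
      · simp
    · rw [hR₂]
      unfold BadRel
      split_ifs with h
      · exact h6
      · simp
  -- the sums
  have hGT0 : ∀ (D : ℝ) (n : ℕ), 0 ≤ GT D n := by
    intro D n
    rw [GT_eq]
    exact inv_nonneg.mpr (pr_pos fun p hp =>
      Nat.prime_of_mem_primeFactors (mem_filter.mp hp).1).le
  have hDn : ∀ q r, 0 ≤ DD q r (ψ q) (ψ r) := by
    intro q r
    unfold DD
    exact div_nonneg (le_trans (mul_nonneg (Nat.cast_nonneg _) (hψ q)) (le_max_left _ _))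
      (Nat.cast_nonneg _)
  have hext : ∀ G : ℕ → ℕ → ℝ, (∀ q r, 0 ≤ G q r) →
      ∑ q ∈ S, ∑ r ∈ S, G q r ≤ ∑ q ∈ Icc 1 N, ∑ r ∈ Icc 1 N, G q r := by
    intro G hG
    calc ∑ q ∈ S, ∑ r ∈ S, G q r ≤ ∑ q ∈ S, ∑ r ∈ Icc 1 N, G q r :=
          sum_le_sum fun q _ => sum_le_sum_of_subset_of_nonneg hSN fun r _ _ => hG q r
      _ ≤ _ := sum_le_sum_of_subset_of_nonneg hSN fun q _ _ => sum_nonneg fun r _ => hG q r
  have hff : ∀ q r, 0 ≤ f q * f r := fun q r => mul_nonneg (hf0 q) (hf0 r)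
  have s1 : ∑ q ∈ S, ∑ r ∈ S,
      f q * f r * GT (max 2 (DD q r (ψ q) (ψ r))) (cofac q r * cofac r q) ≤
      C₁ * (F + F ^ 2) :=
    (hext _ fun q r => mul_nonneg (hff q r) (hGT0 _ _)).trans (hanat N ψ f hψ hfψ)
  have s2 : ∑ q ∈ S, ∑ r ∈ S,
      (if R₁ q r then f q * f r * (GG (cofac q r * cofac r q) / DD q r (ψ q) (ψ r)) else 0) ≤
      C₂ * (F + F ^ 2) := by
    refine (hext _ fun q r => ?_).trans (hsmall γ X hX2 N ψ f hψ hfψ fun q hq => ?_)
    · split_ifs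
      · exact mul_nonneg (hff q r) (div_nonneg (GG_nonneg _) (hDn q r))
      · exact le_rfl
    · obtain ⟨a, b, _, d⟩ := hS q (hfS q hq)
      exact ⟨a, b.trans hX39, d⟩
  have s3 : ∑ q ∈ S, ∑ r ∈ S, Real.sqrt (f q * f r) * resK q r ≤ C₃ * F :=
    (hext _ fun q r => mul_nonneg (Real.sqrt_nonneg _) (resK_nonneg q r)).trans (hres N f hf0)
  have s4 : ∑ q ∈ S, ∑ r ∈ S,
      (if R₂ q r then f q * f r * (ℓ ^ 2 / DD q r (ψ q) (ψ r)) else 0) ≤
      C₄ * (F + F ^ 2) := by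
    refine (hext _ fun q r => ?_).trans (hbad γ X hX4 N ψ f hψ hfψ fun q hq => ?_)
    · split_ifs
      · exact mul_nonneg (hff q r) (div_nonneg (by (clear * - hl1; positivity)) (hDn q r))
      · exact le_rfl
    · obtain ⟨_, _, c, d⟩ := hS q (hfS q hq)
      exact ⟨c, d⟩
  have s5 : ∑ q ∈ S, ∑ r ∈ S,
      (if R₂ r q then f q * f r * (ℓ ^ 2 / DD q r (ψ q) (ψ r)) else 0) ≤
      C₄ * (F + F ^ 2) := by
    refine (le_of_eq ?_).trans s4
    rw [sum_comm]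
    refine sum_congr rfl fun q _ => sum_congr rfl fun r _ => ?_
    rw [DD_comm r q, mul_comm (f r) (f q)]
  have hsum : ∑ q ∈ S, ∑ r ∈ S, wK γ (ψ q) q * wK γ (ψ r) r *
        volume.real (GK γ ψ q ∩ GK γ ψ r ∩ Set.Ioc 0 1) ≤
      C₀ * (C₁ * (F + F ^ 2)) + C₀ * (C₂ * (F + F ^ 2)) + 128 * (C₃ * F) +
        16 / c ^ 2 * (C₄ * (F + F ^ 2)) + 16 / c ^ 2 * (C₄ * (F + F ^ 2)) := by
    refine (sum_le_sum fun q hq => sum_le_sum fun r hr => hpt q hq r hr).trans ?_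
    simp_rw [sum_add_distrib, ← mul_sum]
    (clear * - s1 hC₀ s2 s3 s4 hc s5; gcongr)
  refine hsum.trans ?_
  have h7 : 128 * (C₃ * F) ≤ 128 * (C₃ * (F + F ^ 2)) := by
    have : F ≤ F + F ^ 2 := by nlinarith only []
    (clear * - this hC₃; gcongr)
  have h8 : (C₀ * C₁ + C₀ * C₂ + 128 * C₃ + 32 / c ^ 2 * C₄) * (F + F ^ 2) =
      C₀ * (C₁ * (F + F ^ 2)) + C₀ * (C₂ * (F + F ^ 2)) + 128 * (C₃ * (F + F ^ 2)) +
        16 / c ^ 2 * (C₄ * (F + F ^ 2)) + 16 / c ^ 2 * (C₄ * (F + F ^ 2)) := by ring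
  rw [h8]
  linarith only [h7]

/-- one level, class I -/
theorem level_one {δ : ℝ} (hδ : 0 < δ) : ∃ C X₀ : ℝ, 0 < C ∧
    ∀ (γ X : ℝ) (ψ : ℕ → ℝ) (S : Finset ℕ), X₀ ≤ X →
      (∀ q ∈ S, X ≤ q ∧ (q : ℝ) ≤ X ^ 3 ∧ 1 / (q : ℝ) ^ 2 ≤ ψ q ∧
        ψ q ≤ Real.exp (-(Real.log (Real.log X)) ^ (1 + δ))) →
      ∑ q ∈ S, ∑ r ∈ S, wK γ (ψ q) q * wK γ (ψ r) r *
        volume.real (GK γ ψ q ∩ GK γ ψ r ∩ Set.Ioc 0 1) ≤
      C * ((∑ q ∈ S, (q.totient : ℝ) / q * ψ q) + (∑ q ∈ S, (q.totient : ℝ) / q * ψ q) ^ 2) := by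
  classical
  obtain ⟨C, X₀, hC, h⟩ := level_aux hδ
  refine ⟨C, max X₀ 1, hC, ?_⟩
  intro γ X ψ S hX hS
  have hX0 : X₀ ≤ X := (le_max_left _ _).trans hX
  have hX1 : 1 ≤ X := (le_max_right _ _).trans hX
  have hpos : ∀ q ∈ S, 0 < q := by
    intro q hq
    have h1 : (0 : ℝ) < q := by linarith only [hX1, (hS q hq).1]
    exact_mod_cast h1
  set ψ' : ℕ → ℝ := fun q => if q ∈ S then ψ q else 0 with hψ'
  have he : ∀ q ∈ S, ψ' q = ψ q := fun q hq => by simp only [hψ', if_pos hq]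
  set N : ℕ := S.sup id with hN
  have hSN : S ⊆ Icc 1 N := by
    intro q hq
    rw [mem_Icc]
    exact ⟨hpos q hq, Finset.le_sup (f := id) hq⟩
  have h1 := h γ X ψ' S N hX0 hSN (fun q hq => by simp only [hψ', if_neg hq]) (by
    intro q hq
    obtain ⟨a, b, c, d⟩ := hS q hq
    rw [he q hq]
    refine ⟨a, b, lt_of_lt_of_le ?_ c, d⟩
    have : (0 : ℝ) < q := by exact_mod_cast hpos q hq
    (clear * - this; positivity))
  have h2 : ∑ q ∈ Icc 1 N, (q.totient : ℝ) / q * ψ' q = ∑ q ∈ S, (q.totient : ℝ) / q * ψ q := by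
    rw [← sum_subset hSN]
    · exact sum_congr rfl fun q hq => by rw [he q hq]
    · intro q _ hq
      simp only [hψ', if_neg hq, mul_zero]
  rw [h2] at h1
  refine (le_of_eq ?_).trans h1
  refine sum_congr rfl fun q hq => sum_congr rfl fun r hr => ?_
  unfold GK
  rw [he q hq, he r hr]

end Vale.P028
end

section

/-!
# Theorem K: class I, every real `γ`
-/

namespace Vale.P028

open Finset MeasureTheory Filter

theorem lv_bounds {q : ℕ} (hq : 3 ≤ q) :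
    Real.exp ((3 : ℝ) ^ lv q) ≤ q ∧ (q : ℝ) ≤ (Real.exp ((3 : ℝ) ^ lv q)) ^ 3 := by
  obtain ⟨h1, h2⟩ := lv_spec hq
  have hq0 : (0 : ℝ) < q := by positivity
  constructor
  · rw [← Real.le_log_iff_exp_le hq0]
    exact h1
  · have h3 : (Real.exp ((3 : ℝ) ^ lv q)) ^ 3 = Real.exp ((3 : ℝ) ^ (lv q + 1)) := by
      rw [← Real.exp_nat_mul]
      congr 1
      push_cast
      ring
    rw [h3, ← Real.log_le_iff_le_exp hq0]
    exact h2.le

theorem pow_six_le_of_lv {q r : ℕ} (hq : 3 ≤ q) (hr : 3 ≤ r) (h : lv q + 3 ≤ lv r) :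
    q ^ 6 ≤ r := by
  obtain ⟨h1, h2⟩ := lv_spec hq
  obtain ⟨h3, h4⟩ := lv_spec hr
  have hq0 : (0 : ℝ) < q := by positivity
  have hr0 : (0 : ℝ) < r := by positivity
  have h5 : (3 : ℝ) ^ (lv q + 3) ≤ (3 : ℝ) ^ lv r := pow_le_pow_right₀ (by norm_num) h
  have h6 : (3 : ℝ) ^ (lv q + 3) = 9 * (3 : ℝ) ^ (lv q + 1) := by ring
  have hlq : 0 ≤ Real.log q := Real.log_natCast_nonneg q
  have h7 : Real.log ((q : ℝ) ^ 6) ≤ Real.log r := by
    rw [Real.log_pow]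
    push_cast
    linarith only [h2, h3, h5, h6, hlq]
  have h8 : (q : ℝ) ^ 6 ≤ r := (Real.log_le_log_iff (by positivity) hr0).mp h7
  exact_mod_cast h8

theorem wK_mul_pr (γ x : ℝ) (q : ℕ) : wK γ x q * pr (PK γ x q) = (q.totient : ℝ) / q := by
  unfold wK
  have h : pr (PK γ x q) ≠ 0 := (pr_pos PK_prime).ne'
  (clear * - h; field_simp)

theorem wK_nonneg (γ x : ℝ) (q : ℕ) : 0 ≤ wK γ x q := by
  unfold wK
  exact div_nonneg (by (clear * -; positivity)) (pr_pos PK_prime).le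

/-- second moment of a finite set living on well separated levels -/
theorem moment_levels {δ : ℝ} (hδ : 0 < δ) : ∃ (C : ℝ) (N₁ : ℕ), 0 < C ∧ 3 ≤ N₁ ∧
    ∀ (γ : ℝ) (ψ : ℕ → ℝ) (S : Finset ℕ) (a : ℕ),
      (∀ q ∈ S, N₁ ≤ q ∧ lv q % 3 = a ∧ 1 / (q : ℝ) ^ 2 ≤ ψ q ∧ ψ q ≤ 1 / 2 ∧
        ψ q ≤ Real.exp (-(Real.log (Real.log q)) ^ (1 + δ))) →
      ∑ q ∈ S, ∑ r ∈ S, wK γ (ψ q) q * wK γ (ψ r) r *
        volume.real (GK γ ψ q ∩ GK γ ψ r ∩ Set.Ioc 0 1) ≤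
      C * ((∑ q ∈ S, (q.totient : ℝ) / q * ψ q) + (∑ q ∈ S, (q.totient : ℝ) / q * ψ q) ^ 2) := by
  classical
  obtain ⟨C₁, X₀, hC₁, hlev⟩ := level_one hδ
  obtain ⟨C₂, hC₂, Q₀, hcross⟩ := cross_overlap
  obtain ⟨M, hM⟩ := exists_nat_ge ((max X₀ 1) ^ 3)
  refine ⟨C₁ + C₂, max (max M Q₀) 3, by positivity, le_max_right _ _, ?_⟩
  intro γ ψ S a hS
  have hM' : ∀ q ∈ S, M ≤ q := fun q hq =>
    ((le_max_left _ _).trans (le_max_left _ _)).trans (hS q hq).1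
  have hQ' : ∀ q ∈ S, Q₀ ≤ q := fun q hq =>
    ((le_max_right _ _).trans (le_max_left _ _)).trans (hS q hq).1
  have h3 : ∀ q ∈ S, 3 ≤ q := fun q hq => (le_max_right _ _).trans (hS q hq).1
  have hpos : ∀ q ∈ S, 0 < ψ q := by
    intro q hq
    refine lt_of_lt_of_le ?_ (hS q hq).2.2.1
    have : (0 : ℝ) < q := by
      have := h3 q hq
      (clear * - this; positivity)
    (clear * - this; positivity)
  set f : ℕ → ℝ := fun q => (q.totient : ℝ) / q * ψ q with hf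
  have hf0 : ∀ q ∈ S, 0 ≤ f q := fun q hq => mul_nonneg (by (clear * -; positivity)) (hpos q hq).le
  set T : ℕ → ℕ → ℝ := fun q r => wK γ (ψ q) q * wK γ (ψ r) r *
        volume.real (GK γ ψ q ∩ GK γ ψ r ∩ Set.Ioc 0 1) with hT
  have hTsymm : ∀ q r, T q r = T r q := by
    intro q r
    simp only [hT]
    rw [Set.inter_comm (GK γ ψ q), mul_comm (wK γ (ψ q) q)]
  -- different levels
  have hdiff : ∀ q ∈ S, ∀ r ∈ S, lv q < lv r → T q r ≤ C₂ * (f q * f r) := by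
    intro q hq r hr hlt
    have h4 : lv q + 3 ≤ lv r := by
      have h5 := (hS q hq).2.1
      have h6 := (hS r hr).2.1
      omega
    have h5 := pow_six_le_of_lv (h3 q hq) (h3 r hr) h4
    have h6 := hcross γ q r (ψ q) (ψ r) (hQ' q hq) h5 (hpos q hq) (hS q hq).2.2.2.1 (hpos r hr)
      (hS r hr).2.2.2.1 (hS q hq).2.2.1 (Bq γ (ψ q)) (Bq γ (ψ r)) (Aq γ (ψ q)) (Aq γ (ψ r))
      (PK γ (ψ q) q) (PK γ (ψ r) r)
      (fun p hp => ⟨(mem_PK hp).1, (mem_PK hp).2.1, (mem_PK hp).2.2.2⟩)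
      (fun p hp => ⟨(mem_PK hp).1, (mem_PK hp).2.1, (mem_PK hp).2.2.2⟩)
      (AK γ (ψ q) q) (AK γ (ψ r) r) (fun al h => h) (fun al h => h)
    have h7 := wK_nonneg γ (ψ q) q
    have h8 := wK_nonneg γ (ψ r) r
    calc T q r ≤ wK γ (ψ q) q * wK γ (ψ r) r *
          (C₂ * (ψ q * ψ r) * pr (PK γ (ψ q) q) * pr (PK γ (ψ r) r)) := by
          simp only [hT]
          exact mul_le_mul_of_nonneg_left h6 (mul_nonneg h7 h8)
      _ = C₂ * ((wK γ (ψ q) q * pr (PK γ (ψ q) q)) * ψ q *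
          ((wK γ (ψ r) r * pr (PK γ (ψ r) r)) * ψ r)) := by ring
      _ = C₂ * (f q * f r) := by rw [wK_mul_pr, wK_mul_pr]
  have hT0 : ∀ q r, 0 ≤ T q r := fun q r =>
    mul_nonneg (mul_nonneg (wK_nonneg _ _ _) (wK_nonneg _ _ _)) ENNReal.toReal_nonneg
  have hpt : ∀ q ∈ S, ∀ r ∈ S, T q r ≤ (if lv r = lv q then T q r else 0) + C₂ * (f q * f r) := by
    intro q hq r hr
    have hff : 0 ≤ C₂ * (f q * f r) := mul_nonneg hC₂.le (mul_nonneg (hf0 q hq) (hf0 r hr))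
    rcases lt_trichotomy (lv q) (lv r) with h | h | h
    · rw [if_neg (by omega)]
      linarith only [hdiff q hq r hr h]
    · rw [if_pos h.symm]
      linarith only [hff]
    · rw [if_neg (by omega)]
      have := hdiff r hr q hq h
      rw [hTsymm q r]
      linarith only [this]
  set F : ℝ := ∑ q ∈ S, f q with hF
  have hF0 : 0 ≤ F := sum_nonneg hf0
  -- same level
  set I : Finset ℕ := S.image lv with hI
  set Fi : ℕ → ℝ := fun i => ∑ q ∈ S.filter (fun q => lv q = i), f q with hFi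
  have hFi0 : ∀ i ∈ I, 0 ≤ Fi i := fun i _ => sum_nonneg fun q hq => hf0 q (mem_filter.mp hq).1
  have hFsum : ∑ i ∈ I, Fi i = F := by
    simp only [hFi]
    exact sum_fiberwise_of_maps_to (fun q hq => mem_image_of_mem _ hq) _
  have hsame : ∑ q ∈ S, ∑ r ∈ S, (if lv r = lv q then T q r else 0) ≤ C₁ * (F + F ^ 2) := by
    have e1 : ∑ q ∈ S, ∑ r ∈ S, (if lv r = lv q then T q r else 0) =
        ∑ i ∈ I, ∑ q ∈ S.filter (fun q => lv q = i), ∑ r ∈ S.filter (fun r => lv r = i), T q r := by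
      rw [← sum_fiberwise_of_maps_to (t := I) (g := lv) (fun q hq => mem_image_of_mem _ hq)]
      refine sum_congr rfl fun i _ => sum_congr rfl fun q hq => ?_
      rw [mem_filter] at hq
      rw [sum_filter]
      refine sum_congr rfl fun r _ => ?_
      rw [hq.2]
    rw [e1]
    calc ∑ i ∈ I, ∑ q ∈ S.filter (fun q => lv q = i), ∑ r ∈ S.filter (fun r => lv r = i), T q r
        ≤ ∑ i ∈ I, C₁ * (Fi i + Fi i ^ 2) := by
          apply sum_le_sum
          intro i hi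
          rw [hI, mem_image] at hi
          obtain ⟨q₀, hq₀, hlv⟩ := hi
          have hX : X₀ ≤ Real.exp ((3 : ℝ) ^ i) := by
            obtain ⟨-, h5⟩ := lv_bounds (h3 q₀ hq₀)
            rw [hlv] at h5
            have h6 : (max X₀ 1) ^ 3 ≤ (Real.exp ((3 : ℝ) ^ i)) ^ 3 := by
              refine hM.trans (le_trans ?_ h5)
              exact_mod_cast hM' q₀ hq₀
            have h7 : max X₀ 1 ≤ Real.exp ((3 : ℝ) ^ i) :=
              le_of_pow_le_pow_left₀ (by norm_num) (Real.exp_pos _).le h6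
            exact (le_max_left _ _).trans h7
          apply hlev γ (Real.exp ((3 : ℝ) ^ i)) ψ _ hX
          intro q hq
          rw [mem_filter] at hq
          obtain ⟨hqS, hqi⟩ := hq
          obtain ⟨h4, h5⟩ := lv_bounds (h3 q hqS)
          rw [hqi] at h4 h5
          refine ⟨h4, h5, (hS q hqS).2.2.1, (hS q hqS).2.2.2.2.trans ?_⟩
          apply Real.exp_le_exp.mpr
          apply neg_le_neg
          apply Real.rpow_le_rpow
          · rw [Real.log_exp]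
            exact Real.log_nonneg (one_le_pow₀ (by norm_num))
          · apply Real.log_le_log
            · rw [Real.log_exp]; positivity
            · exact Real.log_le_log (Real.exp_pos _) h4
          · linarith only [hδ]
      _ = C₁ * (∑ i ∈ I, Fi i + ∑ i ∈ I, Fi i ^ 2) := by
          rw [← mul_sum, sum_add_distrib]
      _ ≤ C₁ * (F + F ^ 2) := by
          rw [hFsum]
          have h4 : ∑ i ∈ I, Fi i ^ 2 ≤ F ^ 2 := by
            rw [← hFsum]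
            exact sum_sq_le_sq_sum_of_nonneg hFi0
          (clear * - h4 hC₁; gcongr)
  calc ∑ q ∈ S, ∑ r ∈ S, T q r
      ≤ ∑ q ∈ S, ∑ r ∈ S, ((if lv r = lv q then T q r else 0) + C₂ * (f q * f r)) :=
        sum_le_sum fun q hq => sum_le_sum fun r hr => hpt q hq r hr
    _ = ∑ q ∈ S, ∑ r ∈ S, (if lv r = lv q then T q r else 0) + C₂ * F ^ 2 := by
        simp_rw [sum_add_distrib]
        congr 1
        rw [sq, hF, sum_mul_sum, mul_sum]
        simp_rw [mul_sum]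
    _ ≤ C₁ * (F + F ^ 2) + C₂ * F ^ 2 := by linarith only [hsame]
    _ ≤ (C₁ + C₂) * (F + F ^ 2) := by nlinarith only [hC₂, hF0]

theorem exists_finset_sum_ge {g : ℕ → ℝ} (hg : ∀ q, 0 ≤ g q) (h : ¬ Summable g) (N : ℕ) :
    ∃ S : Finset ℕ, (∀ q ∈ S, N ≤ q ∧ g q ≠ 0) ∧ 1 ≤ ∑ q ∈ S, g q := by
  classical
  have h1 := (not_summable_iff_tendsto_nat_atTop_of_nonneg hg).mp h
  obtain ⟨M, hM⟩ := (h1.eventually_ge_atTop (1 + ∑ q ∈ range N, g q)).exists
  refine ⟨(range M).filter (fun q => N ≤ q ∧ g q ≠ 0), ?_, ?_⟩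
  · intro q hq
    rw [mem_filter] at hq
    exact hq.2
  · have h2 : ∑ q ∈ range M, g q ≤ ∑ q ∈ range N, g q +
        ∑ q ∈ (range M).filter (fun q => N ≤ q ∧ g q ≠ 0), g q := by
      have h3 : ∑ q ∈ range M, g q = ∑ q ∈ (range M).filter (fun q => N ≤ q ∧ g q ≠ 0), g q +
          ∑ q ∈ (range M).filter (fun q => ¬ (N ≤ q ∧ g q ≠ 0)), g q :=
        (sum_filter_add_sum_filter_not _ _ _).symm
      have h4 : ∑ q ∈ (range M).filter (fun q => ¬ (N ≤ q ∧ g q ≠ 0)), g q ≤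
          ∑ q ∈ range N, g q := by
        rw [← sum_filter_ne_zero]
        apply sum_le_sum_of_subset_of_nonneg
        · intro q hq
          rw [mem_filter, mem_filter] at hq
          rw [mem_range]
          by_contra hlt
          push Not at hlt
          exact hq.1.2 ⟨hlt, hq.2⟩
        · intro q _ _
          exact hg q
      linarith only [h3, h4]
    linarith only [hM, h2]

/-- splitting a divergent series according to the residue class of the level -/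
theorem exists_level_class {ψ : ℕ → ℝ} (hψ : ∀ q, 0 ≤ ψ q)
    (hdiv : ¬ Summable (fun q : ℕ => ((q.totient : ℝ) / q) * ψ q)) :
    ∃ a : ℕ, ¬ Summable (fun q : ℕ => if lv q % 3 = a ∧ 1 / (q : ℝ) ^ 2 ≤ ψ q then
      ((q.totient : ℝ) / q) * ψ q else 0) := by
  by_contra hne
  push Not at hne
  apply hdiv
  have hs := ((hne 0).add (hne 1)).add ((hne 2).add
    (Real.summable_one_div_nat_pow.mpr (by norm_num : 1 < 2)))
  refine Summable.of_nonneg_of_le (fun q => mul_nonneg (by (clear * -; positivity)) (hψ q)) (fun q => ?_) hs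
  have h0 : 0 ≤ ((q.totient : ℝ) / q) * ψ q := mul_nonneg (by (clear * -; positivity)) (hψ q)
  have hsq : (0 : ℝ) ≤ 1 / (q : ℝ) ^ 2 := by positivity
  have hi : ∀ b : ℕ, 0 ≤ (if lv q % 3 = b ∧ 1 / (q : ℝ) ^ 2 ≤ ψ q then
      ((q.totient : ℝ) / q) * ψ q else 0) := by
    intro b
    split_ifs
    · exact h0
    · exact le_rfl
  rcases le_or_gt (1 / (q : ℝ) ^ 2) (ψ q) with h | h
  · have h3 : lv q % 3 < 3 := Nat.mod_lt _ (by norm_num)
    have hcase : lv q % 3 = 0 ∨ lv q % 3 = 1 ∨ lv q % 3 = 2 := by omega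
    have i0 := hi 0
    have i1 := hi 1
    have i2 := hi 2
    rcases hcase with hc | hc | hc
    · have : (if lv q % 3 = 0 ∧ 1 / (q : ℝ) ^ 2 ≤ ψ q then
        ((q.totient : ℝ) / q) * ψ q else 0) = ((q.totient : ℝ) / q) * ψ q := if_pos ⟨hc, h⟩
      linarith only [hsq, i1, i2, this]
    · have : (if lv q % 3 = 1 ∧ 1 / (q : ℝ) ^ 2 ≤ ψ q then
        ((q.totient : ℝ) / q) * ψ q else 0) = ((q.totient : ℝ) / q) * ψ q := if_pos ⟨hc, h⟩
      linarith only [hsq, i0, i2, this]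
    · have : (if lv q % 3 = 2 ∧ 1 / (q : ℝ) ^ 2 ≤ ψ q then
        ((q.totient : ℝ) / q) * ψ q else 0) = ((q.totient : ℝ) / q) * ψ q := if_pos ⟨hc, h⟩
      linarith only [hsq, i0, i1, this]
  · have h4 : ((q.totient : ℝ) / q) * ψ q ≤ 1 / (q : ℝ) ^ 2 := by
      have h5 := tot_le_one q
      have h6 := tot_nonneg q
      linarith [mul_nonneg (le_of_lt (sub_pos.2 h)) (sub_nonneg.2 h6), mul_nonneg (sub_nonneg.2 hsq) (sub_nonneg.2 h5)]
    have i0 := hi 0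
    have i1 := hi 1
    have i2 := hi 2
    linarith only [h4, i0, i1, i2]

/-- class I, every real `γ`, no loss -/
theorem theoremK (γ : ℝ) (ψ : ℕ → ℝ) (hψ : ∀ q, 0 ≤ ψ q) (δ : ℝ) (hδ : 0 < δ)
    (hev : ∀ᶠ q : ℕ in atTop, ψ q ≤ Real.exp (-(Real.log (Real.log q)) ^ (1 + δ)))
    (hdiv : ¬ Summable (fun q : ℕ => ((q.totient : ℝ) / q) * ψ q)) :
    volume (W γ ψ)ᶜ = 0 := by
  classical
  obtain ⟨C, N₁, hC, hN₁, hmom⟩ := moment_levels hδ
  obtain ⟨a, ha⟩ := exists_level_class hψ hdiv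
  obtain ⟨N₂, hN₂⟩ := eventually_atTop.mp hev
  -- `ψ ≤ 1/2` for large `q`
  obtain ⟨N₃, hN₃⟩ : ∃ N₃ : ℕ, ∀ q : ℕ, N₃ ≤ q → 1 ≤ Real.log (Real.log q) := by
    obtain ⟨N₃, h⟩ := exists_nat_ge (Real.exp (Real.exp 1))
    refine ⟨N₃, fun q hq => ?_⟩
    have h1 : Real.exp (Real.exp 1) ≤ q := h.trans (by exact_mod_cast hq)
    have h2 : Real.exp 1 ≤ Real.log q :=
      (Real.le_log_iff_exp_le ((Real.exp_pos _).trans_le h1)).mpr h1
    exact (Real.le_log_iff_exp_le ((Real.exp_pos _).trans_le h2)).mpr h2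
  apply full_of_moment γ ψ (2 * C) (1 / 2) (by positivity) (by norm_num)
  intro N
  obtain ⟨Q₀, hQ₀⟩ := lower_count (1 / ((N : ℝ) + 1)) (by (clear * -; positivity))
  obtain ⟨S, hS, hF1⟩ := exists_finset_sum_ge (g := fun q : ℕ =>
    if lv q % 3 = a ∧ 1 / (q : ℝ) ^ 2 ≤ ψ q then ((q.totient : ℝ) / q) * ψ q else 0)
    (fun q => by
      split_ifs
      · exact mul_nonneg (by (clear * -; positivity)) (hψ q)
      · exact le_rfl) ha (N₁ + N₂ + N₃ + Q₀ + N)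
  have hS1 : ∀ q ∈ S, N₁ + N₂ + N₃ + Q₀ + N ≤ q ∧ lv q % 3 = a ∧ 1 / (q : ℝ) ^ 2 ≤ ψ q := by
    intro q hq
    obtain ⟨h1, h2⟩ := hS q hq
    by_cases h3 : lv q % 3 = a ∧ 1 / (q : ℝ) ^ 2 ≤ ψ q
    · exact ⟨h1, h3⟩
    · rw [if_neg h3] at h2
      exact absurd rfl h2
  have hsum : ∑ q ∈ S, (if lv q % 3 = a ∧ 1 / (q : ℝ) ^ 2 ≤ ψ q then
      ((q.totient : ℝ) / q) * ψ q else 0) = ∑ q ∈ S, (q.totient : ℝ) / q * ψ q := by
    refine sum_congr rfl fun q hq => ?_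
    rw [if_pos (hS1 q hq).2]
  rw [hsum] at hF1
  have hupp : ∀ q ∈ S, ψ q ≤ Real.exp (-(Real.log (Real.log q)) ^ (1 + δ)) := fun q hq =>
    hN₂ q (by have := (hS1 q hq).1; omega)
  have hhalf : ∀ q ∈ S, ψ q ≤ 1 / 2 := by
    intro q hq
    refine (hupp q hq).trans ?_
    have hl1 := hN₃ q (by have := (hS1 q hq).1; omega)
    have h1 : 1 ≤ Real.log (Real.log q) ^ (1 + δ) := Real.one_le_rpow hl1 (by linarith only [hδ])
    calc Real.exp (-Real.log (Real.log q) ^ (1 + δ)) ≤ Real.exp (-1) :=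
          Real.exp_le_exp.mpr (by linarith only [h1])
      _ ≤ 1 / 2 := by
          rw [Real.exp_neg, one_div]
          apply inv_anti₀ (by norm_num)
          have := Real.exp_one_gt_d9
          linarith only [this]
  have hq0 : ∀ q ∈ S, 0 < q := fun q hq => by have := (hS1 q hq).1; omega
  have hpos : ∀ q ∈ S, 0 < ψ q := by
    intro q hq
    refine lt_of_lt_of_le ?_ (hS1 q hq).2.2
    have : (0 : ℝ) < q := by exact_mod_cast hq0 q hq
    (clear * - this; positivity)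
  refine ⟨S, fun q => wK γ (ψ q) q, fun q => AK γ (ψ q) q, ?_, ?_, ?_, ?_, ?_⟩
  · intro q hq
    exact ⟨by have := (hS1 q hq).1; omega, hpos q hq, hhalf q hq⟩
  · intro q _
    exact wK_nonneg _ _ _
  · linarith only [hF1]
  · intro q hq m n hmn
    have h1 := hQ₀ q (Bq γ (ψ q)) (Aq γ (ψ q)) (PK γ (ψ q) q)
      (by have := (hS1 q hq).1; omega)
      (fun p hp => ⟨(mem_PK hp).1, (mem_PK hp).2.1, (mem_PK hp).2.2.2⟩) m n
      (by rw [one_div_mul_eq_div]; exact hmn)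
    have h2 : ((((Ioc m n).filter (fun al : ℤ => ∀ p ∈ PK γ (ψ q) q,
        ¬ (p : ℤ) ∣ al * (Bq γ (ψ q) : ℤ) + Aq γ (ψ q))).card : ℕ) : ℝ) =
        (((Finset.Ioc m n).filter (AK γ (ψ q) q)).card : ℝ) := by
      norm_cast
      congr 1
      ext al
      simp only [mem_filter]
      rfl
    rw [h2] at h1
    calc 1 / 2 * ((q.totient : ℝ) / q) * ((n : ℝ) - m)
        = wK γ (ψ q) q * (1 / 2 * ((n : ℝ) - m) * pr (PK γ (ψ q) q)) := by
          rw [← wK_mul_pr γ (ψ q) q]; ring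
      _ ≤ _ := mul_le_mul_of_nonneg_left h1 (wK_nonneg _ _ _)
  · have h1 := hmom γ ψ S a (fun q hq => ⟨by have := (hS1 q hq).1; omega, (hS1 q hq).2.1,
      (hS1 q hq).2.2, hhalf q hq, hupp q hq⟩)
    refine h1.trans ?_
    set F := ∑ q ∈ S, (q.totient : ℝ) / q * ψ q with hF
    have h2 : F ≤ F ^ 2 := by (by_contra nlg; linarith only [nlg, mul_pos (sub_pos.2 (not_le.1 nlg)) (sub_pos.2 (not_le.1 nlg)), mul_nonneg (sq_nonneg (F : ℝ)) (sub_nonneg.2 hF1), mul_nonneg (sq_nonneg (F : ℝ)) (le_of_lt (sub_pos.2 (not_le.1 nlg)))])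
    calc C * (F + F ^ 2) ≤ C * (F ^ 2 + F ^ 2) := by (clear * - h2 hC; gcongr)
      _ = 2 * C * F ^ 2 := by ring

end Vale.P028
end

section

/-!
# Second moment in class II (Theorem B)
-/

namespace Vale.P028

open Finset MeasureTheory Filter

theorem bcl_int_abs_nt_le (γ : ℝ) (u v B₁ B₂ : ℕ) (t : ℤ) (D E : ℝ) (hE : 1 ≤ E)
    (hu : (u : ℝ) ≤ D * E) (hv : (v : ℝ) ≤ D * E) (hB₁ : (B₁ : ℝ) ≤ E) (hB₂ : (B₂ : ℝ) ≤ E)
    (hD : 0 < D) (ht : t ∈ sheets γ u v D) :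
    ((nt u v B₁ (Anum γ B₁) B₂ (Anum γ B₂) t).natAbs : ℝ) ≤ 4 * D * E ^ 2 := by
  rw [Nat.cast_natAbs, Int.cast_abs]
  rw [sheets, mem_filter] at ht
  have h1 := ht.2
  have r1 : |(B₁ : ℝ) * γ - Anum γ B₁| ≤ 1 := by
    unfold Anum
    exact (abs_sub_round _).trans (by norm_num)
  have r2 : |(B₂ : ℝ) * γ - Anum γ B₂| ≤ 1 := by
    unfold Anum
    exact (abs_sub_round _).trans (by norm_num)
  have hu0 : (0 : ℝ) ≤ u := by positivity
  have hv0 : (0 : ℝ) ≤ v := by positivity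
  have hb1 : (0 : ℝ) ≤ B₁ := by positivity
  have hb2 : (0 : ℝ) ≤ B₂ := by positivity
  have e : ((nt u v B₁ (Anum γ B₁) B₂ (Anum γ B₂) t : ℤ) : ℝ) =
      B₁ * B₂ * ((t : ℝ) - ((u : ℝ) - v) * γ) + u * B₁ * ((B₂ : ℝ) * γ - Anum γ B₂) -
        v * B₂ * ((B₁ : ℝ) * γ - Anum γ B₁) := by
    unfold nt
    push_cast
    ring
  rw [e]
  have t1 : |(B₁ : ℝ) * B₂ * ((t : ℝ) - ((u : ℝ) - v) * γ)| ≤ E * E * (2 * D) := by
    rw [abs_mul, abs_of_nonneg (mul_nonneg hb1 hb2)]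
    exact mul_le_mul (mul_le_mul hB₁ hB₂ hb2 (by linarith only [hE])) h1.le (abs_nonneg _) (by positivity)
  have t2 : |(u : ℝ) * B₁ * ((B₂ : ℝ) * γ - Anum γ B₂)| ≤ D * E * E * 1 := by
    rw [abs_mul, abs_of_nonneg (mul_nonneg hu0 hb1)]
    exact mul_le_mul (mul_le_mul hu hB₁ hb1 (by positivity)) r2 (abs_nonneg _) (by positivity)
  have t3 : |(v : ℝ) * B₂ * ((B₁ : ℝ) * γ - Anum γ B₁)| ≤ D * E * E * 1 := by
    rw [abs_mul, abs_of_nonneg (mul_nonneg hv0 hb2)]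
    exact mul_le_mul (mul_le_mul hv hB₂ hb2 (by positivity)) r1 (abs_nonneg _) (by positivity)
  calc |(B₁ : ℝ) * B₂ * ((t : ℝ) - ((u : ℝ) - v) * γ) + u * B₁ * ((B₂ : ℝ) * γ - Anum γ B₂) -
        v * B₂ * ((B₁ : ℝ) * γ - Anum γ B₁)|
      ≤ |(B₁ : ℝ) * B₂ * ((t : ℝ) - ((u : ℝ) - v) * γ) + u * B₁ * ((B₂ : ℝ) * γ - Anum γ B₂)| +
        |(v : ℝ) * B₂ * ((B₁ : ℝ) * γ - Anum γ B₁)| := abs_sub _ _
    _ ≤ |(B₁ : ℝ) * B₂ * ((t : ℝ) - ((u : ℝ) - v) * γ)| +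
        |(u : ℝ) * B₁ * ((B₂ : ℝ) * γ - Anum γ B₂)| +
        |(v : ℝ) * B₂ * ((B₁ : ℝ) * γ - Anum γ B₁)| := by
        have := abs_add_le ((B₁ : ℝ) * B₂ * ((t : ℝ) - ((u : ℝ) - v) * γ))
          ((u : ℝ) * B₁ * ((B₂ : ℝ) * γ - Anum γ B₂))
        linarith only [this]
    _ ≤ E * E * (2 * D) + D * E * E * 1 + D * E * E * 1 := by linarith only [t2, t3, t1]
    _ = 4 * D * E ^ 2 := by ring

/-- sizes of the cofactors -/
theorem bcl_cofac_le {ψ : ℕ → ℝ} {q r : ℕ} {E : ℝ} (hE : 0 < E) (hq : 1 / E ≤ ψ q)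
    (hr : 1 / E ≤ ψ r) :
    (cofac q r : ℝ) ≤ DP ψ (q, r) * E ∧ (cofac r q : ℝ) ≤ DP ψ (q, r) * E := by
  have h1 : (cofac r q : ℝ) * ψ q ≤ DP ψ (q, r) := le_max_left _ _
  have h2 : (cofac q r : ℝ) * ψ r ≤ DP ψ (q, r) := le_max_right _ _
  have hu0 : (0 : ℝ) ≤ cofac q r := by positivity
  have hv0 : (0 : ℝ) ≤ cofac r q := by positivity
  constructor
  · have h3 : (cofac q r : ℝ) * (1 / E) ≤ DP ψ (q, r) :=
      (mul_le_mul_of_nonneg_left hr hu0).trans h2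
    rwa [mul_one_div, div_le_iff₀ hE] at h3
  · have h3 : (cofac r q : ℝ) * (1 / E) ≤ DP ψ (q, r) :=
      (mul_le_mul_of_nonneg_left hq hv0).trans h1
    rwa [mul_one_div, div_le_iff₀ hE] at h3

/-- The two hypotheses on the costs. -/
theorem bcl_costs {ε : ℝ} (hε : 0 < ε) :
    ∃ Ca > 0, ∃ k : ℕ, ∃ C₁ > 0, ∃ J₀ : ℝ, 2 ≤ J₀ ∧
      (∀ (n : ℕ) (X : ℝ), 0 < n → 1 ≤ X → (n : ℝ) ≤ Real.exp X →
        ip n.primeFactors ≤ Ca * (1 + Real.log X) ^ k) ∧
      ∀ J : ℝ, J₀ ≤ J → ∀ (γ s₁ : ℝ) (ψ : ℕ → ℝ) (q r : ℕ), 0 < s₁ → s₁ ≤ 1 / 1000 →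
      Real.exp (-J ^ 4) ≤ s₁ → 0 < q → 0 < r → q ≠ r →
      Real.exp (-J ^ 4) ≤ ψ q → Real.exp (-J ^ 4) ≤ ψ r → ψ q ≤ 1 → ψ r ≤ 1 → 
      (J ^ (ε / 4) ≤ DP ψ (q, r) →
      ∑ t ∈ (sheets γ (cofac q r) (cofac r q) (DP ψ (q, r))).filter
      (fun t => nt (cofac q r) (cofac r q) (Bsel γ s₁ (min (ψ q) s₁))
        (Anum γ (Bsel γ s₁ (min (ψ q) s₁))) (Bsel γ s₁ (min (ψ r) s₁))
        (Anum γ (Bsel γ s₁ (min (ψ r) s₁))) t ≠ 0),
      Kt (Nat.gcd q r) (cofac q r) (cofac r q) (Bsel γ s₁ (min (ψ q) s₁))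
        (Anum γ (Bsel γ s₁ (min (ψ q) s₁))) (Bsel γ s₁ (min (ψ r) s₁))
        (Anum γ (Bsel γ s₁ (min (ψ r) s₁))) t ≤ C₁ * DP ψ (q, r)) ∧
      (DP ψ (q, r) < J ^ (ε / 4) → ε ≤ 4 →
      ∀ t ∈ sheets γ (cofac q r) (cofac r q) (DP ψ (q, r)),
      nt (cofac q r) (cofac r q) (Bsel γ s₁ (min (ψ q) s₁))
        (Anum γ (Bsel γ s₁ (min (ψ q) s₁))) (Bsel γ s₁ (min (ψ r) s₁))
        (Anum γ (Bsel γ s₁ (min (ψ r) s₁))) t ≠ 0 →
      Kt (Nat.gcd q r) (cofac q r) (cofac r q) (Bsel γ s₁ (min (ψ q) s₁))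
        (Anum γ (Bsel γ s₁ (min (ψ q) s₁))) (Bsel γ s₁ (min (ψ r) s₁))
        (Anum γ (Bsel γ s₁ (min (ψ r) s₁))) t ≤ (Ca * (1 + 6 * Real.log J) ^ k) ^ 3) := by
  obtain ⟨Ca, hCa, k, hprod⟩ := prod_primeFactors_le
  have ha : 0 < 16 / ε + 4 := by positivity
  obtain ⟨Cb, hCb, hlarge⟩ := prod_large_primeFactors_le (16 / ε + 4) ha
  obtain ⟨Cs, hCs, hSV⟩ := SV
  set K : ℝ := max 1 Cb with hK
  have hK1 : 1 ≤ K := le_max_left _ _
  refine ⟨Ca, hCa, k, K ^ 3 * Cs, by positivity, max 2 (2 ^ (4 / ε)), le_max_left _ _, hprod, ?_⟩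
  intro J hJ γ s₁ ψ q r hs₁ hs₁' hs₁J hq hr hqr hψq hψr hψq1 hψr1
  have hJ2 : 2 ≤ J := (le_max_left _ _).trans hJ
  have hJ0 : 0 < J := by linarith only [hJ2]
  have hJε : 2 ≤ J ^ (ε / 4) := by
    have h1 : (2 : ℝ) ^ (4 / ε) ≤ J := (le_max_right _ _).trans hJ
    have h2 : ((2 : ℝ) ^ (4 / ε)) ^ (ε / 4) ≤ J ^ (ε / 4) :=
      Real.rpow_le_rpow (by positivity) h1 (by positivity)
    rw [← Real.rpow_mul (by norm_num)] at h2
    have e : 4 / ε * (ε / 4) = 1 := by field_simp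
    rwa [e, Real.rpow_one] at h2
  set E : ℝ := Real.exp (J ^ 4) with hE
  have hE1 : 1 ≤ E := Real.one_le_exp (by positivity)
  have hE0 : 0 < E := Real.exp_pos _
  have hEinv : 1 / E = Real.exp (-J ^ 4) := by rw [hE, Real.exp_neg, one_div]
  have hcof := bcl_cofac_le hE0 (by rw [hEinv]; exact hψq) (by rw [hEinv]; exact hψr)
  set D := DP ψ (q, r) with hD
  set u := cofac q r with hu
  set v := cofac r q with hv
  have hu0 : 0 < u := am_cofac_pos hq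
  have hv0 : 0 < v := am_cofac_pos hr
  have huR : (1 : ℝ) ≤ u := by exact_mod_cast hu0
  have hD0 : 0 < D := by
    have h1 := hcof.1
    by_contra hcon
    rw [not_lt] at hcon
    have : D * E ≤ 0 := mul_nonpos_of_nonpos_of_nonneg hcon hE0.le
    linarith only [this, hcof, huR]
  have hBle : ∀ x : ℝ, Real.exp (-J ^ 4) ≤ x → x ≤ 1 → (Bsel γ s₁ (min x s₁) : ℝ) ≤ E := by
    intro x hx hx1
    have hm0 : 0 < min x s₁ := lt_min ((Real.exp_pos _).trans_le hx) hs₁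
    have hm1 : min x s₁ ≤ 1 := (min_le_left _ _).trans hx1
    have h1 := Bsel_pow_le (γ := γ) (s₁ := s₁) hm0 hm1
    have h2 : Real.exp (-J ^ 4) ≤ min x s₁ := le_min hx hs₁J
    have hb1 : (1 : ℝ) ≤ Bsel γ s₁ (min x s₁) := by exact_mod_cast Bsel_pos γ s₁ _
    have h3 : (Bsel γ s₁ (min x s₁) : ℝ) * (1 / E) ≤ 1 := by
      rw [hEinv]
      calc (Bsel γ s₁ (min x s₁) : ℝ) * Real.exp (-J ^ 4) ≤
          (Bsel γ s₁ (min x s₁) : ℝ) ^ 4 * min x s₁ := by
            apply mul_le_mul _ h2 (Real.exp_pos _).le (by positivity)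
            exact le_self_pow₀ hb1 (by norm_num)
        _ ≤ 1 := h1
    rwa [mul_one_div, div_le_one hE0] at h3
  have hB₁ := hBle (ψ q) hψq hψq1
  have hB₂ := hBle (ψ r) hψr hψr1
  set B₁ := Bsel γ s₁ (min (ψ q) s₁) with hB₁def
  set B₂ := Bsel γ s₁ (min (ψ r) s₁) with hB₂def
  have hnt : ∀ t ∈ sheets γ u v D,
      ((nt u v B₁ (Anum γ B₁) B₂ (Anum γ B₂) t).natAbs : ℝ) ≤ 4 * D * E ^ 2 := fun t ht =>
    bcl_int_abs_nt_le γ u v B₁ B₂ t D E hE1 hcof.1 hcof.2 hB₁ hB₂ hD0 ht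
  have hE2 : E ^ 2 = Real.exp (2 * J ^ 4) := by
    rw [hE, ← Real.exp_nat_mul]; norm_num
  have hDE : D * E ≤ 4 * D * E ^ 2 := by
    have : E ≤ E ^ 2 := le_self_pow₀ hE1 (by norm_num)
    have h2 : D * E ≤ D * E ^ 2 := mul_le_mul_of_nonneg_left this hD0.le
    have h3 : 0 ≤ D * E ^ 2 := by positivity
    linarith only [h2, hcof]
  constructor
  · intro hDbig
    have hD2 : 2 ≤ D := hJε.trans hDbig
    have hsize : 4 * D * E ^ 2 ≤ Real.exp (D ^ (16 / ε + 4)) := by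
      have h1 : J ^ (4 : ℝ) ≤ D ^ (16 / ε) := by
        have h2 : (J ^ (ε / 4)) ^ (16 / ε) ≤ D ^ (16 / ε) :=
          Real.rpow_le_rpow (by positivity) hDbig (by positivity)
        rw [← Real.rpow_mul hJ0.le] at h2
        have e : ε / 4 * (16 / ε) = 4 := by field_simp; norm_num
        rwa [e] at h2
      have h1' : J ^ 4 ≤ D ^ (16 / ε) := by
        have : J ^ (4 : ℝ) = J ^ 4 := by exact_mod_cast Real.rpow_natCast J 4
        rwa [this] at h1
      have h3 : D ^ (16 / ε + 4) = D ^ (16 / ε) * D ^ 4 := by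
        rw [Real.rpow_add hD0]
        congr 1
        exact_mod_cast Real.rpow_natCast D 4
      have h4 : 4 * D ≤ Real.exp (4 * D) := by
        have := Real.add_one_le_exp (4 * D)
        linarith only [this]
      have hJ4 : 1 ≤ J ^ 4 := one_le_pow₀ (by linarith only [hJ2])
      have hD4 : 8 * D ≤ D ^ 4 := by
        have h1 : (2 : ℝ) ^ 3 ≤ D ^ 3 := pow_le_pow_left₀ (by norm_num) hD2 3
        calc 8 * D = 2 ^ 3 * D := by norm_num
          _ ≤ D ^ 3 * D := mul_le_mul_of_nonneg_right h1 hD0.le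
          _ = D ^ 4 := by ring
      have h5 : 2 * J ^ 4 + 4 * D ≤ D ^ (16 / ε) * D ^ 4 := by
        have h6 : J ^ 4 * D ^ 4 ≤ D ^ (16 / ε) * D ^ 4 :=
          mul_le_mul_of_nonneg_right h1' (by positivity)
        have h7 : 0 ≤ (J ^ 4 - 1) * (D ^ 4 - 2) := by
          apply mul_nonneg (by linarith only [hJ4]) (by linarith only [hD4, hDbig, hJε])
        have e7 : (J ^ 4 - 1) * (D ^ 4 - 2) = J ^ 4 * D ^ 4 - 2 * J ^ 4 - D ^ 4 + 2 := by ring
        rw [e7] at h7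
        linarith only [h7, hD4, hDbig, h6, hJε]
      calc 4 * D * E ^ 2 ≤ Real.exp (4 * D) * Real.exp (2 * J ^ 4) := by
            rw [hE2]; gcongr
        _ = Real.exp (2 * J ^ 4 + 4 * D) := by rw [← Real.exp_add]; ring_nf
        _ ≤ _ := by rw [h3]; exact Real.exp_le_exp.2 h5
    have hres := sheets_sum_le hSV γ (Nat.gcd q r) u v B₁ (Anum γ B₁) B₂ (Anum γ B₂) ?_ D K hD2 hK1
      ((hlarge u D hu0 hD2 (hcof.1.trans (hDE.trans hsize))).trans (le_max_right _ _))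
      ((hlarge v D hv0 hD2 (hcof.2.trans (hDE.trans hsize))).trans (le_max_right _ _)) ?_
    · refine hres.trans (le_of_eq ?_)
      ring
    · rw [hu, hv]
      unfold cofac
      rw [Nat.gcd_comm r q]
      exact Nat.coprime_div_gcd_div_gcd (Nat.gcd_pos_of_pos_left _ hq)
    · intro t ht hnt0
      exact (hlarge _ D (Int.natAbs_pos.2 hnt0) hD2 ((hnt t ht).trans hsize)).trans
        (le_max_right _ _)
  · intro hDsmall hε4 t ht hnt0
    have hJpow : J ^ (ε / 4) ≤ J := by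
      calc J ^ (ε / 4) ≤ J ^ (1 : ℝ) := Real.rpow_le_rpow_of_exponent_le (by linarith only [hJ2]) (by linarith only [hε4])
        _ = J := Real.rpow_one J
    have hDJ : D ≤ J := hDsmall.le.trans hJpow
    have hsize : 4 * D * E ^ 2 ≤ Real.exp (J ^ 6) := by
      have h4 : 4 * D ≤ Real.exp (4 * J) := by
        have := Real.add_one_le_exp (4 * J)
        linarith only [hDsmall, this, hJpow]
      have h5 : 2 * J ^ 4 + 4 * J ≤ J ^ 6 := by
        have h6 : (2 : ℝ) ^ 2 ≤ J ^ 2 := pow_le_pow_left₀ (by norm_num) hJ2 2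
        have h7 : (2 : ℝ) ^ 3 ≤ J ^ 3 := pow_le_pow_left₀ (by norm_num) hJ2 3
        have h8 : 0 ≤ J ^ 4 * (J ^ 2 - 4) := mul_nonneg (by positivity) (by linarith only [h6])
        have h9 : 0 ≤ J * (J ^ 3 - 8) := mul_nonneg hJ0.le (by linarith only [h7])
        have e8 : J ^ 4 * (J ^ 2 - 4) = J ^ 6 - 4 * J ^ 4 := by ring
        have e9 : J * (J ^ 3 - 8) = J ^ 4 - 8 * J := by ring
        rw [e8] at h8
        rw [e9] at h9
        linarith only [h8, h9, hJ2]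
      calc 4 * D * E ^ 2 ≤ Real.exp (4 * J) * Real.exp (2 * J ^ 4) := by
            rw [hE2]; gcongr
        _ = Real.exp (2 * J ^ 4 + 4 * J) := by rw [← Real.exp_add]; ring_nf
        _ ≤ _ := Real.exp_le_exp.2 h5
    have hJ6 : 1 ≤ J ^ 6 := one_le_pow₀ (by linarith only [hJ2])
    have hlog : Real.log (J ^ 6) = 6 * Real.log J := by
      rw [Real.log_pow]; norm_num
    have b1 := hprod u (J ^ 6) hu0 hJ6 (hcof.1.trans (hDE.trans hsize))
    have b2 := hprod v (J ^ 6) hv0 hJ6 (hcof.2.trans (hDE.trans hsize))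
    have b3 := hprod _ (J ^ 6) (Int.natAbs_pos.2 hnt0) hJ6 ((hnt t ht).trans hsize)
    rw [hlog] at b1 b2 b3
    refine (Kt_le_three (Nat.gcd q r) u v B₁ (Anum γ B₁) B₂ (Anum γ B₂) t hnt0).trans ?_
    have c0 : 0 ≤ Ca * (1 + 6 * Real.log J) ^ k := (ip_nonneg (pf_prime u)).trans b1
    calc ip u.primeFactors * ip v.primeFactors *
        ip (nt u v B₁ (Anum γ B₁) B₂ (Anum γ B₂) t).natAbs.primeFactors
        ≤ (Ca * (1 + 6 * Real.log J) ^ k) * (Ca * (1 + 6 * Real.log J) ^ k) *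
          (Ca * (1 + 6 * Real.log J) ^ k) := by
          apply mul_le_mul (mul_le_mul b1 b2 (ip_nonneg (pf_prime v)) c0) b3
            (ip_nonneg (pf_prime _)) (mul_nonneg c0 c0)
      _ = _ := by ring

end Vale.P028
end

section

/-!
# Second moment in class II (Theorem B): conclusion
-/

namespace Vale.P028

open Finset MeasureTheory Filter

open Classical in
/-- close pairs -/
theorem near_final (k : ℕ) : ∃ C > (0 : ℝ), ∃ kn ≥ (0 : ℝ), ∀ C₅ : ℝ,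
    32 * (2 * k + 2 + 5 * kn) ≤ C₅ →
    ∀ J : ℝ, 2 ≤ J → J ^ (-C₅) ≤ 1 / 1000 →
      ∀ (γ : ℝ) (ψ : ℕ → ℝ) (S : Finset ℕ) (Lam : ℝ),
      (∀ q, 0 ≤ ψ q) → (∀ q ∈ S, 0 < q ∧ Real.exp (-J ^ 4) ≤ ψ q) →
      1 ≤ ∑ q ∈ S, muq ψ q → 0 < Lam → Lam ^ 2 ≤ J ^ (2 * (k : ℝ) + 2) →
      2 * Lam ^ 2 * (∑ p ∈ (S ×ˢ S).filter (fun p => p.1 ≠ p.2 ∧ DP ψ p < J ^ (-C₅) ∧
        VB γ ψ (fun q => Bsel γ (J ^ (-C₅)) (min (ψ q) (J ^ (-C₅))))
          (fun q => Anum γ (Bsel γ (J ^ (-C₅)) (min (ψ q) (J ^ (-C₅))))) p.1 p.2 ≠ 0),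
        muq ψ p.1 * muq ψ p.2 / DP ψ p) ≤ C * (∑ q ∈ S, muq ψ q) ^ 2 := by
  obtain ⟨Cn, hCn, kn, hkn, hnear⟩ := near_bound (θ := 17 / 32) (by norm_num) (by norm_num)
  refine ⟨4 * Cn, by positivity, kn, hkn, ?_⟩
  intro C₅ hC₅ J hJ2 a1 γ ψ S Lam hψ hS hM1 hLam0 hLam2
  have hJ0 : 0 < J := by linarith only [hJ2]
  have hJ1 : 1 ≤ J := by linarith only [hJ2]
  set s₁ : ℝ := J ^ (-C₅) with hs₁
  have hs₁0 : 0 < s₁ := by positivity
  set M := ∑ q ∈ S, muq ψ q with hMdef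
  have hM0 : 0 < M := by linarith only [hM1]
  obtain ⟨N, hN⟩ : ∃ N : ℕ, ∀ q ∈ S, q ≤ N := ⟨S.sup id, fun q hq => le_sup (f := id) hq⟩
  have hψpos : ∀ q ∈ S, 0 < ψ q := fun q hq => (Real.exp_pos _).trans_le (hS q hq).2
  set V : ℕ := ⌈Real.exp (J ^ 4)⌉₊ with hV
  have hV1 : Real.exp (J ^ 4) ≤ V := Nat.le_ceil _
  have hE1 : 1 ≤ Real.exp (J ^ 4) := Real.one_le_exp (by positivity)
  have hV2 : (V : ℝ) ≤ 2 * Real.exp (J ^ 4) := by
    have := (Nat.ceil_lt_add_one (Real.exp_pos (J ^ 4)).le).le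
    linarith only [this, hE1]
  have hVpos : (0 : ℝ) < V := by linarith only [hV1, hE1]
  have hs1le : s₁ ≤ 1 := a1.trans (by norm_num)
  have h1 := hnear γ ψ S N V s₁ hψ (fun q hq => ⟨(hS q hq).1, hN q hq, hψpos q hq, by
    have h2 := (hS q hq).2
    have h3 : Real.exp (J ^ 4) * Real.exp (-J ^ 4) = 1 := by
      rw [← Real.exp_add]; simp
    have h4 : Real.exp (J ^ 4) * Real.exp (-J ^ 4) ≤ V * ψ q :=
      mul_le_mul hV1 h2 (Real.exp_pos _).le hVpos.le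
    linarith only [a1, h3, h4]⟩) hs₁0 a1 (by exact_mod_cast Nat.one_le_iff_ne_zero.2 (by
      intro h; rw [h] at hVpos; simp at hVpos))
  rw [← hMdef] at h1
  have hlogV : 1 + Real.log V ≤ J ^ (5 : ℝ) := by
    have e5 : J ^ (5 : ℝ) = J ^ 5 := by exact_mod_cast Real.rpow_natCast J 5
    rw [e5]
    have h2 : Real.log V ≤ Real.log (2 * Real.exp (J ^ 4)) := Real.log_le_log hVpos hV2
    rw [Real.log_mul (by norm_num) (Real.exp_pos _).ne', Real.log_exp] at h2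
    have h3 := Real.log_two_lt_d9
    have h4 : (2 : ℝ) ^ 4 ≤ J ^ 4 := pow_le_pow_left₀ (by norm_num) hJ2 4
    have h5 : J ^ 5 = J * J ^ 4 := by ring
    linarith only [mul_nonneg (sub_nonneg.2 h4) (sub_nonneg.2 hJ2), h2, h3, hJ2, h4]
  have h2 : (1 + Real.log V) ^ kn ≤ J ^ (5 * kn) := by
    have h3 : 0 ≤ 1 + Real.log V := by
      have := Real.log_natCast_nonneg V
      linarith only [this]
    calc (1 + Real.log V) ^ kn ≤ (J ^ (5 : ℝ)) ^ kn := Real.rpow_le_rpow h3 hlogV hkn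
      _ = J ^ (5 * kn) := by rw [← Real.rpow_mul hJ0.le]
  have h3 : s₁ ^ (3 * (1 - (17 / 32 : ℝ)) - 1) ≤ s₁ ^ (1 / 32 : ℝ) :=
    Real.rpow_le_rpow_of_exponent_ge hs₁0 hs1le (by norm_num)
  have h4 : (1 : ℝ) ≤ J ^ (5 * kn) := Real.one_le_rpow hJ1 (by (clear * - hkn; positivity))
  have h6 : J ^ (2 * (k : ℝ) + 2) * (J ^ (5 * kn) * s₁ ^ (1 / 32 : ℝ)) ≤ 1 := by
    rw [hs₁, ← Real.rpow_mul hJ0.le, ← Real.rpow_add hJ0, ← Real.rpow_add hJ0]
    apply Real.rpow_le_one_of_one_le_of_nonpos hJ1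
    linarith only [hC₅]
  have h7 : (0 : ℝ) ≤ 2 * Lam ^ 2 := by positivity
  refine (mul_le_mul_of_nonneg_left h1 h7).trans ?_
  have m1 := mpow_le (a := 2 * (17 / 32 : ℝ)) hM1 (by norm_num)
  have m2 := mpow_le (a := (33 / 32 : ℝ)) hM1 (by norm_num)
  set x := s₁ ^ (1 / 32 : ℝ) with hx
  have hx0 : 0 ≤ x := by positivity
  have g1 : s₁ ^ (3 * (1 - (17 / 32 : ℝ)) - 1) ≤ J ^ (5 * kn) * x := by
    refine h3.trans ?_
    calc x = 1 * x := (one_mul _).symm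
      _ ≤ _ := mul_le_mul_of_nonneg_right h4 hx0
  have g2 : Cn * M ^ (2 * (17 / 32 : ℝ)) * s₁ ^ (3 * (1 - (17 / 32 : ℝ)) - 1) ≤
      Cn * M ^ 2 * (J ^ (5 * kn) * x) :=
    mul_le_mul (mul_le_mul_of_nonneg_left m1 hCn.le) g1 (by positivity) (by (clear * - hCn hM1; positivity))
  have g3 : Cn * (1 + Real.log V) ^ kn * M ^ (33 / 32 : ℝ) * x ≤
      Cn * J ^ (5 * kn) * M ^ 2 * x := by
    apply mul_le_mul_of_nonneg_right _ hx0
    exact mul_le_mul (mul_le_mul_of_nonneg_left h2 hCn.le) m2 (by (clear * - hM1; positivity)) (by positivity)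
  calc 2 * Lam ^ 2 * (Cn * M ^ (2 * (17 / 32 : ℝ)) * s₁ ^ (3 * (1 - (17 / 32 : ℝ)) - 1) +
        Cn * (1 + Real.log V) ^ kn * M ^ (33 / 32 : ℝ) * x)
      ≤ 2 * J ^ (2 * (k : ℝ) + 2) * (Cn * M ^ 2 * (J ^ (5 * kn) * x) +
        Cn * J ^ (5 * kn) * M ^ 2 * x) :=
        mul_le_mul (by linarith only [hLam2]) (add_le_add g2 g3) (by (clear * - hCn hM1 hJ2; positivity)) (by positivity)
    _ = 4 * Cn * M ^ 2 * (J ^ (2 * (k : ℝ) + 2) * (J ^ (5 * kn) * x)) := by ring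
    _ ≤ 4 * Cn * M ^ 2 * 1 := mul_le_mul_of_nonneg_left h6 (by (clear * - hCn hM1; positivity))
    _ = _ := mul_one _

theorem Lam_facts {Ca J : ℝ} (hCa : 0 < Ca) (k : ℕ) (hJ1 : 1 ≤ J) (a3 : (Ca + 1) * 3 ^ k ≤ J) :
    1 ≤ (Ca + 1) * (1 + 2 * J) ^ k ∧ ((Ca + 1) * (1 + 2 * J) ^ k) ^ 2 ≤ J ^ (2 * (k : ℝ) + 2) := by
  have hJ0 : 0 < J := by linarith only [hJ1]
  have h0 : (1 : ℝ) ≤ (1 + 2 * J) ^ k := one_le_pow₀ (by linarith only [hJ1])
  have hLam1 : 1 ≤ (Ca + 1) * (1 + 2 * J) ^ k := by nlinarith only [hCa, h0]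
  refine ⟨hLam1, ?_⟩
  have hLamJ : (Ca + 1) * (1 + 2 * J) ^ k ≤ J ^ ((k : ℝ) + 1) := by
    have h1 : (1 + 2 * J) ^ k ≤ (3 * J) ^ k := pow_le_pow_left₀ (by linarith only [hJ1]) (by linarith only [hJ1]) k
    calc (Ca + 1) * (1 + 2 * J) ^ k ≤ (Ca + 1) * (3 * J) ^ k :=
          mul_le_mul_of_nonneg_left h1 (by linarith only [hCa])
      _ = (Ca + 1) * 3 ^ k * J ^ k := by rw [mul_pow]; ring
      _ ≤ J * J ^ k := mul_le_mul_of_nonneg_right a3 (by positivity)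
      _ = J ^ ((k : ℝ) + 1) := by
          rw [Real.rpow_add hJ0, Real.rpow_natCast, Real.rpow_one]; ring
  calc ((Ca + 1) * (1 + 2 * J) ^ k) ^ 2 ≤ (J ^ ((k : ℝ) + 1)) ^ 2 :=
        pow_le_pow_left₀ (by linarith only [hLam1]) hLamJ 2
    _ = J ^ (2 * (k : ℝ) + 2) := by
        rw [← Real.rpow_natCast (J ^ ((k : ℝ) + 1)) 2, ← Real.rpow_mul hJ0.le]
        congr 1
        push_cast
        ring

theorem second_moment_II {ε : ℝ} (hε : 0 < ε) (hε1 : ε ≤ 1) :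
    ∃ C > (0 : ℝ), ∃ C₅ > (0 : ℝ), ∃ J₀ : ℝ, 2 ≤ J₀ ∧ ∀ J : ℝ, J₀ ≤ J → J ^ (-C₅) ≤ 1 / 1000 ∧
      ∀ (γ : ℝ) (ψ : ℕ → ℝ) (S : Finset ℕ), (∀ q, 0 ≤ ψ q) →
      (∀ q ∈ S, 0 < q ∧ Real.log q ≤ Real.exp (2 * J) ∧ Real.exp (-J ^ 4) ≤ ψ q ∧ ψ q ≤ 1 / 2) →
      J ^ ε ≤ ∑ q ∈ S, muq ψ q →
      ∑ q ∈ S, ∑ r ∈ S, VB γ ψ (fun q => Bsel γ (J ^ (-C₅)) (min (ψ q) (J ^ (-C₅))))
        (fun q => Anum γ (Bsel γ (J ^ (-C₅)) (min (ψ q) (J ^ (-C₅))))) q r ≤
        C * (∑ q ∈ S, muq ψ q) ^ 2 := by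
  classical
  obtain ⟨Ca, hCa, k, C₁, hC₁, J₁, hJ₁, hprod, hcost⟩ := bcl_costs hε
  obtain ⟨Cz, hCz, hzero⟩ := zero_final k
  obtain ⟨Cn, hCn, kn, hkn, hnear⟩ := near_final k
  set C₅ : ℝ := 32 * (2 * k + 11 + 5 * kn) with hC₅
  have hC₅0 : 0 < C₅ := by (clear * - hkn; positivity)
  obtain ⟨J₃, hmid⟩ := mid_final hε hε1 C₅ Ca k hC₅0 hCa
  obtain ⟨J₄, hzero⟩ := hzero C₅ (by rw [hC₅]; linarith only [hkn])
  have hnear := hnear C₅ (by rw [hC₅]; linarith)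
  have hev : ∀ᶠ J : ℝ in atTop, J ^ (-C₅) ≤ 1 / 1000 ∧ Real.exp (-J ^ 4) ≤ J ^ (-C₅) ∧
      (Ca + 1) * 3 ^ k ≤ J := by
    have h1 : ∀ᶠ J : ℝ in atTop, J ^ (-C₅) ≤ 1 / 1000 :=
      (tendsto_rpow_neg_atTop hC₅0).eventually_le_const (by norm_num)
    filter_upwards [h1, ev_rpow_le_exp C₅, eventually_ge_atTop ((Ca + 1) * 3 ^ k)] with J a1 a2 a3
    exact ⟨a1, a2, a3⟩
  obtain ⟨J₂, hJ₂⟩ := eventually_atTop.1 hev
  refine ⟨6 + (2 * C₁ + 2) + 5 + Cz + Cn, by (clear * - hC₁ hCz hCn; positivity), C₅, hC₅0, max (max J₁ J₂) (max J₃ J₄),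
    hJ₁.trans ((le_max_left _ _).trans (le_max_left _ _)), ?_⟩
  intro J hJ
  have hJJ₁ : J₁ ≤ J := ((le_max_left _ _).trans (le_max_left _ _)).trans hJ
  have hJJ₂ : J₂ ≤ J := ((le_max_right _ _).trans (le_max_left _ _)).trans hJ
  have hJJ₃ : J₃ ≤ J := ((le_max_left _ _).trans (le_max_right _ _)).trans hJ
  have hJJ₄ : J₄ ≤ J := ((le_max_right _ _).trans (le_max_right _ _)).trans hJ
  obtain ⟨a1, a2, a3⟩ := hJ₂ J hJJ₂
  refine ⟨a1, ?_⟩
  intro γ ψ S hψ hS hM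
  have hJ2 : 2 ≤ J := hJ₁.trans hJJ₁
  have hJ0 : 0 < J := by linarith only [hJJ₁, hJ₁]
  have hJ1 : 1 ≤ J := by linarith only [hJJ₁, hJ₁]
  obtain ⟨hLam1, hLam2⟩ := Lam_facts hCa k hJ1 a3
  have hM1 : 1 ≤ ∑ q ∈ S, muq ψ q := le_trans (Real.one_le_rpow hJ1 hε.le) hM
  have hψpos : ∀ q ∈ S, 0 < ψ q := fun q hq => (Real.exp_pos _).trans_le (hS q hq).2.2.1
  have hlogJ : 0 ≤ Real.log J := Real.log_nonneg hJ1
  have hip : ∀ q ∈ S, ip q.primeFactors ≤ (Ca + 1) * (1 + 2 * J) ^ k := by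
    intro q hq
    obtain ⟨q0, q1, -, -⟩ := hS q hq
    have hqR : (0 : ℝ) < q := by exact_mod_cast q0
    have h1 := hprod q (Real.exp (2 * J)) q0 (Real.one_le_exp (by linarith only [hJJ₁, hJ₁]))
      (by rw [← Real.log_le_iff_le_exp hqR]; exact q1)
    rw [Real.log_exp] at h1
    refine h1.trans ?_
    apply mul_le_mul_of_nonneg_right (by linarith only []) (by (clear * - hJ2; positivity))
  have hs₁0 : 0 < J ^ (-C₅) := by positivity
  have hT3 := hmid J hJJ₃ hJ1 ψ S hψ (fun q hq => (hS q hq).1) hM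
  have hT4 := hzero J hJJ₄ hJ2 a1 a2 γ ψ S _ hψ (fun q hq => ⟨(hS q hq).1, (hS q hq).2.2⟩) hM1
    (by linarith only [hLam1]) hLam2
  have hT5 := hnear J hJ2 a1 γ ψ S _ hψ (fun q hq => ⟨(hS q hq).1, (hS q hq).2.2.1⟩) hM1
    (by linarith only [hLam1]) hLam2
  have hsum := moment_sum γ ψ (fun q => Bsel γ (J ^ (-C₅)) (min (ψ q) (J ^ (-C₅))))
    (fun q => Anum γ (Bsel γ (J ^ (-C₅)) (min (ψ q) (J ^ (-C₅))))) S (J ^ (-C₅))
    ((Ca + 1) * (1 + 2 * J) ^ k) (J ^ (ε / 4)) ((Ca * (1 + 6 * Real.log J) ^ k) ^ 3) C₁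
    (fun q hq => ⟨(hS q hq).1, hψpos q hq, (hS q hq).2.2.2, Bsel_pos _ _ _, Bsel_coprime a1,
      hip q hq⟩)
    (fun q r h => congrArg (Anum γ) h)
    hs₁0 (a1.trans (by norm_num)) hLam1 (by (clear * - hCa hlogJ; positivity)) hC₁.le
    (fun q hq r hr hqr hD => (hcost J hJJ₁ γ (J ^ (-C₅)) ψ q r hs₁0 a1 a2 (hS q hq).1 (hS r hr).1
      hqr (hS q hq).2.2.1 (hS r hr).2.2.1 (by linarith only [(hS q hq).2.2.2])
      (by linarith only [(hS r hr).2.2.2])).1 hD)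
    (fun q hq r hr hqr hD => (hcost J hJJ₁ γ (J ^ (-C₅)) ψ q r hs₁0 a1 a2 (hS q hq).1 (hS r hr).1
      hqr (hS q hq).2.2.1 (hS r hr).2.2.1 (by linarith only [(hS q hq).2.2.2])
      (by linarith only [(hS r hr).2.2.2])).2 hD (by linarith only [hε1]))
  set M := ∑ q ∈ S, muq ψ q with hMdef
  have hMM : M ≤ M ^ 2 := by nlinarith only [hM1]
  calc _ ≤ _ := hsum
    _ ≤ 6 * M ^ 2 + (2 * C₁ + 2) * M ^ 2 + 5 * M ^ 2 + Cz * M ^ 2 + Cn * M ^ 2 := by
        linarith only [hMM, hT5, hT3, hT4]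
    _ = _ := by ring

end Vale.P028
end

section

/-!
# Theorem B, class II: assembly
-/

namespace Vale.P028

open Finset MeasureTheory Filter

/-- Divergence gives infinitely many heavy blocks `[2^2^J, 2^2^(2J))`. -/
theorem heavy_blocks2 {ψ : ℕ → ℝ} (hψ : ∀ q, 0 ≤ ψ q) {ε : ℝ} (hε : 0 < ε)
    (hdiv : ¬ Summable (fun q : ℕ => (q.totient : ℝ) / q * ψ q / (Real.log (Real.log q)) ^ ε))
    (j₀ : ℕ) :
    ∃ J : ℕ, j₀ ≤ J ∧ (J : ℝ) ^ (ε / 2) ≤
      ∑ q ∈ Ico (2 ^ 2 ^ J) (2 ^ 2 ^ (2 * J)), (q.totient : ℝ) / q * ψ q := by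
  by_contra hcon
  push Not at hcon
  apply hdiv
  set g : ℕ → ℝ := fun q => (q.totient : ℝ) / q * ψ q / (Real.log (Real.log q)) ^ ε with hg
  set g' : ℕ → ℝ := fun q => if 3 ≤ q then g q else 0 with hg'
  suffices h : Summable g' by
    refine (summable_congr_cofinite ?_).1 h
    filter_upwards [(Set.finite_lt_nat 3).compl_mem_cofinite] with q hq
    simp only [Set.mem_compl_iff, Set.mem_ofPred_eq, not_lt] at hq
    rw [hg']
    simp only
    rw [if_pos hq]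
  have hlog2 : 0 < Real.log 2 := Real.log_pos (by norm_num)
  have hll0 : ∀ q : ℕ, 3 ≤ q → 0 ≤ Real.log (Real.log q) := by
    intro q hq
    apply Real.log_nonneg
    have hq0 : (0 : ℝ) < q := by (clear * - hq; positivity)
    rw [Real.le_log_iff_exp_le hq0]
    have h3 : (3 : ℝ) ≤ q := by exact_mod_cast hq
    linarith [Real.exp_one_lt_d9]
  have hg'0 : ∀ q, 0 ≤ g' q := by
    intro q
    rw [hg']
    simp only
    split_ifs with h
    · rw [hg]
      simp only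
      exact div_nonneg (mul_nonneg (by (clear * - h; positivity)) (hψ q)) (Real.rpow_nonneg (hll0 q h) _)
    · exact le_rfl
  set x : ℝ := (2 : ℝ) ^ (-(ε / 2)) with hx
  have hx0 : 0 < x := by positivity
  have hx1 : x < 1 := Real.rpow_lt_one_of_one_lt_of_neg (by norm_num) (by linarith only [hε])
  set c : ℝ := 2 ^ ε with hc
  have hc0 : 0 < c := by positivity
  set i₀ := max j₀ 2 with hi₀
  have hblock : ∀ i, i₀ ≤ i →
      ∑ q ∈ Ico (2 ^ 2 ^ (2 ^ i)) (2 ^ 2 ^ (2 ^ (i + 1))), g' q ≤ c * x ^ i := by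
    intro i hi
    have hi2 : 2 ≤ i := (le_max_right _ _).trans hi
    have hij : j₀ ≤ 2 ^ i := ((le_max_left _ _).trans hi).trans Nat.lt_two_pow_self.le
    have h1 := (hcon (2 ^ i) hij).le
    have e2 : 2 * 2 ^ i = 2 ^ (i + 1) := by rw [pow_succ]; ring
    rw [e2] at h1
    set K : ℝ := ((2 ^ i : ℕ) : ℝ) with hK
    have hK4 : 4 ≤ K := by
      rw [hK]
      have : 2 ^ 2 ≤ 2 ^ i := Nat.pow_le_pow_right (by norm_num) hi2
      exact_mod_cast this
    have h2 : ∑ q ∈ Ico (2 ^ 2 ^ (2 ^ i)) (2 ^ 2 ^ (2 ^ (i + 1))), g' q ≤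
        ∑ q ∈ Ico (2 ^ 2 ^ (2 ^ i)) (2 ^ 2 ^ (2 ^ (i + 1))),
          ((q.totient : ℝ) / q * ψ q) * (K / 2) ^ (-ε) := by
      refine sum_le_sum fun q hq => ?_
      rw [mem_Ico] at hq
      have hq3 : 3 ≤ q := by
        have h3 : 2 ^ 2 ≤ 2 ^ 2 ^ 2 ^ i := by
          apply Nat.pow_le_pow_right (by norm_num)
          calc 2 ≤ 2 ^ i := by
                calc 2 = 2 ^ 1 := rfl
                  _ ≤ 2 ^ i := Nat.pow_le_pow_right (by norm_num) (by omega)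
            _ ≤ 2 ^ 2 ^ i := Nat.lt_two_pow_self.le
        omega
      have hq0 : (0 : ℝ) < q := by (clear * - hq3; positivity)
      have hlq : (2 : ℝ) ^ (2 ^ i) * Real.log 2 ≤ Real.log q := by
        have h3 : ((2 ^ 2 ^ 2 ^ i : ℕ) : ℝ) ≤ q := by exact_mod_cast hq.1
        have h4 := Real.log_le_log (by positivity) h3
        push_cast at h4
        rw [Real.log_pow] at h4
        push_cast at h4
        exact h4
      have hllq : K / 2 ≤ Real.log (Real.log q) := by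
        have h4 := Real.log_le_log (by positivity) hlq
        rw [Real.log_mul (by positivity) hlog2.ne', Real.log_pow] at h4
        push_cast at h4
        have h5 : (2 : ℝ) ^ i = K := by rw [hK]; push_cast; rfl
        rw [h5] at h4
        have h6 := Real.log_two_gt_d9
        have h7 : -(1 / 2 : ℝ) ≤ Real.log (Real.log 2) := by
          rw [Real.le_log_iff_exp_le hlog2]
          have h8 : Real.exp (-(1 / 2)) ≤ 0.65 := by
            rw [Real.exp_neg]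
            have h9 : (1.6 : ℝ) ≤ Real.exp (1 / 2) := by
              have := Real.quadratic_le_exp_of_nonneg (x := 1 / 2) (by norm_num)
              linarith only [this]
            calc (Real.exp (1 / 2))⁻¹ ≤ (1.6 : ℝ)⁻¹ := inv_anti₀ (by norm_num) h9
              _ ≤ 0.65 := by norm_num
          linarith only [h6, h8]
        nlinarith only [hK4, h4, h7, h6]
      have hK2 : 0 < K / 2 := by linarith only [hK4]
      rw [hg']
      simp only
      rw [if_pos hq3, hg]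
      simp only
      rw [div_eq_mul_inv, ← Real.rpow_neg (hK2.le.trans hllq)]
      apply mul_le_mul_of_nonneg_left _ (mul_nonneg (by (clear * - hq3; positivity)) (hψ q))
      exact Real.rpow_le_rpow_of_nonpos hK2 hllq (by (clear * - hε; linarith))
    refine h2.trans ?_
    rw [← sum_mul]
    have hK0 : 0 < K := by linarith only [hK4]
    calc _ ≤ K ^ (ε / 2) * (K / 2) ^ (-ε) :=
          mul_le_mul_of_nonneg_right h1 (by positivity)
      _ = c * x ^ i := by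
          rw [Real.div_rpow hK0.le (by norm_num), Real.rpow_neg (by norm_num : (0:ℝ) ≤ 2), div_inv_eq_mul,
            ← mul_assoc, ← Real.rpow_add hK0]
          have e1 : K ^ (ε / 2 + -ε) = x ^ i := by
            rw [hK, hx, ← Real.rpow_natCast]
            push_cast
            rw [← Real.rpow_natCast, ← Real.rpow_mul (by norm_num),
              ← Real.rpow_mul (by norm_num)]
            congr 1
            ring
          rw [e1, hc]; ring
  have hind : ∀ k : ℕ, ∑ q ∈ range (2 ^ 2 ^ (2 ^ (i₀ + k))), g' q ≤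
      ∑ q ∈ range (2 ^ 2 ^ (2 ^ i₀)), g' q + c * ∑ i ∈ range (i₀ + k), x ^ i := by
    intro k
    induction k with
    | zero =>
      have : 0 ≤ c * ∑ i ∈ range (i₀ + 0), x ^ i := by (clear * -; positivity)
      rw [add_zero] at this ⊢
      linarith only [this]
    | succ k ih =>
      have h1 : 2 ^ 2 ^ (2 ^ (i₀ + k)) ≤ 2 ^ 2 ^ (2 ^ (i₀ + (k + 1))) :=
        Nat.pow_le_pow_right (by norm_num) (Nat.pow_le_pow_right (by norm_num)
          (Nat.pow_le_pow_right (by norm_num) (by (clear * -; omega))))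
      rw [← sum_range_add_sum_Ico _ h1]
      have h2 := hblock (i₀ + k) (by omega)
      rw [← add_assoc, sum_range_succ, mul_add]
      rw [← add_assoc] at h1
      linarith only [ih, h2]
  apply summable_of_sum_range_le hg'0 (c := ∑ q ∈ range (2 ^ 2 ^ (2 ^ i₀)), g' q + c * (1 / (1 - x)))
  intro n
  have h1 : n ≤ 2 ^ 2 ^ (2 ^ (i₀ + n)) := by
    calc n ≤ i₀ + n := by omega
      _ ≤ 2 ^ (i₀ + n) := Nat.lt_two_pow_self.le
      _ ≤ 2 ^ 2 ^ (i₀ + n) := Nat.lt_two_pow_self.le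
      _ ≤ 2 ^ 2 ^ 2 ^ (i₀ + n) := Nat.lt_two_pow_self.le
  calc ∑ i ∈ range n, g' i ≤ ∑ q ∈ range (2 ^ 2 ^ (2 ^ (i₀ + n))), g' q :=
        sum_le_sum_of_subset_of_nonneg (range_subset_range.2 h1) fun i _ _ => hg'0 i
    _ ≤ _ := hind n
    _ ≤ _ := by
        have h2 : ∑ i ∈ range (i₀ + n), x ^ i ≤ 1 / (1 - x) := by
          rw [le_div_iff₀ (by linarith only [hx1]), geom_sum_mul_neg]
          have : 0 ≤ x ^ (i₀ + n) := by positivity
          linarith only [this]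
        have := mul_le_mul_of_nonneg_left h2 hc0.le
        linarith only [this]


/-- Class II, with `ψ ≤ 1/2` and `ε ≤ 1`. -/
theorem classII_aux (γ : ℝ) (ψ : ℕ → ℝ) (hψ : ∀ q, 0 ≤ ψ q) (hψ1 : ∀ q, ψ q ≤ 1 / 2) (ε : ℝ)
    (hε : 0 < ε) (hε1 : ε ≤ 1)
    (hbig : ∀ᶠ q : ℕ in atTop, ψ q = 0 ∨ Real.exp (-(Real.log (Real.log q)) ^ 3) ≤ ψ q)
    (hdiv : ¬ Summable (fun q : ℕ => (q.totient : ℝ) / q * ψ q / (Real.log (Real.log q)) ^ ε)) :
    volume (W γ ψ)ᶜ = 0 := by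
  classical
  obtain ⟨C, hC, C₅, hC₅, J₀, hJ₀2, hmom⟩ := second_moment_II (ε := ε / 2) (by positivity)
    (by (clear * - hε1; linarith))
  obtain ⟨c, hc, Q₀, hlow⟩ := coprime_lower
  obtain ⟨Q₁, hQ₁⟩ := eventually_atTop.1 hbig
  apply full_of_moment γ ψ C c hC.le hc
  intro N
  -- choice of the block
  obtain ⟨J₀', hJ₀'⟩ := exists_nat_ge J₀
  set j₀ : ℕ := max (max (max J₀' 8) (max Q₀ Q₁)) (max N ((N + 1) ^ 10)) with hj₀
  obtain ⟨J, hJ, hmass⟩ := heavy_blocks2 hψ hε hdiv j₀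
  have hJJ₀ : J₀ ≤ (J : ℝ) := by
    refine hJ₀'.trans ?_
    exact_mod_cast ((le_max_left _ _).trans ((le_max_left _ _).trans ((le_max_left _ _).trans hJ)))
  have hJ8 : 8 ≤ J :=
    (le_max_right _ _).trans ((le_max_left _ _).trans ((le_max_left _ _).trans hJ))
  have hJQ₀ : Q₀ ≤ J :=
    (le_max_left _ _).trans ((le_max_right _ _).trans ((le_max_left _ _).trans hJ))
  have hJQ₁ : Q₁ ≤ J :=
    (le_max_right _ _).trans ((le_max_right _ _).trans ((le_max_left _ _).trans hJ))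
  have hJN : N ≤ J := (le_max_left _ _).trans ((le_max_right _ _).trans hJ)
  have hJN10 : (N + 1) ^ 10 ≤ J := (le_max_right _ _).trans ((le_max_right _ _).trans hJ)
  obtain ⟨hs₁, hmom⟩ := hmom (J : ℝ) hJJ₀
  set s₁ : ℝ := (J : ℝ) ^ (-C₅) with hs₁def
  have hJle : J ≤ 2 ^ 2 ^ J := (Nat.lt_two_pow_self.trans Nat.lt_two_pow_self).le
  set S : Finset ℕ := (Ico (2 ^ 2 ^ J) (2 ^ 2 ^ (2 * J))).filter (fun q => ψ q ≠ 0) with hS
  have hmemS : ∀ q ∈ S, 2 ^ 2 ^ J ≤ q ∧ q < 2 ^ 2 ^ (2 * J) ∧ 0 < ψ q := by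
    intro q hq
    rw [hS, mem_filter, mem_Ico] at hq
    exact ⟨hq.1.1, hq.1.2, lt_of_le_of_ne (hψ q) (Ne.symm hq.2)⟩
  have hqpos : ∀ q ∈ S, 0 < q := fun q hq => lt_of_lt_of_le (by positivity) (hmemS q hq).1
  have hloglog : ∀ q ∈ S, Real.log q ≤ Real.exp (2 * (J : ℝ)) := by
    intro q hq
    have hq0 : (0 : ℝ) < q := by exact_mod_cast hqpos q hq
    have h1 : (q : ℝ) ≤ ((2 ^ 2 ^ (2 * J) : ℕ) : ℝ) := by exact_mod_cast (hmemS q hq).2.1.le
    have h2 := Real.log_le_log hq0 h1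
    push_cast at h2
    rw [Real.log_pow] at h2
    push_cast at h2
    have h3 : Real.log 2 ≤ 1 := by linarith only [Real.log_two_lt_d9]
    have h4 : (2 : ℝ) ≤ Real.exp 1 := by linarith only [Real.exp_one_gt_d9]
    calc Real.log q ≤ (2 : ℝ) ^ (2 * J) * Real.log 2 := h2
      _ ≤ (2 : ℝ) ^ (2 * J) * 1 := mul_le_mul_of_nonneg_left h3 (by positivity)
      _ ≤ (Real.exp 1) ^ (2 * J) := by
          rw [mul_one]
          exact pow_le_pow_left₀ (by norm_num) h4 _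
      _ = Real.exp (2 * (J : ℝ)) := by
          rw [← Real.exp_nat_mul]
          push_cast
          ring_nf
  have hψlow : ∀ q ∈ S, Real.exp (-(J : ℝ) ^ 4) ≤ ψ q := by
    intro q hq
    have hqQ₁ : Q₁ ≤ q := hJQ₁.trans (hJle.trans (hmemS q hq).1)
    rcases hQ₁ q hqQ₁ with h | h
    · exact absurd h (hmemS q hq).2.2.ne'
    · refine le_trans (Real.exp_le_exp.2 (neg_le_neg ?_)) h
      have hq0 : (0 : ℝ) < q := by exact_mod_cast hqpos q hq
      have hq3 : (3 : ℝ) ≤ q := by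
        have : 3 ≤ 2 ^ 2 ^ J := le_trans (by omega) hJle
        exact_mod_cast this.trans (hmemS q hq).1
      have hlq : 1 ≤ Real.log q := by
        rw [Real.le_log_iff_exp_le hq0]
        linarith only [hq3, Real.exp_one_lt_d9]
      have h1 : Real.log (Real.log q) ≤ 2 * (J : ℝ) := by
        rw [Real.log_le_iff_le_exp (by linarith only [hlq])]
        exact hloglog q hq
      have h2 : 0 ≤ Real.log (Real.log q) := Real.log_nonneg hlq
      have h3 : (8 : ℝ) ≤ J := by exact_mod_cast hJ8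
      calc (Real.log (Real.log q)) ^ 3 ≤ (2 * (J : ℝ)) ^ 3 := pow_le_pow_left₀ h2 h1 3
        _ = 8 * (J : ℝ) ^ 3 := by ring
        _ ≤ J * (J : ℝ) ^ 3 := mul_le_mul_of_nonneg_right h3 (by (clear * - hJ8; positivity))
        _ = (J : ℝ) ^ 4 := by ring
  have hsumeq : ∑ q ∈ S, muq ψ q =
      ∑ q ∈ Ico (2 ^ 2 ^ J) (2 ^ 2 ^ (2 * J)), (q.totient : ℝ) / q * ψ q := by
    rw [hS, sum_filter]
    refine sum_congr rfl fun q _ => ?_
    unfold muq
    split_ifs with h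
    · rfl
    · rw [not_not] at h
      rw [h, mul_zero]
  have hmass' : (J : ℝ) ^ (ε / 2) ≤ ∑ q ∈ S, muq ψ q := by rw [hsumeq]; exact hmass
  have hM := hmom γ ψ S hψ (fun q hq => ⟨hqpos q hq, hloglog q hq, hψlow q hq, hψ1 q⟩) hmass'
  set Bf : ℕ → ℕ := fun q => Bsel γ s₁ (min (ψ q) s₁) with hBf
  have hs₁0 : 0 < s₁ := by
    have : (0 : ℝ) < J := by exact_mod_cast (by omega : 0 < J)
    positivity
  refine ⟨S, fun q => cB q (Bf q), fun q al => Int.gcd (al * Bf q + Anum γ (Bf q)) q = 1,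
    fun q hq => ⟨hJN.trans (hJle.trans (hmemS q hq).1), (hmemS q hq).2.2, hψ1 q⟩,
    fun q _ => (bm_cB_mem _ _).1, ?_, ?_, ?_⟩
  · have : (0 : ℝ) < (J : ℝ) ^ (ε / 2) := by
      have : (0 : ℝ) < J := by exact_mod_cast (by omega : 0 < J)
      (clear * - hJ8; positivity)
    exact this.trans_le hmass'
  · -- local lower bound
    intro q hq m n hmn
    have hq0 : (0 : ℝ) < q := by exact_mod_cast hqpos q hq
    have hnm0 : 0 ≤ n - m := by
      have h1 : (0 : ℝ) ≤ (n : ℝ) - m := le_trans (by (clear * - hq0; positivity)) hmn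
      exact_mod_cast h1
    obtain ⟨k, hk⟩ := Int.eq_ofNat_of_zero_le hnm0
    have hkR : (n : ℝ) - m = k := by exact_mod_cast hk
    have hq10 : ((N : ℝ) + 1) ≤ (q : ℝ) ^ (1 / 10 : ℝ) := by
      have h1 : (N + 1) ^ 10 ≤ q := hJN10.trans (hJle.trans (hmemS q hq).1)
      have h2 : ((N : ℝ) + 1) ^ 10 ≤ q := by exact_mod_cast h1
      have h3 := Real.rpow_le_rpow (by (clear * -; positivity)) h2 (show (0 : ℝ) ≤ 1 / 10 by norm_num)
      rw [← Real.rpow_natCast, ← Real.rpow_mul (by (clear * -; positivity))] at h3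
      norm_num at h3 ⊢
      exact h3
    have hk9 : (q : ℝ) ^ (9 / 10 : ℝ) ≤ (k : ℝ) := by
      rw [← hkR]
      refine le_trans ?_ hmn
      rw [le_div_iff₀ (by (clear * -; positivity))]
      calc (q : ℝ) ^ (9 / 10 : ℝ) * ((N : ℝ) + 1) ≤
          (q : ℝ) ^ (9 / 10 : ℝ) * (q : ℝ) ^ (1 / 10 : ℝ) :=
            mul_le_mul_of_nonneg_left hq10 (by (clear * - hq0; positivity))
        _ = q := by rw [← Real.rpow_add hq0]; norm_num
    have h1 := hlow q (hJQ₀.trans (hJle.trans (hmemS q hq).1)) (Bf q) (Anum γ (Bf q))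
      (Bsel_pos _ _ _) (Bsel_coprime hs₁) (m + 1) k hk9
    have hset : Finset.Ico (m + 1) (m + 1 + (k : ℤ)) = Finset.Ioc m n := by
      ext x
      rw [mem_Ico, mem_Ioc]
      have : n = m + k := by linarith only [hk]
      omega
    rw [hset] at h1
    have h2 := mul_le_mul_of_nonneg_left h1 (bm_cB_mem q (Bf q)).1
    refine le_trans (le_of_eq ?_) (h2.trans (le_of_eq ?_))
    · rw [hkR, bm_totient q (hqpos q hq), ← prod_filter_mul_prod_filter_not q.primeFactors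
        (fun p => p ∣ Bf q)]
      unfold cB
      ring
    · refine congrArg (fun z : ℕ => cB q (Bf q) * (z : ℝ)) (congrArg Finset.card ?_)
      ext x
      simp only [mem_filter]
  · -- second moment
    refine le_trans (sum_le_sum fun q _ => sum_le_sum fun r _ => ?_) hM
    have h1 : 0 ≤ cB q (Bf q) * cB r (Bf r) := mul_nonneg (bm_cB_mem _ _).1 (bm_cB_mem _ _).1
    apply mul_le_mul_of_nonneg_left _ h1
    apply measureReal_mono
    · apply Set.inter_subset_inter_right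
      exact Set.Ioc_subset_Icc_self
    · apply ne_top_of_le_ne_top _ (measure_mono Set.inter_subset_right)
      rw [Real.volume_Icc]
      exact ENNReal.ofReal_ne_top

/-- Class II: `ψ q = 0` or `ψ q ≥ exp (-(log log q)^3)`. -/
theorem classII (γ : ℝ) (ψ : ℕ → ℝ) (hψ : ∀ q, 0 ≤ ψ q) (ε : ℝ) (hε : 0 < ε)
    (hbig : ∀ᶠ q : ℕ in atTop, ψ q = 0 ∨ Real.exp (-(Real.log (Real.log q)) ^ 3) ≤ ψ q)
    (hdiv : ¬ Summable (fun q : ℕ => (q.totient : ℝ) / q * ψ q / (Real.log (Real.log q)) ^ ε)) :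
    volume (W γ ψ)ᶜ = 0 := by
  by_cases hinf : {q : ℕ | 1 / 2 < ψ q}.Infinite
  · -- trivial case
    have : W γ ψ = Set.univ := by
      ext x
      simp only [W, Set.mem_ofPred_eq, Set.mem_univ, iff_true]
      have h1 : ({q : ℕ | 1 / 2 < ψ q} \ {0}).Infinite := hinf.sdiff (Set.finite_singleton 0)
      refine h1.mono ?_
      intro q hq
      refine ⟨Nat.pos_of_ne_zero hq.2, ?_⟩
      refine lt_of_le_of_lt ?_ hq.1
      exact abs_sub_round _
    rw [this, Set.compl_univ, measure_empty]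
  · rw [Set.not_infinite] at hinf
    set ψ' : ℕ → ℝ := fun q => min (ψ q) (1 / 2) with hψ'
    set ε' : ℝ := min ε 1 with hε'
    have hψ'0 : ∀ q, 0 ≤ ψ' q := fun q => le_min (hψ q) (by norm_num)
    have hfin : ({q : ℕ | 1 / 2 < ψ q} ∪ {q | q < 16}).Finite := hinf.union (Set.finite_lt_nat 16)
    have h1 : volume (W γ ψ')ᶜ = 0 := by
      apply classII_aux γ ψ' hψ'0 (fun q => min_le_right _ _) ε' (lt_min hε one_pos)
        (min_le_right _ _)
      · rw [← Nat.cofinite_eq_atTop] at hbig ⊢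
        filter_upwards [hbig, hfin.compl_mem_cofinite] with q hq hq2
        simp only [Set.mem_compl_iff, Set.mem_union, Set.mem_ofPred_eq, not_or, not_lt] at hq2
        have h2 : ψ' q = ψ q := min_eq_left hq2.1
        rw [h2]
        exact hq
      · intro hsum
        apply hdiv
        -- compare the two series outside a finite set
        refine Summable.of_norm_bounded_eventually hsum ?_
        filter_upwards [hfin.compl_mem_cofinite] with q hq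
        simp only [Set.mem_compl_iff, Set.mem_union, Set.mem_ofPred_eq, not_or, not_lt] at hq
        have hq0 : (0 : ℝ) < q := by exact_mod_cast (by omega : 0 < q)
        have hlog : Real.exp 1 ≤ Real.log q := by
          have h3 : (16 : ℝ) ≤ q := by exact_mod_cast hq.2
          have h4 : Real.log 16 ≤ Real.log q := Real.log_le_log (by norm_num) h3
          have h5 : Real.log 16 = 4 * Real.log 2 := by
            rw [show (16 : ℝ) = 2 ^ 4 by norm_num, Real.log_pow]; norm_num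
          (clear * - h4 h5; linarith [Real.exp_one_lt_d9, Real.log_two_gt_d9])
        have hll : 1 ≤ Real.log (Real.log q) := by
          rw [Real.le_log_iff_exp_le ((Real.exp_pos 1).trans_le hlog)]
          exact hlog
        have h2 : ψ' q = ψ q := min_eq_left hq.1
        have h3 : 0 ≤ (q.totient : ℝ) / q * ψ q := mul_nonneg (by (clear * - hq0; positivity)) (hψ q)
        rw [h2, Real.norm_eq_abs, abs_of_nonneg (div_nonneg h3 (by positivity))]
        apply div_le_div_of_nonneg_left h3 (by (clear * - hll; positivity))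
        exact Real.rpow_le_rpow_of_exponent_le hll (min_le_left _ _)
    refine measure_mono_null ?_ h1
    apply Set.compl_subset_compl.2
    intro x hx
    refine Set.Infinite.mono ?_ hx
    intro q hq
    exact ⟨hq.1, lt_of_lt_of_le hq.2 (min_le_left _ _)⟩

end Vale.P028
end

section

/-!
# Every real shift: class I without loss, class II with loss `(log log q)^ε`
-/

namespace Vale.P028

open MeasureTheory Filter

theorem W_mono {γ : ℝ} {ψ ψ' : ℕ → ℝ} (h : ∀ q, ψ q ≤ ψ' q) : W γ ψ ⊆ W γ ψ' := by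
  intro x hx
  refine Set.Infinite.mono ?_ hx
  rintro q ⟨h1, h2⟩
  exact ⟨h1, h2.trans_le (h q)⟩

theorem full_of_le {γ : ℝ} {ψ ψ' : ℕ → ℝ} (h : ∀ q, ψ q ≤ ψ' q) (h0 : volume (W γ ψ)ᶜ = 0) :
    volume (W γ ψ')ᶜ = 0 :=
  measure_mono_null (Set.compl_subset_compl.mpr (W_mono h)) h0

theorem eventually_loglog (c : ℝ) : ∀ᶠ q : ℕ in atTop, c ≤ Real.log (Real.log q) := by
  have h : Tendsto (fun q : ℕ => Real.log (Real.log q)) atTop atTop :=
    Real.tendsto_log_atTop.comp (Real.tendsto_log_atTop.comp tendsto_natCast_atTop_atTop)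
  exact h.eventually_ge_atTop c

open Classical in
/-- the combined statement for `ε ≤ 1` -/
theorem combined_aux (γ : ℝ) (ψ : ℕ → ℝ) (hψ : ∀ q, 0 ≤ ψ q) (ε : ℝ) (hε : 0 < ε) (hε1 : ε ≤ 1)
    (hdiv : ¬ Summable (fun q : ℕ => ((q.totient : ℝ) / q) * ψ q /
      (if ψ q ≤ Real.exp (-(Real.log (Real.log q)) ^ (1 + ε)) then 1
        else (Real.log (Real.log q)) ^ ε))) :
    volume (W γ ψ)ᶜ = 0 := by
  set E : ℕ → ℝ := fun q => Real.exp (-(Real.log (Real.log q)) ^ (1 + ε)) with hE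
  set ψ₁ : ℕ → ℝ := fun q => if ψ q ≤ E q then ψ q else 0 with hψ₁
  set ψ₂ : ℕ → ℝ := fun q => if ψ q ≤ E q then 0 else ψ q with hψ₂
  have h1 : ∀ q, 0 ≤ ψ₁ q := by
    intro q
    simp only [hψ₁]
    split_ifs
    · exact hψ q
    · exact le_rfl
  have h2 : ∀ q, 0 ≤ ψ₂ q := by
    intro q
    simp only [hψ₂]
    split_ifs
    · exact le_rfl
    · exact hψ q
  have h1' : ∀ q, ψ₁ q ≤ ψ q := by
    intro q
    simp only [hψ₁]
    split_ifs
    · exact le_rfl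
    · exact hψ q
  have h2' : ∀ q, ψ₂ q ≤ ψ q := by
    intro q
    simp only [hψ₂]
    split_ifs
    · exact hψ q
    · exact le_rfl
  by_cases hs1 : Summable (fun q : ℕ => ((q.totient : ℝ) / q) * ψ₁ q)
  · have hs2 : ¬ Summable (fun q : ℕ => (q.totient : ℝ) / q * ψ₂ q /
        (Real.log (Real.log q)) ^ ε) := by
      intro hs2
      apply hdiv
      refine (hs1.add hs2).congr fun q => ?_
      simp only [hψ₁, hψ₂, hE]
      split_ifs
      · simp
      · simp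
    refine full_of_le h2' (classII γ ψ₂ h2 ε hε ?_ hs2)
    filter_upwards [eventually_loglog 1] with q hq
    simp only [hψ₂, hE]
    split_ifs with h
    · exact Or.inl rfl
    · right
      push Not at h
      refine le_trans (Real.exp_le_exp.mpr (neg_le_neg ?_)) h.le
      calc Real.log (Real.log q) ^ (1 + ε) ≤ Real.log (Real.log q) ^ (3 : ℝ) :=
            Real.rpow_le_rpow_of_exponent_le hq (by linarith)
        _ = Real.log (Real.log q) ^ 3 := by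
            rw [← Real.rpow_natCast]
            norm_num
  · refine full_of_le h1' (theoremK γ ψ₁ h1 ε hε (Eventually.of_forall fun q => ?_) hs1)
    simp only [hψ₁, hE]
    split_ifs with h
    · exact h
    · exact (Real.exp_pos _).le

open Classical in
/-- the combined statement -/
theorem combined (γ : ℝ) (ψ : ℕ → ℝ) (hψ : ∀ q, 0 ≤ ψ q) (ε : ℝ) (hε : 0 < ε)
    (hdiv : ¬ Summable (fun q : ℕ => ((q.totient : ℝ) / q) * ψ q /
      (if ψ q ≤ Real.exp (-(Real.log (Real.log q)) ^ (1 + ε)) then 1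
        else (Real.log (Real.log q)) ^ ε))) :
    volume (W γ ψ)ᶜ = 0 := by
  obtain ⟨ε', hε'⟩ : ∃ ε', ε' = min ε 1 := ⟨_, rfl⟩
  have h0 : 0 < ε' := by rw [hε']; exact lt_min hε one_pos
  have h1 : ε' ≤ 1 := by rw [hε']; exact min_le_right _ _
  have h2 : ε' ≤ ε := by rw [hε']; exact min_le_left _ _
  apply combined_aux γ ψ hψ ε' h0 h1
  obtain ⟨N, hN⟩ := eventually_atTop.mp (eventually_loglog 1)
  intro hs
  apply hdiv
  rw [← summable_nat_add_iff N] at hs ⊢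
  refine Summable.of_nonneg_of_le (fun q => ?_) (fun q => ?_) hs
  · have hl := hN (q + N) (Nat.le_add_left _ _)
    apply div_nonneg (mul_nonneg (by positivity) (hψ _))
    split_ifs
    · exact zero_le_one
    · exact Real.rpow_nonneg (by linarith) _
  · have hl := hN (q + N) (Nat.le_add_left _ _)
    set l := Real.log (Real.log ((q + N : ℕ) : ℝ)) with hldef
    have hl0 : 0 < l := by linarith
    have hA : 0 ≤ (((q + N).totient : ℝ) / ((q + N : ℕ) : ℝ)) * ψ (q + N) :=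
      mul_nonneg (by positivity) (hψ _)
    have hle : l ^ ε' ≤ l ^ ε := Real.rpow_le_rpow_of_exponent_le hl h2
    have hle1 : 1 ≤ l ^ ε' := Real.one_le_rpow hl h0.le
    have hmono : Real.exp (-l ^ (1 + ε)) ≤ Real.exp (-l ^ (1 + ε')) :=
      Real.exp_le_exp.mpr (neg_le_neg (Real.rpow_le_rpow_of_exponent_le hl (by linarith)))
    have hden : (if ψ (q + N) ≤ Real.exp (-l ^ (1 + ε')) then (1 : ℝ) else l ^ ε') ≤
        (if ψ (q + N) ≤ Real.exp (-l ^ (1 + ε)) then 1 else l ^ ε) := by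
      by_cases h3 : ψ (q + N) ≤ Real.exp (-l ^ (1 + ε))
      · rw [if_pos (h3.trans hmono), if_pos h3]
      · rw [if_neg h3]
        split_ifs
        · exact hle1.trans hle
        · exact hle
    have hpos : 0 < (if ψ (q + N) ≤ Real.exp (-l ^ (1 + ε')) then (1 : ℝ) else l ^ ε') := by
      split_ifs
      · exact one_pos
      · linarith
    exact div_le_div_of_nonneg_left hA hpos hden

/-- the version with loss `(log log q) ^ ε` -/
theorem allShifts_loglog (γ : ℝ) (ψ : ℕ → ℝ) (hψ : ∀ q, 0 ≤ ψ q) (ε : ℝ) (hε : 0 < ε)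
    (hdiv : ¬ Summable (fun q : ℕ => ((q.totient : ℝ) / q) * ψ q /
      (Real.log (Real.log q)) ^ ε)) : volume (W γ ψ)ᶜ = 0 := by
  classical
  apply combined γ ψ hψ ε hε
  obtain ⟨N, hN⟩ := eventually_atTop.mp (eventually_loglog 1)
  intro hs
  apply hdiv
  rw [← summable_nat_add_iff N] at hs ⊢
  refine Summable.of_nonneg_of_le (fun q => ?_) (fun q => ?_) hs
  · have hl := hN (q + N) (Nat.le_add_left _ _)
    exact div_nonneg (mul_nonneg (by positivity) (hψ _)) (Real.rpow_nonneg (by linarith) _)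
  · have hl := hN (q + N) (Nat.le_add_left _ _)
    set l := Real.log (Real.log ((q + N : ℕ) : ℝ)) with hldef
    have hA : 0 ≤ (((q + N).totient : ℝ) / ((q + N : ℕ) : ℝ)) * ψ (q + N) :=
      mul_nonneg (by positivity) (hψ _)
    have hle1 : 1 ≤ l ^ ε := Real.one_le_rpow hl hε.le
    apply div_le_div_of_nonneg_left hA
    · split_ifs
      · exact one_pos
      · linarith
    · split_ifs
      · exact hle1
      · exact le_rfl

end Vale.P028
end

section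

/-!
# The second moment for separated arcs, from the three bounds (small sum, denominators, pairs)
-/

namespace Vale.P028

open Finset MeasureTheory Filter

theorem n16_KD_nonneg (B B' u v : ℕ) : 0 ≤ KD B B' u v := by
  unfold KD
  split_ifs
  · refine mul_nonneg (mul_nonneg (GG_nonneg _) (GG_nonneg _)) (mul_nonneg ?_ ?_)
    · positivity
    · apply Real.rpow_nonneg
      exact le_min zero_le_one (by positivity)
  · exact le_rfl

theorem n16_gap {γ x y : ℝ} (h : Bq γ x < Bq γ y) :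
    2 * Bq γ x ≤ Bq γ y ∧ 3 / 16 * (Bq γ x : ℝ) ^ 4 ≤ Bq γ y := by
  refine ⟨kb_values_double h, ?_⟩
  have hpos : 0 < Bq γ x := Bsel_pos _ _ _
  have hy : Bad γ (1 / 1024) (Bq γ y) := by
    rcases Bsel_spec γ (1 / 1024) (min y (1 / 1024)) with h1 | h1
    · exfalso
      have : Bq γ y = 1 := h1
      omega
    · exact h1.1
  rcases Bsel_spec γ (1 / 1024) (min x (1 / 1024)) with h1 | h1
  · have h2 : Bq γ x = 1 := h1
    have h3 : (1 : ℝ) ≤ Bq γ y := by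
      have : 1 ≤ Bq γ y := by omega
      exact_mod_cast this
    rw [h2]
    norm_num
    linarith only [h3]
  · have h2 : Bad γ (1 / 1024) (Bq γ x) := h1.1
    have h3 := Bad.gap (by norm_num) h2 hy h
    have h4 := le_max_left ((Bq γ x : ℝ) ^ 4) (1 / (1 / 1024))
    linarith only [h3, h4]

open Classical in
/-- the moment for a function vanishing outside of `S` -/
theorem n16_aux {c₀ : ℝ}
    (hsmall : ∃ C > 0, ∀ (γ : ℝ) (N : ℕ) (ψ f : ℕ → ℝ),
      (∀ q, 0 ≤ ψ q) → (∀ q, 0 ≤ f q ∧ f q ≤ ψ q * (q.totient / q)) →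
        (∀ q r : ℕ, 0 < q → q < r → f q ≠ 0 → f r ≠ 0 → ArcSep c₀ ψ q r) →
        wsum (SmallRel γ ψ) N f f
          (fun q r => GG (cofac q r * cofac r q) / DD q r (ψ q) (ψ r)) ≤
          C * ((∑ q ∈ Icc 1 N, f q) + (∑ q ∈ Icc 1 N, f q) ^ 2))
    (hdiff : ∃ C > 0, ∀ (N : ℕ) (f : ℕ → ℝ) (b : ℕ → ℕ), (∀ q, 0 ≤ f q) →
      (∀ q, 0 < b q) → (∀ q r, b q < b r → 2 * b q ≤ b r ∧ 3 / 16 * (b q : ℝ) ^ 4 ≤ b r) →
      ∑ q ∈ Icc 1 N, ∑ r ∈ Icc 1 N, Real.sqrt (f q * f r) *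
        KD (b q) (b r) (cofac q r) (cofac r q) ≤ C * ∑ q ∈ Icc 1 N, f q)
    (hpair : ∃ C > 0, ∀ (γ : ℝ) (ψ : ℕ → ℝ) (q r : ℕ), 0 < q → 0 < r → 0 < ψ q →
      0 < ψ r → ψ q ≤ 1 / 2 → ψ r ≤ 1 / 2 →
      wK γ (ψ q) q * wK γ (ψ r) r * volume.real (GK γ ψ q ∩ GK γ ψ r ∩ Set.Ioc 0 1) ≤
        C * ((q.totient : ℝ) / q * ψ q * ((r.totient : ℝ) / r * ψ r) *
            GT (max 2 (DD q r (ψ q) (ψ r))) (cofac q r * cofac r q)) +
        (if SmallRel γ ψ q r then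
          C * ((q.totient : ℝ) / q * ψ q * ((r.totient : ℝ) / r * ψ r) *
            GG (cofac q r * cofac r q) / DD q r (ψ q) (ψ r)) else 0) +
        128 * (Real.sqrt (((q.totient : ℝ) / q * ψ q) * ((r.totient : ℝ) / r * ψ r)) *
          resK q r) +
        16 * (Real.sqrt (((q.totient : ℝ) / q * ψ q) * ((r.totient : ℝ) / r * ψ r)) *
          KD (Bq γ (ψ q)) (Bq γ (ψ r)) (cofac q r) (cofac r q)) +
        16 * (Real.sqrt (((q.totient : ℝ) / q * ψ q) * ((r.totient : ℝ) / r * ψ r)) *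
          KD (Bq γ (ψ r)) (Bq γ (ψ q)) (cofac r q) (cofac q r))) :
    ∃ C > 0, ∀ (γ : ℝ) (ψ : ℕ → ℝ) (S : Finset ℕ) (N : ℕ), S ⊆ Icc 1 N →
      (∀ q, q ∉ S → ψ q = 0) → (∀ q ∈ S, 0 < ψ q ∧ ψ q ≤ 1 / 2) →
      (∀ q ∈ S, ∀ r ∈ S, q < r → ArcSep c₀ ψ q r) →
      ∑ q ∈ S, ∑ r ∈ S, wK γ (ψ q) q * wK γ (ψ r) r *
        volume.real (GK γ ψ q ∩ GK γ ψ r ∩ Set.Ioc 0 1) ≤
      C * ((∑ q ∈ Icc 1 N, (q.totient : ℝ) / q * ψ q) +
        (∑ q ∈ Icc 1 N, (q.totient : ℝ) / q * ψ q) ^ 2) := by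
  obtain ⟨C₀, hC₀, hpair⟩ := hpair
  obtain ⟨C₁, hC₁, hanat⟩ := anat_sum
  obtain ⟨C₂, hC₂, hsmall⟩ := hsmall
  obtain ⟨C₃, hC₃, hres⟩ := resid
  obtain ⟨C₄, hC₄, hdiff⟩ := hdiff
  refine ⟨C₀ * C₁ + C₀ * C₂ + 128 * C₃ + 32 * C₄,
    by (clear * - hC₀ hC₁ hC₂ hC₃ hC₄; positivity), ?_⟩
  intro γ ψ S N hSN hψ0 hS hsep
  have hψ : ∀ q, 0 ≤ ψ q := by
    intro q
    by_cases h : q ∈ S
    · exact (hS q h).1.le
    · rw [hψ0 q h]
  set f : ℕ → ℝ := fun q => (q.totient : ℝ) / q * ψ q with hf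
  have hf0 : ∀ q, 0 ≤ f q := fun q => mul_nonneg (by (clear * -; positivity)) (hψ q)
  have hfψ : ∀ q, 0 ≤ f q ∧ f q ≤ ψ q * (q.totient / q) :=
    fun q => ⟨hf0 q, le_of_eq (mul_comm _ _)⟩
  have hfS : ∀ q, f q ≠ 0 → q ∈ S := by
    intro q h
    by_contra hne
    apply h
    simp only [hf, hψ0 q hne, mul_zero]
  set F : ℝ := ∑ q ∈ Icc 1 N, f q with hF
  have hF0 : 0 ≤ F := sum_nonneg fun q _ => hf0 q
  have hpos : ∀ q ∈ S, 0 < q := by
    intro q hq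
    have := hSN hq
    rw [mem_Icc] at this
    omega
  -- pointwise bound, everything expressed by `f`
  have hpt : ∀ q ∈ S, ∀ r ∈ S, wK γ (ψ q) q * wK γ (ψ r) r *
        volume.real (GK γ ψ q ∩ GK γ ψ r ∩ Set.Ioc 0 1) ≤
      C₀ * (f q * f r * GT (max 2 (DD q r (ψ q) (ψ r))) (cofac q r * cofac r q)) +
      C₀ * (if SmallRel γ ψ q r then
        f q * f r * (GG (cofac q r * cofac r q) / DD q r (ψ q) (ψ r)) else 0) +
      128 * (Real.sqrt (f q * f r) * resK q r) +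
      16 * (Real.sqrt (f q * f r) *
        KD (Bq γ (ψ q)) (Bq γ (ψ r)) (cofac q r) (cofac r q)) +
      16 * (Real.sqrt (f r * f q) *
        KD (Bq γ (ψ r)) (Bq γ (ψ q)) (cofac r q) (cofac q r)) := by
    intro q hq r hr
    obtain ⟨hq3, hq4⟩ := hS q hq
    obtain ⟨hr3, hr4⟩ := hS r hr
    have h1 := hpair γ ψ q r (hpos q hq) (hpos r hr) hq3 hr3 hq4 hr4
    refine h1.trans ?_
    refine add_le_add (add_le_add (add_le_add (add_le_add le_rfl ?_) le_rfl) le_rfl) ?_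
    · split_ifs with h
      · apply le_of_eq
        simp only [hf]
        ring
      · simp
    · rw [mul_comm (f r) (f q)]
  -- the sums
  have hGT0 : ∀ (D : ℝ) (n : ℕ), 0 ≤ GT D n := by
    intro D n
    rw [GT_eq]
    exact inv_nonneg.mpr (pr_pos fun p hp =>
      Nat.prime_of_mem_primeFactors (mem_filter.mp hp).1).le
  have hDn : ∀ q r, 0 ≤ DD q r (ψ q) (ψ r) := by
    intro q r
    unfold DD
    exact div_nonneg (le_trans (mul_nonneg (Nat.cast_nonneg _) (hψ q)) (le_max_left _ _))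
      (Nat.cast_nonneg _)
  have hext : ∀ G : ℕ → ℕ → ℝ, (∀ q r, 0 ≤ G q r) →
      ∑ q ∈ S, ∑ r ∈ S, G q r ≤ ∑ q ∈ Icc 1 N, ∑ r ∈ Icc 1 N, G q r := by
    intro G hG
    calc ∑ q ∈ S, ∑ r ∈ S, G q r ≤ ∑ q ∈ S, ∑ r ∈ Icc 1 N, G q r :=
          sum_le_sum fun q _ => sum_le_sum_of_subset_of_nonneg hSN fun r _ _ => hG q r
      _ ≤ _ := sum_le_sum_of_subset_of_nonneg hSN fun q _ _ => sum_nonneg fun r _ => hG q r
  have hff : ∀ q r, 0 ≤ f q * f r := fun q r => mul_nonneg (hf0 q) (hf0 r)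
  have s1 : ∑ q ∈ S, ∑ r ∈ S,
      f q * f r * GT (max 2 (DD q r (ψ q) (ψ r))) (cofac q r * cofac r q) ≤
      C₁ * (F + F ^ 2) :=
    (hext _ fun q r => mul_nonneg (hff q r) (hGT0 _ _)).trans (hanat N ψ f hψ hfψ)
  have s2 : ∑ q ∈ S, ∑ r ∈ S,
      (if SmallRel γ ψ q r then
        f q * f r * (GG (cofac q r * cofac r q) / DD q r (ψ q) (ψ r)) else 0) ≤
      C₂ * (F + F ^ 2) := by
    refine (hext _ fun q r => ?_).trans (hsmall γ N ψ f hψ hfψ fun q r _ hqr hfq hfr => ?_)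
    · split_ifs
      · exact mul_nonneg (hff q r) (div_nonneg (GG_nonneg _) (hDn q r))
      · exact le_rfl
    · exact hsep q (hfS q hfq) r (hfS r hfr) hqr
  have s3 : ∑ q ∈ S, ∑ r ∈ S, Real.sqrt (f q * f r) * resK q r ≤ C₃ * F :=
    (hext _ fun q r => mul_nonneg (Real.sqrt_nonneg _) (resK_nonneg q r)).trans (hres N f hf0)
  have s4 : ∑ q ∈ S, ∑ r ∈ S, Real.sqrt (f q * f r) *
      KD (Bq γ (ψ q)) (Bq γ (ψ r)) (cofac q r) (cofac r q) ≤ C₄ * F :=
    (hext _ fun q r => mul_nonneg (Real.sqrt_nonneg _) (n16_KD_nonneg _ _ _ _)).trans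
      (hdiff N f (fun q => Bq γ (ψ q)) hf0 (fun q => Bsel_pos _ _ _) fun q r h => n16_gap h)
  have s5 : ∑ q ∈ S, ∑ r ∈ S, Real.sqrt (f r * f q) *
      KD (Bq γ (ψ r)) (Bq γ (ψ q)) (cofac r q) (cofac q r) ≤ C₄ * F := by
    rw [sum_comm]
    exact s4
  have hsum : ∑ q ∈ S, ∑ r ∈ S, wK γ (ψ q) q * wK γ (ψ r) r *
        volume.real (GK γ ψ q ∩ GK γ ψ r ∩ Set.Ioc 0 1) ≤
      C₀ * (C₁ * (F + F ^ 2)) + C₀ * (C₂ * (F + F ^ 2)) + 128 * (C₃ * F) +
        16 * (C₄ * F) + 16 * (C₄ * F) := by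
    refine (sum_le_sum fun q hq => sum_le_sum fun r hr => hpt q hq r hr).trans ?_
    simp_rw [sum_add_distrib, ← mul_sum]
    (clear * - s1 hC₀ s2 s3 s4 s5; gcongr)
  refine hsum.trans ?_
  have h6 : F ≤ F + F ^ 2 := by nlinarith only []
  have h7 : 128 * (C₃ * F) ≤ 128 * (C₃ * (F + F ^ 2)) := by
    (clear * - h6 hC₃; gcongr)
  have h9 : 16 * (C₄ * F) ≤ 16 * (C₄ * (F + F ^ 2)) := by
    (clear * - h6 hC₄; gcongr)
  have h8 : (C₀ * C₁ + C₀ * C₂ + 128 * C₃ + 32 * C₄) * (F + F ^ 2) =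
      C₀ * (C₁ * (F + F ^ 2)) + C₀ * (C₂ * (F + F ^ 2)) + 128 * (C₃ * (F + F ^ 2)) +
        16 * (C₄ * (F + F ^ 2)) + 16 * (C₄ * (F + F ^ 2)) := by ring
  rw [h8]
  linarith only [h7, h9]

/-- the second moment, from the three bounds -/
theorem n16_moment {c₀ : ℝ}
    (hsmall : ∃ C > 0, ∀ (γ : ℝ) (N : ℕ) (ψ f : ℕ → ℝ),
      (∀ q, 0 ≤ ψ q) → (∀ q, 0 ≤ f q ∧ f q ≤ ψ q * (q.totient / q)) →
        (∀ q r : ℕ, 0 < q → q < r → f q ≠ 0 → f r ≠ 0 → ArcSep c₀ ψ q r) →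
        wsum (SmallRel γ ψ) N f f
          (fun q r => GG (cofac q r * cofac r q) / DD q r (ψ q) (ψ r)) ≤
          C * ((∑ q ∈ Icc 1 N, f q) + (∑ q ∈ Icc 1 N, f q) ^ 2))
    (hdiff : ∃ C > 0, ∀ (N : ℕ) (f : ℕ → ℝ) (b : ℕ → ℕ), (∀ q, 0 ≤ f q) →
      (∀ q, 0 < b q) → (∀ q r, b q < b r → 2 * b q ≤ b r ∧ 3 / 16 * (b q : ℝ) ^ 4 ≤ b r) →
      ∑ q ∈ Icc 1 N, ∑ r ∈ Icc 1 N, Real.sqrt (f q * f r) *
        KD (b q) (b r) (cofac q r) (cofac r q) ≤ C * ∑ q ∈ Icc 1 N, f q)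
    (hpair : open Classical in ∃ C > 0, ∀ (γ : ℝ) (ψ : ℕ → ℝ) (q r : ℕ), 0 < q → 0 < r → 0 < ψ q →
      0 < ψ r → ψ q ≤ 1 / 2 → ψ r ≤ 1 / 2 →
      wK γ (ψ q) q * wK γ (ψ r) r * volume.real (GK γ ψ q ∩ GK γ ψ r ∩ Set.Ioc 0 1) ≤
        C * ((q.totient : ℝ) / q * ψ q * ((r.totient : ℝ) / r * ψ r) *
            GT (max 2 (DD q r (ψ q) (ψ r))) (cofac q r * cofac r q)) +
        (if SmallRel γ ψ q r then
          C * ((q.totient : ℝ) / q * ψ q * ((r.totient : ℝ) / r * ψ r) *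
            GG (cofac q r * cofac r q) / DD q r (ψ q) (ψ r)) else 0) +
        128 * (Real.sqrt (((q.totient : ℝ) / q * ψ q) * ((r.totient : ℝ) / r * ψ r)) *
          resK q r) +
        16 * (Real.sqrt (((q.totient : ℝ) / q * ψ q) * ((r.totient : ℝ) / r * ψ r)) *
          KD (Bq γ (ψ q)) (Bq γ (ψ r)) (cofac q r) (cofac r q)) +
        16 * (Real.sqrt (((q.totient : ℝ) / q * ψ q) * ((r.totient : ℝ) / r * ψ r)) *
          KD (Bq γ (ψ r)) (Bq γ (ψ q)) (cofac r q) (cofac q r))) :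
    ∃ C > 0, ∀ (γ : ℝ) (ψ : ℕ → ℝ) (S : Finset ℕ),
    (∀ q ∈ S, 0 < q ∧ 0 < ψ q ∧ ψ q ≤ 1 / 2) →
    (∀ q ∈ S, ∀ r ∈ S, q < r → ArcSep c₀ ψ q r) →
      ∑ q ∈ S, ∑ r ∈ S, wK γ (ψ q) q * wK γ (ψ r) r *
        volume.real (GK γ ψ q ∩ GK γ ψ r ∩ Set.Ioc 0 1) ≤
      C * ((∑ q ∈ S, (q.totient : ℝ) / q * ψ q) + (∑ q ∈ S, (q.totient : ℝ) / q * ψ q) ^ 2) := by
  classical
  obtain ⟨C, hC, h⟩ := n16_aux hsmall hdiff hpair
  refine ⟨C, hC, ?_⟩
  intro γ ψ S hS hsep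
  set ψ' : ℕ → ℝ := fun q => if q ∈ S then ψ q else 0 with hψ'
  have he : ∀ q ∈ S, ψ' q = ψ q := fun q hq => by simp only [hψ', if_pos hq]
  set N : ℕ := S.sup id with hN
  have hSN : S ⊆ Icc 1 N := by
    intro q hq
    rw [mem_Icc]
    exact ⟨(hS q hq).1, Finset.le_sup (f := id) hq⟩
  have h1 := h γ ψ' S N hSN (fun q hq => by simp only [hψ', if_neg hq])
    (fun q hq => by rw [he q hq]; exact (hS q hq).2)
    (fun q hq r hr hqr => by
      have := hsep q hq r hr hqr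
      unfold ArcSep at this ⊢
      rw [he q hq, he r hr]
      exact this)
  have h2 : ∑ q ∈ Icc 1 N, (q.totient : ℝ) / q * ψ' q = ∑ q ∈ S, (q.totient : ℝ) / q * ψ q := by
    rw [← sum_subset hSN]
    · exact sum_congr rfl fun q hq => by rw [he q hq]
    · intro q _ hq
      simp only [hψ', if_neg hq, mul_zero]
  rw [h2] at h1
  refine (le_of_eq ?_).trans h1
  refine sum_congr rfl fun q hq => sum_congr rfl fun r hr => ?_
  unfold GK
  rw [he q hq, he r hr]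

end Vale.P028
end

section

/-!
# Windows: arithmetic of the denominators
-/

namespace Vale.P028

open Finset MeasureTheory

/-! ### generalities -/

theorem n3_pow {s e : ℝ} (hs : 0 < s) (hs1 : s ≤ 1 / 1000) (he : 1 / 3 ≤ e) :
    s ^ e ≤ 1 / 10 := by
  have h1 : s ^ e ≤ s ^ (1 / 3 : ℝ) :=
    Real.rpow_le_rpow_of_exponent_ge hs (hs1.trans (by norm_num)) he
  have h2 : s ^ (1 / 3 : ℝ) ≤ (1 / 1000 : ℝ) ^ (1 / 3 : ℝ) :=
    Real.rpow_le_rpow hs.le hs1 (by norm_num)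
  have h3 : (1 / 1000 : ℝ) ^ (1 / 3 : ℝ) = 1 / 10 := by
    rw [show (1 / 1000 : ℝ) = (1 / 10 : ℝ) ^ (3 : ℝ) by norm_num, ← Real.rpow_mul (by norm_num)]
    norm_num
  rw [h3] at h2
  exact h1.trans h2

theorem n3_V {s V : ℝ} (h : NHyp (1 / 1000) s V) : 1 ≤ s * V := by
  obtain ⟨hs, hs1, hV, hL⟩ := h
  have h1 : 1 ≤ Real.log (1 / s) := by
    rw [Real.le_log_iff_exp_le (by positivity)]
    have h2 : Real.exp 1 < 3 := lt_trans Real.exp_one_lt_d9 (by norm_num)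
    have h3 : (1000 : ℝ) ≤ 1 / s := by
      rw [le_div_iff₀ hs]
      linarith only [hs1]
    linarith only [h2, h3]
  have h2 : Real.log (1 / s) ≤ Real.log V := by nlinarith only [h1, hL]
  have h3 : 1 / s ≤ V := (Real.log_le_log_iff (by positivity) hV).mp h2
  rw [div_le_iff₀ hs] at h3
  linarith only [h3]

theorem n3_V1 {s V : ℝ} (h : NHyp (1 / 1000) s V) : 1 ≤ V := by
  have h1 := n3_V h
  obtain ⟨hs, hs1, hV, hL⟩ := h
  nlinarith only [h1, hs, hs1, hV]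

theorem n3_round {x : ℝ} {z : ℤ} (h : |x - z| < 1 / 2) : round x = z := by
  rw [round_eq, Int.floor_eq_iff]
  rw [abs_lt] at h
  constructor <;> linarith only [h.1, h.2]

/-- cross differences of two approximations -/
theorem n3_cross {γ x y : ℝ} {B B' : ℕ} (h : distInt ((B : ℝ) * γ) ≤ x)
    (h' : distInt ((B' : ℝ) * γ) ≤ y) (hlt : (B' : ℝ) * x + B * y < 1) :
    round ((B : ℝ) * γ) * (B' : ℤ) = round ((B' : ℝ) * γ) * (B : ℤ) := by
  set k := round ((B : ℝ) * γ) with hk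
  set k' := round ((B' : ℝ) * γ) with hk'
  have h1 : |(B : ℝ) * γ - k| ≤ x := h
  have h2 : |(B' : ℝ) * γ - k'| ≤ y := h'
  have hB : (0 : ℝ) ≤ B := Nat.cast_nonneg _
  have hB' : (0 : ℝ) ≤ B' := Nat.cast_nonneg _
  have h3 : |((k * (B' : ℤ) - k' * (B : ℤ) : ℤ) : ℝ)| < 1 := by
    have e : ((k * (B' : ℤ) - k' * (B : ℤ) : ℤ) : ℝ) =
        (B : ℝ) * ((B' : ℝ) * γ - k') - (B' : ℝ) * ((B : ℝ) * γ - k) := by
      push_cast
      ring
    rw [e]
    calc |(B : ℝ) * ((B' : ℝ) * γ - k') - (B' : ℝ) * ((B : ℝ) * γ - k)|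
        ≤ |(B : ℝ) * ((B' : ℝ) * γ - k')| + |(B' : ℝ) * ((B : ℝ) * γ - k)| := abs_sub _ _
      _ = (B : ℝ) * |(B' : ℝ) * γ - k'| + (B' : ℝ) * |(B : ℝ) * γ - k| := by
          rw [abs_mul, abs_mul, abs_of_nonneg hB, abs_of_nonneg hB']
      _ ≤ (B : ℝ) * y + (B' : ℝ) * x := by gcongr
      _ < 1 := by linarith only [hlt]
  have h4 : |k * (B' : ℤ) - k' * (B : ℤ)| < 1 := by exact_mod_cast h3
  have h5 := Int.abs_lt_one_iff.mp h4
  linarith only [h5]

/-! ### reduction of a bad multiplier -/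

theorem bad_reduce : ∃ s₀ > 0, ∀ γ s V : ℝ, NHyp s₀ s V → ∀ a : ℕ, 0 < a →
    (a : ℝ) ≤ V * s ^ (-(3 / 16) : ℝ) → NBad γ s V a →
    ∃ B h : ℕ, 0 < h ∧ (h : ℝ) ≤ s ^ (-(1 / 16) : ℝ) ∧ B ∣ h * a ∧ NB γ s V B := by
  refine ⟨1 / 1000, by norm_num, ?_⟩
  intro γ s V hyp a ha haV hbad
  obtain ⟨hs, hs1, hV, hL⟩ := hyp
  obtain ⟨h, hh, hhs, hd⟩ := hbad
  set n : ℕ := h * a with hn
  have hn0 : 0 < n := Nat.mul_pos hh ha
  have hnR : (n : ℝ) = h * a := by rw [hn]; push_cast; ring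
  set k : ℤ := round ((n : ℝ) * γ) with hk
  set d : ℕ := Int.gcd k n with hdd
  have hd0 : 0 < d := Int.gcd_pos_of_ne_zero_right _ (by exact_mod_cast hn0.ne')
  have hdR : (1 : ℝ) ≤ d := by exact_mod_cast hd0
  have hdn : d ∣ n := by
    have := Int.gcd_dvd_right k n
    exact_mod_cast this
  have hdk : (d : ℤ) ∣ k := Int.gcd_dvd_left k n
  obtain ⟨B, hB⟩ := hdn
  obtain ⟨K, hK⟩ := hdk
  have hB0 : 0 < B := by
    rcases Nat.eq_zero_or_pos B with h0 | h0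
    · rw [h0, mul_zero] at hB
      omega
    · exact h0
  have hdist : |(n : ℝ) * γ - k| < a * tb s V := by
    have h1 := hd
    rw [← hnR] at h1
    exact h1
  have hnB : (n : ℝ) = d * B := by exact_mod_cast congrArg (fun z : ℕ => (z : ℝ)) hB
  have hkK : (k : ℝ) = d * K := by exact_mod_cast congrArg (fun z : ℤ => (z : ℝ)) hK
  have h2 : (d : ℝ) * |(B : ℝ) * γ - K| < a * tb s V := by
    have e : (n : ℝ) * γ - k = d * ((B : ℝ) * γ - K) := by rw [hnB, hkK]; ring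
    rw [e, abs_mul, abs_of_pos (by linarith only [hdR])] at hdist
    exact hdist
  have htb0 : 0 < tb s V := by unfold tb; positivity
  have htba : (a : ℝ) * tb s V ≤ 1 / 10 := by
    calc (a : ℝ) * tb s V ≤ (V * s ^ (-(3 / 16) : ℝ)) * (s ^ (27 / 32 : ℝ) / V) := by
          unfold tb
          gcongr
      _ = s ^ (-(3 / 16) : ℝ) * s ^ (27 / 32 : ℝ) := by
          field_simp
      _ = s ^ (21 / 32 : ℝ) := by
          rw [← Real.rpow_add hs]; norm_num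
      _ ≤ 1 / 10 := n3_pow hs hs1 (by norm_num)
  have h3 : |(B : ℝ) * γ - K| < 1 / 2 := by
    have h4 := abs_nonneg ((B : ℝ) * γ - K)
    nlinarith only [h2, htba, hdR, h4]
  have hround : round ((B : ℝ) * γ) = K := n3_round h3
  refine ⟨B, h, hh, hhs, ⟨d, by rw [← hn, hB, mul_comm]⟩, hB0, ?_, ?_⟩
  · rw [hround]
    have h4 : Int.gcd k n = d * Int.gcd K B := by
      conv_lhs => rw [hK, hB]
      push_cast
      rw [Int.gcd_mul_left, Int.natAbs_natCast]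
    have h5 : d * Int.gcd K B = d * 1 := by rw [← h4, mul_one]
    exact Nat.eq_of_mul_eq_mul_left hd0 h5
  · unfold distInt
    rw [hround]
    have h4 : (a : ℝ) ≤ n := by
      have h5 : (1 : ℝ) ≤ h := by exact_mod_cast hh
      rw [hnR]
      have h6 : (0 : ℝ) ≤ a := Nat.cast_nonneg _
      nlinarith only [h5, h6]
    have h5 : (d : ℝ) * |(B : ℝ) * γ - K| < d * (B * tb s V) := by
      calc (d : ℝ) * |(B : ℝ) * γ - K| < a * tb s V := h2
        _ ≤ n * tb s V := by gcongr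
        _ = d * (B * tb s V) := by rw [hnB]; ring
    exact lt_of_mul_lt_mul_left h5 (by linarith only [hdR])

/-! ### small denominators: the window is empty -/

theorem far_empty : ∃ s₀ > 0, ∀ γ s V : ℝ, NHyp s₀ s V → ∀ B : ℕ, NB γ s V B →
    (B : ℝ) ≤ s ^ (-(1 / 4) : ℝ) → ∀ u v : ℕ, ¬ NWin γ s V u v := by
  refine ⟨1 / 1000, by norm_num, ?_⟩
  intro γ s V hyp B hB hBs u v hwin
  have hsV := n3_V hyp
  have hV1 := n3_V1 hyp
  obtain ⟨hs, hs1, hV, hL⟩ := hyp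
  obtain ⟨hB0, hBg, hBd⟩ := hB
  obtain ⟨hw1, hw2, hw3, hw4, hw5⟩ := hwin
  have hBR : (1 : ℝ) ≤ B := by exact_mod_cast hB0
  have htb0 : 0 < tb s V := by unfold tb; positivity
  have hsp : ∀ e : ℝ, 0 < s ^ e := fun e => Real.rpow_pos_of_pos hs e
  -- the precision
  have htb1 : tb s V ≤ s ^ (27 / 32 : ℝ) * s := by
    unfold tb
    rw [div_le_iff₀ hV]
    have := hsp (27 / 32 : ℝ)
    nlinarith only [this, hsV]
  have h27 : s ^ (27 / 32 : ℝ) * s ^ (-(1 / 4) : ℝ) ≤ 1 / 10 := by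
    rw [← Real.rpow_add hs]
    exact n3_pow hs hs1 (by norm_num)
  have hBtb : (B : ℝ) * tb s V ≤ s / 10 := by
    calc (B : ℝ) * tb s V ≤ s ^ (-(1 / 4) : ℝ) * (s ^ (27 / 32 : ℝ) * s) := by
          gcongr
      _ = (s ^ (27 / 32 : ℝ) * s ^ (-(1 / 4) : ℝ)) * s := by ring
      _ ≤ 1 / 10 * s := by gcongr
      _ = s / 10 := by ring
  have h4sB : 4 * s * (B : ℝ) ≤ 4 / 10 := by
    calc 4 * s * (B : ℝ) ≤ 4 * s * s ^ (-(1 / 4) : ℝ) := by gcongr
      _ = 4 * (s ^ (1 : ℝ) * s ^ (-(1 / 4) : ℝ)) := by rw [Real.rpow_one]; ring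
      _ = 4 * s ^ (3 / 4 : ℝ) := by
          rw [← Real.rpow_add hs]; norm_num
      _ ≤ 4 * (1 / 10) := by
          have := n3_pow hs hs1 (e := 3 / 4) (by norm_num)
          linarith only [this]
      _ = 4 / 10 := by norm_num
  have hbadat : BadAt γ s B := by
    refine ⟨⟨hB0, ?_, ?_⟩, ?_⟩
    · linarith only [hBd, hBtb, hs]
    · intro h hh hhB
      by_contra hcon
      rw [not_lt] at hcon
      have hhR : (h : ℝ) ≤ B := by exact_mod_cast hhB.le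
      have hh0 : (0 : ℝ) ≤ h := Nat.cast_nonneg _
      have h1 : (B : ℝ) * (4 * s) + h * (s / 10) < 1 := by
        have h2 : (h : ℝ) * (s / 10) ≤ B * (s / 10) := by gcongr
        have h3 : (B : ℝ) * (4 * s) = 4 * s * B := by ring
        have h4 : (B : ℝ) * (s / 10) = (4 * s * B) / 40 := by ring
        linarith only [h2, h3, h4, h4sB]
      have h2 := n3_cross (γ := γ) (B := h) (B' := B) hcon (hBd.le.trans hBtb) h1
      have h3 : (B : ℤ) ∣ round ((B : ℝ) * γ) * (h : ℤ) := ⟨round ((h : ℝ) * γ), by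
        rw [← h2]; ring⟩
      have h4 : IsCoprime (B : ℤ) (round ((B : ℝ) * γ)) := by
        rw [isCoprime_comm]
        exact Int.isCoprime_iff_gcd_eq_one.mpr hBg
      have h5 : (B : ℤ) ∣ (h : ℤ) := h4.dvd_of_dvd_mul_left h3
      have h6 : B ∣ h := by exact_mod_cast h5
      exact absurd (Nat.le_of_dvd hh h6) (not_le.mpr hhB)
    · have h1 : (B : ℝ) ^ 4 ≤ (s ^ (-(1 / 4) : ℝ)) ^ 4 := by gcongr
      have h2 : (s ^ (-(1 / 4) : ℝ)) ^ 4 = s⁻¹ := by
        rw [← Real.rpow_natCast, ← Real.rpow_mul hs.le]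
        norm_num
        exact Real.rpow_neg_one s
      rw [h2] at h1
      calc (B : ℝ) ^ 4 * s ≤ s⁻¹ * s := by gcongr
        _ = 1 := inv_mul_cancel₀ hs.ne'
  have h1 := hw5 B hbadat
  have h2 : 4 * distInt ((B : ℝ) * γ) * max (u : ℝ) v ≤ 4 / 10 := by
    have h3 : (0 : ℝ) < max (u : ℝ) v := lt_of_lt_of_le hV hw1
    calc 4 * distInt ((B : ℝ) * γ) * max (u : ℝ) v
        ≤ 4 * (B * tb s V) * (V * s ^ (-(3 / 16) : ℝ)) := by gcongr
      _ ≤ 4 * (s ^ (-(1 / 4) : ℝ) * tb s V) * (V * s ^ (-(3 / 16) : ℝ)) := by gcongr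
      _ = 4 * ((s ^ (27 / 32 : ℝ) * s ^ (-(1 / 4) : ℝ)) * s ^ (-(3 / 16) : ℝ)) := by
          unfold tb
          field_simp
      _ = 4 * s ^ (13 / 32 : ℝ) := by
          rw [← Real.rpow_add hs, ← Real.rpow_add hs]; norm_num
      _ ≤ 4 * (1 / 10) := by
          have := n3_pow hs hs1 (e := 13 / 32) (by norm_num)
          linarith only [this]
      _ = 4 / 10 := by norm_num
  linarith only [h1, h2]

/-! ### uniqueness -/

theorem nb_unique : ∃ s₀ > 0, ∀ γ s V : ℝ, NHyp s₀ s V → ∀ B B' : ℕ, NB γ s V B → NB γ s V B' →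
    (B : ℝ) ≤ V ^ (1 / 3 : ℝ) → (B' : ℝ) ≤ V ^ (1 / 3 : ℝ) → B = B' := by
  refine ⟨1 / 1000, by norm_num, ?_⟩
  intro γ s V hyp B B' hB hB' hBV hBV'
  have hV1 := n3_V1 hyp
  obtain ⟨hs, hs1, hV, hL⟩ := hyp
  obtain ⟨hB0, hBg, hBd⟩ := hB
  obtain ⟨hB0', hBg', hBd'⟩ := hB'
  have htb0 : 0 < tb s V := by unfold tb; positivity
  have h0 : (0 : ℝ) ≤ B := Nat.cast_nonneg _
  have h0' : (0 : ℝ) ≤ B' := Nat.cast_nonneg _
  have h1 : (B : ℝ) * B' * tb s V ≤ 1 / 10 := by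
    calc (B : ℝ) * B' * tb s V ≤ V ^ (1 / 3 : ℝ) * V ^ (1 / 3 : ℝ) * tb s V := by gcongr
      _ = V ^ (2 / 3 : ℝ) * (s ^ (27 / 32 : ℝ) / V) := by
          rw [← Real.rpow_add hV]
          unfold tb
          norm_num
      _ ≤ V * (s ^ (27 / 32 : ℝ) / V) := by
          have h2 : V ^ (2 / 3 : ℝ) ≤ V := by
            conv_rhs => rw [← Real.rpow_one V]
            exact Real.rpow_le_rpow_of_exponent_le hV1 (by norm_num)
          have h3 : 0 ≤ s ^ (27 / 32 : ℝ) / V := by positivity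
          gcongr
      _ = s ^ (27 / 32 : ℝ) := by field_simp
      _ ≤ 1 / 10 := n3_pow hs hs1 (by norm_num)
  have h2 : (B' : ℝ) * (B * tb s V) + B * (B' * tb s V) < 1 := by
    have e : (B' : ℝ) * (B * tb s V) + B * (B' * tb s V) = 2 * (B * B' * tb s V) := by ring
    rw [e]
    linarith only [h1]
  have h3 := n3_cross (γ := γ) hBd.le hBd'.le h2
  apply Nat.dvd_antisymm
  · have h4 : (B : ℤ) ∣ round ((B : ℝ) * γ) * (B' : ℤ) := ⟨round ((B' : ℝ) * γ), by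
      rw [h3]; ring⟩
    have h5 : IsCoprime (B : ℤ) (round ((B : ℝ) * γ)) := by
      rw [isCoprime_comm]
      exact Int.isCoprime_iff_gcd_eq_one.mpr hBg
    have h6 := h5.dvd_of_dvd_mul_left h4
    exact_mod_cast h6
  · have h4 : (B' : ℤ) ∣ round ((B' : ℝ) * γ) * (B : ℤ) := ⟨round ((B : ℝ) * γ), by
      rw [← h3]; ring⟩
    have h5 : IsCoprime (B' : ℤ) (round ((B' : ℝ) * γ)) := by
      rw [isCoprime_comm]
      exact Int.isCoprime_iff_gcd_eq_one.mpr hBg'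
    have h6 := h5.dvd_of_dvd_mul_left h4
    exact_mod_cast h6

/-! ### special cofactors -/

/-- one sided sum over the special cofactors -/
theorem n3_star_one : ∃ C > 0, ∃ s₀ > 0, ∀ γ s V : ℝ, NHyp s₀ s V →
    ∀ (N : ℕ) (ψ f : ℕ → ℝ), (∀ q, 0 ≤ ψ q) → (∀ q, 0 ≤ f q ∧ f q ≤ ψ q * (q.totient / q)) →
      psum (fun q r => NStar γ s V (cofac q r) ∧ Szs ψ s q r) N f f ≤
        C * s ^ (1 + 1 / 100 : ℝ) * (∑ q ∈ Icc 1 N, f q) ^ (501 / 500 : ℝ) := by
  classical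
  obtain ⟨s₀, hs₀, hU⟩ := nb_unique
  obtain ⟨C, hC, hT⟩ := T1_dvd (θ := 501 / 1000) (by norm_num) (by norm_num)
  refine ⟨C, hC, min s₀ 1, by positivity, ?_⟩
  intro γ s V hyp N ψ f hψ hf
  have hU' := hU γ s V (hyp.mono (min_le_left _ _))
  obtain ⟨hs, hs1, hV, hL⟩ := hyp
  have hs1' : s ≤ 1 := hs1.trans (min_le_right _ _)
  have hF0 : 0 ≤ ∑ q ∈ Icc 1 N, f q := sum_nonneg fun q _ => (hf q).1
  set F := ∑ q ∈ Icc 1 N, f q with hF
  by_cases hex : ∃ B : ℕ, s ^ (-(1 / 4) : ℝ) < B ∧ (B : ℝ) ≤ V ^ (1 / 3 : ℝ) ∧ NB γ s V B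
  · obtain ⟨Bs, hB1, hB2, hB3⟩ := hex
    have hBs0 : 0 < Bs := hB3.1
    have hBsR : (0 : ℝ) < Bs := by exact_mod_cast hBs0
    set H : ℕ := ⌊s ^ (-(1 / 16) : ℝ)⌋₊ with hH
    set T : Finset ℕ := Icc 1 H with hTdef
    set D : ℕ → ℕ := fun h => Bs / Nat.gcd Bs h with hD
    have h1 : psum (fun q r => NStar γ s V (cofac q r) ∧ Szs ψ s q r) N f f ≤
        ∑ h ∈ T, psum (fun q r => D h ∣ cofac q r ∧ 1 ∣ cofac r q ∧ (cofac r q : ℝ) * ψ q ≤ s ∧
          (cofac q r : ℝ) * ψ r ≤ s) N f f := by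
      refine kc_psum_union _ T (fun h q r => D h ∣ cofac q r ∧ 1 ∣ cofac r q ∧
        (cofac r q : ℝ) * ψ q ≤ s ∧ (cofac q r : ℝ) * ψ r ≤ s) N f (fun q => (hf q).1) ?_
      rintro q r ⟨⟨B', h, hb1, hb2, hb3, hh, hhs, hdvd⟩, hc1, hc2⟩
      have hB' : B' = Bs := hU' B' Bs hb3 hB3 hb2 hB2
      rw [hB'] at hdvd
      refine ⟨h, ?_, ?_, one_dvd _, hc1, hc2⟩
      · rw [hTdef, mem_Icc]
        exact ⟨hh, Nat.le_floor hhs⟩
      · have hg : 0 < Nat.gcd Bs h := Nat.gcd_pos_of_pos_left _ hBs0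
        have h2 : Nat.Coprime (Bs / Nat.gcd Bs h) (h / Nat.gcd Bs h) :=
          Nat.coprime_div_gcd_div_gcd hg
        have h3 : Bs / Nat.gcd Bs h ∣ (h / Nat.gcd Bs h) * cofac q r := by
          have h4 : Nat.gcd Bs h * (Bs / Nat.gcd Bs h) ∣
              Nat.gcd Bs h * ((h / Nat.gcd Bs h) * cofac q r) := by
            rw [← mul_assoc, Nat.mul_div_cancel' (Nat.gcd_dvd_left Bs h),
              Nat.mul_div_cancel' (Nat.gcd_dvd_right Bs h)]
            exact hdvd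
          exact Nat.dvd_of_mul_dvd_mul_left hg h4
        exact h2.dvd_of_dvd_mul_left h3
    have h2 : ∀ h ∈ T, psum (fun q r => D h ∣ cofac q r ∧ 1 ∣ cofac r q ∧
        (cofac r q : ℝ) * ψ q ≤ s ∧ (cofac q r : ℝ) * ψ r ≤ s) N f f ≤
        C * (s * s) ^ (499 / 1000 : ℝ) * F ^ (501 / 500 : ℝ) *
          (s ^ (3 / 16 : ℝ)) ^ (499 / 1000 : ℝ) := by
      intro h hh
      rw [hTdef, mem_Icc] at hh
      have hh0 : 0 < h := hh.1
      have hhR : (0 : ℝ) < h := by exact_mod_cast hh0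
      have hhs : (h : ℝ) ≤ s ^ (-(1 / 16) : ℝ) := by
        have h3 : (h : ℝ) ≤ H := by exact_mod_cast hh.2
        exact h3.trans (Nat.floor_le (Real.rpow_pos_of_pos hs _).le)
      have hg : 0 < Nat.gcd Bs h := Nat.gcd_pos_of_pos_left _ hBs0
      have hd0 : 0 < D h := Nat.div_pos (Nat.le_of_dvd hBs0 (Nat.gcd_dvd_left _ _)) hg
      have hdR : (0 : ℝ) < D h := by exact_mod_cast hd0
      have hdge : s ^ (-(3 / 16) : ℝ) ≤ D h := by
        have h4 : (Nat.gcd Bs h : ℝ) ≤ h := by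
          exact_mod_cast Nat.le_of_dvd hh0 (Nat.gcd_dvd_right Bs h)
        have h5 : (Bs : ℝ) = (Nat.gcd Bs h : ℝ) * D h := by
          have : Bs = Nat.gcd Bs h * D h := (Nat.mul_div_cancel' (Nat.gcd_dvd_left Bs h)).symm
          exact_mod_cast this
        have h6 : s ^ (-(1 / 4) : ℝ) ≤ s ^ (-(1 / 16) : ℝ) * D h := by
          calc s ^ (-(1 / 4) : ℝ) ≤ Bs := hB1.le
            _ = (Nat.gcd Bs h : ℝ) * D h := h5
            _ ≤ s ^ (-(1 / 16) : ℝ) * D h := by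
                exact mul_le_mul_of_nonneg_right (h4.trans hhs) hdR.le
        have h7 : s ^ (-(1 / 4) : ℝ) = s ^ (-(1 / 16) : ℝ) * s ^ (-(3 / 16) : ℝ) := by
          rw [← Real.rpow_add hs]; norm_num
        rw [h7] at h6
        exact le_of_mul_le_mul_left h6 (Real.rpow_pos_of_pos hs _)
      have h3 := hT (D h) 1 hd0 one_pos ψ ψ f f s s N hs hs hψ hψ hf hf
      rw [Nat.cast_one, Real.one_rpow, mul_one] at h3
      refine h3.trans ?_
      have e1 : (1 : ℝ) - 501 / 1000 = 499 / 1000 := by norm_num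
      have e2 : (F * F) ^ (501 / 1000 : ℝ) = F ^ (501 / 500 : ℝ) := by
        rw [← sq, ← Real.rpow_natCast, ← Real.rpow_mul hF0]
        norm_num
      rw [e1, e2]
      have h4 : (D h : ℝ) ^ (-(499 / 1000) : ℝ) ≤ (s ^ (3 / 16 : ℝ)) ^ (499 / 1000 : ℝ) := by
        rw [Real.rpow_neg hdR.le, ← Real.inv_rpow hdR.le]
        refine Real.rpow_le_rpow (inv_nonneg.mpr hdR.le) ?_ (by norm_num)
        rw [inv_le_comm₀ hdR (Real.rpow_pos_of_pos hs _), ← Real.rpow_neg hs.le]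
        exact hdge
      have h5 : 0 ≤ C * (s * s) ^ (499 / 1000 : ℝ) * F ^ (501 / 500 : ℝ) := by positivity
      exact mul_le_mul_of_nonneg_left h4 h5
    refine h1.trans ((sum_le_sum h2).trans ?_)
    rw [sum_const, nsmul_eq_mul]
    have hcard : ((T.card : ℕ) : ℝ) ≤ s ^ (-(1 / 16) : ℝ) := by
      rw [hTdef, Nat.card_Icc, Nat.add_sub_cancel]
      exact Nat.floor_le (Real.rpow_pos_of_pos hs _).le
    have hpw : s ^ (-(1 / 16) : ℝ) * ((s * s) ^ (499 / 1000 : ℝ) *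
        (s ^ (3 / 16 : ℝ)) ^ (499 / 1000 : ℝ)) ≤ s ^ (1 + 1 / 100 : ℝ) := by
      rw [Real.mul_rpow hs.le hs.le, ← Real.rpow_mul hs.le, ← Real.rpow_add hs,
        ← Real.rpow_add hs, ← Real.rpow_add hs]
      exact Real.rpow_le_rpow_of_exponent_ge hs hs1' (by norm_num)
    have hFp : 0 ≤ F ^ (501 / 500 : ℝ) := Real.rpow_nonneg hF0 _
    have hX : 0 ≤ C * (s * s) ^ (499 / 1000 : ℝ) * F ^ (501 / 500 : ℝ) *
          (s ^ (3 / 16 : ℝ)) ^ (499 / 1000 : ℝ) := by (clear * - hC hs hF0; positivity)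
    calc (T.card : ℝ) * (C * (s * s) ^ (499 / 1000 : ℝ) * F ^ (501 / 500 : ℝ) *
          (s ^ (3 / 16 : ℝ)) ^ (499 / 1000 : ℝ))
        ≤ s ^ (-(1 / 16) : ℝ) * (C * (s * s) ^ (499 / 1000 : ℝ) * F ^ (501 / 500 : ℝ) *
          (s ^ (3 / 16 : ℝ)) ^ (499 / 1000 : ℝ)) := mul_le_mul_of_nonneg_right hcard hX
      _ = (C * F ^ (501 / 500 : ℝ)) * (s ^ (-(1 / 16) : ℝ) * ((s * s) ^ (499 / 1000 : ℝ) *
        (s ^ (3 / 16 : ℝ)) ^ (499 / 1000 : ℝ))) := by ring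
      _ ≤ (C * F ^ (501 / 500 : ℝ)) * s ^ (1 + 1 / 100 : ℝ) :=
          mul_le_mul_of_nonneg_left hpw (mul_nonneg hC.le hFp)
      _ = _ := by ring
  · have h1 : psum (fun q r => NStar γ s V (cofac q r) ∧ Szs ψ s q r) N f f = 0 := by
      refine kc_psum_empty _ N f ?_
      rintro q r ⟨⟨B', h, hb1, hb2, hb3, -⟩, -⟩
      exact hex ⟨B', hb1, hb2, hb3⟩
    rw [h1]
    positivity

theorem star_sum : ∃ C > 0, ∃ s₀ > 0, ∀ γ s V : ℝ, NHyp s₀ s V →
    ∀ (N : ℕ) (ψ f : ℕ → ℝ), (∀ q, 0 ≤ ψ q) → (∀ q, 0 ≤ f q ∧ f q ≤ ψ q * (q.totient / q)) →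
      psum (fun q r => (NStar γ s V (cofac q r) ∨ NStar γ s V (cofac r q)) ∧ Szs ψ s q r) N f f ≤
        C * s ^ (1 + 1 / 100 : ℝ) * (∑ q ∈ Icc 1 N, f q) ^ (501 / 500 : ℝ) := by
  classical
  obtain ⟨C, hC, s₀, hs₀, h⟩ := n3_star_one
  refine ⟨2 * C, by positivity, s₀, hs₀, ?_⟩
  intro γ s V hyp N ψ f hψ hf
  have h1 := h γ s V hyp N ψ f hψ hf
  have h2 : psum (fun q r => NStar γ s V (cofac r q) ∧ Szs ψ s q r) N f f ≤
      C * s ^ (1 + 1 / 100 : ℝ) * (∑ q ∈ Icc 1 N, f q) ^ (501 / 500 : ℝ) := by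
    rw [kc_psum_symm]
    refine le_trans (le_of_eq ?_) h1
    congr 1
    funext q r
    exact propext ⟨fun hh => ⟨hh.1, hh.2.2, hh.2.1⟩, fun hh => ⟨hh.1, hh.2.2, hh.2.1⟩⟩
  have h3 := kc_psum_cover (fun q r => (NStar γ s V (cofac q r) ∨ NStar γ s V (cofac r q)) ∧
      Szs ψ s q r) (fun q r => NStar γ s V (cofac q r) ∧ Szs ψ s q r)
      (fun q r => NStar γ s V (cofac r q) ∧ Szs ψ s q r) (fun _ _ => False) N f
      (fun q => (hf q).1) (by
        rintro q r ⟨h4 | h4, h5⟩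
        · exact Or.inl ⟨h4, h5⟩
        · exact Or.inr (Or.inl ⟨h4, h5⟩))
  have h4 : psum (fun _ _ => False) N f f = 0 := kc_psum_empty _ N f (fun _ _ h => h)
  rw [h4, add_zero] at h3
  linarith only [h1, h2, h3]

end Vale.P028
end

section

/-!
# Small states (section N4)
-/

namespace Vale.P028

open Finset

theorem n4_pow {s V : ℝ} (h : NHyp (1 / 1000) s V) :
    V ^ (1 / 128 : ℝ) * s ^ (-(1 / 16) : ℝ) ≤ V ^ (1 / 3 : ℝ) ∧
      V ^ (1 / 128 : ℝ) * s ^ (-(1 / 64) : ℝ) < s ^ (1 / 32 : ℝ) * V := by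
  have hsV := n3_V h
  have hV1 := n3_V1 h
  have hs : 0 < s := h.1
  have hV : 0 < V := h.2.2.1
  have hs1 : s < 1 := by linarith only [h.2.1]
  have hls : Real.log s < 0 := Real.log_neg hs hs1
  have hl : 0 ≤ Real.log s + Real.log V := by
    rw [← Real.log_mul hs.ne' hV.ne']
    exact Real.log_nonneg hsV
  constructor
  · rw [Real.rpow_def_of_pos hV, Real.rpow_def_of_pos hs, Real.rpow_def_of_pos hV, ← Real.exp_add]
    apply Real.exp_le_exp.2
    linarith only [hl, hls]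
  · calc V ^ (1 / 128 : ℝ) * s ^ (-(1 / 64) : ℝ)
        = Real.exp (Real.log V * (1 / 128) + Real.log s * (-(1 / 64))) := by
          rw [Real.rpow_def_of_pos hV, Real.rpow_def_of_pos hs, ← Real.exp_add]
      _ < Real.exp (Real.log s * (1 / 32) + Real.log V) := by
          apply Real.exp_lt_exp.2
          linarith only [hl, hls]
      _ = s ^ (1 / 32 : ℝ) * V := by
          rw [Real.exp_add, Real.exp_log hV, Real.rpow_def_of_pos hs]

/-- the case of a bad cofactor -/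
theorem n4_bad {γ s V : ℝ} (h0 : NHyp (1 / 1000) s V) (a b : ℕ) (ha : 0 < a)
    (hbr : ∀ a : ℕ, 0 < a → (a : ℝ) ≤ V * s ^ (-(3 / 16) : ℝ) → NBad γ s V a →
      ∃ B h : ℕ, 0 < h ∧ (h : ℝ) ≤ s ^ (-(1 / 16) : ℝ) ∧ B ∣ h * a ∧ NB γ s V B)
    (hfe : ∀ B : ℕ, NB γ s V B → (B : ℝ) ≤ s ^ (-(1 / 4) : ℝ) → ∀ u v : ℕ, ¬ NWin γ s V u v)
    (haV : (a : ℝ) ≤ V ^ (1 / 128 : ℝ)) (hbad : NBad γ s V a) : NDead γ s V a b := by
  have hV1 := n3_V1 h0
  have hs : 0 < s := h0.1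
  have hV : 0 < V := h0.2.2.1
  have hs1 : s ≤ 1 := by linarith only [h0.2.1]
  have h1 : V ^ (1 / 128 : ℝ) ≤ V := by
    calc V ^ (1 / 128 : ℝ) ≤ V ^ (1 : ℝ) := Real.rpow_le_rpow_of_exponent_le hV1 (by norm_num)
      _ = V := Real.rpow_one V
  have h2 : 1 ≤ s ^ (-(3 / 16) : ℝ) :=
    Real.one_le_rpow_of_pos_of_le_one_of_nonpos hs hs1 (by norm_num)
  obtain ⟨B, h, hh, hhs, hBd, hNB⟩ := hbr a ha
    (haV.trans (h1.trans (le_mul_of_one_le_right hV.le h2))) hbad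
  have hBV : (B : ℝ) ≤ V ^ (1 / 3 : ℝ) := by
    have h3 : B ≤ h * a := Nat.le_of_dvd (Nat.mul_pos hh ha) hBd
    have h4 : (B : ℝ) ≤ (h : ℝ) * a := by exact_mod_cast h3
    have h5 : (h : ℝ) * a ≤ s ^ (-(1 / 16) : ℝ) * V ^ (1 / 128 : ℝ) :=
      mul_le_mul hhs haV (by positivity) (by positivity)
    have h6 := (n4_pow h0).1
    rw [mul_comm] at h6
    exact h4.trans (h5.trans h6)
  intro m n hm hn hΩ
  by_cases hB : (B : ℝ) ≤ s ^ (-(1 / 4) : ℝ)
  · exact hfe B hNB hB _ _ hΩ.1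
  · refine hΩ.2.1 ⟨B, h, not_le.1 hB, hBV, hNB, hh, hhs, ?_⟩
    rw [← mul_assoc]
    exact hBd.mul_right m

theorem small_state : ∃ s₀ > 0, ∀ γ s V : ℝ, NHyp s₀ s V → ∀ a b : ℕ, 0 < a → 0 < b →
    (a : ℝ) ≤ V ^ (1 / 128 : ℝ) → (b : ℝ) ≤ V ^ (1 / 128 : ℝ) →
    NDead γ s V a b ∨ ¬ NFin γ s V a b := by
  obtain ⟨s₁, hs₁, hbr⟩ := bad_reduce
  obtain ⟨s₂, hs₂, hfe⟩ := far_empty
  refine ⟨min (1 / 1000) (min s₁ s₂), by positivity, ?_⟩
  intro γ s V hN a b ha hb haV hbV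
  have h0 : NHyp (1 / 1000) s V := hN.mono (min_le_left _ _)
  have h1 : NHyp s₁ s V := hN.mono ((min_le_right _ _).trans (min_le_left _ _))
  have h2 : NHyp s₂ s V := hN.mono ((min_le_right _ _).trans (min_le_right _ _))
  by_cases hfin : NFin γ s V a b
  · left
    rcases hfin with ⟨m, n, hm, hn, hms, hns, hΩ⟩ | hbad | hbad
    · exfalso
      have hs : 0 < s := h0.1
      have h3 := hΩ.1.1
      have h4 := hΩ.1.2.2.1
      have h5 : s ^ (1 / 32 : ℝ) * V ≤ ((a * m : ℕ) : ℝ) := by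
        have h6 : s ^ (1 / 32 : ℝ) * V ≤ s ^ (1 / 32 : ℝ) *
            max ((a * m : ℕ) : ℝ) ((b * n : ℕ) : ℝ) :=
          mul_le_mul_of_nonneg_left h3 (by positivity)
        exact h6.trans (h4.trans (min_le_left _ _))
      have h7 : ((a * m : ℕ) : ℝ) ≤ V ^ (1 / 128 : ℝ) * s ^ (-(1 / 64) : ℝ) := by
        push_cast
        exact mul_le_mul haV hms (by positivity) (le_trans (by positivity) haV)
      have h8 := (n4_pow h0).2
      linarith only [h5, h7, h8]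
    · exact n4_bad h0 a b ha (fun a => hbr γ s V h1 a) (hfe γ s V h2) haV hbad
    · exact NDead_comm (n4_bad h0 b a hb (fun a => hbr γ s V h1 a) (hfe γ s V h2) hbV hbad)
  · exact Or.inr hfin

end Vale.P028
end

section

/-!
# The small primes of Theorem N (section N9)
-/

namespace Vale.P028

open Finset

theorem n9_SPw {θ B x c : ℝ} (h : SP θ B x c) : SPw θ (fun l => B ^ l) x c := h

/-- the kernel of the large primes is dominated by the kernel `KB` -/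
theorem n9_dominate {s V : ℝ} {γ : ℝ} (hs : 0 < s) (hs1 : s < 1) (hV : 0 < V)
    (hL : 0 < Real.log V)
    (hss : ∀ a b : ℕ, 0 < a → 0 < b → (a : ℝ) ≤ V ^ (1 / 128 : ℝ) → (b : ℝ) ≤ V ^ (1 / 128 : ℝ) →
      NDead γ s V a b ∨ ¬ NFin γ s V a b) (a b : ℕ) (ha : 0 < a) (hb : 0 < b) :
    (16 / ((a : ℝ) * b)) ^ (499 / 1000 : ℝ) * (nsig γ s V a b) ^ (499 / 1000 : ℝ) ≤
      KB (501 / 1000) (s ^ (1 / 150 : ℝ)) (nw s V) a b := by
  set S : ℝ := s ^ (1 / 150 : ℝ) with hS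
  set y : ℝ := nw s V with hy
  have hS0 : 0 < S := by rw [hS]; exact Real.rpow_pos_of_pos hs _
  have hS1 : S ≤ 1 := by rw [hS]; exact Real.rpow_le_one hs.le hs1.le (by norm_num)
  have hlog : 0 < Real.log (1 / s) := by
    apply Real.log_pos
    rw [lt_div_iff₀ hs]
    linarith only [hs1]
  have hly : Real.log y = Real.log V / Real.log (1 / s) := by
    rw [hy]; unfold nw; rw [Real.log_exp]
  have hly0 : 0 < Real.log y := by rw [hly]; exact div_pos hL hlog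
  have hy1 : 1 < y := by
    rw [hy]; unfold nw
    rw [← hly] 
    exact Real.one_lt_exp_iff.2 hly0
  have hθ1 : (501 / 1000 : ℝ) < 1 := by norm_num
  have e1 : (1 : ℝ) - 501 / 1000 = 499 / 1000 := by norm_num
  have hm1 := mpB_ge_one (θ := 501 / 1000) (S := S) (y := y) hθ1 hS0 hS1 hy1
  have hma := mm_ge_one (mpB (501 / 1000) S y) hm1 a
  have hmb := mm_ge_one (mpB (501 / 1000) S y) hm1 b
  have ha' : (0 : ℝ) < a := by exact_mod_cast ha
  have hb' : (0 : ℝ) < b := by exact_mod_cast hb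
  unfold KB
  rw [e1, mul_assoc]
  refine mul_le_mul_of_nonneg_left ?_ (by (clear * - ha hb; positivity))
  have hn0 := nsig_nonneg (γ := γ) (V := V) hs a b
  have hn1 := nsig_le_one (γ := γ) (V := V) hs hs1.le a b
  by_cases hcase : 1 ≤ S ^ (499 / 1000 : ℝ) * (mm (mpB (501 / 1000) S y) a *
      mm (mpB (501 / 1000) S y) b)
  · exact (Real.rpow_le_one hn0 hn1 (by norm_num)).trans hcase
  · push Not at hcase
    have hSl : 0 < S ^ (499 / 1000 : ℝ) := Real.rpow_pos_of_pos hS0 _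
    have hprod : mm (mpB (501 / 1000) S y) a * mm (mpB (501 / 1000) S y) b <
        S ^ (-(499 / 1000) : ℝ) := by
      rw [Real.rpow_neg hS0.le]
      rw [mul_comm] at hcase
      rw [← one_div, lt_div_iff₀ hSl]
      exact hcase
    have hsm : ∀ n m : ℕ, 0 < n → 1 ≤ mm (mpB (501 / 1000) S y) m →
        mm (mpB (501 / 1000) S y) n * mm (mpB (501 / 1000) S y) m < S ^ (-(499 / 1000) : ℝ) →
        (n : ℝ) ≤ S ^ (-Real.log y) := by
      intro n m hn hm hlt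
      have hn' : (0 : ℝ) < n := by exact_mod_cast hn
      have hmn := mm_ge_one (mpB (501 / 1000) S y) hm1 n
      have h1 : mm (mpB (501 / 1000) S y) n < S ^ (-(499 / 1000) : ℝ) := by
        nlinarith only [hm, hlt, hmn]
      have h2 : ∀ p : ℕ, p.Prime → p ∣ n →
          mpB (501 / 1000) S y p = (p : ℝ) ^ ((499 / 1000 : ℝ) / Real.log y) := by
        intro p hp hpn
        have h3 := mm_ge_of_dvd (mpB (501 / 1000) S y) hm1 hn.ne' hp hpn
        by_contra hne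
        have h4 : mpB (501 / 1000) S y p = S ^ (-(499 / 1000) : ℝ) := by
          unfold mpB at hne ⊢
          rw [e1] at hne ⊢
          by_cases h5 : (p : ℝ) ≤ y
          · rw [if_pos h5] at hne
            exact absurd rfl hne
          · rw [if_neg h5]
        rw [h4] at h3
        linarith only [h1, h3]
      have h3 := mm_smooth (mpB (501 / 1000) S y) hn.ne' h2
      rw [h3] at h1
      have h4 : ((n : ℝ) ^ ((499 / 1000 : ℝ) / Real.log y)) ^ (Real.log y / (499 / 1000 : ℝ)) <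
          (S ^ (-(499 / 1000) : ℝ)) ^ (Real.log y / (499 / 1000 : ℝ)) :=
        Real.rpow_lt_rpow (by (clear * - hn; positivity)) h1 (div_pos hly0 (by norm_num))
      rw [← Real.rpow_mul hn'.le, ← Real.rpow_mul hS0.le] at h4
      have h5 : (499 / 1000 : ℝ) / Real.log y * (Real.log y / (499 / 1000 : ℝ)) = 1 := by
        (clear * - hly0; field_simp)
      have h6 : -(499 / 1000 : ℝ) * (Real.log y / (499 / 1000 : ℝ)) = -Real.log y := by
        (clear * - hly0; field_simp)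
      rw [h5, h6, Real.rpow_one] at h4
      exact h4.le
    have hSV : S ^ (-Real.log y) ≤ V ^ (1 / 128 : ℝ) := by
      rw [hS, hly, Real.rpow_def_of_pos (Real.rpow_pos_of_pos hs _), Real.rpow_def_of_pos hV,
        Real.log_rpow hs]
      apply Real.exp_le_exp.2
      have h1 : Real.log (1 / s) = - Real.log s := by rw [one_div, Real.log_inv]
      rw [h1]
      rw [h1] at hlog
      have h2 : Real.log s ≠ 0 := by intro h0; rw [h0] at hlog; simp at hlog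
      have h3 : 1 / 150 * Real.log s * -(Real.log V / -Real.log s) = 1 / 150 * Real.log V := by
        (clear * - h2; field_simp)
      rw [h3]
      linarith only [hL]
    have haZ := (hsm a b ha hmb hprod).trans hSV
    have hbZ := (hsm b a hb hma (by rw [mul_comm]; exact hprod)).trans hSV
    have hnS : nsig γ s V a b ≤ S := by
      rcases hss a b ha hb haZ hbZ with h | h
      · rw [nsig_dead h]; exact hS0.le
      · by_cases hd : NDead γ s V a b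
        · rw [nsig_dead hd]; exact hS0.le
        · rw [nsig_mid hd h]
    have h1 : (nsig γ s V a b) ^ (499 / 1000 : ℝ) ≤ S ^ (499 / 1000 : ℝ) :=
      Real.rpow_le_rpow hn0 hnS (by norm_num)
    refine h1.trans (le_mul_of_one_le_right hSl.le ?_)
    nlinarith only [hma, hmb]

/-- the induction over the small primes -/
theorem n9_small {Ω : ℕ → ℕ → Prop} {Γ S y B₀ C : ℝ} {P : Finset ℕ} (hΓ : 0 < Γ)
    (hB₀ : 0 < B₀) (hC : 0 ≤ C)
    (hSPs : ∀ B x : ℝ, 0 < B → B ≤ B₀ → 0 ≤ x → x ≤ B →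
      SP (501 / 1000) (B ^ (1 - 501 / 1000 : ℝ)) x
        (1 + 2 * (1 - 501 / 1000) * (B - x) + C * B ^ (2 * (501 / 1000) : ℝ)))
    (hS : 0 < S) (hS1 : S ≤ 1) (hy0 : 0 < y) (hy : 2 ≤ Real.log y) (hSy : 1 ≤ S * y * B₀)
    (hP : ∀ p ∈ P, p.Prime)
    (hbase : LBound Ω (501 / 1000) (fun a b => Γ * KB (501 / 1000) S y a b) P
      (fun p => 1 / (p : ℝ)) 1) (Q : Finset ℕ) (hQ : ∀ p ∈ Q, p.Prime ∧ (p : ℝ) ≤ y)
    (hQP : ∀ p ∈ Q, p ∉ P) :
    LBound Ω (501 / 1000)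
      (fun a b => Γ * (∏ p ∈ Q, cMB (501 / 1000) B₀ C S y p) * KB (501 / 1000) S y a b) (Q ∪ P)
      (fun p => 1 / (p : ℝ)) 1 := by
  classical
  have hθ : (1 / 2 : ℝ) < 501 / 1000 := by norm_num
  have hθ1 : (501 / 1000 : ℝ) < 1 := by norm_num
  have hy1 : 1 < y := by
    by_contra hne
    push Not at hne
    have := Real.log_nonpos hy0.le hne
    linarith only [hy, this]
  induction Q using Finset.induction_on with
  | empty => simpa using hbase
  | insert p Q hpQ ih =>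
    have ih' := ih (fun q hq => hQ q (mem_insert_of_mem hq)) (fun q hq => hQP q (mem_insert_of_mem hq))
    have hp := (hQ p (mem_insert_self p Q)).1
    have hpy := (hQ p (mem_insert_self p Q)).2
    have hprod0 : 0 ≤ ∏ p ∈ Q, cMB (501 / 1000) B₀ C S y p :=
      prod_nonneg fun q hq => cB_nonneg hθ1 hB₀ hC hS hy0 hy hSy (hQ q (mem_insert_of_mem hq)).1
    have hK0 : ∀ a b, 0 ≤ KB (501 / 1000) S y a b := KB_nonneg hθ1 hS hS1 hy1
    rw [insert_union]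
    refine lb_step hθ hθ1 ?_ hp ?_ ?_ ?_ ih' ?_
    · intro q hq
      rcases mem_union.1 hq with h | h
      · exact (hQ q (mem_insert_of_mem h)).1
      · exact hP q h
    · intro h
      rcases mem_union.1 h with h | h
      · exact hpQ h
      · exact hQP p (mem_insert_self p Q) h
    · intro q hq
      have hqp : q.Prime := by
        rcases mem_insert.1 hq with rfl | h
        · exact hp
        · rcases mem_union.1 h with h | h
          · exact (hQ q (mem_insert_of_mem h)).1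
          · exact hP q h
      have hq1 : (1 : ℝ) < q := by exact_mod_cast hqp.one_lt
      refine ⟨by positivity, ?_⟩
      rw [div_lt_one (by linarith only [hq1])]
      exact hq1
    · intro a b
      exact mul_nonneg (mul_nonneg hΓ.le hprod0) (hK0 a b)
    · intro a b ha hb
      have hx1 : xB S y p = 1 / (p : ℝ) := by unfold xB; rw [if_pos hpy]
      have hSP := SP_cB hθ hθ1 hB₀ hSPs hS hy0 hy hSy hp
      rw [hx1] at hSP
      obtain ⟨hx0, hxB⟩ := xB_le hS hy hp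
      have hB0 : 0 < BqB S y p := lt_of_lt_of_le hx0 hxB
      refine ⟨fun l => ((BqB S y p) ^ (1 - 501 / 1000 : ℝ)) ^ l, cMB (501 / 1000) B₀ C S y p,
        pow_zero _, fun l => by positivity, cB_nonneg hθ1 hB₀ hC hS hy0 hy hSy hp, ?_, ?_,
        n9_SPw hSP, ?_⟩
      · intro l
        simp only
        rw [KB_grow hp a b l ha hb, BqB_eq hS hp]
        apply le_of_eq
        ring
      · intro l
        simp only
        rw [KB_comm, KB_grow hp b a l hb ha, BqB_eq hS hp, KB_comm]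
        apply le_of_eq
        ring
      · rw [prod_insert hpQ]
        apply le_of_eq
        ring

theorem n9_outer (hin : ∃ Γ > 0, ∃ s₀ > 0, ∀ γ s V : ℝ, NHyp s₀ s V → ∀ P : Finset ℕ,
    (∀ p ∈ P, p.Prime ∧ nw s V < p) →
    LBound (NOm γ s V) (501 / 1000) (fun a b => Γ * ((16 / ((a : ℝ) * b)) ^ (499 / 1000 : ℝ) *
      (nsig γ s V a b) ^ (499 / 1000 : ℝ))) P (fun p => 1 / (p : ℝ)) 1)
    (hss : ∃ s₀ > 0, ∀ γ s V : ℝ, NHyp s₀ s V → ∀ a b : ℕ, 0 < a → 0 < b →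
    (a : ℝ) ≤ V ^ (1 / 128 : ℝ) → (b : ℝ) ≤ V ^ (1 / 128 : ℝ) →
    NDead γ s V a b ∨ ¬ NFin γ s V a b) :
    ∃ C > 0, ∃ s₀ > 0, ∀ γ s V : ℝ, NHyp s₀ s V → ∀ P : Finset ℕ,
    (∀ p ∈ P, p.Prime) → ∃ K : ℕ → ℕ → ℝ, (∀ a b, 0 ≤ K a b) ∧
      K 1 1 ≤ C * (s ^ (1 / 150 : ℝ)) ^ (499 / 1000 : ℝ) ∧
      LBound (NOm γ s V) (501 / 1000) K P (fun p => 1 / (p : ℝ)) 1 := by
  classical
  have hθ : (1 / 2 : ℝ) < 501 / 1000 := by norm_num
  have hθ1 : (501 / 1000 : ℝ) < 1 := by norm_num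
  obtain ⟨Γ, hΓ, s₁, hs₁, hin⟩ := hin
  obtain ⟨s₂, hs₂, hss⟩ := hss
  obtain ⟨B₀, hB₀, C, hC, hB₀1, hSPs⟩ := SP_small hθ hθ1
  obtain ⟨K₀, hK₀, hprod⟩ := prod_cB hθ hθ1 hB₀ hC
  refine ⟨Γ * K₀ * 16 ^ (499 / 1000 : ℝ), by positivity,
    min (min s₁ s₂) (min B₀ (Real.exp (-1))), by positivity, ?_⟩
  intro γ s V hN P hP
  have hN1 : NHyp s₁ s V := hN.mono ((min_le_left _ _).trans (min_le_left _ _))
  have hN2 : NHyp s₂ s V := hN.mono ((min_le_left _ _).trans (min_le_right _ _))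
  obtain ⟨hs, hs0, hV, hVL⟩ := hN
  have hsB : s ≤ B₀ := hs0.trans ((min_le_right _ _).trans (min_le_left _ _))
  have hse : s ≤ Real.exp (-1) := hs0.trans ((min_le_right _ _).trans (min_le_right _ _))
  have hs1 : s < 1 := lt_of_le_of_lt hse (by rw [Real.exp_lt_one_iff]; norm_num)
  set L : ℝ := Real.log (1 / s) with hLdef
  have hls : Real.log s = -L := by rw [hLdef, one_div, Real.log_inv]; ring
  have hL1 : 1 ≤ L := by
    have h1 := Real.log_le_log hs hse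
    rw [Real.log_exp] at h1
    linarith only [h1, hls]
  have hlV : 100 ≤ Real.log V := by nlinarith only [hVL, hL1]
  set S : ℝ := s ^ (1 / 150 : ℝ) with hS
  set y : ℝ := nw s V with hy
  have hS0 : 0 < S := by rw [hS]; exact Real.rpow_pos_of_pos hs _
  have hS1 : S ≤ 1 := by rw [hS]; exact Real.rpow_le_one hs.le hs1.le (by norm_num)
  have hlS : Real.log S = -(1 / 150) * L := by
    rw [hS, Real.log_rpow hs, hls]
    ring
  have hy0 : 0 < y := by rw [hy]; unfold nw; exact Real.exp_pos _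
  have hly : Real.log y = Real.log V / L := by
    rw [hy]; unfold nw; rw [Real.log_exp]
  have hlyL : 100 * L ≤ Real.log y := by
    rw [hly, le_div_iff₀ (by linarith only [hL1])]
    nlinarith only [hVL]
  have hly2 : 2 ≤ Real.log y := by linarith only [hlyL, hL1]
  have hSy : 1 ≤ S * y * B₀ := by
    have h1 : 0 ≤ Real.log (S * y * B₀) := by
      rw [Real.log_mul (by positivity) hB₀.ne', Real.log_mul hS0.ne' hy0.ne', hlS]
      have h2 := Real.log_le_log hs hsB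
      rw [hls] at h2
      linarith only [h2, hlyL, hL1]
    by_contra hne
    push Not at hne
    have := Real.log_neg (by positivity) hne
    linarith only [h1, this]
  have hSy2 : S ^ (-(2 * (501 / 1000)) : ℝ) ≤ y ^ (501 / 1000 - 1 / 2 : ℝ) := by
    rw [Real.rpow_def_of_pos hS0, Real.rpow_def_of_pos hy0, hlS]
    apply Real.exp_le_exp.2
    linarith only [hlyL, hL1]
  set P₁ : Finset ℕ := P.filter (fun p : ℕ => ¬ (p : ℝ) ≤ y) with hP₁
  set P₂ : Finset ℕ := P.filter (fun p : ℕ => (p : ℝ) ≤ y) with hP₂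
  have hin' := hin γ s V hN1 P₁ (by
    intro p hp
    rw [hP₁, mem_filter] at hp
    exact ⟨hP p hp.1, not_le.1 hp.2⟩)
  have hbase : LBound (NOm γ s V) (501 / 1000) (fun a b => Γ * KB (501 / 1000) S y a b) P₁
      (fun p => 1 / (p : ℝ)) 1 := by
    refine LBound_mono hin' ?_
    intro a b ha hb
    refine mul_le_mul_of_nonneg_left ?_ hΓ.le
    exact n9_dominate hs hs1 hV (by linarith only [hlV]) (hss γ s V hN2) a b ha hb
  have hfin := n9_small hΓ hB₀ hC hSPs hS0 hS1 hy0 hly2 hSy (P := P₁)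
    (fun p hp => hP p (mem_filter.1 hp).1) hbase P₂
    (fun p hp => ⟨hP p (mem_filter.1 hp).1, (mem_filter.1 hp).2⟩)
    (fun p hp hp' => (mem_filter.1 hp').2 (mem_filter.1 hp).2)
  have hun : P₂ ∪ P₁ = P := by
    rw [hP₁, hP₂]
    exact filter_union_filter_not_eq _ _
  rw [hun] at hfin
  have hpK := hprod S y hS0 hS1 hy0 hly2 hSy hSy2 P₂ (fun p hp => hP p (mem_filter.1 hp).1)
  have hprod0 : 0 ≤ ∏ p ∈ P₂, cMB (501 / 1000) B₀ C S y p :=
    prod_nonneg fun q hq => cB_nonneg hθ1 hB₀ hC hS0 hy0 hly2 hSy (hP q (mem_filter.1 hq).1)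
  have hy1 : 1 < y := by
    by_contra hne
    push Not at hne
    have := Real.log_nonpos hy0.le hne
    linarith only [hly2, this]
  refine ⟨_, ?_, ?_, hfin⟩
  · intro a b
    exact mul_nonneg (mul_nonneg hΓ.le hprod0) (KB_nonneg hθ1 hS0 hS1 hy1 a b)
  · unfold KB
    rw [mm_one]
    have e1 : (1 : ℝ) - 501 / 1000 = 499 / 1000 := by norm_num
    rw [e1]
    simp only [Nat.cast_one, mul_one, div_one]
    have h1 : 0 ≤ (16 : ℝ) ^ (499 / 1000 : ℝ) * S ^ (499 / 1000 : ℝ) := by positivity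
    calc Γ * (∏ p ∈ P₂, cMB (501 / 1000) B₀ C S y p) *
          ((16 : ℝ) ^ (499 / 1000 : ℝ) * S ^ (499 / 1000 : ℝ))
        ≤ Γ * K₀ * ((16 : ℝ) ^ (499 / 1000 : ℝ) * S ^ (499 / 1000 : ℝ)) := by
          apply mul_le_mul_of_nonneg_right _ h1
          exact mul_le_mul_of_nonneg_left hpK hΓ.le
      _ = Γ * K₀ * 16 ^ (499 / 1000 : ℝ) * S ^ (499 / 1000 : ℝ) := by ring

theorem outer_N : ∃ C > 0, ∃ s₀ > 0, ∀ γ s V : ℝ, NHyp s₀ s V → ∀ P : Finset ℕ,
    (∀ p ∈ P, p.Prime) → ∃ K : ℕ → ℕ → ℝ, (∀ a b, 0 ≤ K a b) ∧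
      K 1 1 ≤ C * (s ^ (1 / 150 : ℝ)) ^ (499 / 1000 : ℝ) ∧
      LBound (NOm γ s V) (501 / 1000) K P (fun p => 1 / (p : ℝ)) 1 :=
  n9_outer inner_N small_state

end Vale.P028
end

section

/-!
# The sum over a window
-/

namespace Vale.P028

open Finset MeasureTheory Filter

/-- the allowed pairs of a window -/
theorem window_NOm : ∃ C > 0, ∃ s₀ > 0, ∀ γ s V : ℝ, NHyp s₀ s V →
    ∀ (N : ℕ) (ψ f : ℕ → ℝ), (∀ q, 0 ≤ ψ q) → (∀ q, 0 ≤ f q ∧ f q ≤ ψ q * (q.totient / q)) →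
      psum (fun q r => NOm γ s V (cofac q r) (cofac r q) ∧ Szs ψ s q r) N f f ≤
        C * s ^ (1 + 1 / 800 : ℝ) * (∑ q ∈ Icc 1 N, f q) ^ (501 / 500 : ℝ) := by
  classical
  obtain ⟨C, hC, s₀, hs₀, hout⟩ := outer_N
  refine ⟨C, hC, min s₀ 1, lt_min hs₀ one_pos, ?_⟩
  intro γ s V hH N ψ f hψ hf
  have hs : 0 < s := hH.1
  have hs1 : s ≤ 1 := hH.2.1.trans (min_le_right _ _)
  set P : Finset ℕ := (Icc 1 N).filter Nat.Prime with hPdef
  have hP : ∀ p ∈ P, p.Prime := fun p hp => (mem_filter.1 hp).2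
  obtain ⟨K, hK0, hK1, hL⟩ := hout γ s V (hH.mono (min_le_left _ _)) P hP
  have hf' : ∀ q, 0 ≤ f q ∧ f q ≤ ψ q * wt (fun p => 1 / (p : ℝ)) P q := fun q =>
    ⟨(hf q).1, (hf q).2.trans (mul_le_mul_of_nonneg_left (totient_weight_le P hP q) (hψ q))⟩
  have h1 := hL 1 1 one_pos one_pos ψ ψ f f s s N hs hs hψ hψ hf' hf'
  have hF : 0 ≤ ∑ q ∈ Icc 1 N, f q := sum_nonneg fun q _ => (hf q).1
  have hmono : psum (fun q r => NOm γ s V (cofac q r) (cofac r q) ∧ Szs ψ s q r) N f f ≤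
      Lam (NOm γ s V) P 1 1 ψ ψ s s N f f := by
    unfold Lam
    refine psum_mono _ _ N f f f f (fun q => (hf q).1) (fun q => (hf q).1) ?_
    intro q hq r hr hqr _
    obtain ⟨h2, h3, h4⟩ := hqr
    refine ⟨⟨?_, ?_, ?_, ?_⟩, le_rfl⟩
    · intro p hp hpd
      rw [mem_Icc] at hq
      have h5 : p ∣ q := hpd.trans (Nat.gcd_dvd_left q r)
      have h6 : p ≤ q := Nat.le_of_dvd (by omega) h5
      simp only [hPdef, mem_filter, mem_Icc]
      exact ⟨⟨hp.one_lt.le, by omega⟩, hp⟩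
    · simpa only [one_mul] using h2
    · simpa only [Nat.cast_one, one_mul] using h3
    · simpa only [Nat.cast_one, one_mul] using h4
  refine hmono.trans (h1.trans ?_)
  have e1 : (1 : ℝ) - 501 / 1000 = 499 / 1000 := by norm_num
  rw [e1, one_mul]
  have e2 : (s * s) ^ (499 / 1000 : ℝ) = s ^ (499 / 500 : ℝ) := by
    rw [← pow_two, ← Real.rpow_natCast, ← Real.rpow_mul hs.le]
    norm_num
  have e3 : (s ^ (1 / 150 : ℝ)) ^ (499 / 1000 : ℝ) = s ^ (499 / 150000 : ℝ) := by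
    rw [← Real.rpow_mul hs.le]
    norm_num
  have e4 : ((∑ q ∈ Icc 1 N, f q) * ∑ q ∈ Icc 1 N, f q) ^ (501 / 1000 : ℝ) =
      (∑ q ∈ Icc 1 N, f q) ^ (501 / 500 : ℝ) := by
    rw [← pow_two, ← Real.rpow_natCast, ← Real.rpow_mul hF]
    norm_num
  rw [e3] at hK1
  rw [e2, e4]
  have h5 : s ^ (499 / 500 : ℝ) * K 1 1 ≤ C * s ^ (1 + 1 / 800 : ℝ) := by
    calc s ^ (499 / 500 : ℝ) * K 1 1
        ≤ s ^ (499 / 500 : ℝ) * (C * s ^ (499 / 150000 : ℝ)) :=
          mul_le_mul_of_nonneg_left hK1 (Real.rpow_nonneg hs.le _)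
      _ = C * s ^ (499 / 500 + 499 / 150000 : ℝ) := by
          rw [Real.rpow_add hs]
          ring
      _ ≤ C * s ^ (1 + 1 / 800 : ℝ) := by
          refine mul_le_mul_of_nonneg_left ?_ hC.le
          exact Real.rpow_le_rpow_of_exponent_ge hs hs1 (by norm_num)
  exact mul_le_mul_of_nonneg_right h5 (Real.rpow_nonneg hF _)

/-- all pairs of a window -/
theorem window_N : ∃ C > 0, ∃ s₀ > 0, ∀ γ s V : ℝ, NHyp s₀ s V →
    ∀ (N : ℕ) (ψ f : ℕ → ℝ), (∀ q, 0 ≤ ψ q) → (∀ q, 0 ≤ f q ∧ f q ≤ ψ q * (q.totient / q)) →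
      psum (fun q r => NWin γ s V (cofac q r) (cofac r q) ∧ Szs ψ s q r) N f f ≤
        C * s ^ (1 + 1 / 800 : ℝ) * (∑ q ∈ Icc 1 N, f q) ^ (501 / 500 : ℝ) := by
  classical
  obtain ⟨C₁, hC₁, s₁, hs₁, h1⟩ := window_NOm
  obtain ⟨C₂, hC₂, s₂, hs₂, h2⟩ := star_sum
  refine ⟨C₁ + C₂, add_pos hC₁ hC₂, min (min s₁ s₂) 1, lt_min (lt_min hs₁ hs₂) one_pos, ?_⟩
  intro γ s V hH N ψ f hψ hf
  have hs : 0 < s := hH.1
  have hs1 : s ≤ 1 := hH.2.1.trans (min_le_right _ _)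
  have hF : 0 ≤ ∑ q ∈ Icc 1 N, f q := sum_nonneg fun q _ => (hf q).1
  have h3 := h1 γ s V (hH.mono ((min_le_left _ _).trans (min_le_left _ _))) N ψ f hψ hf
  have h4 := h2 γ s V (hH.mono ((min_le_left _ _).trans (min_le_right _ _))) N ψ f hψ hf
  have h5 := psum_or_le
    (fun q r => NWin γ s V (cofac q r) (cofac r q) ∧ Szs ψ s q r)
    (fun q r => NOm γ s V (cofac q r) (cofac r q) ∧ Szs ψ s q r)
    (fun q r => (NStar γ s V (cofac q r) ∨ NStar γ s V (cofac r q)) ∧ Szs ψ s q r) N f f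
    (fun q => (hf q).1) (fun q => (hf q).1) (by
      rintro q r ⟨h6, h7⟩
      by_cases h8 : NStar γ s V (cofac q r)
      · exact Or.inr ⟨Or.inl h8, h7⟩
      by_cases h9 : NStar γ s V (cofac r q)
      · exact Or.inr ⟨Or.inr h9, h7⟩
      exact Or.inl ⟨⟨h6, h8, h9⟩, h7⟩)
  have h6 : C₂ * s ^ (1 + 1 / 100 : ℝ) * (∑ q ∈ Icc 1 N, f q) ^ (501 / 500 : ℝ) ≤
      C₂ * s ^ (1 + 1 / 800 : ℝ) * (∑ q ∈ Icc 1 N, f q) ^ (501 / 500 : ℝ) := by
    refine mul_le_mul_of_nonneg_right ?_ (Real.rpow_nonneg hF _)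
    refine mul_le_mul_of_nonneg_left ?_ hC₂.le
    exact Real.rpow_le_rpow_of_exponent_ge hs hs1 (by norm_num)
  calc psum (fun q r => NWin γ s V (cofac q r) (cofac r q) ∧ Szs ψ s q r) N f f
      ≤ C₁ * s ^ (1 + 1 / 800 : ℝ) * (∑ q ∈ Icc 1 N, f q) ^ (501 / 500 : ℝ) +
        C₂ * s ^ (1 + 1 / 800 : ℝ) * (∑ q ∈ Icc 1 N, f q) ^ (501 / 500 : ℝ) := by
        linarith only [h3, h4, h5, h6]
    _ = (C₁ + C₂) * s ^ (1 + 1 / 800 : ℝ) * (∑ q ∈ Icc 1 N, f q) ^ (501 / 500 : ℝ) := by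
        ring

end Vale.P028
end

section

/-!
# Far pairs at one level, separated arcs
-/

namespace Vale.P028

open Finset

/-- the scale of `ψ q` -/
noncomputable def n11_j (ψ : ℕ → ℝ) (s : ℝ) (q : ℕ) : ℤ :=
  ⌊-Real.log (ψ q) / (3 / 64 * Real.log (1 / s))⌋

/-- the size of the cofactors at the scale `j` -/
noncomputable def n11_V (s : ℝ) (j : ℤ) : ℝ :=
  Real.exp (-(193 / 192) * Real.log (1 / s) + j * (3 / 64 * Real.log (1 / s)))

theorem n11_log_V (s : ℝ) (j : ℤ) : Real.log (n11_V s j) =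
    -(193 / 192) * Real.log (1 / s) + j * (3 / 64 * Real.log (1 / s)) := by
  rw [n11_V, Real.log_exp]

theorem n11_V_pos (s : ℝ) (j : ℤ) : 0 < n11_V s j := Real.exp_pos _

theorem n11_rpow {s : ℝ} (hs : 0 < s) (a : ℝ) : s ^ a = Real.exp (-a * Real.log (1 / s)) := by
  rw [Real.rpow_def_of_pos hs, one_div, Real.log_inv]
  congr 1
  ring

theorem n11_log_rpow {s : ℝ} (hs : 0 < s) (a : ℝ) :
    Real.log (s ^ a) = -a * Real.log (1 / s) := by
  rw [n11_rpow hs, Real.log_exp]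

/-- separation of the arcs in logarithmic form -/
theorem n11_sep {c₀ D : ℝ} (hc₀ : 0 < c₀) {ψ : ℕ → ℝ} {q r : ℕ} (hq : 0 < q) (hr : 0 < r)
    (hψq : 0 < ψ q) (hψr : 0 < ψ r) (h : ArcSep c₀ ψ q r)
    (h1 : (Real.log (ψ q) - Real.log q) - (Real.log (ψ r) - Real.log r) ≤ D)
    (h2 : (Real.log (ψ r) - Real.log r) - (Real.log (ψ q) - Real.log q) ≤ D) :
    Real.log c₀ + 1 / 4 * (Real.log r - Real.log q) ≤ D := by
  have hq' : (0 : ℝ) < q := by exact_mod_cast hq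
  have hr' : (0 : ℝ) < r := by exact_mod_cast hr
  have hpos : 0 < c₀ * ((r : ℝ) / q) ^ (1 / 4 : ℝ) := by positivity
  have e0 : Real.log (c₀ * ((r : ℝ) / q) ^ (1 / 4 : ℝ)) =
      Real.log c₀ + 1 / 4 * (Real.log r - Real.log q) := by
    rw [Real.log_mul hc₀.ne' (by positivity), Real.log_rpow (by positivity),
      Real.log_div hr'.ne' hq'.ne']
  have e1 : Real.log (ψ q / q / (ψ r / r)) =
      (Real.log (ψ q) - Real.log q) - (Real.log (ψ r) - Real.log r) := by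
    rw [Real.log_div (by positivity) (by positivity), Real.log_div hψq.ne' hq'.ne',
      Real.log_div hψr.ne' hr'.ne']
  have e2 : Real.log (ψ r / r / (ψ q / q)) =
      (Real.log (ψ r) - Real.log r) - (Real.log (ψ q) - Real.log q) := by
    rw [Real.log_div (by positivity) (by positivity), Real.log_div hψq.ne' hq'.ne',
      Real.log_div hψr.ne' hr'.ne']
  rw [← e0]
  rcases le_max_iff.1 h with h3 | h3
  · have h4 := Real.log_le_log hpos h3
    rw [e1] at h4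
    exact h4.trans h1
  · have h4 := Real.log_le_log hpos h3
    rw [e2] at h4
    exact h4.trans h2

/-- the pairs at a comparable scale lie in a window -/
theorem n11_pair {c₀ γ s : ℝ} (hc₀ : 0 < c₀) (hs : 0 < s) (hL0 : 0 < Real.log (1 / s))
    (hL : -(384 * Real.log c₀) ≤ Real.log (1 / s)) {ψ : ℕ → ℝ} {q r : ℕ} (hq : 0 < q)
    (hr : 0 < r) (hψq : 0 < ψ q) (hψr : 0 < ψ r) (hsep : q < r → ArcSep c₀ ψ q r)
    (hsep' : r < q → ArcSep c₀ ψ r q) (h : TA γ ψ s q r)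
    (h1 : s ^ (193 / 192 : ℝ) < (cofac r q : ℝ) * ψ q)
    (h2 : s ^ (193 / 192 : ℝ) < (cofac q r : ℝ) * ψ r) :
    (n11_j ψ s r ≤ n11_j ψ s q + 1 ∧ n11_j ψ s q ≤ n11_j ψ s r + 1) ∧
    NWin γ s (n11_V s (n11_j ψ s q)) (cofac q r) (cofac r q) ∧ Szs ψ s q r := by
  obtain ⟨⟨hne, h3, h4, h5⟩, hfar, -⟩ := h
  have hu : (0 : ℝ) < cofac q r := by exact_mod_cast cofac_pos r hq
  have hv : (0 : ℝ) < cofac r q := by exact_mod_cast cofac_pos q hr
  have hq' : (0 : ℝ) < q := by exact_mod_cast hq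
  have hr' : (0 : ℝ) < r := by exact_mod_cast hr
  obtain ⟨L, hLdef⟩ : ∃ L, L = Real.log (1 / s) := ⟨_, rfl⟩
  obtain ⟨a, ha⟩ : ∃ a, a = Real.log (cofac q r : ℝ) := ⟨_, rfl⟩
  obtain ⟨b, hb⟩ : ∃ b, b = Real.log (cofac r q : ℝ) := ⟨_, rfl⟩
  obtain ⟨p, hp⟩ : ∃ p, p = Real.log (ψ q) := ⟨_, rfl⟩
  obtain ⟨t, ht⟩ : ∃ t, t = Real.log (ψ r) := ⟨_, rfl⟩
  rw [← hLdef] at hL0 hL
  have hlogs : Real.log s = -L := by rw [hLdef, one_div, Real.log_inv, neg_neg]
  have g1 : b + p ≤ -L := by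
    have := Real.log_le_log (by positivity) h3
    rwa [Real.log_mul hv.ne' hψq.ne', ← hb, ← hp, hlogs] at this
  have g2 : a + t ≤ -L := by
    have := Real.log_le_log (by positivity) h4
    rwa [Real.log_mul hu.ne' hψr.ne', ← ha, ← ht, hlogs] at this
  have g3 : -(193 / 192) * L < b + p := by
    have := Real.log_lt_log (by positivity) h1
    rwa [Real.log_mul hv.ne' hψq.ne', ← hb, ← hp, n11_log_rpow hs, ← hLdef] at this
  have g4 : -(193 / 192) * L < a + t := by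
    have := Real.log_lt_log (by positivity) h2
    rwa [Real.log_mul hu.ne' hψr.ne', ← ha, ← ht, n11_log_rpow hs, ← hLdef] at this
  have g5 : a - b = Real.log q - Real.log r := by
    have e : (cofac q r : ℝ) * r = cofac r q * q := by
      have e1 := gcd_mul_cofac q r
      have e2 := gcd_mul_cofac r q
      rw [Nat.gcd_comm r q] at e2
      have e3 : cofac q r * r = cofac r q * q := by
        calc cofac q r * r = cofac q r * (Nat.gcd q r * cofac r q) := by rw [e2]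
          _ = cofac r q * (Nat.gcd q r * cofac q r) := by ring
          _ = cofac r q * q := by rw [e1]
      exact_mod_cast e3
    have e4 := congrArg Real.log e
    rw [Real.log_mul hu.ne' hr'.ne', Real.log_mul hv.ne' hq'.ne', ← ha, ← hb] at e4
    linarith only [e4]
  have g6 : |a - b| ≤ L / 32 := by
    rw [abs_le]
    rcases lt_trichotomy q r with hqr | hqr | hqr
    · have h6 := n11_sep (D := L / 192) hc₀ hq hr hψq hψr (hsep hqr)
        (by rw [← hp, ← ht]; linarith only [g1, g2, g3, g4, g5])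
        (by rw [← hp, ← ht]; linarith only [g1, g2, g3, g4, g5])
      have h7 : Real.log q ≤ Real.log r :=
        Real.log_le_log hq' (by exact_mod_cast hqr.le)
      constructor
      · linarith only [h6, g5, hL]
      · linarith only [h7, g5, hL0]
    · rw [hqr] at g5
      constructor <;> linarith only [g5, hL0]
    · have h6 := n11_sep (D := L / 192) hc₀ hr hq hψr hψq (hsep' hqr)
        (by rw [← hp, ← ht]; linarith only [g1, g2, g3, g4, g5])
        (by rw [← hp, ← ht]; linarith only [g1, g2, g3, g4, g5])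
      have h7 : Real.log r ≤ Real.log q :=
        Real.log_le_log hr' (by exact_mod_cast hqr.le)
      constructor
      · linarith only [h7, g5, hL0]
      · linarith only [h6, g5, hL]
  rw [abs_le] at g6
  obtain ⟨g7, g8⟩ := g6
  have hl : 0 < 3 / 64 * L := by linarith only [hL0]
  have g9 : -p / (3 / 64 * L) ≤ -t / (3 / 64 * L) + 1 := by
    rw [div_add_one hl.ne', div_le_div_iff_of_pos_right hl]
    linarith only [g1, g2, g3, g4, g7, g8, hL0]
  have g10 : -t / (3 / 64 * L) ≤ -p / (3 / 64 * L) + 1 := by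
    rw [div_add_one hl.ne', div_le_div_iff_of_pos_right hl]
    linarith only [hL0, g8, g4, g1]
  have hjq : n11_j ψ s q = ⌊-p / (3 / 64 * L)⌋ := by rw [n11_j, ← hp, ← hLdef]
  have hjr : n11_j ψ s r = ⌊-t / (3 / 64 * L)⌋ := by rw [n11_j, ← ht, ← hLdef]
  have g11 : (n11_j ψ s q : ℝ) * (3 / 64 * L) ≤ -p := by
    rw [hjq, ← le_div_iff₀ hl]
    exact Int.floor_le _
  have g12 : -p < ((n11_j ψ s q : ℝ) + 1) * (3 / 64 * L) := by
    rw [hjq, ← div_lt_iff₀ hl]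
    exact Int.lt_floor_add_one _
  refine ⟨⟨?_, ?_⟩, ⟨?_, ?_, ?_, h5, hfar⟩, h3, h4⟩
  · rw [hjq, hjr, ← Int.floor_add_one]
    exact Int.floor_le_floor g10
  · rw [hjq, hjr, ← Int.floor_add_one]
    exact Int.floor_le_floor g9
  · refine le_trans ?_ (le_max_right _ _)
    rw [← Real.log_le_log_iff (n11_V_pos _ _) hv, n11_log_V, ← hb, ← hLdef]
    linarith only [g11, g3]
  · have e : n11_V s (n11_j ψ s q) * s ^ (-(3 / 16) : ℝ) =
        Real.exp (-(193 / 192) * L + n11_j ψ s q * (3 / 64 * L) + 3 / 16 * L) := by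
      rw [n11_V, n11_rpow hs, ← Real.exp_add, ← hLdef]
      congr 1
      ring
    rw [e]
    have k : ∀ x : ℝ, 0 < x → Real.log x ≤ -(193 / 192) * L + n11_j ψ s q * (3 / 64 * L) +
        3 / 16 * L → x ≤ Real.exp (-(193 / 192) * L + n11_j ψ s q * (3 / 64 * L) +
        3 / 16 * L) := fun x hx hx2 => (Real.log_le_iff_le_exp hx).1 hx2
    refine max_le (k _ hu ?_) (k _ hv ?_)
    · rw [← ha]
      linarith only [hL0, g8, g1, g12]
    · rw [← hb]
      linarith only [hL0, g1, g12]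
  · rw [n11_rpow hs, ← hLdef]
    have e1 : (cofac q r : ℝ) = Real.exp a := by rw [ha, Real.exp_log hu]
    have e2 : (cofac r q : ℝ) = Real.exp b := by rw [hb, Real.exp_log hv]
    rw [e1, e2]
    have k : ∀ x y : ℝ, x ≤ y + L / 32 → Real.exp (-(1 / 32) * L) * Real.exp x ≤ Real.exp y := by
      intro x y hxy
      rw [← Real.exp_add]
      apply Real.exp_le_exp.2
      linarith only [hxy]
    rcases le_total a b with hab | hab
    · rw [max_eq_right (Real.exp_le_exp.2 hab), min_eq_left (Real.exp_le_exp.2 hab)]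
      exact k _ _ (by linarith only [g7])
    · rw [max_eq_left (Real.exp_le_exp.2 hab), min_eq_right (Real.exp_le_exp.2 hab)]
      exact k _ _ (by linarith only [g8])

/-- sums over finitely many relations -/
theorem n11_exists (J : Finset ℤ) (R : ℤ → ℕ → ℕ → Prop) (N : ℕ) (f : ℕ → ℝ)
    (hf : ∀ q, 0 ≤ f q) :
    psum (fun q r => ∃ j ∈ J, R j q r) N f f ≤ ∑ j ∈ J, psum (R j) N f f := by
  classical
  induction J using Finset.induction_on with
  | empty =>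
    have : psum (fun q r => ∃ j ∈ (∅ : Finset ℤ), R j q r) N f f = 0 := by
      unfold psum
      simp
    rw [this]
    simp
  | insert a J ha ih =>
    rw [sum_insert ha]
    refine (psum_or_le _ (R a) (fun q r => ∃ j ∈ J, R j q r) N f f hf hf ?_).trans
      (add_le_add le_rfl ih)
    rintro q r ⟨j, hj, hR⟩
    rcases mem_insert.1 hj with rfl | hj
    · exact Or.inl hR
    · exact Or.inr ⟨j, hj, hR⟩

open Classical in
/-- the part of `f` near the scale `j` -/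
noncomputable def n11_f (ψ f : ℕ → ℝ) (s : ℝ) (j : ℤ) (q : ℕ) : ℝ :=
  if n11_j ψ s q ≤ j + 1 ∧ j ≤ n11_j ψ s q + 1 then f q else 0

theorem n11_f_sum (ψ f : ℕ → ℝ) (s : ℝ) (J : Finset ℤ) (N : ℕ) (hf : ∀ q, 0 ≤ f q) :
    ∑ j ∈ J, ∑ q ∈ Icc 1 N, n11_f ψ f s j q ≤ 3 * ∑ q ∈ Icc 1 N, f q := by
  classical
  rw [sum_comm, mul_sum]
  refine sum_le_sum fun q _ => ?_
  unfold n11_f
  rw [← sum_filter, sum_const, nsmul_eq_mul]
  apply mul_le_mul_of_nonneg_right _ (hf q)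
  have h1 : J.filter (fun j => n11_j ψ s q ≤ j + 1 ∧ j ≤ n11_j ψ s q + 1) ⊆
      Icc (n11_j ψ s q - 1) (n11_j ψ s q + 1) := by
    intro j hj
    rw [mem_filter] at hj
    rw [mem_Icc]
    omega
  have h2 := card_le_card h1
  rw [Int.card_Icc] at h2
  have h3 : (J.filter (fun j => n11_j ψ s q ≤ j + 1 ∧ j ≤ n11_j ψ s q + 1)).card ≤ 3 := by
    omega
  exact_mod_cast h3

/-- the numerical conditions on the level -/
theorem n11_num {c₀ s₀ ε₁ : ℝ} (hs₀ : 0 < s₀) (hε₁ : 0 < ε₁) :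
    ∃ s₁ > 0, s₁ ≤ 1 / 1000 ∧ ∀ s : ℝ, 0 < s → s ≤ s₁ → s ≤ s₀ ∧
      -(384 * Real.log c₀) ≤ Real.log (1 / s) ∧
      100 * Real.log (1 / s) ^ 2 + Real.log (1 / s) ≤ s ^ (-ε₁) := by
  have h1 : (fun x : ℝ => Real.log x ^ (2 : ℝ)) =o[Filter.atTop] (fun x : ℝ => x ^ ε₁) :=
    isLittleO_log_rpow_rpow_atTop 2 hε₁
  have h2 : (fun x : ℝ => Real.log x) =o[Filter.atTop] (fun x : ℝ => x ^ ε₁) :=
    isLittleO_log_rpow_atTop hε₁
  have h3 := ((h1.const_mul_left 100).add h2).bound one_pos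
  have h4 : ∀ᶠ x : ℝ in Filter.atTop, -(384 * Real.log c₀) ≤ Real.log x :=
    Real.tendsto_log_atTop.eventually_ge_atTop _
  obtain ⟨X, hX⟩ := Filter.eventually_atTop.1
    ((h3.and h4).and (Filter.eventually_ge_atTop (1 / s₀)))
  obtain ⟨Y, hY⟩ : ∃ Y, Y = max X 1000 := ⟨_, rfl⟩
  have hY1 : 1000 ≤ Y := by rw [hY]; exact le_max_right _ _
  have hYX : X ≤ Y := by rw [hY]; exact le_max_left _ _
  have hY0 : 0 < Y := by linarith only [hY1]
  refine ⟨1 / Y, by positivity, one_div_le_one_div_of_le (by norm_num) hY1, fun s hs hsY => ?_⟩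
  have h5 : Y ≤ 1 / s := by
    rw [le_div_iff₀ hs]
    rw [le_div_iff₀ hY0] at hsY
    linarith only [hsY]
  obtain ⟨⟨h6, h7⟩, h8⟩ := hX (1 / s) (hYX.trans h5)
  refine ⟨?_, h7, ?_⟩
  · rw [one_div_le_one_div hs₀ hs] at h8
    exact h8
  · rw [one_mul, Real.norm_eq_abs, Real.norm_eq_abs, Real.rpow_two] at h6
    have h9 := (le_abs_self _).trans h6
    rw [abs_of_nonneg (by positivity), one_div, Real.inv_rpow hs.le, ← Real.rpow_neg hs.le,
      ← one_div] at h9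
    exact h9

/-- far pairs at one level for separated arcs, from the window theorem -/
theorem n11_typeA_of {c₀ : ℝ} (hc₀ : 0 < c₀)
    (hwin : ∃ C > 0, ∃ s₀ > 0, ∀ γ s V : ℝ, NHyp s₀ s V →
      ∀ (N : ℕ) (ψ f : ℕ → ℝ), (∀ q, 0 ≤ ψ q) → (∀ q, 0 ≤ f q ∧ f q ≤ ψ q * (q.totient / q)) →
      psum (fun q r => NWin γ s V (cofac q r) (cofac r q) ∧ Szs ψ s q r) N f f ≤
        C * s ^ (1 + 1 / 800 : ℝ) * (∑ q ∈ Icc 1 N, f q) ^ (501 / 500 : ℝ)) :
    ∃ C > 0, ∃ c > (0 : ℝ), ∀ (γ s : ℝ), 0 < s → s ≤ 1 / 1000 →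
    ∀ (N : ℕ) (ψ f : ℕ → ℝ), (∀ q, 0 ≤ ψ q) → (∀ q, 0 ≤ f q ∧ f q ≤ ψ q * (q.totient / q)) →
      (∀ q r : ℕ, 0 < q → q < r → f q ≠ 0 → f r ≠ 0 → ArcSep c₀ ψ q r) →
      psum (TA γ ψ s) N f f ≤
        C * s ^ (1 + c) * ((∑ q ∈ Icc 1 N, f q) + (∑ q ∈ Icc 1 N, f q) ^ 2) := by
  classical
  obtain ⟨C₁, hC₁, s₀, hs₀, hW⟩ := hwin
  obtain ⟨C₂, ε₁, hC₂, hε₁, hnear⟩ := near_part
  obtain ⟨C₃, hC₃, hT⟩ := T1 (θ := 501 / 1000) (by norm_num) (by norm_num)
  obtain ⟨s₁, hs₁, hs₁3, hnum⟩ := n11_num (c₀ := c₀) hs₀ hε₁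
  refine ⟨C₃ * s₁ ^ (-(1 / 400) : ℝ) + 2 * C₃ + C₂ + 3 * C₁, by positivity, 1 / 2000,
    by norm_num, ?_⟩
  intro γ s hs hs3 N ψ f hψ hf hsep
  set F := ∑ q ∈ Icc 1 N, f q with hF
  have hf0 : ∀ q, 0 ≤ f q := fun q => (hf q).1
  have hF0 : 0 ≤ F := sum_nonneg fun q _ => hf0 q
  have hFF : 0 ≤ F + F ^ 2 := by (clear * - hF0; positivity)
  have hs1 : s ≤ 1 := by linarith only [hs3]
  have hsc : 0 < s ^ (1 + 1 / 2000 : ℝ) := Real.rpow_pos_of_pos hs _
  have e3 : (F * F) ^ (501 / 1000 : ℝ) ≤ F + F ^ 2 := by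
    rw [show F * F = F ^ (2 : ℝ) by rw [Real.rpow_two]; ring, ← Real.rpow_mul hF0]
    exact rpow_le_add_sq hF0 (by norm_num) (by norm_num)
  have hfψ : ∀ q, f q ≤ ψ q := by
    intro q
    refine (hf q).2.trans ?_
    calc ψ q * (q.totient / q) ≤ ψ q * 1 := by
          gcongr
          · exact hψ q
          · exact tot_le_one q
      _ = ψ q := mul_one _
  have hψpos : ∀ q, f q ≠ 0 → 0 < ψ q := fun q hq =>
    lt_of_lt_of_le (lt_of_le_of_ne (hf0 q) (Ne.symm hq)) (hfψ q)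
  have hA0 : 0 ≤ C₃ * s₁ ^ (-(1 / 400) : ℝ) := by positivity
  rcases lt_or_ge s₁ s with hbig | hsmall
  · -- large levels
    have h1 := hT ψ ψ f f s s N hs hs hψ hψ hf hf
    have h2 : psum (TA γ ψ s) N f f ≤
        psum (fun q r => (cofac r q : ℝ) * ψ q ≤ s ∧ (cofac q r : ℝ) * ψ r ≤ s) N f f := by
      apply psum_mono _ _ _ _ _ _ _ hf0 hf0
      rintro q _ r _ hR _
      exact ⟨⟨hR.1.2.1, hR.1.2.2.1⟩, le_rfl⟩
    have h3 : (s * s) ^ (1 - 501 / 1000 : ℝ) ≤ s₁ ^ (-(1 / 400) : ℝ) * s ^ (1 + 1 / 2000 : ℝ) := by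
      have h4 : (s * s) ^ (1 - 501 / 1000 : ℝ) =
          s ^ (-(1 / 400) : ℝ) * s ^ (1 + 1 / 2000 : ℝ) := by
        rw [show s * s = s ^ (2 : ℝ) by rw [Real.rpow_two]; ring, ← Real.rpow_mul hs.le,
          ← Real.rpow_add hs]
        congr 1
        norm_num
      rw [h4]
      apply mul_le_mul_of_nonneg_right _ hsc.le
      exact Real.rpow_le_rpow_of_nonpos hs₁ hbig.le (by norm_num)
    calc psum (TA γ ψ s) N f f ≤ _ := h2.trans h1
      _ ≤ C₃ * (s₁ ^ (-(1 / 400) : ℝ) * s ^ (1 + 1 / 2000 : ℝ)) * (F + F ^ 2) := by gcongr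
      _ = (C₃ * s₁ ^ (-(1 / 400) : ℝ)) * (s ^ (1 + 1 / 2000 : ℝ) * (F + F ^ 2)) := by ring
      _ ≤ (C₃ * s₁ ^ (-(1 / 400) : ℝ) + 2 * C₃ + C₂ + 3 * C₁) *
          (s ^ (1 + 1 / 2000 : ℝ) * (F + F ^ 2)) := by
        apply mul_le_mul_of_nonneg_right _ (by (clear * - hs hF0; positivity))
        linarith only [hC₁, hC₂, hC₃]
      _ = _ := by ring
  · -- small levels
    obtain ⟨hss₀, hLc, hLε⟩ := hnum s hs hsmall
    have hL0 : 0 < Real.log (1 / s) := by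
      apply Real.log_pos
      rw [lt_div_iff₀ hs]
      linarith only [hs3]
    have hs' : 0 < s ^ (193 / 192 : ℝ) := Real.rpow_pos_of_pos hs _
    -- the unbalanced parts
    have eT : ∀ x : ℝ, x = s ^ (193 / 192 : ℝ) * s → x ^ (1 - 501 / 1000 : ℝ) ≤
        s ^ (1 + 1 / 2000 : ℝ) := by
      rintro x rfl
      rw [show s ^ (193 / 192 : ℝ) * s = s ^ (385 / 192 : ℝ) by
        nth_rewrite 2 [← Real.rpow_one s]
        rw [← Real.rpow_add hs]
        norm_num, ← Real.rpow_mul hs.le]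
      exact Real.rpow_le_rpow_of_exponent_ge hs hs1 (by norm_num)
    have hU1 : psum (fun q r => (cofac r q : ℝ) * ψ q ≤ s ^ (193 / 192 : ℝ) ∧
        (cofac q r : ℝ) * ψ r ≤ s) N f f ≤ C₃ * s ^ (1 + 1 / 2000 : ℝ) * (F + F ^ 2) := by
      refine (hT ψ ψ f f _ s N hs' hs hψ hψ hf hf).trans ?_
      have := eT _ rfl
      gcongr
    have hU2 : psum (fun q r => (cofac r q : ℝ) * ψ q ≤ s ∧
        (cofac q r : ℝ) * ψ r ≤ s ^ (193 / 192 : ℝ)) N f f ≤
        C₃ * s ^ (1 + 1 / 2000 : ℝ) * (F + F ^ 2) := by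
      refine (hT ψ ψ f f s _ N hs hs' hψ hψ hf hf).trans ?_
      have := eT (s * s ^ (193 / 192 : ℝ)) (mul_comm _ _)
      gcongr
    -- the near part
    have hN := hnear γ s hs hs3 N ψ f (fun q => ⟨hf0 q, hfψ q⟩)
    have hN2 : psum (fun q r => Rel γ ψ s q r ∧ Far γ s (cofac q r) (cofac r q) ∧
        cofac q r ≤ ⌊Real.exp (s ^ (-ε₁))⌋₊ ∧ cofac r q ≤ ⌊Real.exp (s ^ (-ε₁))⌋₊) N f f ≤
        C₂ * s ^ (1 + 1 / 2000 : ℝ) * (F + F ^ 2) := by
      refine hN.trans ?_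
      have : s ^ (1 + 1 / 64 : ℝ) ≤ s ^ (1 + 1 / 2000 : ℝ) :=
        Real.rpow_le_rpow_of_exponent_ge hs hs1 (by norm_num)
      gcongr
    -- the windows
    obtain ⟨J, hJ⟩ : ∃ J : Finset ℤ, J = ((Icc 1 N).image (n11_j ψ s)).filter
      (fun j => 100 * Real.log (1 / s) ^ 2 ≤ Real.log (n11_V s j)) := ⟨_, rfl⟩
    have hwj : ∀ j ∈ J, psum (fun q r => n11_j ψ s q = j ∧
        (n11_j ψ s r ≤ j + 1 ∧ j ≤ n11_j ψ s r + 1) ∧
        NWin γ s (n11_V s j) (cofac q r) (cofac r q) ∧ Szs ψ s q r) N f f ≤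
        C₁ * s ^ (1 + 1 / 2000 : ℝ) * ((1 + F) * ∑ q ∈ Icc 1 N, n11_f ψ f s j q) := by
      intro j hj
      have hj2 : 100 * Real.log (1 / s) ^ 2 ≤ Real.log (n11_V s j) := by
        rw [hJ, mem_filter] at hj
        exact hj.2
      have hfj : ∀ q, 0 ≤ n11_f ψ f s j q ∧ n11_f ψ f s j q ≤ f q := by
        intro q
        unfold n11_f
        split_ifs
        · exact ⟨hf0 q, le_rfl⟩
        · exact ⟨le_rfl, hf0 q⟩
      have h1 := hW γ s (n11_V s j) ⟨hs, hss₀, n11_V_pos s j, hj2⟩ N ψ (n11_f ψ f s j) hψ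
        (fun q => ⟨(hfj q).1, (hfj q).2.trans (hf q).2⟩)
      have h2 : psum (fun q r => n11_j ψ s q = j ∧
          (n11_j ψ s r ≤ j + 1 ∧ j ≤ n11_j ψ s r + 1) ∧
          NWin γ s (n11_V s j) (cofac q r) (cofac r q) ∧ Szs ψ s q r) N f f ≤
          psum (fun q r => NWin γ s (n11_V s j) (cofac q r) (cofac r q) ∧ Szs ψ s q r) N
            (n11_f ψ f s j) (n11_f ψ f s j) := by
        apply psum_mono _ _ _ _ _ _ _ (fun q => (hfj q).1) (fun q => (hfj q).1)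
        rintro q _ r _ ⟨hq, hr, h3⟩ _
        refine ⟨h3, le_of_eq ?_⟩
        have e1 : n11_f ψ f s j q = f q := by
          unfold n11_f
          rw [if_pos ⟨by omega, by omega⟩]
        have e2 : n11_f ψ f s j r = f r := by
          unfold n11_f
          rw [if_pos hr]
        rw [e1, e2]
      set Fj := ∑ q ∈ Icc 1 N, n11_f ψ f s j q with hFj
      have hFj0 : 0 ≤ Fj := sum_nonneg fun q _ => (hfj q).1
      have hFjF : Fj ≤ F := sum_le_sum fun q _ => (hfj q).2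
      have h3 : Fj ^ (501 / 500 : ℝ) ≤ (1 + F) * Fj := by
        refine (rpow_le_add_sq hFj0 (by norm_num) (by norm_num)).trans ?_
        linarith only [mul_nonneg (sub_nonneg.2 hFj0) (sub_nonneg.2 hFjF)]
      have h4 : s ^ (1 + 1 / 800 : ℝ) ≤ s ^ (1 + 1 / 2000 : ℝ) :=
        Real.rpow_le_rpow_of_exponent_ge hs hs1 (by norm_num)
      calc _ ≤ _ := h2.trans h1
        _ ≤ _ := by gcongr
    have hWall : psum (fun q r => ∃ j ∈ J, n11_j ψ s q = j ∧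
        (n11_j ψ s r ≤ j + 1 ∧ j ≤ n11_j ψ s r + 1) ∧
        NWin γ s (n11_V s j) (cofac q r) (cofac r q) ∧ Szs ψ s q r) N f f ≤
        3 * C₁ * s ^ (1 + 1 / 2000 : ℝ) * (F + F ^ 2) := by
      refine (n11_exists J (fun j q r => n11_j ψ s q = j ∧
        (n11_j ψ s r ≤ j + 1 ∧ j ≤ n11_j ψ s r + 1) ∧
        NWin γ s (n11_V s j) (cofac q r) (cofac r q) ∧ Szs ψ s q r) N f hf0).trans ?_
      refine (sum_le_sum hwj).trans ?_
      rw [← mul_sum, ← mul_sum]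
      have h1 := n11_f_sum ψ f s J N hf0
      rw [← hF] at h1
      calc C₁ * s ^ (1 + 1 / 2000 : ℝ) * ((1 + F) * ∑ j ∈ J, ∑ q ∈ Icc 1 N, n11_f ψ f s j q)
          ≤ C₁ * s ^ (1 + 1 / 2000 : ℝ) * ((1 + F) * (3 * F)) := by gcongr
        _ = _ := by ring
    -- the decomposition
    have hdec : psum (TA γ ψ s) N f f ≤
        psum (fun q r => (cofac r q : ℝ) * ψ q ≤ s ^ (193 / 192 : ℝ) ∧
          (cofac q r : ℝ) * ψ r ≤ s) N f f +
        (psum (fun q r => (cofac r q : ℝ) * ψ q ≤ s ∧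
          (cofac q r : ℝ) * ψ r ≤ s ^ (193 / 192 : ℝ)) N f f +
        (psum (fun q r => Rel γ ψ s q r ∧ Far γ s (cofac q r) (cofac r q) ∧
          cofac q r ≤ ⌊Real.exp (s ^ (-ε₁))⌋₊ ∧ cofac r q ≤ ⌊Real.exp (s ^ (-ε₁))⌋₊) N f f +
        psum (fun q r => ∃ j ∈ J, n11_j ψ s q = j ∧
          (n11_j ψ s r ≤ j + 1 ∧ j ≤ n11_j ψ s r + 1) ∧
          NWin γ s (n11_V s j) (cofac q r) (cofac r q) ∧ Szs ψ s q r) N f f)) := by
      have h1 : psum (TA γ ψ s) N f f ≤ psum (fun q r => TA γ ψ s q r ∧ f q ≠ 0 ∧ f r ≠ 0 ∧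
          q ∈ Icc 1 N ∧ r ∈ Icc 1 N) N f f := by
        apply psum_mono _ _ _ _ _ _ _ hf0 hf0
        rintro q hq r hr hR hne
        exact ⟨⟨hR, left_ne_zero_of_mul hne, right_ne_zero_of_mul hne, hq, hr⟩, le_rfl⟩
      refine h1.trans ?_
      refine (psum_or_le _ (fun q r => (cofac r q : ℝ) * ψ q ≤ s ^ (193 / 192 : ℝ) ∧
          (cofac q r : ℝ) * ψ r ≤ s) (fun q r => (TA γ ψ s q r ∧ f q ≠ 0 ∧ f r ≠ 0 ∧
          q ∈ Icc 1 N ∧ r ∈ Icc 1 N) ∧ s ^ (193 / 192 : ℝ) < (cofac r q : ℝ) * ψ q)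
        N f f hf0 hf0 ?_).trans (add_le_add le_rfl ?_)
      · intro q r hR
        rcases le_or_gt ((cofac r q : ℝ) * ψ q) (s ^ (193 / 192 : ℝ)) with h2 | h2
        · exact Or.inl ⟨h2, hR.1.1.2.2.1⟩
        · exact Or.inr ⟨hR, h2⟩
      refine (psum_or_le _ (fun q r => (cofac r q : ℝ) * ψ q ≤ s ∧
          (cofac q r : ℝ) * ψ r ≤ s ^ (193 / 192 : ℝ)) (fun q r => (TA γ ψ s q r ∧ f q ≠ 0 ∧
          f r ≠ 0 ∧ q ∈ Icc 1 N ∧ r ∈ Icc 1 N) ∧
          s ^ (193 / 192 : ℝ) < (cofac r q : ℝ) * ψ q ∧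
          s ^ (193 / 192 : ℝ) < (cofac q r : ℝ) * ψ r)
        N f f hf0 hf0 ?_).trans (add_le_add le_rfl ?_)
      · rintro q r ⟨hR, h2⟩
        rcases le_or_gt ((cofac q r : ℝ) * ψ r) (s ^ (193 / 192 : ℝ)) with h3 | h3
        · exact Or.inl ⟨hR.1.1.2.1, h3⟩
        · exact Or.inr ⟨hR, h2, h3⟩
      apply psum_or_le _ _ _ _ _ _ hf0 hf0
      rintro q r ⟨⟨hTA, hq, hr, hqN, hrN⟩, h2, h3⟩
      have hq0 : 0 < q := by
        have := (mem_Icc.1 hqN).1
        omega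
      have hr0 : 0 < r := by
        have := (mem_Icc.1 hrN).1
        omega
      obtain ⟨h4, h5, h6⟩ := n11_pair hc₀ hs hL0 hLc hq0 hr0 (hψpos q hq) (hψpos r hr)
        (fun h => hsep q r hq0 h hq hr) (fun h => hsep r q hr0 h hr hq) hTA h2 h3
      by_cases h7 : 100 * Real.log (1 / s) ^ 2 ≤ Real.log (n11_V s (n11_j ψ s q))
      · right
        refine ⟨n11_j ψ s q, ?_, rfl, ⟨h4.1, h4.2⟩, h5, h6⟩
        rw [hJ, mem_filter]
        exact ⟨mem_image_of_mem _ hqN, h7⟩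
      · left
        rw [not_le] at h7
        have hVs : n11_V s (n11_j ψ s q) * s ^ (-(3 / 16) : ℝ) ≤ Real.exp (s ^ (-ε₁)) := by
          have e : n11_V s (n11_j ψ s q) * s ^ (-(3 / 16) : ℝ) =
              Real.exp (Real.log (n11_V s (n11_j ψ s q)) + 3 / 16 * Real.log (1 / s)) := by
            rw [Real.exp_add, Real.exp_log (n11_V_pos _ _), n11_rpow hs]
            congr 2
            ring
          rw [e]
          apply Real.exp_le_exp.2
          linarith only [h7, hLε, hL0]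
        refine ⟨hTA.1, hTA.2.1, Nat.le_floor ?_, Nat.le_floor ?_⟩
        · exact (le_max_left _ _).trans (h5.2.1.trans hVs)
        · exact (le_max_right _ _).trans (h5.2.1.trans hVs)
    calc psum (TA γ ψ s) N f f ≤ _ := hdec
      _ ≤ C₃ * s ^ (1 + 1 / 2000 : ℝ) * (F + F ^ 2) + (C₃ * s ^ (1 + 1 / 2000 : ℝ) * (F + F ^ 2) +
          (C₂ * s ^ (1 + 1 / 2000 : ℝ) * (F + F ^ 2) +
          3 * C₁ * s ^ (1 + 1 / 2000 : ℝ) * (F + F ^ 2))) :=
        add_le_add hU1 (add_le_add hU2 (add_le_add hN2 hWall))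
      _ = (2 * C₃ + C₂ + 3 * C₁) * (s ^ (1 + 1 / 2000 : ℝ) * (F + F ^ 2)) := by ring
      _ ≤ (C₃ * s₁ ^ (-(1 / 400) : ℝ) + 2 * C₃ + C₂ + 3 * C₁) *
          (s ^ (1 + 1 / 2000 : ℝ) * (F + F ^ 2)) := by
        apply mul_le_mul_of_nonneg_right _ (by (clear * - hs hF0; positivity))
        linarith only [hA0]
      _ = _ := by ring

/-- far pairs at one level for separated arcs -/
theorem typeA_sep {c₀ : ℝ} (hc₀ : 0 < c₀) :
    ∃ C > 0, ∃ c > (0 : ℝ), ∀ (γ s : ℝ), 0 < s → s ≤ 1 / 1000 →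
    ∀ (N : ℕ) (ψ f : ℕ → ℝ), (∀ q, 0 ≤ ψ q) → (∀ q, 0 ≤ f q ∧ f q ≤ ψ q * (q.totient / q)) →
      (∀ q r : ℕ, 0 < q → q < r → f q ≠ 0 → f r ≠ 0 → ArcSep c₀ ψ q r) →
      psum (TA γ ψ s) N f f ≤
        C * s ^ (1 + c) * ((∑ q ∈ Icc 1 N, f q) + (∑ q ∈ Icc 1 N, f q) ^ 2) :=
  n11_typeA_of hc₀ window_N

end Vale.P028
end

section

/-!
# Pairs at a small distance, separated arcs
-/

namespace Vale.P028

open Finset

/-- pairs at one small level for separated arcs -/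
theorem n12_level {c₀ : ℝ} (hc₀ : 0 < c₀) :
    ∃ C c : ℝ, 0 < C ∧ 0 < c ∧
      ∀ γ s : ℝ, 0 < s → s ≤ 1 / 1000 →
      ∀ (N : ℕ) (ψ f : ℕ → ℝ), (∀ q, 0 ≤ ψ q) →
        (∀ q, 0 ≤ f q ∧ f q ≤ ψ q * (q.totient / q)) →
        (∀ q r : ℕ, 0 < q → q < r → f q ≠ 0 → f r ≠ 0 → ArcSep c₀ ψ q r) →
        wsum (TA γ ψ s) N f f (fun q r => GG (cofac q r * cofac r q)) +
          wsum (UB ψ s) N f f (fun q r => GG (cofac q r * cofac r q)) ≤
          C * s ^ (1 + c) * ((∑ q ∈ Icc 1 N, f q) + (∑ q ∈ Icc 1 N, f q) ^ 2) := by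
  obtain ⟨C₁, hC₁, c₁, hc₁, hTA⟩ := typeA_sep hc₀
  obtain ⟨C₂, hC₂, hUB⟩ := typeU
  obtain ⟨C₃, hC₃, hG1⟩ := GG_transfer (half_pos hc₁)
  obtain ⟨C₄, hC₄, hG2⟩ := GG_transfer (η := 1 / 5) (by norm_num)
  obtain ⟨c, hc⟩ : ∃ c : ℝ, c = min (c₁ / 2) (1 / 5) := ⟨_, rfl⟩
  have hc0 : 0 < c := by rw [hc]; exact lt_min (half_pos hc₁) (by norm_num)
  have hcc1 : c ≤ c₁ / 2 := by rw [hc]; exact min_le_left _ _
  have hcc2 : c ≤ 1 / 5 := by rw [hc]; exact min_le_right _ _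
  refine ⟨C₃ * C₁ + C₃ + (C₄ * C₂ + C₄), c, by (clear * - hC₃ hC₁ hC₄ hC₂; positivity), hc0, ?_⟩
  intro γ s hs hs3 N ψ f hψ hf hsep
  set F : ℝ := ∑ q ∈ Icc 1 N, f q with hFdef
  have hf0 : ∀ q, 0 ≤ f q := fun q => (hf q).1
  have hF0 : 0 ≤ F := sum_nonneg fun q _ => hf0 q
  have hFF : 0 ≤ F + F ^ 2 := by (clear * - hF0; positivity)
  have hs1 : s ≤ 1 := by linarith only [hs3]
  have hp : 0 ≤ s ^ (1 + c) := Real.rpow_nonneg hs.le _
  have hs2 : s ^ 2 ≤ s ^ (1 + c) := by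
    rw [← Real.rpow_two]
    exact Real.rpow_le_rpow_of_exponent_ge hs hs1 (by linarith only [hcc2])
  have h1 := hG1 (TA γ ψ s) s N ψ f hs hs3 hψ hf (fun q r h => ⟨h.1.2.1, h.1.2.2.1⟩)
  have h2 := hG2 (UB ψ s) s N ψ f hs hs3 hψ hf (fun q r h => ⟨h.1, h.2.1⟩)
  have h3 := hTA γ s hs hs3 N ψ f hψ hf hsep
  have h4 := hUB s N ψ f hs hs1 hψ hf
  have e1 : s ^ (-(c₁ / 2)) * s ^ (1 + c₁) ≤ s ^ (1 + c) := by
    rw [← Real.rpow_add hs]
    exact Real.rpow_le_rpow_of_exponent_ge hs hs1 (by linarith only [hcc1])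
  have e2 : s ^ (-(1 / 5) : ℝ) * s ^ (7 / 5 : ℝ) ≤ s ^ (1 + c) := by
    rw [← Real.rpow_add hs]
    exact Real.rpow_le_rpow_of_exponent_ge hs hs1 (by linarith only [hcc2])
  have hq1 : 0 ≤ s ^ (-(c₁ / 2)) := Real.rpow_nonneg hs.le _
  have hq2 : 0 ≤ s ^ (-(1 / 5) : ℝ) := Real.rpow_nonneg hs.le _
  have f1 : wsum (TA γ ψ s) N f f (fun q r => GG (cofac q r * cofac r q)) ≤
      (C₃ * C₁ + C₃) * s ^ (1 + c) * (F + F ^ 2) := by
    calc _ ≤ C₃ * s ^ (-(c₁ / 2)) * psum (TA γ ψ s) N f f + C₃ * s ^ 2 * (F + F ^ 2) := h1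
      _ ≤ C₃ * s ^ (-(c₁ / 2)) * (C₁ * s ^ (1 + c₁) * (F + F ^ 2)) +
          C₃ * s ^ (1 + c) * (F + F ^ 2) := by (clear * - h3 hC₃ hs hs2 hF0; gcongr)
      _ = C₃ * C₁ * (s ^ (-(c₁ / 2)) * s ^ (1 + c₁)) * (F + F ^ 2) +
          C₃ * s ^ (1 + c) * (F + F ^ 2) := by ring
      _ ≤ C₃ * C₁ * s ^ (1 + c) * (F + F ^ 2) + C₃ * s ^ (1 + c) * (F + F ^ 2) := by (clear * - e1 hC₃ hC₁ hF0; gcongr)
      _ = _ := by ring
  have f2 : wsum (UB ψ s) N f f (fun q r => GG (cofac q r * cofac r q)) ≤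
      (C₄ * C₂ + C₄) * s ^ (1 + c) * (F + F ^ 2) := by
    calc _ ≤ C₄ * s ^ (-(1 / 5) : ℝ) * psum (UB ψ s) N f f + C₄ * s ^ 2 * (F + F ^ 2) := h2
      _ ≤ C₄ * s ^ (-(1 / 5) : ℝ) * (C₂ * s ^ (7 / 5 : ℝ) * (F + F ^ 2)) +
          C₄ * s ^ (1 + c) * (F + F ^ 2) := by (clear * - h4 hC₄ hs hs2 hF0; gcongr)
      _ = C₄ * C₂ * (s ^ (-(1 / 5) : ℝ) * s ^ (7 / 5 : ℝ)) * (F + F ^ 2) +
          C₄ * s ^ (1 + c) * (F + F ^ 2) := by ring
      _ ≤ C₄ * C₂ * s ^ (1 + c) * (F + F ^ 2) + C₄ * s ^ (1 + c) * (F + F ^ 2) := by (clear * - e2 hC₄ hC₂ hF0; gcongr)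
      _ = _ := by ring
  calc _ ≤ (C₃ * C₁ + C₃) * s ^ (1 + c) * (F + F ^ 2) +
      (C₄ * C₂ + C₄) * s ^ (1 + c) * (F + F ^ 2) := add_le_add f1 f2
    _ = _ := by ring

/-- the pairs at a small distance for separated arcs -/
theorem small_sum_sep {c₀ : ℝ} (hc₀ : 0 < c₀) : ∃ C > 0, ∀ (γ : ℝ) (N : ℕ) (ψ f : ℕ → ℝ),
    (∀ q, 0 ≤ ψ q) → (∀ q, 0 ≤ f q ∧ f q ≤ ψ q * (q.totient / q)) →
      (∀ q r : ℕ, 0 < q → q < r → f q ≠ 0 → f r ≠ 0 → ArcSep c₀ ψ q r) →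
      wsum (SmallRel γ ψ) N f f
        (fun q r => GG (cofac q r * cofac r q) / DD q r (ψ q) (ψ r)) ≤
        C * ((∑ q ∈ Icc 1 N, f q) + (∑ q ∈ Icc 1 N, f q) ^ 2) := by
  classical
  obtain ⟨C, c, hC, hc, hlev⟩ := n12_level hc₀
  have hc1 : (1 / 2 : ℝ) ^ c < 1 := Real.rpow_lt_one (by norm_num) (by norm_num) hc
  refine ⟨2 * C * (1 - (1 / 2 : ℝ) ^ c)⁻¹, ?_, ?_⟩
  · have : 0 < 1 - (1 / 2 : ℝ) ^ c := by linarith only [hc1]
    positivity
  intro γ N ψ f hψ hf hsep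
  set F : ℝ := ∑ q ∈ Icc 1 N, f q with hFdef
  have hf0 : ∀ q, 0 ≤ f q := fun q => (hf q).1
  have hF0 : 0 ≤ F := sum_nonneg fun q _ => hf0 q
  have hFF : 0 ≤ F + F ^ 2 := by (clear * - hF0; positivity)
  -- the dyadic index
  have hj : ∀ q r : ℕ, ∃ j : ℕ, 0 < DD q r (ψ q) (ψ r) → DD q r (ψ q) (ψ r) ≤ 1 →
      DD q r (ψ q) (ψ r) ≤ (1 / 2 : ℝ) ^ j ∧ (1 / 2 : ℝ) ^ j / 2 < DD q r (ψ q) (ψ r) := by
    intro q r
    by_cases h : 0 < DD q r (ψ q) (ψ r) ∧ DD q r (ψ q) (ψ r) ≤ 1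
    · obtain ⟨j, hj⟩ := exists_dyadic h.1 h.2
      exact ⟨j, fun _ _ => hj⟩
    · exact ⟨0, fun h1 h2 => absurd ⟨h1, h2⟩ h⟩
  choose j hj using hj
  set J : ℕ := (Icc 1 N ×ˢ Icc 1 N).sup (fun p => j p.1 p.2) + 1 with hJ
  have hjJ : ∀ q ∈ Icc 1 N, ∀ r ∈ Icc 1 N, j q r < J := by
    intro q hq r hr
    have hm : ((q, r) : ℕ × ℕ) ∈ Icc 1 N ×ˢ Icc 1 N := mem_product.mpr ⟨hq, hr⟩
    have h1 := Finset.le_sup (f := fun p : ℕ × ℕ => j p.1 p.2) hm
    simp only at h1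
    omega
  set G : ℕ → ℕ → ℝ := fun q r => GG (cofac q r * cofac r q) with hG
  have hG0 : ∀ q r, 0 ≤ G q r := fun q r => GG_nonneg _
  -- pointwise
  have hpt : ∀ q ∈ Icc 1 N, ∀ r ∈ Icc 1 N,
      (if SmallRel γ ψ q r then f q * f r * (G q r / DD q r (ψ q) (ψ r)) else 0) ≤
      ∑ i ∈ (range J).filter (fun i => 10 ≤ i), 2 * (2 : ℝ) ^ i *
        ((if TA γ ψ ((1 / 2 : ℝ) ^ i) q r then f q * f r * G q r else 0) +
          (if UB ψ ((1 / 2 : ℝ) ^ i) q r then f q * f r * G q r else 0)) := by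
    intro q hq r hr
    have hq0 : 0 < q := by rw [mem_Icc] at hq; omega
    have hr0 : 0 < r := by rw [mem_Icc] at hr; omega
    have hnn : 0 ≤ f q * f r := mul_nonneg (hf0 q) (hf0 r)
    have hfG : 0 ≤ f q * f r * G q r := mul_nonneg hnn (hG0 q r)
    have hterm : ∀ i ∈ (range J).filter (fun i => 10 ≤ i), 0 ≤ 2 * (2 : ℝ) ^ i *
        ((if TA γ ψ ((1 / 2 : ℝ) ^ i) q r then f q * f r * G q r else 0) +
          (if UB ψ ((1 / 2 : ℝ) ^ i) q r then f q * f r * G q r else 0)) := by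
      intro i _
      apply mul_nonneg (by positivity)
      apply add_nonneg <;> split_ifs <;> first | exact hfG | exact le_rfl
    have hs := sum_nonneg hterm
    by_cases hR : SmallRel γ ψ q r
    · rw [if_pos hR]
      by_cases hne : f q * f r = 0
      · rw [hne, zero_mul]
        rw [hne] at hs
        exact hs
      · have hfq : f q ≠ 0 := left_ne_zero_of_mul hne
        have hψq : 0 < ψ q := by
          rcases (hψ q).eq_or_lt with h | h
          · exfalso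
            apply hfq
            have := (hf q).2
            rw [← h, zero_mul] at this
            linarith only [this, hf0 q]
          · exact h
        have hD0 : 0 < DD q r (ψ q) (ψ r) := DD_pos'' hq0 hr0 hψq
        obtain ⟨hR1, hR2⟩ := hR
        obtain ⟨h1, h2⟩ := hj q r hD0 (by linarith only [hR1])
        have hs0 : (0 : ℝ) < (1 / 2 : ℝ) ^ (j q r) := by positivity
        have hj10 : 10 ≤ j q r := by
          by_contra hlt
          push Not at hlt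
          have h3 : (1 / 2 : ℝ) ^ 9 ≤ (1 / 2 : ℝ) ^ (j q r) :=
            pow_le_pow_of_le_one (by norm_num) (by norm_num) (by omega)
          have h4 : (1 / 2 : ℝ) ^ 9 = 1 / 512 := by norm_num
          rw [h4] at h3
          linarith only [hR1, h2, h3]
        have hs1024 : (1 / 2 : ℝ) ^ (j q r) ≤ 1 / 1024 := by
          have h3 : (1 / 2 : ℝ) ^ (j q r) ≤ (1 / 2 : ℝ) ^ 10 :=
            pow_le_pow_of_le_one (by norm_num) (by norm_num) hj10
          have h4 : (1 / 2 : ℝ) ^ 10 = 1 / 1024 := by norm_num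
          rw [h4] at h3
          exact h3
        have hmem : j q r ∈ (range J).filter (fun i => 10 ≤ i) := by
          rw [mem_filter, mem_range]
          exact ⟨hjJ q hq r hr, hj10⟩
        have h3 := single_le_sum hterm hmem
        refine le_trans ?_ h3
        have h4 : f q * f r * G q r ≤
            (if TA γ ψ ((1 / 2 : ℝ) ^ (j q r)) q r then f q * f r * G q r else 0) +
            (if UB ψ ((1 / 2 : ℝ) ^ (j q r)) q r then f q * f r * G q r else 0) := by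
          rcases hR2 _ hs0 hs1024 h1 h2 with h | h
          · rw [if_pos h]
            have : 0 ≤ (if UB ψ ((1 / 2 : ℝ) ^ (j q r)) q r then f q * f r * G q r else 0) := by
              split_ifs
              · exact hfG
              · exact le_rfl
            linarith only [this]
          · rw [if_pos h]
            have : 0 ≤ (if TA γ ψ ((1 / 2 : ℝ) ^ (j q r)) q r then f q * f r * G q r else 0) := by
              split_ifs
              · exact hfG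
              · exact le_rfl
            linarith only [this]
        have h5 : 1 / DD q r (ψ q) (ψ r) ≤ 2 * (2 : ℝ) ^ (j q r) := by
          rw [div_le_iff₀ hD0]
          have h6 : (2 : ℝ) ^ (j q r) * (1 / 2 : ℝ) ^ (j q r) = 1 := by
            rw [← mul_pow]; norm_num
          have h7 : (2 : ℝ) ^ (j q r) * ((1 / 2 : ℝ) ^ (j q r) / 2) ≤
              (2 : ℝ) ^ (j q r) * DD q r (ψ q) (ψ r) := by (clear * - h2; gcongr)
          linarith only [h7, h6]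
        calc f q * f r * (G q r / DD q r (ψ q) (ψ r))
            = (1 / DD q r (ψ q) (ψ r)) * (f q * f r * G q r) := by ring
          _ ≤ 2 * (2 : ℝ) ^ (j q r) * (f q * f r * G q r) := by (clear * - h5 hfG; gcongr)
          _ ≤ _ := by (clear * - h4; gcongr)
    · rw [if_neg hR]
      exact hs
  calc wsum (SmallRel γ ψ) N f f
        (fun q r => GG (cofac q r * cofac r q) / DD q r (ψ q) (ψ r))
      ≤ ∑ q ∈ Icc 1 N, ∑ r ∈ Icc 1 N, ∑ i ∈ (range J).filter (fun i => 10 ≤ i),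
        2 * (2 : ℝ) ^ i *
        ((if TA γ ψ ((1 / 2 : ℝ) ^ i) q r then f q * f r * G q r else 0) +
          (if UB ψ ((1 / 2 : ℝ) ^ i) q r then f q * f r * G q r else 0)) := by
        unfold wsum
        exact sum_le_sum fun q hq => sum_le_sum fun r hr => hpt q hq r hr
    _ = ∑ i ∈ (range J).filter (fun i => 10 ≤ i), 2 * (2 : ℝ) ^ i *
        (wsum (TA γ ψ ((1 / 2 : ℝ) ^ i)) N f f G + wsum (UB ψ ((1 / 2 : ℝ) ^ i)) N f f G) := by
        unfold wsum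
        simp_rw [mul_add, mul_sum]
        conv_lhs =>
          enter [2, q]
          rw [sum_comm]
        rw [sum_comm]
        refine sum_congr rfl fun i _ => ?_
        simp_rw [sum_add_distrib]
    _ ≤ ∑ i ∈ (range J).filter (fun i => 10 ≤ i), 2 * (2 : ℝ) ^ i *
        (C * ((1 / 2 : ℝ) ^ i) ^ (1 + c) * (F + F ^ 2)) := by
        apply sum_le_sum
        intro i hi
        rw [mem_filter] at hi
        have hs0 : (0 : ℝ) < (1 / 2 : ℝ) ^ i := by positivity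
        have hs3 : (1 / 2 : ℝ) ^ i ≤ 1 / 1000 := by
          have h3 : (1 / 2 : ℝ) ^ i ≤ (1 / 2 : ℝ) ^ 10 :=
            pow_le_pow_of_le_one (by norm_num) (by norm_num) hi.2
          have h4 : (1 / 2 : ℝ) ^ 10 = 1 / 1024 := by norm_num
          rw [h4] at h3
          linarith only [h3]
        have := hlev γ ((1 / 2 : ℝ) ^ i) hs0 hs3 N ψ f hψ hf hsep
        (clear * - this; gcongr)
    _ = ∑ i ∈ (range J).filter (fun i => 10 ≤ i), 2 * C * (F + F ^ 2) * ((1 / 2 : ℝ) ^ c) ^ i := by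
        apply sum_congr rfl
        intro i _
        rw [half_pow_rpow]
        have h6 : (2 : ℝ) ^ i * (1 / 2 : ℝ) ^ i = 1 := by
          rw [← mul_pow]; norm_num
        linear_combination (2 * C * (F + F ^ 2) * ((1 / 2 : ℝ) ^ c) ^ i) * h6
    _ ≤ ∑ i ∈ range J, 2 * C * (F + F ^ 2) * ((1 / 2 : ℝ) ^ c) ^ i := by
        apply sum_le_sum_of_subset_of_nonneg (filter_subset _ _)
        intro i _ _
        have : (0 : ℝ) ≤ (1 / 2 : ℝ) ^ c := by positivity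
        (clear * - hC hF0; positivity)
    _ = 2 * C * (F + F ^ 2) * ∑ i ∈ range J, ((1 / 2 : ℝ) ^ c) ^ i := by rw [mul_sum]
    _ ≤ 2 * C * (F + F ^ 2) * (1 - (1 / 2 : ℝ) ^ c)⁻¹ := by
        have := geom_half hc J
        (clear * - this hC hF0; gcongr)
    _ = _ := by ring

end Vale.P028
end

section
attribute [-instance] ProperSMul.toContinuousSMul IsTopologicalTorsor.toContinuousSMul IdemSemiring.toCanonicallyOrderedAdd IdemSemiring.toMulLeftMono IdemSemiring.toMulRightMono AddQuantale.instAddLeftMono AddQuantale.instAddRightMono Quantale.instMulLeftMono Quantale.instMulRightMono FiniteDimensional.rclike_to_real IsScalarTower.complexToReal FiniteDimensional.complexToReal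

/-!
# Pairs with different denominators: the sum of the kernel
-/

namespace Vale.P028

open Finset

/-- `n ↦ n^{-1/4}`. -/
noncomputable def n14_f : ℕ →* ℝ where
  toFun n := (n : ℝ) ^ (-(1 / 4) : ℝ)
  map_one' := by simp
  map_mul' m n := by
    push_cast
    exact Real.mul_rpow (Nat.cast_nonneg _) (Nat.cast_nonneg _)

theorem n14_f_apply (n : ℕ) : n14_f n = (n : ℝ) ^ (-(1 / 4) : ℝ) := rfl

theorem n14_f_nonneg (n : ℕ) : 0 ≤ n14_f n := by
  rw [n14_f_apply]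
  positivity

theorem n14_f_lt_one {p : ℕ} (hp : p.Prime) : n14_f p < 1 := by
  rw [n14_f_apply]
  exact Real.rpow_lt_one_of_one_lt_of_neg (by exact_mod_cast hp.one_lt) (by norm_num)

theorem n14_fac_one_le {p : ℕ} (hp : p.Prime) : 1 ≤ (1 - n14_f p)⁻¹ := by
  have h1 := n14_f_lt_one hp
  have h2 := n14_f_nonneg p
  exact (one_le_inv₀ (by linarith only [h1])).2 (by linarith only [h2])

/-- the Euler product -/
noncomputable def n14_E (P : Finset ℕ) : ℝ := ∏ p ∈ P, (1 - n14_f p)⁻¹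

theorem n14_E_one_le {P : Finset ℕ} (hP : ∀ p ∈ P, p.Prime) : 1 ≤ n14_E P := by
  unfold n14_E
  calc (1 : ℝ) = ∏ _p ∈ P, (1 : ℝ) := by rw [prod_const_one]
    _ ≤ _ := prod_le_prod (fun _ _ => zero_le_one) fun p hp => n14_fac_one_le (hP p hp)

/-- general Euler product bound -/
theorem n14_euler {ε : ℝ} (hε : 0 < ε) : ∃ C : ℝ, 1 ≤ C ∧ ∀ P : Finset ℕ, (∀ p ∈ P, p.Prime) →
    n14_E P ≤ C * ((∏ p ∈ P, p : ℕ) : ℝ) ^ ε := by
  classical
  obtain ⟨p₀, hp₀⟩ : ∃ p₀ : ℕ, ∀ p : ℕ, p₀ ≤ p → n14_f p ≤ 1 / 2 ∧ 2 ≤ (p : ℝ) ^ ε := by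
    have h1 : Filter.Tendsto (fun n : ℕ => (n : ℝ) ^ (-(1 / 4) : ℝ)) Filter.atTop (nhds 0) :=
      (tendsto_rpow_neg_atTop (by norm_num)).comp tendsto_natCast_atTop_atTop
    have h2 := h1.eventually (gt_mem_nhds (by norm_num : (0 : ℝ) < 1 / 2))
    have h3 : Filter.Tendsto (fun n : ℕ => (n : ℝ) ^ ε) Filter.atTop Filter.atTop :=
      (tendsto_rpow_atTop hε).comp tendsto_natCast_atTop_atTop
    obtain ⟨p₀, h4⟩ := Filter.eventually_atTop.1 (h2.and (h3.eventually_ge_atTop 2))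
    exact ⟨p₀, fun p hp => ⟨(h4 p hp).1.le, (h4 p hp).2⟩⟩
  have h2 : 1 ≤ (1 - n14_f 2)⁻¹ := n14_fac_one_le Nat.prime_two
  set M : ℝ := (1 - n14_f 2)⁻¹ with hM
  refine ⟨M ^ p₀, one_le_pow₀ h2, ?_⟩
  intro P hP
  have hfac : ∀ p ∈ P, (1 - n14_f p)⁻¹ ≤ (if p < p₀ then M else 1) * (p : ℝ) ^ ε := by
    intro p hp
    have hpp := hP p hp
    have hp2 : (2 : ℝ) ≤ p := by exact_mod_cast hpp.two_le
    have hpe : 1 ≤ (p : ℝ) ^ ε := Real.one_le_rpow (by linarith only [hp2]) hε.le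
    split_ifs with h
    · have h3 : (1 - n14_f p)⁻¹ ≤ M := by
        rw [hM]
        have h4 := n14_f_lt_one Nat.prime_two
        have h5 : n14_f p ≤ n14_f 2 := by
          rw [n14_f_apply, n14_f_apply]
          exact Real.rpow_le_rpow_of_nonpos (by norm_num) (by exact_mod_cast hpp.two_le)
            (by norm_num)
        exact inv_anti₀ (by linarith only [h4]) (by linarith only [h5])
      calc (1 - n14_f p)⁻¹ ≤ M * 1 := by rw [mul_one]; exact h3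
        _ ≤ M * (p : ℝ) ^ ε := mul_le_mul_of_nonneg_left hpe (by linarith only [h2])
    · obtain ⟨h3, h4⟩ := hp₀ p (not_lt.1 h)
      rw [one_mul]
      refine le_trans ?_ h4
      rw [inv_le_iff_one_le_mul₀ (by linarith only [h3])]
      linarith only [h3]
  unfold n14_E
  calc ∏ p ∈ P, (1 - n14_f p)⁻¹ ≤ ∏ p ∈ P, (if p < p₀ then M else 1) * (p : ℝ) ^ ε :=
        prod_le_prod (fun p hp => zero_le_one.trans (n14_fac_one_le (hP p hp))) hfac
    _ = (∏ p ∈ P, (if p < p₀ then M else 1)) * ∏ p ∈ P, (p : ℝ) ^ ε := prod_mul_distrib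
    _ = (∏ p ∈ P, (if p < p₀ then M else 1)) * ((∏ p ∈ P, p : ℕ) : ℝ) ^ ε := by
        rw [Nat.cast_prod, Real.finsetProd_rpow _ _ (fun p _ => Nat.cast_nonneg p)]
    _ ≤ M ^ p₀ * ((∏ p ∈ P, p : ℕ) : ℝ) ^ ε := by
        refine mul_le_mul_of_nonneg_right ?_ (by positivity)
        rw [prod_ite, prod_const_one, mul_one, prod_const]
        refine pow_le_pow_right₀ h2 ?_
        calc (P.filter (fun p => p < p₀)).card ≤ (range p₀).card := by
              refine card_le_card fun p hp => ?_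
              rw [mem_range]
              exact (mem_filter.1 hp).2
          _ = p₀ := card_range _

/-- sums over smooth numbers -/
theorem n14_smooth {P : Finset ℕ} (hP : ∀ p ∈ P, p.Prime) (Z : Finset ℕ)
    (hZ : ∀ w ∈ Z, w ≠ 0 ∧ w.primeFactors ⊆ P) : ∑ w ∈ Z, n14_f w ≤ n14_E P := by
  classical
  have hlt1 : ∀ {p : ℕ}, p.Prime → ‖n14_f p‖ < 1 := by
    intro p hp
    rw [Real.norm_of_nonneg (n14_f_nonneg p)]
    exact n14_f_lt_one hp
  obtain ⟨hsum, hhas⟩ :=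
    EulerProduct.summable_and_hasSum_factoredNumbers_prod_filter_prime_geometric
      (f := n14_f) hlt1 P
  have hmem : ∀ u ∈ Z, u ∈ Nat.factoredNumbers P := by
    intro u hu
    exact Nat.mem_factoredNumbers_iff_primeFactors_subset.2 (hZ u hu)
  have h5 : ∑ u ∈ Z, n14_f u =
      ∑ m ∈ Z.attach.image (fun u => (⟨u.1, hmem u.1 u.2⟩ : Nat.factoredNumbers P)),
        n14_f m.1 := by
    rw [sum_image]
    · rw [← sum_attach]
    · intro a _ b _ hab
      have : a.1 = b.1 := by simpa using congrArg Subtype.val hab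
      exact Subtype.ext this
  have h6 : P.filter (fun p => p.Prime) = P := filter_true_of_mem hP
  rw [h6] at hhas
  unfold n14_E
  rw [h5, ← hhas.tsum_eq]
  exact hhas.summable.sum_le_tsum _ (fun m _ => n14_f_nonneg _)

theorem n14_E_mono {P Q : Finset ℕ} (hQ : ∀ p ∈ Q, p.Prime) (h : P ⊆ Q) :
    n14_E P ≤ n14_E Q := by
  classical
  unfold n14_E
  rw [← prod_sdiff h]
  have h1 : 1 ≤ ∏ p ∈ Q \ P, (1 - n14_f p)⁻¹ :=
    n14_E_one_le (P := Q \ P) fun p hp => hQ p (mem_sdiff.1 hp).1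
  have h2 : 0 ≤ ∏ p ∈ P, (1 - n14_f p)⁻¹ :=
    zero_le_one.trans (n14_E_one_le (P := P) fun p hp => hQ p (h hp))
  linarith only [mul_nonneg (sub_nonneg.2 h1) (sub_nonneg.2 h2)]

theorem n14_E_union {P Q R : Finset ℕ} (hP : ∀ p ∈ P, p.Prime) (hQ : ∀ p ∈ Q, p.Prime)
    (hR : R ⊆ P ∪ Q) : n14_E R ≤ n14_E P * n14_E Q := by
  classical
  have hPQ : ∀ p ∈ P ∪ Q, p.Prime := by
    intro p hp
    rcases mem_union.1 hp with h | h
    · exact hP p h
    · exact hQ p h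
  refine (n14_E_mono hPQ hR).trans ?_
  have h1 : n14_E (P ∪ Q) * n14_E (P ∩ Q) = n14_E P * n14_E Q := by
    unfold n14_E
    exact prod_union_inter
  have h2 : 1 ≤ n14_E (P ∩ Q) := n14_E_one_le fun p hp => hP p (mem_inter.1 hp).1
  have h3 : 0 ≤ n14_E (P ∪ Q) := zero_le_one.trans (n14_E_one_le hPQ)
  rw [← h1]
  nlinarith only [h2, h3]

/-- `GG` is bounded by the Euler product -/
theorem n14_GG_le (n : ℕ) : GG n ≤ n14_E n.primeFactors := by
  unfold GG n14_E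
  refine prod_le_prod (fun p hp => ?_) fun p hp => ?_
  · have hp2 : (2 : ℝ) ≤ p := by exact_mod_cast (Nat.prime_of_mem_primeFactors hp).two_le
    have h1 : 1 / (p : ℝ) ≤ 1 / 2 := one_div_le_one_div_of_le (by norm_num) hp2
    exact inv_nonneg.mpr (by linarith only [h1])
  · have hpp := Nat.prime_of_mem_primeFactors hp
    have hp2 : (2 : ℝ) ≤ p := by exact_mod_cast hpp.two_le
    have h1 := n14_f_lt_one hpp
    refine inv_anti₀ (by linarith only [h1]) ?_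
    have h2 : 1 / (p : ℝ) ≤ n14_f p := by
      rw [n14_f_apply, one_div, ← Real.rpow_neg_one]
      exact Real.rpow_le_rpow_of_exponent_le (by linarith only [hp2]) (by norm_num)
    linarith only [h2]

theorem n14_GG_nonneg (n : ℕ) : 0 ≤ GG n := by
  unfold GG
  refine prod_nonneg fun p hp => inv_nonneg.mpr ?_
  have hp2 : (2 : ℝ) ≤ p := by exact_mod_cast (Nat.prime_of_mem_primeFactors hp).two_le
  have h1 : 1 / (p : ℝ) ≤ 1 / 2 := one_div_le_one_div_of_le (by norm_num) hp2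
  linarith only [h1]

theorem n14_E_primeFactors {ε C : ℝ} (hε : 0 < ε) (hC : 1 ≤ C) (h : ∀ P : Finset ℕ,
    (∀ p ∈ P, p.Prime) → n14_E P ≤ C * ((∏ p ∈ P, p : ℕ) : ℝ) ^ ε) {n : ℕ} (hn : 0 < n) :
    n14_E n.primeFactors ≤ C * (n : ℝ) ^ ε := by
  refine (h _ fun p hp => Nat.prime_of_mem_primeFactors hp).trans ?_
  refine mul_le_mul_of_nonneg_left ?_ (by linarith only [hC])
  refine Real.rpow_le_rpow (Nat.cast_nonneg _) ?_ hε.le
  exact_mod_cast Nat.le_of_dvd hn (Nat.prod_primeFactors_dvd n)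

theorem n14_E_primesLE {ε C : ℝ} (hε : 0 < ε) (hC : 1 ≤ C) (h : ∀ P : Finset ℕ,
    (∀ p ∈ P, p.Prime) → n14_E P ≤ C * ((∏ p ∈ P, p : ℕ) : ℝ) ^ ε) (n : ℕ) :
    n14_E ((range (n + 1)).filter Nat.Prime) ≤ C * Real.exp (7 / 5 * ε * n) := by
  refine (h _ fun p hp => (mem_filter.1 hp).2).trans ?_
  refine mul_le_mul_of_nonneg_left ?_ (by linarith only [hC])
  have h1 : ((∏ p ∈ (range (n + 1)).filter Nat.Prime, p : ℕ) : ℝ) ≤ 4 ^ n := by
    exact_mod_cast primorial_le_four_pow n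
  have h4 : (4 : ℝ) ≤ Real.exp (7 / 5) := by
    have h5 := Real.exp_one_gt_d9
    have h6 : Real.exp (7 / 5 : ℝ) ^ 5 = Real.exp 1 ^ 7 := by
      rw [← Real.exp_nat_mul, ← Real.exp_nat_mul]
      congr 1
      norm_num
    have h7 : (4 : ℝ) ^ 5 ≤ Real.exp (7 / 5 : ℝ) ^ 5 := by
      rw [h6]
      calc (4 : ℝ) ^ 5 ≤ 2.7182818283 ^ 7 := by norm_num
        _ ≤ Real.exp 1 ^ 7 := by gcongr
    exact le_of_pow_le_pow_left₀ (by norm_num) (Real.exp_pos _).le h7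
  calc ((∏ p ∈ (range (n + 1)).filter Nat.Prime, p : ℕ) : ℝ) ^ ε
      ≤ (Real.exp (7 / 5) ^ n) ^ ε := by
        refine Real.rpow_le_rpow (Nat.cast_nonneg _) (h1.trans ?_) hε.le
        gcongr
    _ = Real.exp (7 / 5 * ε * n) := by
        rw [← Real.exp_nat_mul, ← Real.exp_mul]
        congr 1
        ring

/-- the sum over `u` -/
theorem n14_usum {d n : ℕ} {y : ℝ} (hd : 0 < d) (hn : 0 < n) (S : Finset ℕ) (hS : ∀ u ∈ S, u ≠ 0 ∧ d ∣ u ∧ ∀ p ∈ u.primeFactors, p ∣ n ∨ (p : ℝ) ≤ y) :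
    ∑ u ∈ S, n14_f u ≤ n14_f d * (n14_E n.primeFactors *
      n14_E ((range (⌊y⌋₊ + 1)).filter Nat.Prime)) := by
  classical
  have h1 : ∑ u ∈ S, n14_f u = n14_f d * ∑ w ∈ S.image (fun u => u / d), n14_f w := by
    rw [sum_image, mul_sum]
    · refine sum_congr rfl fun u hu => ?_
      rw [← map_mul, Nat.mul_div_cancel' (hS u hu).2.1]
    · intro a ha b hb hab
      have hab' : a / d = b / d := hab
      rw [← Nat.mul_div_cancel' (hS a ha).2.1, ← Nat.mul_div_cancel' (hS b hb).2.1, hab']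
  rw [h1]
  refine mul_le_mul_of_nonneg_left ?_ (n14_f_nonneg d)
  have hP1 : ∀ p ∈ n.primeFactors, p.Prime := fun p hp => Nat.prime_of_mem_primeFactors hp
  have hP2 : ∀ p ∈ (range (⌊y⌋₊ + 1)).filter Nat.Prime, p.Prime := fun p hp =>
    (mem_filter.1 hp).2
  refine le_trans (n14_smooth (P := n.primeFactors ∪ (range (⌊y⌋₊ + 1)).filter Nat.Prime) ?_ _ ?_)
    (n14_E_union hP1 hP2 subset_rfl)
  · intro p hp
    rcases mem_union.1 hp with h | h
    · exact hP1 p h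
    · exact hP2 p h
  · intro w hw
    obtain ⟨u, hu, rfl⟩ := mem_image.1 hw
    obtain ⟨hu0, hdu, hup⟩ := hS u hu
    have hw0 : u / d ≠ 0 := by
      have := Nat.div_pos (Nat.le_of_dvd (Nat.pos_of_ne_zero hu0) hdu) hd
      omega
    refine ⟨hw0, fun p hp => ?_⟩
    have hpp := Nat.prime_of_mem_primeFactors hp
    have hpu : p ∈ u.primeFactors :=
      Nat.mem_primeFactors.2 ⟨hpp, (Nat.dvd_of_mem_primeFactors hp).trans (Nat.div_dvd_of_dvd hdu),
        hu0⟩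
    rw [mem_union]
    rcases hup p hpu with h | h
    · left
      exact Nat.mem_primeFactors.2 ⟨hpp, h, hn.ne'⟩
    · right
      rw [mem_filter, mem_range]
      refine ⟨?_, hpp⟩
      have := Nat.le_floor h
      omega

theorem n14_gpB_le (B v : ℕ) : gpB B v ≤ v := by
  unfold gpB
  refine Finset.sup_le fun p hp => ?_
  exact Nat.le_of_mem_primeFactors (mem_filter.1 hp).1

/-- the sum over `v` -/
theorem n14_vsum : ∃ C > 0, ∀ (B N : ℕ) (x : ℝ), 0 < B → 1 ≤ x →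
    ∑ v ∈ Icc 1 N, n14_f v * (min 1 (x ^ (5 / 2 : ℝ) *
      Real.exp (-((gpB B v : ℝ) - 2) / 4))) ^ (1 / 2 : ℝ) ≤
      C * x ^ (1 / 32 : ℝ) * n14_E B.primeFactors := by
  classical
  obtain ⟨C, hC, hE⟩ := n14_euler (ε := 1 / 1000) (by norm_num)
  have hgeo : Summable (fun n : ℕ => Real.exp (-(1 / 1000 : ℝ)) ^ n) :=
    summable_geometric_of_lt_one (Real.exp_pos _).le (by
      rw [Real.exp_lt_one_iff]
      norm_num)
  set K : ℝ := ∑' n : ℕ, Real.exp (-(1 / 1000 : ℝ)) ^ n with hK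
  have hK0 : 0 ≤ K := tsum_nonneg fun n => by positivity
  have hC0 : 0 < C := by linarith only [hC]
  refine ⟨Real.exp (1 / 160) * C * (K + 1), by positivity, ?_⟩
  intro B N x hB hx
  have hx0 : 0 < x := by linarith only [hx]
  have hPB : ∀ p ∈ B.primeFactors, p.Prime := fun p hp => Nat.prime_of_mem_primeFactors hp
  have hEB : 0 ≤ n14_E B.primeFactors := zero_le_one.trans (n14_E_one_le hPB)
  set m : ℕ → ℝ := fun P => (min 1 (x ^ (5 / 2 : ℝ) *
      Real.exp (-((P : ℝ) - 2) / 4))) ^ (1 / 2 : ℝ) with hm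
  have hm0 : ∀ P, 0 ≤ m P := by
    intro P
    simp only [hm]
    positivity
  have hmle : ∀ P : ℕ, m P ≤ x ^ (1 / 32 : ℝ) * Real.exp (1 / 160) *
      Real.exp (-(P : ℝ) / 320) := by
    intro P
    simp only [hm]
    set X : ℝ := x ^ (5 / 2 : ℝ) * Real.exp (-((P : ℝ) - 2) / 4) with hX
    have hX0 : 0 < X := by positivity
    have h0 : 0 ≤ min 1 X := by positivity
    calc (min 1 X) ^ (1 / 2 : ℝ) ≤ (min 1 X) ^ (1 / 80 : ℝ) :=
          Real.rpow_le_rpow_of_exponent_ge' h0 (min_le_left _ _) (by norm_num) (by norm_num)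
      _ ≤ X ^ (1 / 80 : ℝ) := Real.rpow_le_rpow h0 (min_le_right _ _) (by norm_num)
      _ = x ^ (1 / 32 : ℝ) * Real.exp (-((P : ℝ) - 2) / 320) := by
          rw [hX, Real.mul_rpow (by positivity) (Real.exp_pos _).le, ← Real.rpow_mul hx0.le,
            ← Real.exp_mul, show (5 / 2 * (1 / 80) : ℝ) = 1 / 32 by norm_num,
            show -((P : ℝ) - 2) / 4 * (1 / 80) = -((P : ℝ) - 2) / 320 by ring]
      _ = _ := by
          rw [mul_assoc, ← Real.exp_add]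
          congr 2
          ring
  have h1 : ∑ v ∈ Icc 1 N, n14_f v * m (gpB B v) =
      ∑ P ∈ range (N + 1), ∑ v ∈ (Icc 1 N).filter (fun v => gpB B v = P),
        n14_f v * m (gpB B v) := by
    symm
    refine sum_fiberwise_of_maps_to ?_ _
    intro v hv
    rw [mem_Icc] at hv
    rw [mem_range]
    have := n14_gpB_le B v
    omega
  have h2 : ∀ P ∈ range (N + 1), ∑ v ∈ (Icc 1 N).filter (fun v => gpB B v = P),
        n14_f v * m (gpB B v) ≤ (Real.exp (1 / 160) * C * x ^ (1 / 32 : ℝ) *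
          n14_E B.primeFactors) * Real.exp (-(1 / 1000 : ℝ)) ^ P := by
    intro P _
    have h3 : ∑ v ∈ (Icc 1 N).filter (fun v => gpB B v = P), n14_f v * m (gpB B v) =
        m P * ∑ v ∈ (Icc 1 N).filter (fun v => gpB B v = P), n14_f v := by
      rw [mul_sum]
      refine sum_congr rfl fun v hv => ?_
      rw [(mem_filter.1 hv).2, mul_comm]
    have hP2 : ∀ p ∈ (range (P + 1)).filter Nat.Prime, p.Prime := fun p hp => (mem_filter.1 hp).2
    have h4 : ∑ v ∈ (Icc 1 N).filter (fun v => gpB B v = P), n14_f v ≤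
        n14_E B.primeFactors * n14_E ((range (P + 1)).filter Nat.Prime) := by
      refine le_trans (n14_smooth (P := B.primeFactors ∪ (range (P + 1)).filter Nat.Prime) ?_ _ ?_)
        (n14_E_union hPB hP2 subset_rfl)
      · intro p hp
        rcases mem_union.1 hp with h | h
        · exact hPB p h
        · exact hP2 p h
      · intro v hv
        rw [mem_filter, mem_Icc] at hv
        refine ⟨by omega, fun p hp => ?_⟩
        have hpp := Nat.prime_of_mem_primeFactors hp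
        rw [mem_union]
        by_cases hpB : p ∣ B
        · left
          exact Nat.mem_primeFactors.2 ⟨hpp, hpB, hB.ne'⟩
        · right
          rw [mem_filter, mem_range]
          refine ⟨?_, hpp⟩
          have h5 : p ≤ gpB B v := by
            unfold gpB
            exact Finset.le_sup (f := id) (mem_filter.2 ⟨hp, hpB⟩)
          omega
    rw [h3]
    have h5 := n14_E_primesLE (by norm_num) hC hE P
    calc m P * ∑ v ∈ (Icc 1 N).filter (fun v => gpB B v = P), n14_f v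
        ≤ (x ^ (1 / 32 : ℝ) * Real.exp (1 / 160) * Real.exp (-(P : ℝ) / 320)) *
          (n14_E B.primeFactors * (C * Real.exp (7 / 5 * (1 / 1000) * P))) := by
          refine mul_le_mul (hmle P) (h4.trans ?_) (sum_nonneg fun v _ => n14_f_nonneg v)
            (by positivity)
          exact mul_le_mul_of_nonneg_left h5 hEB
      _ = (Real.exp (1 / 160) * C * x ^ (1 / 32 : ℝ) * n14_E B.primeFactors) *
          (Real.exp (-(P : ℝ) / 320) * Real.exp (7 / 5 * (1 / 1000) * P)) := by ring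
      _ ≤ _ := by
          refine mul_le_mul_of_nonneg_left ?_ (by positivity)
          rw [← Real.exp_add, ← Real.exp_nat_mul]
          apply Real.exp_le_exp.2
          have : (0 : ℝ) ≤ P := Nat.cast_nonneg P
          linarith only [this]
  change ∑ v ∈ Icc 1 N, n14_f v * m (gpB B v) ≤ _
  rw [h1]
  calc _ ≤ ∑ P ∈ range (N + 1), (Real.exp (1 / 160) * C * x ^ (1 / 32 : ℝ) *
          n14_E B.primeFactors) * Real.exp (-(1 / 1000 : ℝ)) ^ P := sum_le_sum h2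
    _ = (Real.exp (1 / 160) * C * x ^ (1 / 32 : ℝ) * n14_E B.primeFactors) *
          ∑ P ∈ range (N + 1), Real.exp (-(1 / 1000 : ℝ)) ^ P := by rw [mul_sum]
    _ ≤ (Real.exp (1 / 160) * C * x ^ (1 / 32 : ℝ) * n14_E B.primeFactors) * (K + 1) := by
        refine mul_le_mul_of_nonneg_left ?_ (by positivity)
        have := hgeo.sum_le_tsum (range (N + 1)) (fun n _ => by positivity)
        linarith only [this]
    _ = _ := by ring

/-- the sum over the pairs `(u, v)` -/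
theorem n14_T : ∃ C > 0, ∀ (B B' N : ℕ), 0 < B → B < B' → 3 / 16 * (B : ℝ) ^ 4 ≤ B' →
    ∑ u ∈ Icc 1 N, ∑ v ∈ Icc 1 N, KD B B' u v ≤ C * (B' : ℝ) ^ (-(1 / 10) : ℝ) := by
  classical
  obtain ⟨C, hC, hE⟩ := n14_euler (ε := 1 / 1000) (by norm_num)
  obtain ⟨D, hD, hv⟩ := n14_vsum
  have hC0 : 0 < C := by linarith only [hC]
  refine ⟨C ^ 5 * D * Real.exp (7 / 1250) * 2, by positivity, ?_⟩
  intro B B' N hB hBB' hgap
  set x : ℝ := (B' : ℝ) with hx
  have hB'0 : 0 < B' := by omega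
  have hx2 : 2 ≤ x := by rw [hx]; exact_mod_cast (by omega : 2 ≤ B')
  have hx0 : 0 < x := by linarith only [hx2]
  have hx1 : 1 ≤ x := by linarith only [hx2]
  have hBx : (B : ℝ) ≤ x := by rw [hx]; exact_mod_cast hBB'.le
  set d : ℕ := B' / Nat.gcd B B' with hd
  have hdge : x ^ (3 / 4 : ℝ) / 2 ≤ (d : ℝ) := kb_d_ge hB hBB' hgap
  have hd0 : 0 < d := by
    have : (0 : ℝ) < d := lt_of_lt_of_le (by positivity) hdge
    exact_mod_cast this
  have hlog0 : 0 ≤ Real.log x := Real.log_nonneg hx1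
  set y : ℝ := 20 * Real.log x + 4 with hy
  have hy0 : 0 ≤ y := by linarith only [hlog0, hy]
  set m : ℕ → ℝ := fun v => (min 1 (x ^ (5 / 2 : ℝ) *
      Real.exp (-((gpB B v : ℝ) - 2) / 4))) ^ (1 / 2 : ℝ) with hm
  have hm0 : ∀ P, 0 ≤ m P := by
    intro P
    simp only [hm]
    positivity
  set Q : ℕ → Prop := fun u => d ∣ u ∧ ∀ p ∈ u.primeFactors, p ∣ B' ∨ (p : ℝ) ≤ y with hQ
  have hKD : ∀ u v : ℕ, KD B B' u v =
      (GG B * GG B') * ((if Q u then n14_f u else 0) * (n14_f v * m v)) := by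
    intro u v
    unfold KD
    by_cases h : Q u
    · rw [if_pos ⟨hBB', h.1, h.2⟩, if_pos h, Real.mul_rpow (Nat.cast_nonneg _) (Nat.cast_nonneg _)]
      simp only [hm, n14_f_apply]
      ring
    · rw [if_neg (fun h1 => h ⟨h1.2.1, h1.2.2⟩), if_neg h]
      ring
  have hsum : ∑ u ∈ Icc 1 N, ∑ v ∈ Icc 1 N, KD B B' u v =
      (GG B * GG B') * ((∑ u ∈ (Icc 1 N).filter Q, n14_f u) * ∑ v ∈ Icc 1 N, n14_f v * m v) := by
    rw [sum_filter, sum_mul_sum, mul_sum]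
    refine sum_congr rfl fun u _ => ?_
    rw [mul_sum]
    refine sum_congr rfl fun v _ => ?_
    exact hKD u v
  rw [hsum]
  have hE1 : n14_E B.primeFactors ≤ C * x ^ (1 / 1000 : ℝ) :=
    (n14_E_primeFactors (by norm_num) hC hE hB).trans
      (mul_le_mul_of_nonneg_left (Real.rpow_le_rpow (Nat.cast_nonneg _) hBx (by norm_num)) hC0.le)
  have hE2 : n14_E B'.primeFactors ≤ C * x ^ (1 / 1000 : ℝ) :=
    n14_E_primeFactors (by norm_num) hC hE hB'0
  have hE3 : n14_E ((range (⌊y⌋₊ + 1)).filter Nat.Prime) ≤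
      C * Real.exp (7 / 1250) * x ^ (7 / 250 : ℝ) := by
    refine (n14_E_primesLE (by norm_num) hC hE ⌊y⌋₊).trans ?_
    rw [mul_assoc C]
    refine mul_le_mul_of_nonneg_left ?_ hC0.le
    rw [Real.rpow_def_of_pos hx0, ← Real.exp_add]
    apply Real.exp_le_exp.2
    have := Nat.floor_le hy0
    linarith only [this, hy]
  have hE1' : 0 ≤ n14_E B.primeFactors :=
    zero_le_one.trans (n14_E_one_le fun p hp => Nat.prime_of_mem_primeFactors hp)
  have hE2' : 0 ≤ n14_E B'.primeFactors :=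
    zero_le_one.trans (n14_E_one_le fun p hp => Nat.prime_of_mem_primeFactors hp)
  have hE3' : 0 ≤ n14_E ((range (⌊y⌋₊ + 1)).filter Nat.Prime) :=
    zero_le_one.trans (n14_E_one_le fun p hp => (mem_filter.1 hp).2)
  have hG1 : GG B ≤ C * x ^ (1 / 1000 : ℝ) := (n14_GG_le B).trans hE1
  have hG2 : GG B' ≤ C * x ^ (1 / 1000 : ℝ) := (n14_GG_le B').trans hE2
  have hU : ∑ u ∈ (Icc 1 N).filter Q, n14_f u ≤ n14_f d * (n14_E B'.primeFactors *
      n14_E ((range (⌊y⌋₊ + 1)).filter Nat.Prime)) := by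
    refine n14_usum hd0 hB'0 _ ?_
    intro u hu
    rw [mem_filter, mem_Icc] at hu
    exact ⟨by omega, hu.2.1, hu.2.2⟩
  have hV : ∑ v ∈ Icc 1 N, n14_f v * m v ≤ D * x ^ (1 / 32 : ℝ) * n14_E B.primeFactors :=
    hv B N x hB hx1
  have hdf : n14_f d ≤ 2 * x ^ (-(3 / 16) : ℝ) := by
    rw [n14_f_apply]
    calc (d : ℝ) ^ (-(1 / 4) : ℝ) ≤ (x ^ (3 / 4 : ℝ) / 2) ^ (-(1 / 4) : ℝ) :=
          Real.rpow_le_rpow_of_nonpos (by positivity) hdge (by norm_num)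
      _ = x ^ (-(3 / 16) : ℝ) * (2 : ℝ) ^ (1 / 4 : ℝ) := by
          rw [Real.div_rpow (by positivity) (by norm_num), ← Real.rpow_mul hx0.le,
            show (3 / 4 * -(1 / 4) : ℝ) = -(3 / 16) by norm_num,
            Real.rpow_neg (by norm_num : (0 : ℝ) ≤ 2), div_inv_eq_mul]
      _ ≤ x ^ (-(3 / 16) : ℝ) * 2 := by
          refine mul_le_mul_of_nonneg_left ?_ (by positivity)
          calc (2 : ℝ) ^ (1 / 4 : ℝ) ≤ (2 : ℝ) ^ (1 : ℝ) :=
                Real.rpow_le_rpow_of_exponent_le (by norm_num) (by norm_num)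
            _ = 2 := Real.rpow_one 2
      _ = _ := mul_comm _ _
  have hU' : ∑ u ∈ (Icc 1 N).filter Q, n14_f u ≤ (2 * x ^ (-(3 / 16) : ℝ)) *
      ((C * x ^ (1 / 1000 : ℝ)) * (C * Real.exp (7 / 1250) * x ^ (7 / 250 : ℝ))) := by
    refine hU.trans (mul_le_mul hdf (mul_le_mul hE2 hE3 hE3' (by positivity))
      (mul_nonneg hE2' hE3') (by positivity))
  have hV' : ∑ v ∈ Icc 1 N, n14_f v * m v ≤ D * x ^ (1 / 32 : ℝ) * (C * x ^ (1 / 1000 : ℝ)) :=
    hV.trans (mul_le_mul_of_nonneg_left hE1 (by positivity))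
  have hG : GG B * GG B' ≤ (C * x ^ (1 / 1000 : ℝ)) * (C * x ^ (1 / 1000 : ℝ)) :=
    mul_le_mul hG1 hG2 (n14_GG_nonneg _) (by positivity)
  have hpow : x ^ (-(3 / 16) : ℝ) * (x ^ (1 / 1000 : ℝ)) ^ 4 * x ^ (7 / 250 : ℝ) *
      x ^ (1 / 32 : ℝ) ≤ x ^ (-(1 / 10) : ℝ) := by
    rw [← Real.rpow_natCast, ← Real.rpow_mul hx0.le, ← Real.rpow_add hx0, ← Real.rpow_add hx0,
      ← Real.rpow_add hx0]
    exact Real.rpow_le_rpow_of_exponent_le hx1 (by norm_num)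
  calc (GG B * GG B') * ((∑ u ∈ (Icc 1 N).filter Q, n14_f u) * ∑ v ∈ Icc 1 N, n14_f v * m v)
      ≤ ((C * x ^ (1 / 1000 : ℝ)) * (C * x ^ (1 / 1000 : ℝ))) *
        (((2 * x ^ (-(3 / 16) : ℝ)) *
          ((C * x ^ (1 / 1000 : ℝ)) * (C * Real.exp (7 / 1250) * x ^ (7 / 250 : ℝ)))) *
          (D * x ^ (1 / 32 : ℝ) * (C * x ^ (1 / 1000 : ℝ)))) := by
        refine mul_le_mul hG (mul_le_mul hU' hV' (sum_nonneg fun v _ =>
          mul_nonneg (n14_f_nonneg v) (hm0 v)) (by positivity))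
          (mul_nonneg (sum_nonneg fun v _ => n14_f_nonneg v) (sum_nonneg fun v _ =>
          mul_nonneg (n14_f_nonneg v) (hm0 v))) (by positivity)
    _ = (C ^ 5 * D * Real.exp (7 / 1250) * 2) * (x ^ (-(3 / 16) : ℝ) *
        (x ^ (1 / 1000 : ℝ)) ^ 4 * x ^ (7 / 250 : ℝ) * x ^ (1 / 32 : ℝ)) := by ring
    _ ≤ _ := mul_le_mul_of_nonneg_left hpow (by positivity)

theorem n14_KD_nonneg (B B' u v : ℕ) : 0 ≤ KD B B' u v := by
  unfold KD
  split_ifs
  · have h1 := n14_GG_nonneg B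
    have h2 := n14_GG_nonneg B'
    positivity
  · exact le_rfl

theorem n14_KD_zero {B B' : ℕ} (h : B' ≤ B) (u v : ℕ) : KD B B' u v = 0 := by
  unfold KD
  rw [if_neg (fun h1 => absurd h1.1 (not_lt.2 h))]

/-- sum of the kernel over `r` with `b r = B'` -/
theorem n14_fiber_row {C : ℝ} (hT : ∀ (B B' N : ℕ), 0 < B → B < B' →
    3 / 16 * (B : ℝ) ^ 4 ≤ B' →
    ∑ u ∈ Icc 1 N, ∑ v ∈ Icc 1 N, KD B B' u v ≤ C * (B' : ℝ) ^ (-(1 / 10) : ℝ))
    {N q B B' : ℕ} (hq : q ∈ Icc 1 N) (S : Finset ℕ) (hS : S ⊆ Icc 1 N) (hB : 0 < B)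
    (hlt : B < B') (hgap : 3 / 16 * (B : ℝ) ^ 4 ≤ B') :
    ∑ r ∈ S, KD B B' (cofac q r) (cofac r q) ≤ C * (B' : ℝ) ^ (-(1 / 10) : ℝ) := by
  classical
  refine le_trans ?_ (hT B B' N hB hlt hgap)
  rw [mem_Icc] at hq
  rw [← sum_product']
  have h1 : ∑ r ∈ S, KD B B' (cofac q r) (cofac r q) =
      ∑ z ∈ S.image (fun r => ((cofac q r, cofac r q) : ℕ × ℕ)), KD B B' z.1 z.2 := by
    rw [sum_image]
    intro a _ b _ hab
    simp only [Prod.mk.injEq] at hab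
    exact rd_cofac_inj (by omega) hab.1 hab.2
  rw [h1]
  refine sum_le_sum_of_subset_of_nonneg ?_ (fun z _ _ => n14_KD_nonneg _ _ _ _)
  intro z hz
  rw [mem_image] at hz
  obtain ⟨r, hr, rfl⟩ := hz
  have hr := hS hr
  rw [mem_Icc] at hr
  rw [mem_product, mem_Icc, mem_Icc]
  refine ⟨⟨cofac_pos r (by omega), (cofac_le r (by omega)).trans hq.2⟩,
    cofac_pos q (by omega), (cofac_le q (by omega)).trans hr.2⟩

/-- sum of the kernel over `q` with `b q = B` -/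
theorem n14_fiber_col {C : ℝ} (hT : ∀ (B B' N : ℕ), 0 < B → B < B' →
    3 / 16 * (B : ℝ) ^ 4 ≤ B' →
    ∑ u ∈ Icc 1 N, ∑ v ∈ Icc 1 N, KD B B' u v ≤ C * (B' : ℝ) ^ (-(1 / 10) : ℝ))
    {N r B B' : ℕ} (hr : r ∈ Icc 1 N) (S : Finset ℕ) (hS : S ⊆ Icc 1 N) (hB : 0 < B)
    (hlt : B < B') (hgap : 3 / 16 * (B : ℝ) ^ 4 ≤ B') :
    ∑ q ∈ S, KD B B' (cofac q r) (cofac r q) ≤ C * (B' : ℝ) ^ (-(1 / 10) : ℝ) := by
  classical
  refine le_trans ?_ (hT B B' N hB hlt hgap)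
  rw [mem_Icc] at hr
  rw [← sum_product']
  have h1 : ∑ q ∈ S, KD B B' (cofac q r) (cofac r q) =
      ∑ z ∈ S.image (fun q => ((cofac q r, cofac r q) : ℕ × ℕ)), KD B B' z.1 z.2 := by
    rw [sum_image]
    intro a _ b _ hab
    simp only [Prod.mk.injEq] at hab
    exact rd_cofac_inj (by omega) hab.2 hab.1
  rw [h1]
  refine sum_le_sum_of_subset_of_nonneg ?_ (fun z _ _ => n14_KD_nonneg _ _ _ _)
  intro z hz
  rw [mem_image] at hz
  obtain ⟨q, hq, rfl⟩ := hz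
  have hq := hS hq
  rw [mem_Icc] at hq
  rw [mem_product, mem_Icc, mem_Icc]
  refine ⟨⟨cofac_pos r (by omega), (cofac_le r (by omega)).trans hq.2⟩,
    cofac_pos q (by omega), (cofac_le q (by omega)).trans hr.2⟩

theorem diff_sum : ∃ C > 0, ∀ (N : ℕ) (f : ℕ → ℝ) (b : ℕ → ℕ), (∀ q, 0 ≤ f q) →
    (∀ q, 0 < b q) → (∀ q r, b q < b r → 2 * b q ≤ b r ∧ 3 / 16 * (b q : ℝ) ^ 4 ≤ b r) →
    ∑ q ∈ Icc 1 N, ∑ r ∈ Icc 1 N, Real.sqrt (f q * f r) *
      KD (b q) (b r) (cofac q r) (cofac r q) ≤ C * ∑ q ∈ Icc 1 N, f q := by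
  classical
  obtain ⟨C, hC, hT⟩ := n14_T
  obtain ⟨K, hK, hval⟩ := kb_sum_values
  refine ⟨2 * (C * K), by positivity, ?_⟩
  intro N f b hf hb hgap
  set 𝓑 : Finset ℕ := (Icc 1 N).image b with h𝓑
  have hBpos : ∀ B ∈ 𝓑, 0 < B := by
    intro B hB
    rw [h𝓑, mem_image] at hB
    obtain ⟨q, _, rfl⟩ := hB
    exact hb q
  have hBdouble : ∀ B ∈ 𝓑, ∀ B' ∈ 𝓑, B < B' → 2 * B ≤ B' := by
    intro B hB B' hB' hlt
    rw [h𝓑, mem_image] at hB hB'
    obtain ⟨q, _, rfl⟩ := hB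
    obtain ⟨r, _, rfl⟩ := hB'
    exact (hgap q r hlt).1
  have hBgap : ∀ B ∈ 𝓑, ∀ B' ∈ 𝓑, B < B' → 3 / 16 * (B : ℝ) ^ 4 ≤ B' := by
    intro B hB B' hB' hlt
    rw [h𝓑, mem_image] at hB hB'
    obtain ⟨q, _, rfl⟩ := hB
    obtain ⟨r, _, rfl⟩ := hB'
    exact (hgap q r hlt).2
  -- the double sum over the values
  have hS : ∑ B' ∈ 𝓑, ∑ B ∈ 𝓑.filter (fun B => B < B'), (B' : ℝ) ^ (-(1 / 10) : ℝ) ≤ 2 * K := by
    have h1 := hval 𝓑 hBpos hBdouble (1 / 2) (by norm_num)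
    have h2 : 𝓑.filter (fun B : ℕ => (1 / 2 : ℝ) < (B : ℝ)) = 𝓑 := by
      refine filter_true_of_mem fun B hB => ?_
      have : (1 : ℝ) ≤ B := by exact_mod_cast hBpos B hB
      linarith only [this]
    rw [h2] at h1
    refine h1.trans ?_
    have h3 : (1 / 2 : ℝ) ^ (-(1 / 20) : ℝ) ≤ 2 := by
      calc (1 / 2 : ℝ) ^ (-(1 / 20) : ℝ) ≤ (1 / 2 : ℝ) ^ (-1 : ℝ) :=
            Real.rpow_le_rpow_of_exponent_ge (by norm_num) (by norm_num) (by norm_num)
        _ = 2 := by rw [Real.rpow_neg_one]; norm_num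
    calc K * (1 / 2 : ℝ) ^ (-(1 / 20) : ℝ) ≤ K * 2 := mul_le_mul_of_nonneg_left h3 hK.le
      _ = _ := mul_comm _ _
  have hKDnn := n14_KD_nonneg
  have hpnn : ∀ B : ℕ, 0 ≤ (B : ℝ) ^ (-(1 / 10) : ℝ) := fun B => by positivity
  -- row sums
  have hrow : ∀ q ∈ Icc 1 N, ∑ r ∈ Icc 1 N, KD (b q) (b r) (cofac q r) (cofac r q) ≤
      C * (2 * K) := by
    intro q hq
    have hbq : b q ∈ 𝓑 := mem_image_of_mem b hq
    have h1 : ∑ r ∈ Icc 1 N, KD (b q) (b r) (cofac q r) (cofac r q) =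
        ∑ B' ∈ 𝓑, ∑ r ∈ (Icc 1 N).filter (fun r => b r = B'),
          KD (b q) (b r) (cofac q r) (cofac r q) := by
      symm
      exact sum_fiberwise_of_maps_to (fun r hr => mem_image_of_mem b hr) _
    rw [h1]
    have h2 : ∀ B' ∈ 𝓑, ∑ r ∈ (Icc 1 N).filter (fun r => b r = B'),
          KD (b q) (b r) (cofac q r) (cofac r q) ≤
        C * ∑ B ∈ 𝓑.filter (fun B => B < B'), (B' : ℝ) ^ (-(1 / 10) : ℝ) := by
      intro B' hB'
      have h3 : ∑ r ∈ (Icc 1 N).filter (fun r => b r = B'),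
          KD (b q) (b r) (cofac q r) (cofac r q) =
          ∑ r ∈ (Icc 1 N).filter (fun r => b r = B'), KD (b q) B' (cofac q r) (cofac r q) := by
        refine sum_congr rfl fun r hr => ?_
        rw [(mem_filter.1 hr).2]
      rw [h3]
      rcases lt_or_ge (b q) B' with hlt | hge
      · refine (n14_fiber_row hT hq _ (filter_subset _ _) (hb q) hlt
          (hBgap _ hbq _ hB' hlt)).trans ?_
        refine mul_le_mul_of_nonneg_left ?_ hC.le
        exact single_le_sum (f := fun _ => (B' : ℝ) ^ (-(1 / 10) : ℝ)) (fun _ _ => hpnn B')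
          (mem_filter.2 ⟨hbq, hlt⟩)
      · rw [sum_eq_zero (fun r _ => n14_KD_zero hge _ _)]
        exact mul_nonneg hC.le (sum_nonneg fun _ _ => hpnn B')
    refine (sum_le_sum h2).trans ?_
    rw [← mul_sum]
    exact mul_le_mul_of_nonneg_left hS hC.le
  -- column sums
  have hcol : ∀ r ∈ Icc 1 N, ∑ q ∈ Icc 1 N, KD (b q) (b r) (cofac q r) (cofac r q) ≤
      C * (2 * K) := by
    intro r hr
    have hbr : b r ∈ 𝓑 := mem_image_of_mem b hr
    have h1 : ∑ q ∈ Icc 1 N, KD (b q) (b r) (cofac q r) (cofac r q) =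
        ∑ B ∈ 𝓑, ∑ q ∈ (Icc 1 N).filter (fun q => b q = B),
          KD (b q) (b r) (cofac q r) (cofac r q) := by
      symm
      exact sum_fiberwise_of_maps_to (fun q hq => mem_image_of_mem b hq) _
    rw [h1]
    have h2 : ∀ B ∈ 𝓑, ∑ q ∈ (Icc 1 N).filter (fun q => b q = B),
          KD (b q) (b r) (cofac q r) (cofac r q) ≤
        if B < b r then C * (b r : ℝ) ^ (-(1 / 10) : ℝ) else 0 := by
      intro B hB
      have h3 : ∑ q ∈ (Icc 1 N).filter (fun q => b q = B),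
          KD (b q) (b r) (cofac q r) (cofac r q) =
          ∑ q ∈ (Icc 1 N).filter (fun q => b q = B), KD B (b r) (cofac q r) (cofac r q) := by
        refine sum_congr rfl fun q hq => ?_
        rw [(mem_filter.1 hq).2]
      rw [h3]
      split_ifs with hlt
      · exact n14_fiber_col hT hr _ (filter_subset _ _) (hBpos B hB) hlt (hBgap _ hB _ hbr hlt)
      · rw [sum_eq_zero (fun q _ => n14_KD_zero (not_lt.1 hlt) _ _)]
    refine (sum_le_sum h2).trans ?_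
    rw [← sum_filter, ← mul_sum]
    refine mul_le_mul_of_nonneg_left (le_trans ?_ hS) hC.le
    exact single_le_sum (f := fun B' : ℕ => ∑ B ∈ 𝓑.filter (fun B => B < B'),
      (B' : ℝ) ^ (-(1 / 10) : ℝ)) (fun B' _ => sum_nonneg fun _ _ => hpnn B') hbr
  have h1 : ∑ q ∈ Icc 1 N, ∑ r ∈ Icc 1 N, Real.sqrt (f q * f r) *
      KD (b q) (b r) (cofac q r) (cofac r q) ≤
      ∑ q ∈ Icc 1 N, ∑ r ∈ Icc 1 N, (f q / 2 * KD (b q) (b r) (cofac q r) (cofac r q) +
        f r / 2 * KD (b q) (b r) (cofac q r) (cofac r q)) := by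
    refine sum_le_sum fun q _ => sum_le_sum fun r _ => ?_
    have h2 : Real.sqrt (f q * f r) ≤ f q / 2 + f r / 2 := by
      rw [Real.sqrt_le_left (by linarith only [hf q, hf r])]
      linarith only [sq_nonneg (f q - f r)]
    calc Real.sqrt (f q * f r) * KD (b q) (b r) (cofac q r) (cofac r q)
        ≤ (f q / 2 + f r / 2) * KD (b q) (b r) (cofac q r) (cofac r q) :=
          mul_le_mul_of_nonneg_right h2 (hKDnn _ _ _ _)
      _ = _ := by ring
  refine h1.trans ?_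
  simp only [sum_add_distrib]
  have h2 : ∑ q ∈ Icc 1 N, ∑ r ∈ Icc 1 N, f q / 2 * KD (b q) (b r) (cofac q r) (cofac r q) ≤
      C * K * ∑ q ∈ Icc 1 N, f q := by
    rw [mul_sum]
    refine sum_le_sum fun q hq => ?_
    rw [← mul_sum]
    have h3 : 0 ≤ f q / 2 := by linarith only [hf q]
    calc f q / 2 * ∑ r ∈ Icc 1 N, KD (b q) (b r) (cofac q r) (cofac r q) ≤
          f q / 2 * (C * (2 * K)) := mul_le_mul_of_nonneg_left (hrow q hq) h3
      _ = C * K * f q := by ring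
  have h3 : ∑ q ∈ Icc 1 N, ∑ r ∈ Icc 1 N, f r / 2 * KD (b q) (b r) (cofac q r) (cofac r q) ≤
      C * K * ∑ q ∈ Icc 1 N, f q := by
    rw [sum_comm, mul_sum]
    refine sum_le_sum fun r hr => ?_
    rw [← mul_sum]
    have h3 : 0 ≤ f r / 2 := by linarith only [hf r]
    calc f r / 2 * ∑ q ∈ Icc 1 N, KD (b q) (b r) (cofac q r) (cofac r q) ≤
          f r / 2 * (C * (2 * K)) := mul_le_mul_of_nonneg_left (hcol r hr) h3
      _ = C * K * f r := by ring
  linarith only [h2, h3]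

end Vale.P028
end

section

/-!
# Exact sheets with different denominators, improved kernel
-/

namespace Vale.P028

open Finset MeasureTheory

theorem n13_distInt_le (y : ℝ) : distInt y ≤ 1 / 2 := by
  unfold distInt
  exact abs_sub_round y

/-- a larger denominator is not selected for `x`, so `x` is not too small -/
theorem n13_big {γ x x' : ℝ} (hx : 0 < x) (hB : Bq γ x < Bq γ x') :
    1 < (Bq γ x' : ℝ) ^ 4 * x := by
  have hB1 := Bq_pos γ x
  rcases Bsel_spec γ (1 / 1024) (min x' (1 / 1024)) with h | ⟨h, -⟩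
  · exfalso
    have h1 : Bq γ x' = 1 := h
    omega
  · by_contra hle
    push Not at hle
    have hm : 0 < min x (1 / 1024 : ℝ) := lt_min hx (by norm_num)
    have h2 : (Bq γ x' : ℝ) ^ 4 * min x (1 / 1024 : ℝ) ≤ 1 := by
      refine le_trans ?_ hle
      exact mul_le_mul_of_nonneg_left (min_le_left _ _) (by positivity)
    have h3 : Bq γ x' ≤ Bq γ x := Bsel_ge hm h h2
    omega

/-- the sifting starts early -/
theorem n13_yK {γ x x' : ℝ} (hx : 0 < x) (hB : Bq γ x < Bq γ x') :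
    yK γ x ≤ 20 * Real.log (Bq γ x') + 4 := by
  have h1 := n13_big hx hB
  have hB1 := Bq_one_le γ x
  have hB2 := Bq_one_le γ x'
  have hBR : (Bq γ x : ℝ) ≤ Bq γ x' := by exact_mod_cast hB.le
  have hK1 := KK_one_le γ x
  have hK : KK γ x ≤ (Bq γ x' : ℝ) ^ 4 := by
    unfold KK
    refine max_le (one_le_pow₀ hB2) ?_
    rw [div_le_iff₀ hx]
    have := n13_distInt_le ((Bq γ x : ℝ) * γ)
    linarith only [this, h1]
  have hlog : 0 ≤ Real.log (Bq γ x') := Real.log_nonneg hB2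
  have h2 : Real.log (2 * Bq γ x * KK γ x) ≤ Real.log 2 + 5 * Real.log (Bq γ x') := by
    have h3 : Real.log (2 * Bq γ x * KK γ x) ≤ Real.log (2 * (Bq γ x' : ℝ) ^ 5) := by
      apply Real.log_le_log (by positivity)
      calc 2 * (Bq γ x : ℝ) * KK γ x ≤ 2 * (Bq γ x' : ℝ) * (Bq γ x' : ℝ) ^ 4 := by gcongr
        _ = 2 * (Bq γ x' : ℝ) ^ 5 := by ring
    have hb0 : (Bq γ x' : ℝ) ^ 5 ≠ 0 := (by positivity : (0 : ℝ) < (Bq γ x' : ℝ) ^ 5).ne'
    have e : Real.log (2 * (Bq γ x' : ℝ) ^ 5) = Real.log 2 + 5 * Real.log (Bq γ x') := by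
      rw [Real.log_mul (by norm_num) hb0, Real.log_pow]
      push_cast
      rfl
    rwa [e] at h3
  have h4 : Real.log 2 ≤ 1 := by
    have := Real.log_two_lt_d9
    linarith only [this]
  unfold yK
  linarith only [h2, h4, hlog]

/-- large primes of `u` divide `B'` -/
theorem n13_u {γ x x' : ℝ} {q r : ℕ} {k : ℤ} (hq : 0 < q) (hk : Sh γ x x' q r k)
    (h0 : nk γ x x' (cofac q r) (cofac r q) k = 0) {p : ℕ} (hp : p.Prime)
    (hpu : p ∣ cofac q r) (hpB : ¬ p ∣ Bq γ x') : (p : ℝ) ≤ yK γ x := by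
  by_contra hlt
  push Not at hlt
  have hpp := Nat.prime_iff_prime_int.mp hp
  have hcop := cofac_coprime (r := r) hq
  have hpv : ¬ p ∣ cofac r q := fun h' =>
    hp.one_lt.ne' (Nat.eq_one_of_dvd_coprimes hcop hpu h')
  have hpvZ : ¬ (p : ℤ) ∣ (cofac r q : ℤ) := fun h => hpv (by exact_mod_cast h)
  have hpuZ : (p : ℤ) ∣ (cofac q r : ℤ) := by exact_mod_cast hpu
  have hpBZ : ¬ (p : ℤ) ∣ (Bq γ x' : ℤ) := fun h => hpB (by exact_mod_cast h)
  unfold nk at h0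
  -- `p` divides `B' (B k + v A)`
  have h1 : (p : ℤ) ∣ (Bq γ x' : ℤ) * ((Bq γ x : ℤ) * k + (cofac r q : ℤ) * Aq γ x) := by
    have e : (Bq γ x' : ℤ) * ((Bq γ x : ℤ) * k + (cofac r q : ℤ) * Aq γ x) =
        (cofac q r : ℤ) * (Bq γ x * Aq γ x') := by linear_combination h0
    rw [e]
    exact dvd_mul_of_dvd_left hpuZ _
  have h2 : (p : ℤ) ∣ (Bq γ x : ℤ) * k + (cofac r q : ℤ) * Aq γ x :=
    (hpp.dvd_or_dvd h1).resolve_left hpBZ
  have hpB1 : ¬ p ∣ Bq γ x := by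
    intro h
    have hZ : (p : ℤ) ∣ (Bq γ x : ℤ) := by exact_mod_cast h
    have h3 : (p : ℤ) ∣ (cofac r q : ℤ) * Aq γ x :=
      (dvd_add_right (dvd_mul_of_dvd_left hZ _)).mp h2
    have h4 : (p : ℤ) ∣ Aq γ x := (hpp.dvd_or_dvd h3).resolve_left hpvZ
    exact hpp.not_isUnit ((Aq_coprime γ x).isUnit_of_dvd' hZ h4)
  have hmem : p ∈ PK γ x q := by
    unfold PK
    rw [mem_filter, Nat.mem_primeFactors]
    exact ⟨⟨hp, hpu.trans (cofac_dvd q r), hq.ne'⟩, hlt, hpB1⟩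
  refine (Sh_class hq hk).1 p hmem hpu ?_
  have e : (Bq γ x : ℤ) * k + ((cofac r q : ℤ) - cofac q r) * Aq γ x =
      ((Bq γ x : ℤ) * k + (cofac r q : ℤ) * Aq γ x) - (cofac q r : ℤ) * Aq γ x := by ring
  rw [e]
  exact dvd_sub h2 (dvd_mul_of_dvd_left hpuZ _)

/-- large primes of `v` divide `B` -/
theorem n13_v {γ x x' : ℝ} {q r : ℕ} {k : ℤ} (hq : 0 < q) (hr : 0 < r) (hk : Sh γ x x' q r k)
    (h0 : nk γ x x' (cofac q r) (cofac r q) k = 0) {p : ℕ} (hp : p.Prime)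
    (hpv : p ∣ cofac r q) (hpB : ¬ p ∣ Bq γ x) : (p : ℝ) ≤ yK γ x' := by
  by_contra hlt
  push Not at hlt
  have hpp := Nat.prime_iff_prime_int.mp hp
  have hcop := cofac_coprime (r := r) hq
  have hpu : ¬ p ∣ cofac q r := fun h' =>
    hp.one_lt.ne' (Nat.eq_one_of_dvd_coprimes hcop h' hpv)
  have hpuZ : ¬ (p : ℤ) ∣ (cofac q r : ℤ) := fun h => hpu (by exact_mod_cast h)
  have hpvZ : (p : ℤ) ∣ (cofac r q : ℤ) := by exact_mod_cast hpv
  have hpBZ : ¬ (p : ℤ) ∣ (Bq γ x : ℤ) := fun h => hpB (by exact_mod_cast h)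
  unfold nk at h0
  -- `p` divides `B (B' k - u A')`
  have h1 : (p : ℤ) ∣ (Bq γ x : ℤ) * ((Bq γ x' : ℤ) * k - (cofac q r : ℤ) * Aq γ x') := by
    have e : (Bq γ x : ℤ) * ((Bq γ x' : ℤ) * k - (cofac q r : ℤ) * Aq γ x') =
        (cofac r q : ℤ) * (-(Bq γ x' * Aq γ x)) := by linear_combination h0
    rw [e]
    exact dvd_mul_of_dvd_left hpvZ _
  have h2 : (p : ℤ) ∣ (Bq γ x' : ℤ) * k - (cofac q r : ℤ) * Aq γ x' :=
    (hpp.dvd_or_dvd h1).resolve_left hpBZ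
  have hpB1 : ¬ p ∣ Bq γ x' := by
    intro h
    have hZ : (p : ℤ) ∣ (Bq γ x' : ℤ) := by exact_mod_cast h
    have h3 : (p : ℤ) ∣ (cofac q r : ℤ) * Aq γ x' :=
      (dvd_sub_right (dvd_mul_of_dvd_left hZ _)).mp h2
    have h4 : (p : ℤ) ∣ Aq γ x' := (hpp.dvd_or_dvd h3).resolve_left hpuZ
    exact hpp.not_isUnit ((Aq_coprime γ x').isUnit_of_dvd' hZ h4)
  have hmem : p ∈ PK γ x' r := by
    unfold PK
    rw [mem_filter, Nat.mem_primeFactors]
    exact ⟨⟨hp, hpv.trans (cofac_dvd r q), hr.ne'⟩, hlt, hpB1⟩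
  refine (Sh_class hq hk).2 p hmem hpv ?_
  have e : (Bq γ x' : ℤ) * k + ((cofac r q : ℤ) - cofac q r) * Aq γ x' =
      ((Bq γ x' : ℤ) * k - (cofac q r : ℤ) * Aq γ x') + (cofac r q : ℤ) * Aq γ x' := by ring
  rw [e]
  exact dvd_add h2 (dvd_mul_of_dvd_left hpvZ _)

/-- the product over the primes of the cofactors -/
theorem n13_GU {γ x x' : ℝ} {q r : ℕ} {k : ℤ} (hq : 0 < q) (hr : 0 < r)
    (hk : Sh γ x x' q r k) (h0 : nk γ x x' (cofac q r) (cofac r q) k = 0) :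
    GU γ x x' q r ≤ GG (Bq γ x) * GG (Bq γ x') := by
  have h1 : (pr ((PK γ x q).filter (fun p => p ∣ cofac q r)))⁻¹ ≤ GG (Bq γ x') := by
    rw [GG_eq]
    refine pr_inv_mono ?_ fun p hp => Nat.prime_of_mem_primeFactors hp
    intro p hp
    rw [mem_filter] at hp
    obtain ⟨a, -, c, -⟩ := mem_PK hp.1
    rw [Nat.mem_primeFactors]
    refine ⟨a, ?_, (Bq_pos γ x').ne'⟩
    by_contra hcon
    exact absurd (n13_u hq hk h0 a hp.2 hcon) (not_le.mpr c)
  have h2 : (pr ((PK γ x' r).filter (fun p => p ∣ cofac r q)))⁻¹ ≤ GG (Bq γ x) := by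
    rw [GG_eq]
    refine pr_inv_mono ?_ fun p hp => Nat.prime_of_mem_primeFactors hp
    intro p hp
    rw [mem_filter] at hp
    obtain ⟨a, -, c, -⟩ := mem_PK hp.1
    rw [Nat.mem_primeFactors]
    refine ⟨a, ?_, (Bq_pos γ x).ne'⟩
    by_contra hcon
    exact absurd (n13_v hq hr hk h0 a hp.2 hcon) (not_le.mpr c)
  have h3 : 0 < pr ((PK γ x' r).filter (fun p => p ∣ cofac r q)) :=
    pr_pos fun p hp => PK_prime p (mem_filter.mp hp).1
  have h4 : 0 ≤ GG (Bq γ x') := by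
    rw [GG_eq]
    exact inv_nonneg.mpr (pr_pos fun p hp => Nat.prime_of_mem_primeFactors hp).le
  unfold GU
  rw [mul_comm (GG (Bq γ x))]
  exact mul_le_mul h1 h2 (inv_nonneg.mpr h3.le) h4

theorem n13_key {t w c : ℝ} (ht : 0 ≤ t) (hw : 1 ≤ w) (h1 : t ≤ w ^ (-(1 / 2) : ℝ))
    (h2 : t ≤ c) : t ≤ w ^ (-(1 / 4) : ℝ) * (min 1 c) ^ (1 / 2 : ℝ) := by
  have hw0 : 0 < w := by linarith only [hw]
  have h3 : w ^ (-(1 / 2) : ℝ) ≤ 1 := Real.rpow_le_one_of_one_le_of_nonpos hw (by norm_num)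
  have h4 : t ≤ min 1 c := le_min (h1.trans h3) h2
  have h5 : t ^ (1 / 2 : ℝ) ≤ w ^ (-(1 / 4) : ℝ) := by
    calc t ^ (1 / 2 : ℝ) ≤ (w ^ (-(1 / 2) : ℝ)) ^ (1 / 2 : ℝ) :=
          Real.rpow_le_rpow ht h1 (by norm_num)
      _ = w ^ (-(1 / 4) : ℝ) := by
          rw [← Real.rpow_mul hw0.le]
          norm_num
  have h6 : t ^ (1 / 2 : ℝ) ≤ (min 1 c) ^ (1 / 2 : ℝ) := Real.rpow_le_rpow ht h4 (by norm_num)
  calc t = t ^ (1 / 2 : ℝ) * t ^ (1 / 2 : ℝ) := by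
        rw [← Real.sqrt_eq_rpow, Real.mul_self_sqrt ht]
    _ ≤ w ^ (-(1 / 4) : ℝ) * (min 1 c) ^ (1 / 2 : ℝ) :=
        mul_le_mul h5 h6 (Real.rpow_nonneg ht _) (Real.rpow_nonneg hw0.le _)

theorem n13_size {u v x x' D : ℝ} (hu : 1 ≤ u) (hv : 1 ≤ v) (hx : 0 < x) (hx' : 0 < x')
    (h1 : v * x ≤ D) (h2 : u * x' ≤ D) :
    Real.sqrt (x * x') / D ≤ (u * v) ^ (-(1 / 2) : ℝ) := by
  have hu0 : 0 < u := by linarith only [hu]
  have hv0 : 0 < v := by linarith only [hv]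
  have hD : 0 < D := lt_of_lt_of_le (mul_pos hv0 hx) h1
  have h3 : (x * x') * (u * v) ≤ D ^ 2 := by
    calc (x * x') * (u * v) = (v * x) * (u * x') := by ring
      _ ≤ D * D := mul_le_mul h1 h2 (by positivity) hD.le
      _ = D ^ 2 := by ring
  have h4 : Real.sqrt (x * x') * Real.sqrt (u * v) ≤ D := by
    rw [← Real.sqrt_mul (by positivity)]
    exact (Real.sqrt_le_sqrt h3).trans (le_of_eq (Real.sqrt_sq hD.le))
  have h5 : 0 < Real.sqrt (u * v) := Real.sqrt_pos.2 (by positivity)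
  rw [Real.rpow_neg (by positivity), ← Real.sqrt_eq_rpow, div_le_iff₀ hD, ← div_eq_inv_mul,
    le_div_iff₀ h5]
  exact h4

theorem n13_size2 {v x x' D b : ℝ} (hv : 1 ≤ v) (hx : 0 < x) (hx' : 0 < x')
    (h1 : v * x ≤ D) (hb : 1 ≤ b) (hbx : 1 ≤ b ^ 4 * x) :
    Real.sqrt (x * x') / D ≤ b ^ 2 * Real.sqrt x' := by
  have hD : x ≤ D := le_trans (by linarith only [mul_nonneg (sub_nonneg.2 hv) (le_of_lt (sub_pos.2 hx))]) h1
  have hD0 : 0 < D := hx.trans_le hD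
  have hs : 0 < Real.sqrt x := Real.sqrt_pos.2 hx
  have h2 : 1 ≤ b ^ 2 * Real.sqrt x := by
    have h3 : Real.sqrt (b ^ 4 * x) = b ^ 2 * Real.sqrt x := by
      rw [show b ^ 4 * x = (b ^ 2) ^ 2 * x by ring, Real.sqrt_mul (by positivity),
        Real.sqrt_sq (by positivity)]
    rw [← h3]
    exact Real.one_le_sqrt.2 hbx
  rw [div_le_iff₀ hD0, Real.sqrt_mul hx.le]
  calc Real.sqrt x * Real.sqrt x' = 1 * (Real.sqrt x * Real.sqrt x') := by ring
    _ ≤ (b ^ 2 * Real.sqrt x) * (Real.sqrt x * Real.sqrt x') := by gcongr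
    _ = b ^ 2 * Real.sqrt x' * (Real.sqrt x * Real.sqrt x) := by ring
    _ = b ^ 2 * Real.sqrt x' * x := by rw [Real.mul_self_sqrt hx.le]
    _ ≤ b ^ 2 * Real.sqrt x' * D := by gcongr

/-- the size of the kernel -/
theorem n13_kernel {γ x x' : ℝ} {q r : ℕ} {k : ℤ} (hq : 0 < q) (hr : 0 < r) (hx : 0 < x)
    (hx' : 0 < x') (hB : Bq γ x < Bq γ x') (hk : Sh γ x x' q r k)
    (h0 : nk γ x x' (cofac q r) (cofac r q) k = 0) :
    Real.sqrt (x * x') / DD q r x x' ≤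
      ((cofac q r : ℝ) * (cofac r q : ℝ)) ^ (-(1 / 4) : ℝ) *
      (min 1 ((Bq γ x' : ℝ) ^ (5 / 2 : ℝ) *
        Real.exp (-((gpB (Bq γ x) (cofac r q) : ℝ) - 2) / 4))) ^ (1 / 2 : ℝ) := by
  have hu0 : 0 < cofac q r := cofac_pos r hq
  have hv0 : 0 < cofac r q := cofac_pos q hr
  have hu1 : (1 : ℝ) ≤ cofac q r := by exact_mod_cast hu0
  have hv1 : (1 : ℝ) ≤ cofac r q := by exact_mod_cast hv0
  have hw : (1 : ℝ) ≤ (cofac q r : ℝ) * (cofac r q : ℝ) := by nlinarith only [hu1, hv1]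
  have hD0 : 0 < DD q r x x' := DD_pos hq hr hx
  have hDv : (cofac r q : ℝ) * x ≤ DD q r x x' := by rw [DD_eq' hq]; exact le_max_left _ _
  have hDu : (cofac q r : ℝ) * x' ≤ DD q r x x' := by rw [DD_eq' hq]; exact le_max_right _ _
  have ht : 0 ≤ Real.sqrt (x * x') / DD q r x x' := by positivity
  have h1 := n13_size hu1 hv1 hx hx' hDv hDu
  have h1' : Real.sqrt (x * x') / DD q r x x' ≤ 1 :=
    h1.trans (Real.rpow_le_one_of_one_le_of_nonpos hw (by norm_num))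
  refine n13_key ht hw h1 ?_
  have hb1 := Bq_one_le γ x'
  have hb2 : (2 : ℝ) ≤ Bq γ x' := by
    have h2 := Bq_pos γ x
    have h3 : 2 ≤ Bq γ x' := by omega
    exact_mod_cast h3
  have hb0 : (0 : ℝ) < Bq γ x' := by linarith only [hb1]
  set b : ℝ := (Bq γ x' : ℝ) with hb
  -- the largest prime
  have hP : (gpB (Bq γ x) (cofac r q) : ℝ) ≤ 2 ∨ (gpB (Bq γ x) (cofac r q) : ℝ) ≤ yK γ x' := by
    unfold gpB
    rcases ((cofac r q).primeFactors.filter (fun p => ¬ p ∣ Bq γ x)).eq_empty_or_nonempty with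
      he | hne
    · left
      rw [he]
      simp
    · right
      obtain ⟨p, hp, hpe⟩ := exists_mem_eq_sup _ hne id
      rw [hpe]
      rw [mem_filter, Nat.mem_primeFactors] at hp
      exact n13_v hq hr hk h0 hp.1.1 hp.1.2.1 hp.2
  set P : ℝ := (gpB (Bq γ x) (cofac r q) : ℝ) with hPd
  rcases hP with hP | hP
  · -- no large prime
    refine h1'.trans ?_
    have e1 : (1 : ℝ) ≤ b ^ (5 / 2 : ℝ) := Real.one_le_rpow hb1 (by norm_num)
    have e2 : (1 : ℝ) ≤ Real.exp (-(P - 2) / 4) := Real.one_le_exp (by linarith only [hP])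
    nlinarith only [e1, e2]
  · -- `exp ((P - 2) / 2) ≤ 2 B' K'`
    have hK1 := KK_one_le γ x'
    have h2 : Real.exp ((P - 2) / 2) ≤ 2 * b * KK γ x' := by
      rw [← Real.exp_log (show 0 < 2 * b * KK γ x' by positivity)]
      apply Real.exp_le_exp.2
      unfold yK at hP
      linarith only [hP]
    have h3 : Real.exp (-(P - 2) / 4) ^ 2 = (Real.exp ((P - 2) / 2))⁻¹ := by
      rw [← Real.exp_nat_mul, ← Real.exp_neg]
      congr 1
      push_cast
      ring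
    have hpos : 0 < Real.exp ((P - 2) / 2) := Real.exp_pos _
    have e0 : 0 < Real.exp (-(P - 2) / 4) := Real.exp_pos _
    have e5 : b ^ (5 / 2 : ℝ) = b ^ 2 * Real.sqrt b := by
      rw [Real.sqrt_eq_rpow, ← Real.rpow_natCast, ← Real.rpow_add hb0]
      norm_num
    rcases le_or_gt (KK γ x') 1 with hK | hK
    · -- `K' = 1`
      refine h1'.trans ?_
      have h4 : Real.exp ((P - 2) / 2) ≤ 2 * b := by
        calc Real.exp ((P - 2) / 2) ≤ 2 * b * KK γ x' := h2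
          _ ≤ 2 * b * 1 := by gcongr
          _ = 2 * b := mul_one _
      have h5 : (2 * b)⁻¹ ≤ Real.exp (-(P - 2) / 4) ^ 2 := by
        rw [h3]
        exact inv_anti₀ hpos h4
      have h6 : (1 : ℝ) ≤ (b ^ (5 / 2 : ℝ) * Real.exp (-(P - 2) / 4)) ^ 2 := by
        rw [e5, mul_pow, mul_pow, Real.sq_sqrt hb0.le]
        calc (1 : ℝ) ≤ (b ^ 2) ^ 2 * b * (2 * b)⁻¹ := by
              rw [← div_eq_mul_inv, le_div_iff₀ (by positivity)]
              (by_contra nlg; linarith only [nlg, mul_pos (sub_pos.2 hb0) (sub_pos.2 hb0), mul_pos (sub_pos.2 (not_le.1 nlg)) (sub_pos.2 hb0), mul_nonneg (sq_nonneg (b : ℝ)) (sub_nonneg.2 (pow_le_pow_left₀ (by norm_num) hb2 4))])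
          _ ≤ (b ^ 2) ^ 2 * b * Real.exp (-(P - 2) / 4) ^ 2 := by gcongr
      have h7 : 0 ≤ b ^ (5 / 2 : ℝ) * Real.exp (-(P - 2) / 4) := by positivity
      exact (one_le_sq_iff₀ h7).1 h6
    · -- `K' > 1`
      have h4 : KK γ x' * x' ≤ 1 / 2 := by
        have h5 : KK γ x' = distInt ((Bq γ x' : ℝ) * γ) / x' := by
          unfold KK at hK ⊢
          rcases lt_max_iff.1 hK with h | h
          · exact absurd h (lt_irrefl _)
          · exact max_eq_right h.le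
        rw [h5, div_mul_cancel₀ _ hx'.ne']
        exact n13_distInt_le _
      have h5 : x' ≤ b * Real.exp (-(P - 2) / 4) ^ 2 := by
        rw [h3, ← div_eq_mul_inv, le_div_iff₀ hpos]
        calc x' * Real.exp ((P - 2) / 2) ≤ x' * (2 * b * KK γ x') := by gcongr
          _ = 2 * b * (KK γ x' * x') := by ring
          _ ≤ 2 * b * (1 / 2) := by gcongr
          _ = b := by ring
      have h6 : Real.sqrt x' ≤ Real.sqrt b * Real.exp (-(P - 2) / 4) := by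
        have h7 := Real.sqrt_le_sqrt h5
        rwa [Real.sqrt_mul hb0.le, Real.sqrt_sq e0.le] at h7
      have h7 := n13_size2 hv1 hx hx' hDv hb1 (n13_big hx hB).le
      refine h7.trans ?_
      rw [e5]
      calc b ^ 2 * Real.sqrt x' ≤ b ^ 2 * (Real.sqrt b * Real.exp (-(P - 2) / 4)) := by gcongr
        _ = b ^ 2 * Real.sqrt b * Real.exp (-(P - 2) / 4) := by ring

theorem pair_diff {γ x x' : ℝ} {q r : ℕ} {k : ℤ} (hq : 0 < q) (hr : 0 < r) (hx : 0 < x)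
    (hx' : 0 < x') (hx2 : x ≤ 1 / 2) (hx2' : x' ≤ 1 / 2) (hB : Bq γ x < Bq γ x')
    (hk : Sh γ x x' q r k) (h0 : nk γ x x' (cofac q r) (cofac r q) k = 0) :
    16 * ((q.totient : ℝ) / q * x * ((r.totient : ℝ) / r * x') / DD q r x x') *
      GU γ x x' q r * (pr (F0 γ x x' q r))⁻¹ ≤
      16 * (Real.sqrt (((q.totient : ℝ) / q * x) * ((r.totient : ℝ) / r * x')) *
        KD (Bq γ x) (Bq γ x') (cofac q r) (cofac r q)) := by
  classical
  have hD0 : 0 < DD q r x x' := DD_pos hq hr hx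
  have hu0 : 0 < cofac q r := cofac_pos r hq
  have hKD : KD (Bq γ x) (Bq γ x') (cofac q r) (cofac r q) =
      GG (Bq γ x) * GG (Bq γ x') * (((cofac q r : ℝ) * (cofac r q : ℝ)) ^ (-(1 / 4) : ℝ) *
      (min 1 ((Bq γ x' : ℝ) ^ (5 / 2 : ℝ) *
        Real.exp (-((gpB (Bq γ x) (cofac r q) : ℝ) - 2) / 4))) ^ (1 / 2 : ℝ)) := by
    unfold KD
    rw [if_pos]
    refine ⟨hB, (exact_diff h0).1, fun p hp => ?_⟩
    rw [Nat.mem_primeFactors] at hp
    by_cases hpB : p ∣ Bq γ x'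
    · exact Or.inl hpB
    · exact Or.inr ((n13_u hq hk h0 hp.1 hp.2.1 hpB).trans (n13_yK hx hB))
  rw [hKD]
  have hker := n13_kernel hq hr hx hx' hB hk h0
  have hGU := n13_GU hq hr hk h0
  have hGG0 : 0 ≤ GG (Bq γ x) * GG (Bq γ x') := by
    rw [GG_eq, GG_eq]
    exact mul_nonneg (inv_nonneg.mpr (pr_pos fun p hp => Nat.prime_of_mem_primeFactors hp).le)
      (inv_nonneg.mpr (pr_pos fun p hp => Nat.prime_of_mem_primeFactors hp).le)
  have hF0 := F0_pos γ x x' q r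
  obtain ⟨hFq, hFr⟩ := F0_le (γ := γ) (x := x) (x' := x') hq hr
  have ht1 := totient_ratio_pos hq
  have ht2 := totient_ratio_pos hr
  set a : ℝ := (q.totient : ℝ) / q with ha
  set b : ℝ := (r.totient : ℝ) / r with hb
  set P : ℝ := pr (F0 γ x x' q r) with hP
  set D : ℝ := DD q r x x' with hD
  set KR : ℝ := (((cofac q r : ℝ) * (cofac r q : ℝ)) ^ (-(1 / 4) : ℝ) *
      (min 1 ((Bq γ x' : ℝ) ^ (5 / 2 : ℝ) *
        Real.exp (-((gpB (Bq γ x) (cofac r q) : ℝ) - 2) / 4))) ^ (1 / 2 : ℝ)) with hKR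
  set G : ℝ := GG (Bq γ x) * GG (Bq γ x') with hG
  have hsP : Real.sqrt (a * b) ≤ P := by
    calc Real.sqrt (a * b) ≤ Real.sqrt (P * P) := by
          apply Real.sqrt_le_sqrt
          exact mul_le_mul hFq hFr ht2.le hF0.le
      _ = P := Real.sqrt_mul_self hF0.le
  have h2 : a * b * P⁻¹ ≤ Real.sqrt (a * b) := by
    rw [← div_eq_mul_inv, div_le_iff₀ hF0]
    calc a * b = Real.sqrt (a * b) * Real.sqrt (a * b) :=
          (Real.mul_self_sqrt (by positivity)).symm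
      _ ≤ Real.sqrt (a * b) * P := by gcongr
  have h3 : Real.sqrt (a * x * (b * x')) = Real.sqrt (a * b) * Real.sqrt (x * x') := by
    rw [← Real.sqrt_mul (by positivity)]
    congr 1
    ring
  have h4 : Real.sqrt (x * x') * Real.sqrt (x * x') = x * x' :=
    Real.mul_self_sqrt (by positivity)
  calc 16 * (a * x * (b * x') / D) * GU γ x x' q r * P⁻¹
      ≤ 16 * (a * x * (b * x') / D) * G * P⁻¹ := by gcongr
    _ = 16 * (x * x') * (a * b * P⁻¹) / D * G := by ring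
    _ ≤ 16 * (x * x') * Real.sqrt (a * b) / D * G := by gcongr
    _ = 16 * Real.sqrt (a * b) * (x * x' / D) * G := by ring
    _ = 16 * Real.sqrt (a * b) * (Real.sqrt (x * x') * (Real.sqrt (x * x') / D)) * G := by
        rw [← mul_div_assoc (Real.sqrt (x * x')), h4]
    _ ≤ 16 * Real.sqrt (a * b) * (Real.sqrt (x * x') * KR) * G := by gcongr
    _ = 16 * (Real.sqrt (a * b) * Real.sqrt (x * x') * (G * KR)) := by ring
    _ = 16 * (Real.sqrt (a * x * (b * x')) * (G * KR)) := by rw [h3]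

end Vale.P028
end

section

/-!
# The final bound for one pair, with the kernel `KD`
-/

namespace Vale.P028

open Finset MeasureTheory

theorem n15_DD_comm (q r : ℕ) (x x' : ℝ) : DD r q x' x = DD q r x x' := by
  unfold DD
  rw [max_comm, Nat.gcd_comm]

theorem n15_GU_comm (γ x x' : ℝ) (q r : ℕ) : GU γ x' x r q = GU γ x x' q r := by
  unfold GU
  rw [mul_comm]

theorem n15_F0_comm (γ x x' : ℝ) (q r : ℕ) : F0 γ x' x r q = F0 γ x x' q r := by
  unfold F0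
  rw [inter_comm]
  apply filter_congr
  intro p _
  exact and_comm

theorem n15_Sh_comm {γ x x' : ℝ} {q r : ℕ} {k : ℤ} (h : Sh γ x x' q r k) :
    Sh γ x' x r q (-k) := by
  obtain ⟨h1, al, be, hal, hbe, hk⟩ := h
  refine ⟨?_, be, al, hbe, hal, ?_⟩
  · rw [n15_DD_comm]
    have e : (((-k : ℤ) : ℝ) - ((cofac r q : ℝ) - cofac q r) * γ) =
        -((k : ℝ) - ((cofac q r : ℝ) - cofac r q) * γ) := by
      push_cast
      ring
    rw [e, abs_neg]
    exact h1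
  · rw [hk]
    ring

theorem n15_nk_comm {γ x x' : ℝ} {u v : ℕ} {k : ℤ} (h : nk γ x x' u v k = 0) :
    nk γ x' x v u (-k) = 0 := by
  unfold nk at h ⊢
  linear_combination (-1 : ℤ) * h

theorem n15_KD_nonneg (B B' u v : ℕ) : 0 ≤ KD B B' u v := by
  unfold KD
  split_ifs
  · have h1 := GG_nonneg B
    have h2 := GG_nonneg B'
    have h3 : 0 ≤ min 1 ((B' : ℝ) ^ (5 / 2 : ℝ) * Real.exp (-((gpB B v : ℝ) - 2) / 4)) :=
      le_min zero_le_one (by positivity)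
    positivity
  · exact le_rfl

/-- the pair of denominators in the other order -/
theorem n15_pair_diff' {γ x x' : ℝ} {q r : ℕ} {k : ℤ} (hq : 0 < q) (hr : 0 < r) (hx : 0 < x)
    (hx' : 0 < x') (hx2 : x ≤ 1 / 2) (hx2' : x' ≤ 1 / 2) (hB : Bq γ x' < Bq γ x)
    (hk : Sh γ x x' q r k) (h0 : nk γ x x' (cofac q r) (cofac r q) k = 0) :
    16 * ((q.totient : ℝ) / q * x * ((r.totient : ℝ) / r * x') / DD q r x x') *
      GU γ x x' q r * (pr (F0 γ x x' q r))⁻¹ ≤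
      16 * (Real.sqrt (((q.totient : ℝ) / q * x) * ((r.totient : ℝ) / r * x')) *
        KD (Bq γ x') (Bq γ x) (cofac r q) (cofac q r)) := by
  have h := pair_diff (k := -k) hr hq hx' hx hx2' hx2 hB (n15_Sh_comm hk) (n15_nk_comm h0)
  rw [n15_DD_comm, n15_GU_comm, n15_F0_comm,
    mul_comm ((r.totient : ℝ) / r * x') ((q.totient : ℝ) / q * x)] at h
  exact h

open Classical in
/-- the final bound for one pair -/
theorem pair_four : ∃ C > 0, ∀ (γ : ℝ) (ψ : ℕ → ℝ) (q r : ℕ), 0 < q → 0 < r → 0 < ψ q →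
    0 < ψ r → ψ q ≤ 1 / 2 → ψ r ≤ 1 / 2 →
    wK γ (ψ q) q * wK γ (ψ r) r * volume.real (GK γ ψ q ∩ GK γ ψ r ∩ Set.Ioc 0 1) ≤
      C * ((q.totient : ℝ) / q * ψ q * ((r.totient : ℝ) / r * ψ r) *
          GT (max 2 (DD q r (ψ q) (ψ r))) (cofac q r * cofac r q)) +
      (if SmallRel γ ψ q r then
        C * ((q.totient : ℝ) / q * ψ q * ((r.totient : ℝ) / r * ψ r) *
          GG (cofac q r * cofac r q) / DD q r (ψ q) (ψ r)) else 0) +
      128 * (Real.sqrt (((q.totient : ℝ) / q * ψ q) * ((r.totient : ℝ) / r * ψ r)) *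
        resK q r) +
      16 * (Real.sqrt (((q.totient : ℝ) / q * ψ q) * ((r.totient : ℝ) / r * ψ r)) *
        KD (Bq γ (ψ q)) (Bq γ (ψ r)) (cofac q r) (cofac r q)) +
      16 * (Real.sqrt (((q.totient : ℝ) / q * ψ q) * ((r.totient : ℝ) / r * ψ r)) *
        KD (Bq γ (ψ r)) (Bq γ (ψ q)) (cofac r q) (cofac q r)) := by
  obtain ⟨C, hC, h2⟩ := pair_two
  refine ⟨C, hC, ?_⟩
  intro γ ψ q r hq hr hψq hψr hq2 hr2
  have hD0 : 0 < DD q r (ψ q) (ψ r) := DD_pos hq hr hψq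
  have hμ : 0 < (q.totient : ℝ) / q * ψ q := mul_pos (totient_ratio_pos hq) hψq
  have hμ' : 0 < (r.totient : ℝ) / r * ψ r := mul_pos (totient_ratio_pos hr) hψr
  have hGT0 : 0 ≤ GT (max 2 (DD q r (ψ q) (ψ r))) (cofac q r * cofac r q) := by
    rw [GT_eq]
    exact inv_nonneg.mpr (pr_pos fun p hp =>
      Nat.prime_of_mem_primeFactors (mem_filter.mp hp).1).le
  have hGG0 : 0 ≤ GG (cofac q r * cofac r q) := GG_nonneg _
  have hres := resK_nonneg q r
  refine (h2 γ q r (ψ q) (ψ r) hq hr hψq hψr hq2 hr2).trans ?_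
  have t1 : (if 1 / 1024 ≤ DD q r (ψ q) (ψ r) then
        C * ((q.totient : ℝ) / q * ψ q * ((r.totient : ℝ) / r * ψ r) *
          GT (max 2 (DD q r (ψ q) (ψ r))) (cofac q r * cofac r q)) else 0) ≤
      C * ((q.totient : ℝ) / q * ψ q * ((r.totient : ℝ) / r * ψ r) *
          GT (max 2 (DD q r (ψ q) (ψ r))) (cofac q r * cofac r q)) := by
    split_ifs
    · exact le_rfl
    · exact mul_nonneg hC.le (mul_nonneg (mul_nonneg hμ.le hμ'.le) hGT0)
  have t2 : (if DD q r (ψ q) (ψ r) < 1 / 1024 ∧ ∃ k, Sh γ (ψ q) (ψ r) q r k ∧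
          nk γ (ψ q) (ψ r) (cofac q r) (cofac r q) k ≠ 0 then
        C * ((q.totient : ℝ) / q * ψ q * ((r.totient : ℝ) / r * ψ r) *
          GG (cofac q r * cofac r q) / DD q r (ψ q) (ψ r)) else 0) ≤
      (if SmallRel γ ψ q r then
        C * ((q.totient : ℝ) / q * ψ q * ((r.totient : ℝ) / r * ψ r) *
          GG (cofac q r * cofac r q) / DD q r (ψ q) (ψ r)) else 0) := by
    by_cases h : DD q r (ψ q) (ψ r) < 1 / 1024 ∧ ∃ k, Sh γ (ψ q) (ψ r) q r k ∧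
          nk γ (ψ q) (ψ r) (cofac q r) (cofac r q) k ≠ 0
    · rw [if_pos h]
      obtain ⟨h3, k, hk, hk'⟩ := h
      have h4 : SmallRel γ ψ q r :=
        ⟨h3, fun s hs hs1 hs2 hs3 => far_or_unbal hq hr hs hs1 hs2 hs3 hk hk'⟩
      rw [if_pos h4]
    · rw [if_neg h]
      split_ifs
      · exact mul_nonneg hC.le (div_nonneg (mul_nonneg (mul_nonneg hμ.le hμ'.le) hGG0) hD0.le)
      · exact le_rfl
  have hs0 : 0 ≤ Real.sqrt (((q.totient : ℝ) / q * ψ q) * ((r.totient : ℝ) / r * ψ r)) :=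
    Real.sqrt_nonneg _
  have hd1 := mul_nonneg hs0 (n15_KD_nonneg (Bq γ (ψ q)) (Bq γ (ψ r)) (cofac q r) (cofac r q))
  have hd2 := mul_nonneg hs0 (n15_KD_nonneg (Bq γ (ψ r)) (Bq γ (ψ q)) (cofac r q) (cofac q r))
  have hsq := mul_nonneg hs0 hres
  have t3 : (if ∃ k, Sh γ (ψ q) (ψ r) q r k ∧
        nk γ (ψ q) (ψ r) (cofac q r) (cofac r q) k = 0 then
        16 * ((q.totient : ℝ) / q * ψ q * ((r.totient : ℝ) / r * ψ r) / DD q r (ψ q) (ψ r)) *
          GU γ (ψ q) (ψ r) q r * (pr (F0 γ (ψ q) (ψ r) q r))⁻¹ else 0) ≤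
      128 * (Real.sqrt (((q.totient : ℝ) / q * ψ q) * ((r.totient : ℝ) / r * ψ r)) *
        resK q r) +
      16 * (Real.sqrt (((q.totient : ℝ) / q * ψ q) * ((r.totient : ℝ) / r * ψ r)) *
        KD (Bq γ (ψ q)) (Bq γ (ψ r)) (cofac q r) (cofac r q)) +
      16 * (Real.sqrt (((q.totient : ℝ) / q * ψ q) * ((r.totient : ℝ) / r * ψ r)) *
        KD (Bq γ (ψ r)) (Bq γ (ψ q)) (cofac r q) (cofac q r)) := by
    by_cases h : ∃ k, Sh γ (ψ q) (ψ r) q r k ∧
        nk γ (ψ q) (ψ r) (cofac q r) (cofac r q) k = 0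
    · rw [if_pos h]
      obtain ⟨k, hk, hk0⟩ := h
      rcases lt_trichotomy (Bq γ (ψ q)) (Bq γ (ψ r)) with hlt | heq | hgt
      · have h4 := pair_diff hq hr hψq hψr hq2 hr2 hlt hk hk0
        linarith only [h4, hsq, hd2]
      · have h4 := term_same hq hr hψq hψr (fun h => by rw [h]) heq hk hk0
        linarith only [hd1, hd2, h4]
      · have h4 := n15_pair_diff' hq hr hψq hψr hq2 hr2 hgt hk hk0
        linarith only [h4, hsq, hd1]
    · rw [if_neg h]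
      linarith only [hd1, hd2, hsq]
  linarith only [t3, t2, t1]

end Vale.P028
end

section

/-!
# The second moment for separated arcs
-/

namespace Vale.P028

open Finset MeasureTheory Filter

/-- the second moment of the sifted sets is bounded when the arcs are separated -/
theorem moment_N {c₀ : ℝ} (hc₀ : 0 < c₀) : ∃ C > 0, ∀ (γ : ℝ) (ψ : ℕ → ℝ) (S : Finset ℕ),
    (∀ q ∈ S, 0 < q ∧ 0 < ψ q ∧ ψ q ≤ 1 / 2) →
    (∀ q ∈ S, ∀ r ∈ S, q < r → ArcSep c₀ ψ q r) →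
      ∑ q ∈ S, ∑ r ∈ S, wK γ (ψ q) q * wK γ (ψ r) r *
        volume.real (GK γ ψ q ∩ GK γ ψ r ∩ Set.Ioc 0 1) ≤
      C * ((∑ q ∈ S, (q.totient : ℝ) / q * ψ q) + (∑ q ∈ S, (q.totient : ℝ) / q * ψ q) ^ 2) :=
  n16_moment (small_sum_sep hc₀) diff_sum pair_four

end Vale.P028
end

section

/-!
# Theorem N: separated arcs, every real `γ`, no loss
-/

namespace Vale.P028

open Finset MeasureTheory Filter

/-- infinitely many full arcs -/
theorem n17_full (γ : ℝ) (ψ : ℕ → ℝ) (h : {q : ℕ | 1 / 2 < ψ q}.Infinite) :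
    volume (W γ ψ)ᶜ = 0 := by
  have hW : W γ ψ = Set.univ := by
    rw [Set.eq_univ_iff_forall]
    intro x
    have h1 : {q : ℕ | 1 / 2 < ψ q} ⊆ {0} ∪ {q : ℕ | 0 < q ∧ distInt (q * x - γ) < ψ q} := by
      intro q hq
      rcases Nat.eq_zero_or_pos q with h0 | h0
      · exact Or.inl h0
      · refine Or.inr ⟨h0, ?_⟩
        refine lt_of_le_of_lt ?_ hq
        unfold distInt
        exact abs_sub_round _
    have h2 : ({0} ∪ {q : ℕ | 0 < q ∧ distInt (q * x - γ) < ψ q}).Infinite := h.mono h1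
    rcases Set.infinite_union.mp h2 with h3 | h3
    · exact absurd (Set.finite_singleton 0) h3
    · exact h3
  rw [hW, Set.compl_univ, measure_empty]

/-- **Theorem N.** -/
theorem theoremN (γ : ℝ) (ψ : ℕ → ℝ) (hψ : ∀ q, 0 ≤ ψ q) {c₀ : ℝ} (hc₀ : 0 < c₀)
    (hsep : ∀ q r : ℕ, 0 < q → q < r → 0 < ψ q → 0 < ψ r → ArcSep c₀ ψ q r)
    (hdiv : ¬ Summable (fun q : ℕ => ((q.totient : ℝ) / q) * ψ q)) :
    volume (W γ ψ)ᶜ = 0 := by
  classical
  rcases Set.finite_or_infinite {q : ℕ | 1 / 2 < ψ q} with hfin | hinf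
  swap
  · exact n17_full γ ψ hinf
  obtain ⟨N₁, hN₁⟩ : ∃ N₁ : ℕ, ∀ q : ℕ, N₁ ≤ q → ψ q ≤ 1 / 2 := by
    obtain ⟨M, hM⟩ := hfin.bddAbove
    refine ⟨M + 1, fun q hq => ?_⟩
    by_contra hlt
    push Not at hlt
    have := hM (show q ∈ {q : ℕ | 1 / 2 < ψ q} from hlt)
    omega
  obtain ⟨C, hC, hmom⟩ := moment_N hc₀
  apply full_of_moment γ ψ (2 * C) (1 / 2) (by positivity) (by norm_num)
  intro N
  obtain ⟨Q₀, hQ₀⟩ := lower_count (1 / ((N : ℝ) + 1)) (by (clear * -; positivity))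
  obtain ⟨S, hS, hF1⟩ := exists_finset_sum_ge (g := fun q : ℕ => ((q.totient : ℝ) / q) * ψ q)
    (fun q => mul_nonneg (by (clear * -; positivity)) (hψ q)) hdiv (N₁ + Q₀ + N + 1)
  have hS1 : ∀ q ∈ S, N₁ + Q₀ + N + 1 ≤ q := fun q hq => (hS q hq).1
  have hq0 : ∀ q ∈ S, 0 < q := fun q hq => by have := hS1 q hq; omega
  have hhalf : ∀ q ∈ S, ψ q ≤ 1 / 2 := fun q hq => hN₁ q (by have := hS1 q hq; omega)
  have hpos : ∀ q ∈ S, 0 < ψ q := by
    intro q hq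
    refine lt_of_le_of_ne (hψ q) ?_
    intro h0
    have h1 := (hS q hq).2
    rw [← h0, mul_zero] at h1
    exact h1 rfl
  refine ⟨S, fun q => wK γ (ψ q) q, fun q => AK γ (ψ q) q, ?_, ?_, ?_, ?_, ?_⟩
  · intro q hq
    exact ⟨by have := hS1 q hq; omega, hpos q hq, hhalf q hq⟩
  · intro q _
    exact wK_nonneg _ _ _
  · linarith only [hF1]
  · intro q hq m n hmn
    have h1 := hQ₀ q (Bq γ (ψ q)) (Aq γ (ψ q)) (PK γ (ψ q) q)
      (by have := hS1 q hq; omega)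
      (fun p hp => ⟨(mem_PK hp).1, (mem_PK hp).2.1, (mem_PK hp).2.2.2⟩) m n
      (by rw [one_div_mul_eq_div]; exact hmn)
    have h2 : ((((Ioc m n).filter (fun al : ℤ => ∀ p ∈ PK γ (ψ q) q,
        ¬ (p : ℤ) ∣ al * (Bq γ (ψ q) : ℤ) + Aq γ (ψ q))).card : ℕ) : ℝ) =
        (((Finset.Ioc m n).filter (AK γ (ψ q) q)).card : ℝ) := by
      norm_cast
      congr 1
      ext al
      simp only [mem_filter]
      rfl
    rw [h2] at h1
    calc 1 / 2 * ((q.totient : ℝ) / q) * ((n : ℝ) - m)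
        = wK γ (ψ q) q * (1 / 2 * ((n : ℝ) - m) * pr (PK γ (ψ q) q)) := by
          rw [← wK_mul_pr γ (ψ q) q]; ring
      _ ≤ _ := mul_le_mul_of_nonneg_left h1 (wK_nonneg _ _ _)
  · have h1 := hmom γ ψ S (fun q hq => ⟨hq0 q hq, hpos q hq, hhalf q hq⟩)
      (fun q hq r hr hqr => hsep q r (hq0 q hq) hqr (hpos q hq) (hpos r hr))
    refine h1.trans ?_
    set F := ∑ q ∈ S, (q.totient : ℝ) / q * ψ q with hF
    have h2 : F ≤ F ^ 2 := by nlinarith only [hF1]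
    calc C * (F + F ^ 2) ≤ C * (F ^ 2 + F ^ 2) := by (clear * - h2 hC; gcongr)
      _ = 2 * C * F ^ 2 := by ring

end Vale.P028
end
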